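import Crest.Agent.R242.TestPlan

/-! Row 242: basic facts on couplings, densities and the Wasserstein cost. -/

set_option autoImplicit false
set_option linter.unusedSectionVars false

open MeasureTheory Filter Set Topology
open scoped ENNReal NNReal
open Crest.GeometryTopology.SyntheticRicci

namespace Crest.Agent.R242

variable {X : Type*} [MetricSpace X] [ProperSpace X] [MeasurableSpace X] [BorelSpace X]
  {m : Measure X} [IsLocallyFiniteMeasure m] [m.IsOpenPosMeasure]

theorem OTBasic_edist (x y : X) : edist x y ^ 2 = ENNReal.ofReal (dist x y ^ 2) := by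
  rw [edist_dist, ENNReal.ofReal_pow dist_nonneg]

theorem OTBasic_p2 {μ : Measure X} [IsProbabilityMeasure μ] {o : X}
    (h : Integrable (fun x => dist x o ^ 2) μ) : IsP2 μ := by
  refine ⟨inferInstance, o, ?_⟩
  simp only [OTBasic_edist]
  exact h.lintegral_lt_top

theorem OTBasic_sq (x y o : X) : dist x y ^ 2 ≤ 2 * dist x o ^ 2 + 2 * dist y o ^ 2 := by
  have h := dist_triangle_right x y o
  have h2 := pow_le_pow_left₀ dist_nonneg h 2
  nlinarith [sq_nonneg (dist x o - dist y o)]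

theorem OTBasic_int {g : X → ℝ} (hg : Measurable g) {C : ℝ} {o : X} {R : ℝ}
    (hC : ∀ x, dist x o ≤ R → |g x| ≤ C) (hR : ∀ x, R < dist x o → g x = 0) : Integrable g m := by
  refine Integrable.mono' (g := (Metric.closedBall o R).indicator fun _ => C)
    ((integrableOn_const (isCompact_closedBall o R).measure_lt_top.ne).integrable_indicator
      measurableSet_closedBall) hg.aestronglyMeasurable (Eventually.of_forall fun x => ?_)
  by_cases hx : x ∈ Metric.closedBall o R
  · rw [indicator_of_mem hx]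
    exact hC x hx
  · rw [indicator_of_notMem hx, hR x (by simpa using hx), norm_zero]

theorem Bdd.isP2 {μ : Measure X} {M : ℝ≥0} {o : X} {R : ℝ} (h : Bdd m μ M o R) : IsP2 μ := by
  have := h.1
  refine OTBasic_p2 (o := o) (Integrable.of_bound (by fun_prop) (R ^ 2) ?_)
  have h2 : ∀ᵐ x ∂μ, x ∈ Metric.closedBall o R := h.2.2
  filter_upwards [h2] with x hx
  rw [Real.norm_eq_abs, abs_of_nonneg (sq_nonneg _)]
  exact pow_le_pow_left₀ dist_nonneg hx 2

theorem Bdd.ac {μ : Measure X} {M : ℝ≥0} {o : X} {R : ℝ} (h : Bdd m μ M o R) : μ ≪ m := by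
  exact (Measure.absolutelyContinuous_of_le h.2.1).trans (Measure.smul_absolutelyContinuous)

theorem Bdd.mono {μ : Measure X} {M M' : ℝ≥0} {o : X} {R R' : ℝ} (h : Bdd m μ M o R)
    (hM : M ≤ M') (hR : R ≤ R') : Bdd m μ M' o R' := by
  refine ⟨h.1, h.2.1.trans fun s => ?_,
    measure_mono_null (compl_subset_compl.2 (Metric.closedBall_subset_closedBall hR)) h.2.2⟩
  simp only [Measure.smul_apply, smul_eq_mul]
  gcongr

theorem Bdd.ae_mem {μ : Measure X} {M : ℝ≥0} {o : X} {R : ℝ} (h : Bdd m μ M o R) :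
    ∀ᵐ x ∂μ, dist x o ≤ R := by
  exact h.2.2

theorem IsP2.integrable_sq {μ : Measure X} (h : IsP2 μ) (o : X) :
    Integrable (fun x => dist x o ^ 2) μ := by
  obtain ⟨h1, o', h2⟩ := h
  simp only [OTBasic_edist] at h2
  have h3 : Integrable (fun x => dist x o' ^ 2) μ :=
    ⟨by fun_prop, (hasFiniteIntegral_iff_ofReal (Eventually.of_forall fun x => sq_nonneg _)).2 h2⟩
  refine ((h3.const_mul 2).add (integrable_const (2 * dist o o' ^ 2))).mono' (by fun_prop)
    (Eventually.of_forall fun x => ?_)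
  rw [Real.norm_eq_abs, abs_of_nonneg (sq_nonneg _)]
  exact OTBasic_sq x o o'

theorem dm_ac (ρ : X → ℝ) : dm m ρ ≪ m := by
  exact withDensity_absolutelyContinuous _ _

theorem integral_dm {ρ : X → ℝ} (hρ : Measurable ρ) (h0 : ∀ x, 0 ≤ ρ x) (g : X → ℝ) :
    ∫ x, g x ∂(dm m ρ) = ∫ x, ρ x * g x ∂m := by
  rw [dm, integral_withDensity_eq_integral_toReal_smul hρ.ennreal_ofReal
    (Eventually.of_forall fun x => ENNReal.ofReal_lt_top)]
  simp only [ENNReal.toReal_ofReal (h0 _), smul_eq_mul]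

theorem integrable_dm_iff {ρ : X → ℝ} (hρ : Measurable ρ) (h0 : ∀ x, 0 ≤ ρ x) (g : X → ℝ) :
    Integrable g (dm m ρ) ↔ Integrable (fun x => ρ x * g x) m := by
  rw [dm, integrable_withDensity_iff_integrable_smul' hρ.ennreal_ofReal
    (Eventually.of_forall fun x => ENNReal.ofReal_lt_top)]
  simp only [ENNReal.toReal_ofReal (h0 _), smul_eq_mul]

theorem dm_le {ρ : X → ℝ} {M : ℝ≥0} (hM : ∀ x, ρ x ≤ M) : dm m ρ ≤ (M : ℝ≥0∞) • m := by
  rw [← withDensity_const]
  exact withDensity_mono (Eventually.of_forall fun x => ENNReal.ofReal_le_of_le_toReal (hM x))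

theorem NiceD.integrable {ρ : X → ℝ} (h : NiceD m ρ) : Integrable ρ m := by
  exact Integrable.of_integral_ne_zero (by rw [h.mass]; exact one_ne_zero)

theorem NiceD.memLp {ρ : X → ℝ} (h : NiceD m ρ) : MemLp ρ 2 m := by
  obtain ⟨C, hC⟩ := h.bdd
  rw [memLp_two_iff_integrable_sq h.meas.aestronglyMeasurable]
  refine (h.integrable.const_mul C).mono' (h.meas.pow_const 2).aestronglyMeasurable
    (Eventually.of_forall fun x => ?_)
  rw [Real.norm_eq_abs, abs_of_nonneg (sq_nonneg _), sq]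
  exact mul_le_mul_of_nonneg_right (hC x) (h.nonneg x)

theorem NiceD.OTBasic_prob {ρ : X → ℝ} (h : NiceD m ρ) : IsProbabilityMeasure (dm m ρ) := by
  refine ⟨?_⟩
  rw [dm, withDensity_apply _ MeasurableSet.univ, Measure.restrict_univ,
    ← ofReal_integral_eq_lintegral_ofReal h.integrable (Eventually.of_forall h.nonneg), h.mass,
    ENNReal.ofReal_one]

theorem NiceD.isP2 {ρ : X → ℝ} (h : NiceD m ρ) : IsP2 (dm m ρ) := by
  have := h.OTBasic_prob
  obtain ⟨o⟩ := (dm m ρ).nonempty_of_neZero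
  refine OTBasic_p2 (o := o) ((integrable_dm_iff h.meas h.nonneg _).2 ?_)
  refine ((h.mom o).sub h.integrable).congr (Eventually.of_forall fun x => ?_)
  simp only [Pi.sub_apply]
  ring

theorem NiceD.mix {ρ η : X → ℝ} (hρ : NiceD m ρ) (hη : NiceD m η) {t : ℝ} (h0 : 0 ≤ t)
    (h1 : t ≤ 1) : NiceD m (fun x => t * ρ x + (1 - t) * η x) := by
  have h2 : 0 ≤ 1 - t := sub_nonneg.2 h1
  have hm : Measurable fun x => t * ρ x + (1 - t) * η x :=
    (hρ.meas.const_mul t).add (hη.meas.const_mul _)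
  obtain ⟨C, hC⟩ := hρ.bdd
  obtain ⟨C', hC'⟩ := hη.bdd
  refine ⟨hm, fun x => add_nonneg (mul_nonneg h0 (hρ.nonneg x)) (mul_nonneg h2 (hη.nonneg x)),
    ⟨t * C + (1 - t) * C', fun x => add_le_add (mul_le_mul_of_nonneg_left (hC x) h0)
      (mul_le_mul_of_nonneg_left (hC' x) h2)⟩, ?_, fun o => ?_, ?_⟩
  · rw [integral_add (hρ.integrable.const_mul _) (hη.integrable.const_mul _), integral_const_mul,
      integral_const_mul, hρ.mass, hη.mass]
    ring
  · refine (((hρ.mom o).const_mul t).add ((hη.mom o).const_mul (1 - t))).congr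
      (Eventually.of_forall fun x => ?_)
    simp only [Pi.add_apply]
    ring
  · refine (hρ.sqrt.add hη.sqrt).mono' hm.sqrt.aestronglyMeasurable
      (Eventually.of_forall fun x => ?_)
    rw [Real.norm_eq_abs, abs_of_nonneg (Real.sqrt_nonneg _), Pi.add_apply]
    refine Real.sqrt_le_iff.2 ⟨by positivity, ?_⟩
    have a1 := Real.sq_sqrt (hρ.nonneg x)
    have a2 := Real.sq_sqrt (hη.nonneg x)
    nlinarith [mul_nonneg (Real.sqrt_nonneg (ρ x)) (Real.sqrt_nonneg (η x)),
      mul_nonneg h2 (hρ.nonneg x), mul_nonneg h0 (hη.nonneg x)]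

theorem niceD_of_bdd_support {ρ : X → ℝ} (hρ : Measurable ρ) (h0 : ∀ x, 0 ≤ ρ x) {C : ℝ}
    (hC : ∀ x, ρ x ≤ C) (h1 : ∫ x, ρ x ∂m = 1) {o : X} {R : ℝ}
    (hR : ∀ x, R < dist x o → ρ x = 0) : NiceD m ρ := by
  refine ⟨hρ, h0, ⟨C, hC⟩, h1, fun o' => ?_, ?_⟩
  · refine OTBasic_int (by fun_prop) (C := (1 + (R + dist o o') ^ 2) * C) (o := o) (R := R)
      (fun x hx => ?_) fun x hx => by rw [hR x hx, mul_zero]
    rw [abs_of_nonneg (mul_nonneg (by positivity) (h0 x))]
    refine mul_le_mul ?_ (hC x) (h0 x) (by positivity)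
    have := pow_le_pow_left₀ dist_nonneg
      ((dist_triangle x o o').trans (add_le_add hx le_rfl)) 2
    linarith
  · refine OTBasic_int hρ.sqrt (C := √C) (o := o) (R := R) (fun x hx => ?_)
      fun x hx => by rw [hR x hx, Real.sqrt_zero]
    rw [abs_of_nonneg (Real.sqrt_nonneg _)]
    exact Real.sqrt_le_sqrt (hC x)

theorem NiceD.bdd_dm {ρ : X → ℝ} (h : NiceD m ρ) {M : ℝ≥0} (hM : ∀ x, ρ x ≤ M) {o : X} {R : ℝ}
    (hR : ∀ x, R < dist x o → ρ x = 0) : Bdd m (dm m ρ) M o R := by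
  refine ⟨h.OTBasic_prob, dm_le hM, ?_⟩
  rw [dm, withDensity_apply _ measurableSet_closedBall.compl]
  refine setLIntegral_eq_zero measurableSet_closedBall.compl fun x hx => ?_
  simp [hR x (by simpa using hx)]

theorem Bdd.exists_niceD {μ : Measure X} {M : ℝ≥0} {o : X} {R : ℝ} (h : Bdd m μ M o R) :
    ∃ ρ : X → ℝ, NiceD m ρ ∧ μ = dm m ρ ∧ (∀ x, ρ x ≤ M) ∧ ∀ x, R < dist x o → ρ x = 0 := by
  have := h.1
  let ρ : X → ℝ := (Metric.closedBall o R).indicator fun x => min (M : ℝ) (μ.rnDeriv m x).toReal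
  have hm : Measurable ρ := (measurable_const.min
    (Measure.measurable_rnDeriv μ m).ennreal_toReal).indicator measurableSet_closedBall
  have h0 : ∀ x, 0 ≤ ρ x := fun x =>
    indicator_nonneg (fun x _ => le_min M.2 ENNReal.toReal_nonneg) x
  have hM : ∀ x, ρ x ≤ M := fun x => indicator_le' (fun x _ => min_le_left _ _) (fun _ _ => M.2) x
  have hR : ∀ x, R < dist x o → ρ x = 0 := fun x hx => indicator_of_notMem (by simpa using hx) _
  have h1 : ∀ᵐ x ∂m, μ.rnDeriv m x ≤ M := by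
    refine ae_le_of_forall_setLIntegral_le_of_sigmaFinite (Measure.measurable_rnDeriv μ m)
      fun s hs _ => ?_
    rw [setLIntegral_const]
    exact (Measure.setLIntegral_rnDeriv_le s).trans (h.2.1 s)
  have e : μ = dm m ρ := by
    have h2 : ∀ᵐ x ∂μ, x ∈ Metric.closedBall o R := h.2.2
    rw [← Measure.restrict_eq_self_of_ae_mem h2, ← Measure.withDensity_rnDeriv_eq μ m h.ac,
      restrict_withDensity measurableSet_closedBall,
      ← withDensity_indicator measurableSet_closedBall, dm]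
    refine withDensity_congr_ae ?_
    filter_upwards [h1] with x hx
    by_cases hb : x ∈ Metric.closedBall o R
    · simp only [ρ, indicator_of_mem hb]
      rw [min_eq_right (ENNReal.toReal_le_coe_of_le_coe hx),
        ENNReal.ofReal_toReal (ne_top_of_le_ne_top ENNReal.coe_ne_top hx)]
    · simp only [ρ, indicator_of_notMem hb, ENNReal.ofReal_zero]
  refine ⟨ρ, niceD_of_bdd_support hm h0 hM ?_ hR, e, hM, hR⟩
  have := integral_dm (m := m) hm h0 fun _ => 1
  rw [← e] at this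
  simpa using this.symm

/-- The normalised restriction of `m` to a bounded set of positive measure. -/
theorem bdd_cond {A : Set X} (hA : MeasurableSet A) (h0 : m A ≠ 0) {o : X} {R : ℝ}
    (hR : A ⊆ Metric.closedBall o R) :
    Bdd m (ProbabilityTheory.cond m A) (m A).toNNReal⁻¹ o R := by
  have hf : m A ≠ ⊤ := ((measure_mono hR).trans_lt (isCompact_closedBall o R).measure_lt_top).ne
  refine ⟨ProbabilityTheory.cond_isProbabilityMeasure_of_finite h0 hf, ?_, ?_⟩
  · rw [ENNReal.coe_inv (ENNReal.toNNReal_ne_zero.2 ⟨h0, hf⟩), ENNReal.coe_toNNReal hf]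
    intro s
    simp only [ProbabilityTheory.cond, Measure.smul_apply, smul_eq_mul]
    gcongr
    exact Measure.restrict_le_self
  · rw [ProbabilityTheory.cond_apply hA, (disjoint_compl_right.mono_left hR).inter_eq,
      measure_empty, mul_zero]

theorem abs_integral_le_of_le_smul {μ : Measure X} [IsProbabilityMeasure μ] {C : ℝ≥0}
    (hμ : μ ≤ (C : ℝ≥0∞) • m) {g : X → ℝ} (hg : MemLp g 2 m) :
    Integrable g μ ∧ |∫ x, g x ∂μ| ≤ √(C * ∫ x, g x ^ 2 ∂m) := by
  have h1 : MemLp g 2 μ := (hg.smul_measure ENNReal.coe_ne_top).mono_measure hμ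
  refine ⟨h1.integrable one_le_two, Real.abs_le_sqrt ?_⟩
  have h2 := ProbabilityTheory.variance_nonneg g μ
  rw [ProbabilityTheory.variance_eq_sub h1, sub_nonneg] at h2
  refine h2.trans ?_
  have h3 := integral_mono_measure hμ (f := fun x => g x ^ 2)
    (Eventually.of_forall fun x => sq_nonneg _)
    (hg.integrable_sq.smul_measure ENNReal.coe_ne_top)
  rwa [integral_smul_measure] at h3

theorem IsCouplingOf.isProb {q : Measure (X × X)} {μ ν : Measure X} (hq : IsCouplingOf q μ ν)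
    [IsProbabilityMeasure μ] : IsProbabilityMeasure q := by
  refine ⟨?_⟩
  rw [← measure_univ (μ := μ), ← hq.1, Measure.map_apply measurable_fst MeasurableSet.univ,
    preimage_univ]

theorem integrable_sq_of_coupling {q : Measure (X × X)} {μ ν : Measure X} (hμ : IsP2 μ)
    (hν : IsP2 ν) (hq : IsCouplingOf q μ ν) : Integrable (fun p : X × X => dist p.1 p.2 ^ 2) q := by
  have := hμ.1
  obtain ⟨o⟩ := μ.nonempty_of_neZero
  have h1 := hμ.integrable_sq o
  have h2 := hν.integrable_sq o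
  rw [← hq.1] at h1
  rw [← hq.2] at h2
  refine (((h1.comp_measurable measurable_fst).const_mul 2).add
    ((h2.comp_measurable measurable_snd).const_mul 2)).mono' (by fun_prop)
    (Eventually.of_forall fun x => ?_)
  rw [Real.norm_eq_abs, abs_of_nonneg (sq_nonneg _)]
  exact OTBasic_sq _ _ o

theorem quadCost_eq {q : Measure (X × X)}
    (hq : Integrable (fun p : X × X => dist p.1 p.2 ^ 2) q) :
    quadCost q = ENNReal.ofReal (∫ p, dist p.1 p.2 ^ 2 ∂q) := by
  rw [ofReal_integral_eq_lintegral_ofReal hq (Eventually.of_forall fun x => sq_nonneg _), quadCost]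
  simp only [OTBasic_edist]

theorem Wsq_nonneg (μ ν : Measure X) : 0 ≤ Wsq μ ν := ENNReal.toReal_nonneg

theorem Wsq_le_of_coupling {q : Measure (X × X)} {μ ν : Measure X} (hμ : IsP2 μ) (hν : IsP2 ν)
    (hq : IsCouplingOf q μ ν) : Wsq μ ν ≤ ∫ p, dist p.1 p.2 ^ 2 ∂q := by
  refine ENNReal.toReal_le_of_le_ofReal (integral_nonneg fun x => sq_nonneg _) ?_
  rw [← quadCost_eq (integrable_sq_of_coupling hμ hν hq)]
  exact iInf₂_le q hq

theorem Wsq_eq_of_opt {q : Measure (X × X)} {μ ν : Measure X} (hμ : IsP2 μ) (hν : IsP2 ν)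
    (hq : IsOptCouplingOf q μ ν) : Wsq μ ν = ∫ p, dist p.1 p.2 ^ 2 ∂q := by
  rw [Wsq, le_antisymm (iInf₂_le q hq.1) (le_iInf₂ hq.2),
    quadCost_eq (integrable_sq_of_coupling hμ hν hq.1),
    ENNReal.toReal_ofReal (integral_nonneg fun x => sq_nonneg _)]

theorem isOpt_of_le {q : Measure (X × X)} {μ ν : Measure X} (hμ : IsP2 μ) (hν : IsP2 ν)
    (hq : IsCouplingOf q μ ν) (h : ∫ p, dist p.1 p.2 ^ 2 ∂q ≤ Wsq μ ν) :
    IsOptCouplingOf q μ ν := by
  refine ⟨hq, fun q' hq' => ?_⟩
  rw [quadCost_eq (integrable_sq_of_coupling hμ hν hq),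
    quadCost_eq (integrable_sq_of_coupling hμ hν hq')]
  exact ENNReal.ofReal_le_ofReal (h.trans (Wsq_le_of_coupling hμ hν hq'))

theorem exists_coupling_lt {μ ν : Measure X} (hμ : IsP2 μ) (hν : IsP2 ν) {η : ℝ} (hη : 0 < η) :
    ∃ q : Measure (X × X), IsCouplingOf q μ ν ∧ ∫ p, dist p.1 p.2 ^ 2 ∂q ≤ Wsq μ ν + η := by
  have := hμ.1
  have := hν.1
  have h0 : IsCouplingOf (μ.prod ν) μ ν := ⟨by simp, by simp⟩
  have hf : (⨅ (q : Measure (X × X)) (_ : IsCouplingOf q μ ν), quadCost q) ≠ ⊤ :=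
    ne_top_of_le_ne_top (b := quadCost (μ.prod ν)) (by
      rw [quadCost_eq (integrable_sq_of_coupling hμ hν h0)]
      exact ENNReal.ofReal_ne_top) (iInf₂_le (μ.prod ν) h0)
  have h1 := ENNReal.lt_add_right hf (ENNReal.ofReal_pos.2 hη).ne'
  obtain ⟨q, h2⟩ := iInf_lt_iff.1 h1
  obtain ⟨hq, h3⟩ := iInf_lt_iff.1 h2
  refine ⟨q, hq, ?_⟩
  rw [quadCost_eq (integrable_sq_of_coupling hμ hν hq), ← ENNReal.ofReal_toReal hf,
    ← ENNReal.ofReal_add ENNReal.toReal_nonneg hη.le] at h3
  exact (ENNReal.ofReal_le_ofReal_iff (add_nonneg (Wsq_nonneg μ ν) hη.le)).1 h3.le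

theorem isCoupling_swap {q : Measure (X × X)} {μ ν : Measure X} (hq : IsCouplingOf q μ ν) :
    IsCouplingOf (q.map Prod.swap) ν μ := by
  exact ⟨(Measure.map_map measurable_fst measurable_swap).trans hq.2,
    (Measure.map_map measurable_snd measurable_swap).trans hq.1⟩

theorem OTBasic_swap (q : Measure (X × X)) : quadCost (q.map Prod.swap) = quadCost q := by
  rw [quadCost, lintegral_map (by fun_prop) measurable_swap, quadCost]
  simp only [Prod.fst_swap, Prod.snd_swap, edist_comm]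

theorem isOpt_swap {q : Measure (X × X)} {μ ν : Measure X} (hq : IsOptCouplingOf q μ ν) :
    IsOptCouplingOf (q.map Prod.swap) ν μ := by
  refine ⟨isCoupling_swap hq.1, fun q' hq' => ?_⟩
  rw [OTBasic_swap, ← OTBasic_swap q']
  exact hq.2 _ (isCoupling_swap hq')

theorem Wsq_comm (μ ν : Measure X) : Wsq μ ν = Wsq ν μ := by
  have h : ∀ μ ν : Measure X, (⨅ (q : Measure (X × X)) (_ : IsCouplingOf q μ ν), quadCost q) ≤
      ⨅ (q : Measure (X × X)) (_ : IsCouplingOf q ν μ), quadCost q := fun μ ν =>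
    le_iInf₂ fun q hq => iInf₂_le_of_le (q.map Prod.swap) (isCoupling_swap hq) (OTBasic_swap q).le
  rw [Wsq, Wsq, le_antisymm (h μ ν) (h ν μ)]

theorem IsOptPlan.marg_eq {P : Measure (UCurve X)} {μ ν : Measure X} (hP : IsOptPlan P μ ν) :
    marg P 0 = μ ∧ marg P 1 = ν := by
  have h := isCouplingOf_endpointLaw P
  exact ⟨h.1.symm.trans hP.2.2.1.1, h.2.symm.trans hP.2.2.1.2⟩

theorem OTBasic_meas : Measurable fun γ : UCurve X => (γ.toMap 0, γ.toMap 1) := by
  simp only [← ext_zero, ← ext_one]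
  exact (continuous_ext_left 0).measurable.prodMk (continuous_ext_left 1).measurable

theorem IsOptPlan.Wsq_eq {P : Measure (UCurve X)} {μ ν : Measure X} (hP : IsOptPlan P μ ν)
    (hμ : IsP2 μ) (hν : IsP2 ν) :
    Integrable (fun γ : UCurve X => len γ ^ 2) P ∧ Wsq μ ν = ∫ γ, len γ ^ 2 ∂P := by
  exact ⟨(integrable_sq_of_coupling hμ hν hP.2.2.1).comp_measurable OTBasic_meas,
    (Wsq_eq_of_opt hμ hν hP.2.2).trans (integral_endpointLaw_sq P)⟩

theorem endpointLaw_map_restr (P : Measure (UCurve X)) (a b : ℝ) :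
    endpointLaw (P.map (restr a b)) = P.map (fun γ : UCurve X => (γ.ext a, γ.ext b)) := by
  rw [endpointLaw, Measure.map_map OTBasic_meas (continuous_restr a b).measurable]
  congr 1
  funext γ
  simp [restr]

theorem endpointLaw_map_restr_swap (P : Measure (UCurve X)) (a b : ℝ) :
    endpointLaw (P.map (restr b a)) = (endpointLaw (P.map (restr a b))).map Prod.swap := by
  rw [endpointLaw_map_restr, endpointLaw_map_restr, Measure.map_map measurable_swap
    ((continuous_ext_left a).measurable.prodMk (continuous_ext_left b).measurable)]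
  rfl

end Crest.Agent.R242
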