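import Crest.Agent.R242.AWeak
import Crest.Agent.R242.OTBasic

/-!
# Row 242: compactness of optimal geodesic plans
-/

set_option autoImplicit false
set_option linter.unusedSectionVars false

open MeasureTheory Filter Set Topology
open scoped ENNReal NNReal
open Crest.GeometryTopology.SyntheticRicci

namespace Crest.Agent.R242

variable {X : Type*} [MetricSpace X] [ProperSpace X] [MeasurableSpace X] [BorelSpace X]
  {m : Measure X} [IsLocallyFiniteMeasure m] [m.IsOpenPosMeasure]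

theorem PK.isP2 {μ : Measure X} {o : X} {R : ℝ} (h : PK (Metric.closedBall o R) μ) : IsP2 μ := by
  have := h.1
  refine OTBasic_p2 (o := o) (h.integrable (isCompact_closedBall o R) (by fun_prop))

theorem geo_dist_le_two_mul {γ : UCurve X} (h : IsCSGeodesic γ) {o : X} {R : ℝ}
    (h0 : dist (γ.toMap 0) o ≤ R) (h1 : dist (γ.toMap 1) o ≤ R) (t : ℝ) :
    dist (γ.ext t) o ≤ 2 * R := by
  obtain ⟨s, hs⟩ : ∃ s : unitInterval, γ.ext t = γ.toMap s := ⟨_, rfl⟩
  have e0 := h s 0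
  have e1 := h s 1
  have hl : dist (γ.toMap 0) (γ.toMap 1) ≤ 2 * R := by
    linarith [dist_triangle_right (γ.toMap 0) (γ.toMap 1) o]
  have hl0 : 0 ≤ dist (γ.toMap 0) (γ.toMap 1) := dist_nonneg
  rw [Icc.coe_zero, sub_zero, abs_of_nonneg s.2.1] at e0
  rw [Icc.coe_one, abs_sub_comm, abs_of_nonneg (sub_nonneg.2 s.2.2)] at e1
  rw [hs]
  linarith [dist_triangle (γ.toMap s) (γ.toMap 0) o, dist_triangle (γ.toMap s) (γ.toMap 1) o]

theorem isCompact_geo (o : X) (R : ℝ) :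
    IsCompact {γ : UCurve X | IsCSGeodesic γ ∧ ∀ t : ℝ, dist (γ.ext t) o ≤ R} := by
  set S := {γ : UCurve X | IsCSGeodesic γ ∧ ∀ t : ℝ, dist (γ.ext t) o ≤ R}
  have hS : IsClosed S := by
    have h1 : IsClosed (⋂ t : ℝ, {γ : UCurve X | dist (γ.ext t) o ≤ R}) := isClosed_iInter fun t =>
      isClosed_le ((continuous_ext_left t).dist continuous_const) continuous_const
    rw [← ofPred_forall] at h1
    exact isClosed_geodesic.inter h1
  let e := ContinuousMap.isometryEquivBoundedOfCompact unitInterval X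
  have hi : Isometry fun γ : UCurve X => e γ.toMap := e.isometry.comp isometry_toMap
  rw [hi.isEmbedding.isCompact_iff]
  have hb : ∀ γ ∈ S, ∀ t : unitInterval, dist (γ.toMap t) o ≤ R := fun γ hγ t =>
    ext_coe γ t ▸ hγ.2 t
  refine BoundedContinuousFunction.arzela_ascoli₂ _ (isCompact_closedBall o R) _
    (hi.isClosedEmbedding.isClosedMap _ hS) ?_ ?_
  · rintro _ t ⟨γ, hγ, rfl⟩
    exact hb γ hγ t
  · refine (LipschitzWith.uniformEquicontinuous _ (2 * R).toNNReal ?_).equicontinuous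
    rintro ⟨_, γ, hγ, rfl⟩
    refine LipschitzWith.of_dist_le' fun s t => ?_
    refine (hγ.1 s t).trans_le ?_
    rw [mul_comm]
    refine mul_le_mul_of_nonneg_right ?_ (abs_nonneg _)
    linarith [dist_triangle_right (γ.toMap 0) (γ.toMap 1) o, hb γ hγ 0, hb γ hγ 1]

theorem IsOptPlan.pk {P : Measure (UCurve X)} {μ ν : Measure X} (hP : IsOptPlan P μ ν) {o : X}
    {R : ℝ} (hμ : μ (Metric.closedBall o R)ᶜ = 0) (hν : ν (Metric.closedBall o R)ᶜ = 0) :
    PK {γ : UCurve X | IsCSGeodesic γ ∧ ∀ t : ℝ, dist (γ.ext t) o ≤ 2 * R} P := by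
  refine ⟨hP.1, ?_⟩
  have h0 : ∀ᵐ x ∂(marg P 0), x ∈ Metric.closedBall o R := hP.marg_eq.1.symm ▸ hμ
  have h1 : ∀ᵐ x ∂(marg P 1), x ∈ Metric.closedBall o R := hP.marg_eq.2.symm ▸ hν
  have h2 : ∀ᵐ γ ∂P, IsCSGeodesic γ ∧ ∀ t : ℝ, dist (γ.ext t) o ≤ 2 * R := by
    filter_upwards [hP.2.1, ae_of_ae_map (TestPlan_meas 0).aemeasurable h0,
      ae_of_ae_map (TestPlan_meas 1).aemeasurable h1] with γ g1 g2 g3
    rw [ext_zero] at g2
    rw [ext_one] at g3
    exact ⟨g1, geo_dist_le_two_mul g1 g2 g3⟩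
  exact h2

theorem IsOptPlan.pk_marg {P : Measure (UCurve X)} {μ ν : Measure X} (hP : IsOptPlan P μ ν)
    {o : X} {R : ℝ} (hμ : μ (Metric.closedBall o R)ᶜ = 0) (hν : ν (Metric.closedBall o R)ᶜ = 0)
    (t : ℝ) : PK (Metric.closedBall o (2 * R)) (marg P t) := by
  have := hP.1
  refine ⟨Measure.isProbabilityMeasure_map (TestPlan_meas t).aemeasurable, ?_⟩
  exact (ae_map_iff (TestPlan_meas t).aemeasurable measurableSet_closedBall).2
    ((hP.pk hμ hν).ae.mono fun γ hγ => hγ.2 t)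

theorem lenLe_of_support {μ ν : Measure X} {o : X} {R : ℝ} (hμ : μ (Metric.closedBall o R)ᶜ = 0)
    (hν : ν (Metric.closedBall o R)ᶜ = 0) : LenLe μ ν (2 * R) := by
  intro q hq
  have h0 : ∀ᵐ x ∂(q.map Prod.fst), x ∈ Metric.closedBall o R := hq.1.1.symm ▸ hμ
  have h1 : ∀ᵐ x ∂(q.map Prod.snd), x ∈ Metric.closedBall o R := hq.1.2.symm ▸ hν
  filter_upwards [ae_of_ae_map measurable_fst.aemeasurable h0,
    ae_of_ae_map measurable_snd.aemeasurable h1] with p g1 g2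
  linarith [dist_triangle_right p.1 p.2 o, Metric.mem_closedBall.1 g1, Metric.mem_closedBall.1 g2]

theorem LenLe.len_le {P : Measure (UCurve X)} {μ ν : Measure X} {D : ℝ} (h : LenLe μ ν D)
    (hP : IsOptPlan P μ ν) : ∀ᵐ γ ∂P, len γ ≤ D := by
  exact ae_of_ae_map Curves_meas.aemeasurable (h _ hP.2.2)

theorem exists_optPlan_lim (P : ℕ → Measure (UCurve X)) {μ ν : Measure X} {o : X} {R : ℝ}
    (hμ : PK (Metric.closedBall o R) μ) (hν : PK (Metric.closedBall o R) ν)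
    (hP : ∀ n, IsOptPlan (P n) μ ν) :
    ∃ (Q : Measure (UCurve X)) (φ : ℕ → ℕ), StrictMono φ ∧ IsOptPlan Q μ ν ∧
      ∀ t : ℝ, WConv (fun n => marg (P (φ n)) t) (marg Q t) := by
  obtain ⟨Q, φ, hφ, hQ, hc⟩ := exists_wconv (isCompact_geo o (2 * R)) P fun n => (hP n).pk hμ.2 hν.2
  have := hQ.1
  have hm : ∀ t : ℝ, WConv (fun n => marg (P (φ n)) t) (marg Q t) := fun t =>
    hc.map (continuous_ext_left t)
  have he : ∀ (t : ℝ) (ω : Measure X), (∀ n, marg (P n) t = ω) → marg Q t = ω := fun t ω h =>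
    (hm t).eq_of_eventually (fun n => ((hP _).pk_marg hμ.2 hν.2 t).1)
      (Measure.isProbabilityMeasure_map (TestPlan_meas t).aemeasurable)
      (Eventually.of_forall fun n => h _)
  have hcpl := isCouplingOf_endpointLaw Q
  rw [he 0 μ fun n => (hP n).marg_eq.1, he 1 ν fun n => (hP n).marg_eq.2] at hcpl
  refine ⟨Q, φ, hφ, ⟨hQ.1, hQ.ae.mono fun γ hγ => hγ.1, isOpt_of_le hμ.isP2 hν.isP2 hcpl ?_⟩, hm⟩
  rw [integral_endpointLaw_sq]
  exact le_of_tendsto' (hc _ (continuous_len.pow 2)) fun n =>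
    ((hP _).Wsq_eq hμ.isP2 hν.isP2).2.ge

/-- Weak continuity of the marginals in time. -/
theorem wconv_marg {P : Measure (UCurve X)} [IsProbabilityMeasure P] {o : X} {R : ℝ}
    (hP : ∀ᵐ γ ∂P, ∀ t : ℝ, dist (γ.ext t) o ≤ R) {ts : ℕ → ℝ} {t : ℝ}
    (h : Tendsto ts atTop (𝓝 t)) : WConv (fun n => marg P (ts n)) (marg P t) := by
  intro f hf
  obtain ⟨C, hC⟩ := (isCompact_closedBall o R).exists_bound_of_continuousOn hf.continuousOn
  simp only [marg, integral_map (TestPlan_meas _).aemeasurable hf.aestronglyMeasurable]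
  refine tendsto_integral_of_dominated_convergence (fun _ => C)
    (fun n => (hf.comp (continuous_ext_left _)).aestronglyMeasurable) (integrable_const C)
    (fun n => hP.mono fun γ hγ => hC _ (hγ _)) (Eventually.of_forall fun γ => ?_)
  exact ((hf.comp (continuous_ext.comp (Continuous.prodMk_right γ))).tendsto t).comp h

/-- A bound on the marginals at all dyadic times holds at all times. -/
theorem marg_le_of_dyadic {P : Measure (UCurve X)} [IsProbabilityMeasure P] {o : X} {R : ℝ}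
    (hP : ∀ᵐ γ ∂P, ∀ t : ℝ, dist (γ.ext t) o ≤ R) {C : ℝ≥0}
    (h : ∀ j k : ℕ, k ≤ 2 ^ j → marg P ((k : ℝ) / 2 ^ j) ≤ (C : ℝ≥0∞) • m) (t : ℝ) :
    marg P t ≤ (C : ℝ≥0∞) • m := by
  rw [marg_projIcc]
  obtain ⟨s, hs0, hs1⟩ := projIcc (0 : ℝ) 1 zero_le_one t
  have h2 : Tendsto (fun j : ℕ => (2 : ℝ) ^ j) atTop atTop :=
    tendsto_pow_atTop_atTop_of_one_lt one_lt_two
  have hlim : Tendsto (fun j : ℕ => ((⌊s * 2 ^ j⌋₊ : ℕ) : ℝ) / 2 ^ j) atTop (𝓝 s) :=
    (tendsto_nat_floor_mul_div_atTop hs0).comp h2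
  have := Measure.OuterRegular.smul m (x := (C : ℝ≥0∞)) ENNReal.coe_ne_top
  have hpr : ∀ t : ℝ, IsProbabilityMeasure (marg P t) := fun t =>
    Measure.isProbabilityMeasure_map (TestPlan_meas t).aemeasurable
  refine (wconv_marg hP hlim).le_of_eventually (fun _ => hpr _) (hpr _)
    (Eventually.of_forall fun j => h j _ (Nat.floor_le_of_le ?_))
  rw [Nat.cast_pow, Nat.cast_ofNat]
  exact mul_le_of_le_one_left (by positivity) hs1

end Crest.Agent.R242
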