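import Crest.Agent.R242.OTBasic

/-! Row 242: entropy of bounded densities. -/

set_option autoImplicit false
set_option linter.unusedSectionVars false

open MeasureTheory Filter Set Topology
open scoped ENNReal NNReal
open Crest.GeometryTopology.SyntheticRicci

namespace Crest.Agent.R242

variable {X : Type*} [MetricSpace X] [ProperSpace X] [MeasurableSpace X] [BorelSpace X]
  {m : Measure X} [IsLocallyFiniteMeasure m] [m.IsOpenPosMeasure]

theorem abs_mul_log_le {z C : ℝ} (h0 : 0 ≤ z) (hC : z ≤ C) :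
    |z * Real.log z| ≤ 2 * (1 + C) * √z := by
  rcases h0.eq_or_lt with rfl | hz
  · simp
  have hs : 0 < √z := Real.sqrt_pos.2 hz
  have hzs : z = √z * √z := (Real.mul_self_sqrt h0).symm
  have hlog : Real.log z = 2 * Real.log √z := by
    rw [Real.log_sqrt h0]; ring
  have key : |Real.log √z * √z| ≤ 1 + C := by
    rcases le_total (√z) 1 with h1 | h1
    · have := Real.abs_log_mul_self_lt _ hs h1
      linarith
    · have h2 : 0 ≤ Real.log √z := Real.log_nonneg h1
      have h3 : Real.log √z ≤ √z - 1 := Real.log_le_sub_one_of_pos hs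
      rw [abs_of_nonneg (by positivity)]
      nlinarith
  have e : z * Real.log z = 2 * √z * (Real.log √z * √z) := by
    rw [hlog]; nth_rewrite 1 [hzs]; ring
  rw [e, abs_mul, abs_of_nonneg (by positivity : (0 : ℝ) ≤ 2 * √z)]
  nlinarith

theorem rnDeriv_dm {ρ : X → ℝ} (hρ : Measurable ρ) (h0 : ∀ x, 0 ≤ ρ x) :
    ∀ᵐ x ∂m, ((dm m ρ).rnDeriv m x).toReal = ρ x := by
  have h := Measure.rnDeriv_withDensity m (f := fun x => ENNReal.ofReal (ρ x))
    hρ.ennreal_ofReal
  filter_upwards [h] with x hx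
  have hx' : (dm m ρ).rnDeriv m x = ENNReal.ofReal (ρ x) := hx
  rw [hx', ENNReal.toReal_ofReal (h0 x)]

theorem log_rnDeriv_dm {ρ : X → ℝ} (hρ : Measurable ρ) (h0 : ∀ x, 0 ≤ ρ x) :
    (fun x => Real.log ((dm m ρ).rnDeriv m x).toReal) =ᵐ[dm m ρ] fun x => Real.log (ρ x) := by
  filter_upwards [(dm_ac (m := m) ρ).ae_le (rnDeriv_dm (m := m) hρ h0)] with x hx
  rw [hx]

theorem NiceD.integrable_ent {ρ : X → ℝ} (h : NiceD m ρ) :
    Integrable (fun x => ρ x * Real.log (ρ x)) m := by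
  obtain ⟨C, hC⟩ := h.bdd
  refine (h.sqrt.const_mul (2 * (1 + C))).mono'
    (h.meas.mul h.meas.log).aestronglyMeasurable (Eventually.of_forall fun x => ?_)
  exact abs_mul_log_le (h.nonneg x) (hC x)

theorem NiceD.ent_eq {ρ : X → ℝ} (h : NiceD m ρ) :
    Ent m (dm m ρ) = ∫ x, ρ x * Real.log (ρ x) ∂m := by
  unfold Ent
  rw [integral_congr_ae (log_rnDeriv_dm h.meas h.nonneg), integral_dm h.meas h.nonneg]

theorem Bdd.integrable_log {μ : Measure X} {M : ℝ≥0} {o : X} {R : ℝ} (h : Bdd m μ M o R) :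
    Integrable (fun x => Real.log (μ.rnDeriv m x).toReal) μ := by
  obtain ⟨ρ, hρ, rfl, -, -⟩ := h.exists_niceD
  rw [integrable_congr (log_rnDeriv_dm hρ.meas hρ.nonneg), integrable_dm_iff hρ.meas hρ.nonneg]
  exact hρ.integrable_ent

/-- Gibbs' inequality. -/
theorem gibbs {μ : Measure X} {M : ℝ≥0} {o : X} {R : ℝ} (h : Bdd m μ M o R) {τ : X → ℝ}
    (hτ : Integrable τ m) (h0 : ∀ x, 0 ≤ τ x) (h1 : ∫ x, τ x ∂m ≤ 1) (hpos : ∀ᵐ x ∂μ, 0 < τ x)
    (hlog : Integrable (fun x => Real.log (τ x)) μ) : ∫ x, Real.log (τ x) ∂μ ≤ Ent m μ := by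
  obtain ⟨ρ, hρ, rfl, -, -⟩ := h.exists_niceD
  rw [hρ.ent_eq, integral_dm hρ.meas hρ.nonneg]
  have hlog' := (integrable_dm_iff hρ.meas hρ.nonneg _).1 hlog
  have hpos' : ∀ᵐ x ∂m, ρ x ≠ 0 → 0 < τ x := by
    have := (ae_withDensity_iff (μ := m) (f := fun x => ENNReal.ofReal (ρ x))
      hρ.meas.ennreal_ofReal).1 hpos
    filter_upwards [this] with x hx hx0
    refine hx ?_
    have : 0 < ρ x := lt_of_le_of_ne (hρ.nonneg x) (Ne.symm hx0)
    simpa using this
  have hle : ∀ᵐ x ∂m, ρ x * Real.log (τ x) ≤ ρ x * Real.log (ρ x) + (τ x - ρ x) := by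
    filter_upwards [hpos'] with x hx
    rcases (hρ.nonneg x).eq_or_lt with h0' | h0'
    · rw [← h0']; simpa using h0 x
    · have ht := hx h0'.ne'
      have h2 : Real.log (τ x / ρ x) ≤ τ x / ρ x - 1 :=
        Real.log_le_sub_one_of_pos (div_pos ht h0')
      rw [Real.log_div ht.ne' h0'.ne'] at h2
      have h3 := mul_le_mul_of_nonneg_left h2 h0'.le
      have h4 : ρ x * (τ x / ρ x - 1) = τ x - ρ x := by field_simp
      rw [h4] at h3
      nlinarith
  have h5 := integral_mono_ae hlog' (hρ.integrable_ent.add (hτ.sub hρ.integrable)) hle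
  have h6 : ∫ x, (ρ x * Real.log (ρ x) + (τ x - ρ x)) ∂m =
      ∫ x, ρ x * Real.log (ρ x) ∂m + (∫ x, τ x ∂m - ∫ x, ρ x ∂m) := by
    have hi : Integrable (fun x => τ x - ρ x) m := hτ.sub hρ.integrable
    rw [integral_add hρ.integrable_ent hi, integral_sub hτ hρ.integrable]
  have h7 : ∫ x, ρ x * Real.log (τ x) ∂m ≤ ∫ x, (ρ x * Real.log (ρ x) + (τ x - ρ x)) ∂m := h5
  rw [h6, hρ.mass] at h7
  linarith

theorem ent_mix_le {ρ η : X → ℝ} (hρ : NiceD m ρ) (hη : NiceD m η) {t : ℝ} (h0 : 0 ≤ t)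
    (h1 : t ≤ 1) : Ent m (dm m fun x => t * ρ x + (1 - t) * η x) ≤
      t * Ent m (dm m ρ) + (1 - t) * Ent m (dm m η) := by
  have hmix := hρ.mix hη h0 h1
  rw [hmix.ent_eq, hρ.ent_eq, hη.ent_eq, ← integral_const_mul, ← integral_const_mul,
    ← integral_add (hρ.integrable_ent.const_mul _) (hη.integrable_ent.const_mul _)]
  refine integral_mono hmix.integrable_ent
    ((hρ.integrable_ent.const_mul _).add (hη.integrable_ent.const_mul _)) fun x => ?_
  have := Real.convexOn_mul_log.2 (mem_Ici.2 (hρ.nonneg x)) (mem_Ici.2 (hη.nonneg x)) h0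
    (sub_nonneg.2 h1) (by ring)
  simpa [smul_eq_mul] using this

/-- Dominated convergence for the entropy and the Wasserstein cost. -/
theorem tendsto_ent {ρ : ℕ → X → ℝ} {η θ : X → ℝ} (hρ : ∀ n, NiceD m (ρ n)) (hη : NiceD m η)
    (hθ : NiceD m θ) {c : ℝ} (hle : ∀ n x, ρ n x ≤ c * θ x)
    (hc : ∀ᵐ x ∂m, Tendsto (fun n => ρ n x) atTop (𝓝 (η x))) :
    Tendsto (fun n => Ent m (dm m (ρ n))) atTop (𝓝 (Ent m (dm m η))) ∧
    ∀ o : X, Tendsto (fun n => ∫ x, dist x o ^ 2 * |ρ n x - η x| ∂m) atTop (𝓝 0) := by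
  obtain ⟨C, hC⟩ := hθ.bdd
  refine ⟨?_, fun o => ?_⟩
  · simp only [fun n => (hρ n).ent_eq, hη.ent_eq]
    refine tendsto_integral_of_dominated_convergence
      (fun x => 2 * (1 + |c| * C) * √|c| * √(θ x))
      (fun n => ((hρ n).meas.mul (hρ n).meas.log).aestronglyMeasurable)
      (hθ.sqrt.const_mul _) (fun n => Eventually.of_forall fun x => ?_) ?_
    · have h1 : ρ n x ≤ |c| * θ x :=
        (hle n x).trans (mul_le_mul_of_nonneg_right (le_abs_self c) (hθ.nonneg x))
      have h2 : |c| * θ x ≤ |c| * C := mul_le_mul_of_nonneg_left (hC x) (abs_nonneg c)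
      have h3 := abs_mul_log_le ((hρ n).nonneg x) (h1.trans h2)
      have h4 : √(ρ n x) ≤ √|c| * √(θ x) := by
        rw [← Real.sqrt_mul (abs_nonneg c)]
        exact Real.sqrt_le_sqrt h1
      have h5 : 0 ≤ 2 * (1 + |c| * C) := by
        have : 0 ≤ |c| * C := mul_nonneg (abs_nonneg c) ((hθ.nonneg x).trans (hC x))
        positivity
      calc ‖ρ n x * Real.log (ρ n x)‖ ≤ 2 * (1 + |c| * C) * √(ρ n x) := h3
        _ ≤ 2 * (1 + |c| * C) * (√|c| * √(θ x)) := mul_le_mul_of_nonneg_left h4 h5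
        _ = _ := by ring
    · filter_upwards [hc] with x hx
      exact (Real.continuous_mul_log.tendsto (η x)).comp hx
  · have hd : Measurable fun x : X => dist x o ^ 2 := by fun_prop
    have h0 : (0 : ℝ) = ∫ _x, (0 : ℝ) ∂m := by simp
    rw [h0]
    refine tendsto_integral_of_dominated_convergence
      (fun x => |c| * ((1 + dist x o ^ 2) * θ x) + (1 + dist x o ^ 2) * η x)
      (fun n => (hd.mul ((hρ n).meas.sub hη.meas).abs).aestronglyMeasurable)
      (((hθ.mom o).const_mul _).add (hη.mom o)) (fun n => Eventually.of_forall fun x => ?_) ?_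
    · have h1 : ρ n x ≤ |c| * θ x :=
        (hle n x).trans (mul_le_mul_of_nonneg_right (le_abs_self c) (hθ.nonneg x))
      have h2 : |ρ n x - η x| ≤ |c| * θ x + η x := by
        have := (hρ n).nonneg x
        have := hη.nonneg x
        rw [abs_le]; constructor <;> linarith
      have h3 : 0 ≤ |c| * θ x + η x := (abs_nonneg _).trans h2
      rw [Real.norm_eq_abs, abs_of_nonneg (by positivity)]
      calc dist x o ^ 2 * |ρ n x - η x| ≤ (1 + dist x o ^ 2) * (|c| * θ x + η x) :=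
            mul_le_mul (by linarith) h2 (abs_nonneg _) (by positivity)
        _ = _ := by ring
    · filter_upwards [hc] with x hx
      have := ((hx.sub_const (η x)).abs).const_mul (dist x o ^ 2)
      simpa using this

end Crest.Agent.R242
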