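import Crest.Agent.R242.Defs

/-! Row 242: lower bounds for the distortion coefficient at time 1/2. -/

set_option autoImplicit false

open MeasureTheory Filter Set Topology
open scoped ENNReal NNReal
open Crest.GeometryTopology.SyntheticRicci

namespace Crest.Agent.R242

theorem Tau_sigma (K M θ c : ℝ) (hM : 0 < M) (hθ : 0 ≤ θ)
    (hc : Real.cosh (1 / 2 * θ * √(|K| / M)) ≤ Real.exp c) :
    ENNReal.ofReal (Real.exp (-c) / 2) ≤ distortSigma K M (1 / 2) θ := by
  have h1 : Real.exp (-c) ≤ 1 := by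
    rw [Real.exp_neg]
    exact inv_le_one_of_one_le₀ ((Real.one_le_cosh _).trans hc)
  have h2 : ENNReal.ofReal (Real.exp (-c) / 2) ≤ ENNReal.ofReal (1 / 2) :=
    ENNReal.ofReal_le_ofReal (by linarith)
  rw [distortSigma, if_neg (by norm_num), if_neg (by norm_num)]
  split_ifs with h3 h4 h5 h6
  · exact h2
  · refine h2.trans (ENNReal.ofReal_le_ofReal ?_)
    obtain ⟨y, hy⟩ : ∃ y, y = 1 / 2 * θ * √(K / M) := ⟨_, rfl⟩
    have hθ' : 0 < θ := hθ.lt_of_ne' h3
    have hs : 0 < √(K / M) := Real.sqrt_pos.2 (by positivity)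
    have h7 : θ * √(K / M) < Real.pi := by
      refine lt_of_pow_lt_pow_left₀ 2 Real.pi_pos.le ?_
      rw [mul_pow, Real.sq_sqrt (by positivity), mul_div_assoc', div_lt_iff₀ hM]
      linarith
    have h8 := Real.sin_pos_of_pos_of_lt_pi (mul_pos hθ' hs) h7
    have h9 : θ * √(K / M) = 2 * y := by rw [hy]; ring
    have h10 : 0 ≤ Real.sin y :=
      Real.sin_nonneg_of_nonneg_of_le_pi (by rw [hy]; positivity) (by linarith [mul_pos hθ' hs])
    rw [← hy, le_div_iff₀ h8, h9, Real.sin_two_mul]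
    nlinarith [Real.cos_le_one y]
  · exact le_top
  · exact h2
  · refine ENNReal.ofReal_le_ofReal ?_
    have hK : K < 0 := (not_lt.1 h4).lt_of_ne h6
    rw [abs_of_neg hK] at hc
    obtain ⟨y, hy⟩ : ∃ y, y = 1 / 2 * θ * √(-K / M) := ⟨_, rfl⟩
    have hθ' : 0 < θ := hθ.lt_of_ne' h3
    have hs : 0 < √(-K / M) := Real.sqrt_pos.2 (div_pos (neg_pos.2 hK) hM)
    have h9 : θ * √(-K / M) = 2 * y := by rw [hy]; ring
    have h8 : 0 < Real.sinh y := Real.sinh_pos_iff.2 (by rw [hy]; positivity)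
    have h7 := Real.cosh_pos y
    rw [← hy] at hc ⊢
    rw [h9, Real.sinh_two_mul, le_div_iff₀ (by positivity), Real.exp_neg]
    have h10 : (Real.exp c)⁻¹ * Real.cosh y ≤ 1 := by
      rw [inv_mul_le_iff₀ (Real.exp_pos c)]
      linarith
    nlinarith

theorem Tau_tau (K N θ c a : ℝ) (hN : 1 < N) (hθ : 0 ≤ θ)
    (hc : Real.cosh (1 / 2 * θ * √(|K| / (N - 1))) ≤ Real.exp c) (ha : c * ((N - 1) / N) ≤ a) :
    ENNReal.ofReal (Real.exp (-a) / 2) ≤ distortTau K N (1 / 2) θ := by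
  have h0 : 0 < N := by linarith
  have h1 : 0 ≤ (N - 1) / N := div_nonneg (by linarith) h0.le
  refine le_trans ?_ (mul_le_mul_right
    (ENNReal.rpow_le_rpow (Tau_sigma K (N - 1) θ c (by linarith) hθ hc) h1) _)
  rw [ENNReal.ofReal_rpow_of_pos (by norm_num), ENNReal.ofReal_rpow_of_pos (by positivity),
    ← ENNReal.ofReal_mul (by positivity), div_eq_mul_one_div (Real.exp (-c)),
    Real.mul_rpow (by positivity) (by norm_num), mul_left_comm, ← Real.rpow_add (by norm_num),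
    show 1 / N + (N - 1) / N = 1 by field_simp; ring, Real.rpow_one, ← Real.exp_mul]
  refine ENNReal.ofReal_le_ofReal ?_
  have h2 : Real.exp (-a) ≤ Real.exp (-c * ((N - 1) / N)) := Real.exp_le_exp.2 (by linarith)
  linarith

theorem tau_half_ge_sq (K N θ : ℝ) (hN : 1 < N) (hθ : 0 ≤ θ) :
    ENNReal.ofReal (Real.exp (-(|K| * θ ^ 2 / N)) / 2) ≤ distortTau K N (1 / 2) θ := by
  refine Tau_tau K N θ _ _ hN hθ (Real.cosh_le_exp_half_sq _) ?_
  have h0 : 0 < N := by linarith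
  have h1 : 0 < N - 1 := by linarith
  have h2 : 0 ≤ |K| * θ ^ 2 / N := by positivity
  rw [mul_pow, Real.sq_sqrt (by positivity)]
  calc _ = |K| * θ ^ 2 / N / 8 := by field_simp; ring
    _ ≤ _ := by linarith

theorem tau_half_ge_lin (K N θ : ℝ) (hN : 1 < N) (hθ : 0 ≤ θ) :
    ENNReal.ofReal (Real.exp (-(√|K| * θ)) / 2) ≤ distortTau K N (1 / 2) θ := by
  have h0 : 0 < N := by linarith
  have h1 : 0 < N - 1 := by linarith
  have h3 : 0 ≤ 1 / 2 * θ * √(|K| / (N - 1)) := by positivity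
  refine Tau_tau K N θ (1 / 2 * θ * √(|K| / (N - 1))) _ hN hθ ?_ ?_
  · rw [Real.cosh_eq]
    linarith [Real.exp_le_exp.2 (neg_le_self h3)]
  · have h4 : √(|K| / (N - 1)) * ((N - 1) / N) ≤ √|K| := by
      refine Real.le_sqrt_of_sq_le ?_
      rw [mul_pow, Real.sq_sqrt (by positivity)]
      calc _ = |K| * ((N - 1) / N ^ 2) := by field_simp
        _ ≤ _ := mul_le_of_le_one_right (abs_nonneg _) ((div_le_one (by positivity)).2 (by nlinarith))
    have h5 := mul_le_mul_of_nonneg_left h4 hθ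
    have h6 : 0 ≤ θ * √|K| := by positivity
    nlinarith

end Crest.Agent.R242
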