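import Crest.Agent.R242.ARenyi
import Crest.Agent.R242.APlanLim
import Crest.Agent.R242.EntBasic
import Crest.Agent.R242.Tau

/-!
# Row 242: the curvature-dimension condition at the midpoint
-/

set_option autoImplicit false
set_option linter.unusedSectionVars false

open MeasureTheory Filter Set Topology
open scoped ENNReal NNReal
open Crest.GeometryTopology.SyntheticRicci

namespace Crest.Agent.R242

variable {X : Type*} [MetricSpace X] [ProperSpace X] [MeasurableSpace X] [BorelSpace X]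
  {m : Measure X} [IsLocallyFiniteMeasure m] [m.IsOpenPosMeasure]

namespace ACDAux

theorem ae_ends {μ ν : Measure X} {P : Measure (UCurve X)} (hP : IsOptPlan P μ ν)
    {p q : X → Prop} (hp : ∀ᵐ x ∂μ, p x) (hq : ∀ᵐ x ∂ν, q x) :
    ∀ᵐ γ ∂P, p (γ.toMap 0) ∧ q (γ.toMap 1) := by
  rw [← hP.marg_eq.1] at hp
  rw [← hP.marg_eq.2] at hq
  filter_upwards [ae_of_ae_map (continuous_ext_left 0).measurable.aemeasurable hp,
    ae_of_ae_map (continuous_ext_left 1).measurable.aemeasurable hq] with γ h1 h2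
  rw [ext_zero] at h1
  rw [ext_one] at h2
  exact ⟨h1, h2⟩

theorem rnDeriv_le {μ : Measure X} {M : ℝ≥0} {o : X} {R : ℝ} (hμ : Bdd m μ M o R) :
    ∀ᵐ x ∂μ, μ.rnDeriv m x ≤ M := by
  refine hμ.ac.ae_le ?_
  obtain ⟨ρ, hρ, rfl, h1, -⟩ := hμ.exists_niceD
  filter_upwards [Measure.rnDeriv_withDensity m hρ.meas.ennreal_ofReal] with x hx
  exact hx.le.trans (ENNReal.ofReal_le_of_le_toReal (h1 x))

theorem rnDeriv_pos {μ : Measure X} {M : ℝ≥0} {o : X} {R : ℝ} (hμ : Bdd m μ M o R) :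
    ∀ᵐ x ∂μ, 0 < μ.rnDeriv m x ∧ μ.rnDeriv m x < ⊤ := by
  have := hμ.1
  filter_upwards [Measure.rnDeriv_pos hμ.ac, rnDeriv_le hμ] with x h1 h2
  exact ⟨h1, h2.trans_lt ENNReal.coe_lt_top⟩

theorem rpow_anti {x y : ℝ≥0∞} (h : x ≤ y) {N : ℝ} (hN : 0 < N) : y ^ (-1 / N) ≤ x ^ (-1 / N) := by
  rw [neg_div, ENNReal.rpow_neg, ENNReal.rpow_neg]
  exact ENNReal.inv_le_inv.2 (ENNReal.rpow_le_rpow h (by positivity))

theorem rpow_eq {x : ℝ≥0∞} (h : 0 < x ∧ x < ⊤) (N : ℝ) :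
    x ^ (-1 / N) = ENNReal.ofReal (Real.exp (-(Real.log x.toReal / N))) := by
  have h1 : 0 < x.toReal := ENNReal.toReal_pos h.1.ne' h.2.ne
  conv_lhs => rw [← ENNReal.ofReal_toReal h.2.ne]
  rw [ENNReal.ofReal_rpow_of_pos h1, Real.rpow_def_of_pos h1]
  congr 2
  ring

theorem ofReal_integral_le {Y : Type*} [MeasurableSpace Y] {P : Measure Y} {h : Y → ℝ}
    (hi : Integrable h P) : ENNReal.ofReal (∫ y, h y ∂P) ≤ ∫⁻ y, ENNReal.ofReal (h y) ∂P := by
  refine (ENNReal.ofReal_le_ofReal (integral_mono hi hi.pos_part fun y => le_max_left _ _)).trans ?_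
  rw [ofReal_integral_eq_lintegral_ofReal hi.pos_part (Eventually.of_forall fun y => le_max_right _ _)]
  refine lintegral_mono fun y => ?_
  rcases le_total (h y) 0 with h0 | h0
  · simp [h0]
  · simp [h0]

theorem int_end {μ : Measure X} {P : Measure (UCurve X)} {t : ℝ} (h : marg P t = μ) {g : X → ℝ}
    (hg : Integrable g μ) :
    Integrable (fun γ : UCurve X => g (γ.ext t)) P ∧ ∫ γ, g (γ.ext t) ∂P = ∫ x, g x ∂μ := by
  subst h
  have hm := (continuous_ext_left (X := X) t).measurable.aemeasurable (μ := P)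
  exact ⟨(integrable_map_measure hg.1 hm).1 hg, (integral_map hm hg.1).symm⟩

end ACDAux

theorem cd_mid {K N : ℝ} (hN : 1 < N) (hCD : IsCD m K N) {μ ν : Measure X} (hμ : IsP2 μ)
    (hν : IsP2 ν) (hμm : μ ≪ m) (hνm : ν ≪ m) :
    ∃ P : Measure (UCurve X), IsOptPlan P μ ν ∧ ∀ N' : ℝ, N ≤ N' →
      (∫⁻ γ, ENNReal.ofReal (Real.exp (-(|K| * len γ ^ 2 / N')) / 2) *
          (μ.rnDeriv m (γ.toMap 0) ^ (-1 / N') + ν.rnDeriv m (γ.toMap 1) ^ (-1 / N')) ∂P) ≤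
        renyiPower m (marg P (1 / 2)) N' := by
  obtain ⟨P, h1, h2, h3, h4⟩ := hCD μ ν hμ.1 hν.1 hμ.2 hν.2 hμm hνm
  refine ⟨P, ⟨h1, h2, h3⟩, fun N' hN' => ?_⟩
  have h5 := h4 N' hN' ⟨1 / 2, by norm_num, by norm_num⟩
  rw [timeMarginal_eq_marg] at h5
  refine le_trans (lintegral_mono fun γ => ?_) h5
  have h6 := tau_half_ge_sq K N' (len γ) (hN.trans_le hN') dist_nonneg
  simp only
  rw [mul_add, show (1 : ℝ) - 1 / 2 = 1 / 2 by norm_num]
  exact add_le_add (mul_le_mul_left h6 _) (mul_le_mul_left h6 _)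

theorem cd_lower_len {κ N D : ℝ} (hκ : 0 ≤ κ) (hN : 1 < N) {μ ν : Measure X} {M : ℝ≥0} {o : X}
    {R : ℝ} (hμ : Bdd m μ M o R) (hν : Bdd m ν M o R) {P : Measure (UCurve X)}
    (hP : IsOptPlan P μ ν) (hD : ∀ᵐ γ ∂P, len γ ≤ D) :
    ENNReal.ofReal (Real.exp (-(κ * D ^ 2 / N))) * (M : ℝ≥0∞) ^ (-1 / N) ≤
      ∫⁻ γ, ENNReal.ofReal (Real.exp (-(κ * len γ ^ 2 / N)) / 2) *
        (μ.rnDeriv m (γ.toMap 0) ^ (-1 / N) + ν.rnDeriv m (γ.toMap 1) ^ (-1 / N)) ∂P := by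
  have := hP.1
  have hN0 : 0 < N := by linarith
  refine le_trans (le_of_eq ?_) (lintegral_mono_ae (f := fun _ =>
    ENNReal.ofReal (Real.exp (-(κ * D ^ 2 / N))) * (M : ℝ≥0∞) ^ (-1 / N)) ?_)
  · rw [lintegral_const, measure_univ, mul_one]
  filter_upwards [ACDAux.ae_ends hP (ACDAux.rnDeriv_le hμ) (ACDAux.rnDeriv_le hν), hD] with γ h1 h2
  have h3 : Real.exp (-(κ * D ^ 2 / N)) / 2 ≤ Real.exp (-(κ * len γ ^ 2 / N)) / 2 := by
    have : 0 ≤ len γ := dist_nonneg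
    gcongr
  refine le_trans (le_of_eq ?_) (mul_le_mul' (ENNReal.ofReal_le_ofReal h3)
    (add_le_add (ACDAux.rpow_anti h1.1 hN0) (ACDAux.rpow_anti h1.2 hN0)))
  rw [mul_add, ← add_mul, ← ENNReal.ofReal_add (by positivity) (by positivity), add_halves]

theorem cd_lower_ent {κ N : ℝ} (hN : 1 < N) {μ ν : Measure X} {M : ℝ≥0} {o : X}
    {R : ℝ} (hμ : Bdd m μ M o R) (hν : Bdd m ν M o R) {P : Measure (UCurve X)}
    (hP : IsOptPlan P μ ν) :
    ENNReal.ofReal (1 - (Ent m μ / 2 + Ent m ν / 2 + κ * Wsq μ ν) / N) ≤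
      ∫⁻ γ, ENNReal.ofReal (Real.exp (-(κ * len γ ^ 2 / N)) / 2) *
        (μ.rnDeriv m (γ.toMap 0) ^ (-1 / N) + ν.rnDeriv m (γ.toMap 1) ^ (-1 / N)) ∂P := by
  have := hP.1
  obtain ⟨i0, e0⟩ := ACDAux.int_end hP.marg_eq.1 hμ.integrable_log
  obtain ⟨i1, e1⟩ := ACDAux.int_end hP.marg_eq.2 hν.integrable_log
  obtain ⟨i2, e2⟩ := hP.Wsq_eq hμ.isP2 hν.isP2
  simp only [ext_zero, ext_one] at i0 e0 i1 e1
  have i3 := (i0.div_const 2).add (i1.div_const 2)
  have i4 := i3.add (i2.const_mul κ)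
  have i5 := (integrable_const (1 : ℝ)).sub (i4.div_const N)
  refine le_trans (le_of_eq ?_) ((ACDAux.ofReal_integral_le i5).trans (lintegral_mono_ae ?_))
  · congr 1
    simp only [Pi.sub_apply]
    rw [integral_sub (integrable_const _) (i4.div_const N), integral_div,
      integral_add' i3 (i2.const_mul κ), integral_add' (i0.div_const 2) (i1.div_const 2),
      integral_div, integral_div, integral_const_mul, e0, e1, e2]
    simp [Ent]
  · filter_upwards [ACDAux.ae_ends hP (ACDAux.rnDeriv_pos hμ) (ACDAux.rnDeriv_pos hν)] with γ h1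
    rw [ACDAux.rpow_eq h1.1, ACDAux.rpow_eq h1.2,
      ← ENNReal.ofReal_add (Real.exp_pos _).le (Real.exp_pos _).le,
      ← ENNReal.ofReal_mul (by positivity)]
    refine ENNReal.ofReal_le_ofReal ?_
    simp only [Pi.sub_apply, Pi.add_apply]
    rw [mul_add, div_mul_eq_mul_div _ 2, div_mul_eq_mul_div _ 2, ← Real.exp_add, ← Real.exp_add]
    have h2 := Real.add_one_le_exp
      (-(κ * len γ ^ 2 / N) + -(Real.log (μ.rnDeriv m (γ.toMap 0)).toReal / N))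
    have h3 := Real.add_one_le_exp
      (-(κ * len γ ^ 2 / N) + -(Real.log (ν.rnDeriv m (γ.toMap 1)).toReal / N))
    rw [add_div, add_div, div_right_comm _ 2 N, div_right_comm _ 2 N]
    linarith

end Crest.Agent.R242
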