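import Crest.Agent.R242.AHalf

/-!
# Row 242: concatenation of curves and of plans
-/

set_option autoImplicit false
set_option linter.unusedSectionVars false

open MeasureTheory Filter Set Topology
open scoped ENNReal NNReal
open Crest.GeometryTopology.SyntheticRicci

namespace Crest.Agent.R242

variable {X : Type*} [MetricSpace X] [ProperSpace X] [MeasurableSpace X] [BorelSpace X]
  {m : Measure X} [IsLocallyFiniteMeasure m] [m.IsOpenPosMeasure]

namespace ACatAux

theorem ext_of_nonpos (γ : UCurve X) {t : ℝ} (ht : t ≤ 0) : γ.ext t = γ.toMap 0 :=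
  congrArg γ.toMap (projIcc_of_le_left _ ht)

theorem ext_of_one_le (γ : UCurve X) {t : ℝ} (ht : 1 ≤ t) : γ.ext t = γ.toMap 1 :=
  congrArg γ.toMap (projIcc_of_right_le _ ht)

end ACatAux

/-- A measurable concatenation map. -/
theorem exists_cat : ∃ c : UCurve X × UCurve X → UCurve X, Measurable c ∧
    ∀ γ η : UCurve X, γ.toMap 1 = η.toMap 0 → ∀ t : ℝ,
      (t ≤ 1 / 2 → (c (γ, η)).ext t = γ.ext (2 * t)) ∧
      (1 / 2 ≤ t → (c (γ, η)).ext t = η.ext (2 * t - 1)) := by
  classical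
  let S : Set (UCurve X × UCurve X) := {p | p.1.toMap 1 = p.2.toMap 0}
  have hS : IsClosed S :=
    isClosed_eq ((Curves_cont 1).comp continuous_fst) ((Curves_cont 0).comp continuous_snd)
  have hF : Continuous fun q : S × ℝ =>
      if q.2 ≤ 1 / 2 then q.1.1.1.ext (2 * q.2) else q.1.1.2.ext (2 * q.2 - 1) := by
    refine Continuous.if_le (continuous_ext.comp (by fun_prop : Continuous fun q : S × ℝ =>
      (q.1.1.1, 2 * q.2))) (continuous_ext.comp (by fun_prop : Continuous fun q : S × ℝ =>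
      (q.1.1.2, 2 * q.2 - 1))) continuous_snd continuous_const fun q hq => ?_
    rw [hq, ACatAux.ext_of_one_le _ (by norm_num), ACatAux.ext_of_nonpos _ (by norm_num)]
    exact q.1.2
  let c0 : S → UCurve X := fun p => ⟨⟨fun t : unitInterval =>
    if (t : ℝ) ≤ 1 / 2 then p.1.1.ext (2 * t) else p.1.2.ext (2 * t - 1),
    hF.comp (by fun_prop : Continuous fun t : unitInterval => (p, (t : ℝ)))⟩⟩
  have hc0 : Continuous c0 := by
    refine isEmbedding_toMap.continuous_iff.2 (ContinuousMap.continuous_of_continuous_uncurry _ ?_)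
    exact hF.comp (by fun_prop : Continuous fun q : S × unitInterval => (q.1, (q.2 : ℝ)))
  refine ⟨fun p => if h : p ∈ S then c0 ⟨p, h⟩ else p.1,
    Measurable.dite (g := fun p : (Sᶜ : Set (UCurve X × UCurve X)) => p.1.1) hc0.measurable
      (measurable_fst.comp measurable_subtype_coe) hS.measurableSet, fun γ η h t => ?_⟩
  have hm : (γ, η) ∈ S := h
  have key : ∀ r : ℝ, r ∈ Icc (0 : ℝ) 1 → (c0 ⟨(γ, η), hm⟩).ext r =
      if r ≤ 1 / 2 then γ.ext (2 * r) else η.ext (2 * r - 1) := fun r hr =>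
    ext_coe (c0 ⟨(γ, η), hm⟩) ⟨r, hr⟩
  simp only [dif_pos hm]
  constructor
  · intro ht
    by_cases h0 : t ≤ 0
    · rw [ACatAux.ext_of_nonpos _ h0, ← ext_zero, key 0 ⟨le_rfl, zero_le_one⟩, if_pos (by norm_num),
        ACatAux.ext_of_nonpos γ (t := 2 * t) (by linarith), mul_zero, ext_zero]
    · rw [key t ⟨(not_le.1 h0).le, by linarith⟩, if_pos ht]
  · intro ht
    by_cases h1 : 1 ≤ t
    · rw [ACatAux.ext_of_one_le _ h1, ← ext_one, key 1 ⟨zero_le_one, le_rfl⟩, if_neg (by norm_num),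
        ACatAux.ext_of_one_le η (t := 2 * t - 1) (by linarith),
        ACatAux.ext_of_one_le η (by norm_num)]
    · rw [key t ⟨by linarith, (not_le.1 h1).le⟩]
      split_ifs with h2
      · rw [ACatAux.ext_of_one_le γ (by linarith), ACatAux.ext_of_nonpos η (by linarith), h]
      · rfl

/-- An upper bound is enough. -/
theorem geo_of_le {γ : UCurve X}
    (h : ∀ s t : ℝ, 0 ≤ s → s ≤ t → t ≤ 1 → dist (γ.ext s) (γ.ext t) ≤ (t - s) * len γ) :
    IsCSGeodesic γ := by
  have key : ∀ s t : unitInterval, (s : ℝ) ≤ t →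
      dist (γ.toMap s) (γ.toMap t) = (t - s) * len γ := by
    intro s t hst
    have h1 := h 0 s le_rfl s.2.1 s.2.2
    have h2 := h s t s.2.1 hst t.2.2
    have h3 := h t 1 t.2.1 t.2.2 le_rfl
    rw [ext_zero, ext_coe] at h1
    rw [ext_coe, ext_coe] at h2
    rw [ext_coe, ext_one] at h3
    have h4 : len γ ≤ _ := dist_triangle4 (γ.toMap 0) (γ.toMap s) (γ.toMap t) (γ.toMap 1)
    linarith
  intro s t
  rcases le_total (s : ℝ) t with hst | hst
  · rw [key s t hst, abs_sub_comm, abs_of_nonneg (sub_nonneg.2 hst)]; rfl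
  · rw [dist_comm, key t s hst, abs_of_nonneg (sub_nonneg.2 hst)]; rfl

theorem geo_of_halves {γ η ζ : UCurve X} (hγ : IsCSGeodesic γ) (hη : IsCSGeodesic η)
    (h1 : ∀ t : ℝ, t ≤ 1 / 2 → ζ.ext t = γ.ext (2 * t))
    (h2 : ∀ t : ℝ, 1 / 2 ≤ t → ζ.ext t = η.ext (2 * t - 1))
    (hd1 : len γ = dist (γ.toMap 0) (η.toMap 1) / 2)
    (hd2 : len η = dist (γ.toMap 0) (η.toMap 1) / 2) : IsCSGeodesic ζ := by
  have hl : len ζ = dist (γ.toMap 0) (η.toMap 1) := by
    rw [len, ← ext_zero ζ, ← ext_one ζ, h1 0 (by norm_num), h2 1 (by norm_num), mul_zero, ext_zero,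
      ACatAux.ext_of_one_le η (by norm_num)]
  have k1 : ∀ s t : ℝ, 0 ≤ s → s ≤ t → t ≤ 1 / 2 →
      dist (ζ.ext s) (ζ.ext t) = (t - s) * len ζ := by
    intro s t hs hst ht
    rw [h1 s (by linarith), h1 t ht,
      geo_dist_ext hγ ⟨by linarith, by linarith⟩ ⟨by linarith, by linarith⟩, hd1, hl,
      abs_of_nonpos (by linarith)]
    ring
  have k2 : ∀ s t : ℝ, 1 / 2 ≤ s → s ≤ t → t ≤ 1 →
      dist (ζ.ext s) (ζ.ext t) = (t - s) * len ζ := by
    intro s t hs hst ht
    rw [h2 s hs, h2 t (by linarith),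
      geo_dist_ext hη ⟨by linarith, by linarith⟩ ⟨by linarith, by linarith⟩, hd2, hl,
      abs_of_nonpos (by linarith)]
    ring
  refine geo_of_le fun s t hs hst ht => ?_
  rcases le_total t (1 / 2) with h | h
  · exact (k1 s t hs hst h).le
  rcases le_total (1 / 2) s with h' | h'
  · exact (k2 s t h' hst ht).le
  have := dist_triangle (ζ.ext s) (ζ.ext (1 / 2)) (ζ.ext t)
  rw [k1 s _ hs h' le_rfl, k2 _ t le_rfl h ht] at this
  linarith

theorem glue_plans {P₀ P₁ : Measure (UCurve X)} {μ ω ν : Measure X} (hμ : IsP2 μ) (hω : IsP2 ω)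
    (hν : IsP2 ν) (hP₀ : IsOptPlan P₀ μ ω) (hP₁ : IsOptPlan P₁ ω ν)
    (h₁ : Wsq μ ω ≤ Wsq μ ν / 4) (h₂ : Wsq ω ν ≤ Wsq μ ν / 4) :
    ∃ P : Measure (UCurve X), IsOptPlan P μ ν ∧ ∀ t : ℝ,
      (t ≤ 1 / 2 → marg P t = marg P₀ (2 * t)) ∧ (1 / 2 ≤ t → marg P t = marg P₁ (2 * t - 1)) := by
  obtain ⟨c, hc, hcat⟩ := exists_cat (X := X)
  have := hP₀.1
  have := hP₁.1
  have m0 : Measurable fun γ : UCurve X => γ.toMap 0 := (Curves_cont 0).measurable
  have m1 : Measurable fun γ : UCurve X => γ.toMap 1 := (Curves_cont 1).measurable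
  have a0 : P₀.map (fun γ => γ.toMap 0) = μ := (timeMarginal_eq_marg P₀ 0).trans hP₀.marg_eq.1
  have a1 : P₀.map (fun γ => γ.toMap 1) = ω := (timeMarginal_eq_marg P₀ 1).trans hP₀.marg_eq.2
  have b0 : P₁.map (fun γ => γ.toMap 0) = ω := (timeMarginal_eq_marg P₁ 0).trans hP₁.marg_eq.1
  have b1 : P₁.map (fun γ => γ.toMap 1) = ν := (timeMarginal_eq_marg P₁ 1).trans hP₁.marg_eq.2
  obtain ⟨Θ, hΘ, e1, e2, hg⟩ := exists_glue P₀ P₁ m1 m0 (a1.trans b0.symm)
  have x0 : Θ.map (fun p => p.1.toMap 0) = μ := by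
    rw [← a0, ← e1, Measure.map_map m0 measurable_fst]; rfl
  have z0 : Θ.map (fun p => p.1.toMap 1) = ω := by
    rw [← a1, ← e1, Measure.map_map m1 measurable_fst]; rfl
  have y0 : Θ.map (fun p => p.2.toMap 1) = ν := by
    rw [← b1, ← e2, Measure.map_map m1 measurable_snd]; rfl
  have hl : Continuous fun γ : UCurve X => len γ ^ 2 := continuous_len.pow 2
  have i1 : ∫ p, dist (p.1.toMap 0) (p.1.toMap 1) ^ 2 ∂Θ = Wsq μ ω := by
    rw [(hP₀.Wsq_eq hμ hω).2, ← e1,
      integral_map measurable_fst.aemeasurable hl.aestronglyMeasurable]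
    rfl
  have i2 : ∫ p, dist (p.1.toMap 1) (p.2.toMap 1) ^ 2 ∂Θ = Wsq ω ν := by
    rw [(hP₁.Wsq_eq hω hν).2, ← e2,
      integral_map measurable_snd.aemeasurable hl.aestronglyMeasurable]
    refine integral_congr_ae ?_
    filter_upwards [hg] with p hp
    rw [hp]; rfl
  obtain ⟨hopt, hae⟩ := glue_eq Θ (x := fun p => p.1.toMap 0) (z := fun p => p.1.toMap 1)
    (y := fun p => p.2.toMap 1) (m0.comp measurable_fst) (m1.comp measurable_fst)
    (m1.comp measurable_snd) (x0 ▸ hμ) (z0 ▸ hω) (y0 ▸ hν) (by rw [i1, x0, y0]; exact h₁)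
    (by rw [i2, x0, y0]; exact h₂)
  rw [x0, y0] at hopt
  have g0 : ∀ᵐ p ∂Θ, IsCSGeodesic p.1 :=
    ae_of_ae_map measurable_fst.aemeasurable (e1.symm ▸ hP₀.2.1)
  have g1 : ∀ᵐ p ∂Θ, IsCSGeodesic p.2 :=
    ae_of_ae_map measurable_snd.aemeasurable (e2.symm ▸ hP₁.2.1)
  refine ⟨Θ.map c, ⟨Measure.isProbabilityMeasure_map hc.aemeasurable, ?_, ?_⟩, fun t => ⟨?_, ?_⟩⟩
  · rw [ae_map_iff hc.aemeasurable isClosed_geodesic.measurableSet]
    filter_upwards [hg, hae, g0, g1] with p hp h3 h4 h5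
    refine geo_of_halves h4 h5 (fun t => (hcat p.1 p.2 hp t).1) (fun t => (hcat p.1 p.2 hp t).2)
      h3.1 ?_
    rw [len, ← hp]
    exact h3.2
  · have : endpointLaw (Θ.map c) = Θ.map fun p => (p.1.toMap 0, p.2.toMap 1) := by
      rw [endpointLaw, Measure.map_map Curves_meas hc]
      refine Measure.map_congr ?_
      filter_upwards [hg] with p hp
      have k0 := (hcat p.1 p.2 hp 0).1 (by norm_num)
      have k1 := (hcat p.1 p.2 hp 1).2 (by norm_num)
      rw [ext_zero, mul_zero, ext_zero] at k0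
      rw [ext_one, ACatAux.ext_of_one_le p.2 (by norm_num)] at k1
      exact Prod.ext k0 k1
    rw [this]
    exact hopt
  · intro ht
    rw [marg, marg, ← e1, Measure.map_map (continuous_ext_left _).measurable hc,
      Measure.map_map (continuous_ext_left _).measurable measurable_fst]
    refine Measure.map_congr ?_
    filter_upwards [hg] with p hp
    exact (hcat p.1 p.2 hp t).1 ht
  · intro ht
    rw [marg, marg, ← e2, Measure.map_map (continuous_ext_left _).measurable hc,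
      Measure.map_map (continuous_ext_left _).measurable measurable_snd]
    refine Measure.map_congr ?_
    filter_upwards [hg] with p hp
    exact (hcat p.1 p.2 hp t).2 ht

end Crest.Agent.R242
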