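import Crest.Agent.R242.Defs

/-!
# Row 242: definitions of module A (optimal transport, Rajala's good plans)

DO NOT change a definition of this file.
-/

set_option autoImplicit false
set_option linter.unusedSectionVars false

open MeasureTheory Filter Set Topology
open scoped ENNReal NNReal
open Crest.GeometryTopology.SyntheticRicci

namespace Crest.Agent.R242

/-- A profile for Rajala's maximisation: concave, strictly increasing up to `lam`, constant after
`lam`, flat to second order at `lam`. -/
structure IsV (V : ℝ → ℝ) (lam : ℝ) : Prop where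
  pos : 0 < lam
  zero : V 0 = 0
  conc : ConcaveOn ℝ (Ici 0) V
  cont : ContinuousOn V (Ici 0)
  mono : StrictMonoOn V (Icc 0 lam)
  const : ∀ y, lam ≤ y → V y = V lam
  quad : ∃ C : ℝ, ∀ η : ℝ, 0 ≤ η → η ≤ 1 → V lam - C * η ^ 2 ≤ V ((1 - η) * lam)

/-- The entropy profile. -/
noncomputable def Vent (lam y : ℝ) : ℝ :=
  if y ≤ lam then y * (1 + Real.log lam) - y * Real.log y else lam

/-- Weak convergence tested against all continuous functions (used for measures carried by one
compact set). -/
def WConv {Y : Type*} [TopologicalSpace Y] [MeasurableSpace Y] (P : ℕ → Measure Y)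
    (Q : Measure Y) : Prop :=
  ∀ f : Y → ℝ, Continuous f → Tendsto (fun n => ∫ y, f y ∂(P n)) atTop (𝓝 (∫ y, f y ∂Q))

/-- Probability measure carried by the set `K`. -/
def PK {Y : Type*} [MeasurableSpace Y] (K : Set Y) (μ : Measure Y) : Prop :=
  IsProbabilityMeasure μ ∧ μ Kᶜ = 0

section meas

variable {X : Type*} [MetricSpace X] [MeasurableSpace X]

/-- `∫ V(ρ) dm`, where `ρ` is the density of the absolutely continuous part. -/
noncomputable def Psi (m : Measure X) (V : ℝ → ℝ) (μ : Measure X) : ℝ :=
  ∫ x, V (μ.rnDeriv m x).toReal ∂m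

end meas

/-- Generates the equation lemmas once, in this file. -/
theorem anchorA : True := by
  have := @Vent.eq_1
  have := @Vent.eq_def
  have := @Vent.eq_unfold
  have := @Vent.congr_simp
  have := @WConv.eq_1.{0}
  have := @WConv.eq_def.{0}
  have := @WConv.eq_unfold.{0}
  have := @WConv.congr_simp.{0}
  have := @PK.eq_1.{0}
  have := @PK.eq_def.{0}
  have := @PK.eq_unfold.{0}
  have := @PK.congr_simp.{0}
  have := @Psi.eq_1.{0}
  have := @Psi.eq_def.{0}
  have := @Psi.eq_unfold.{0}
  have := @Psi.congr_simp.{0}
  trivial

end Crest.Agent.R242
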