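import Crest.Agent.R242.ARaj
import Crest.Agent.R242.ACat

/-!
# Row 242: the dyadic induction
-/

set_option autoImplicit false
set_option linter.unusedSectionVars false

open MeasureTheory Filter Set Topology
open scoped ENNReal NNReal
open Crest.GeometryTopology.SyntheticRicci

namespace Crest.Agent.R242

variable {X : Type*} [MetricSpace X] [ProperSpace X] [MeasurableSpace X] [BorelSpace X]
  {m : Measure X} [IsLocallyFiniteMeasure m] [m.IsOpenPosMeasure]

theorem dyadic_plan {κ : ℝ} (hG : Good m κ) (o : X) (j : ℕ) :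
    ∀ (R D δ : ℝ) (M C : ℝ≥0) (μ ν : Measure X), 0 < δ → Bdd m μ M o R → Bdd m ν M o R →
      LenLe μ ν D → (M : ℝ) * Real.exp (2 * κ * D ^ 2 + 2 * δ) ≤ C →
      ∃ P : Measure (UCurve X), IsOptPlan P μ ν ∧
        (∀ k : ℕ, k ≤ 2 ^ j → marg P ((k : ℝ) / 2 ^ j) ≤ (C : ℝ≥0∞) • m) ∧
        ∀ i : ℕ, i ≤ j → Ent m (marg P ((1 / 2) ^ i)) ≤ (1 - (1 / 2) ^ i) * Ent m μ +
          (1 / 2) ^ i * Ent m ν + 4 * κ * (1 / 2) ^ i * Wsq μ ν := by
  induction j with
  | zero =>
    intro R D δ M C μ ν hδ hμ hν hD hC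
    obtain ⟨P, hP, -⟩ := hG.mid μ ν M o R hμ hν
    have hκ := hG.nonneg
    have hMC : M ≤ C := by
      have h1 : (1 : ℝ) ≤ Real.exp (2 * κ * D ^ 2 + 2 * δ) := Real.one_le_exp (by positivity)
      have : (M : ℝ) ≤ C := le_trans (le_mul_of_one_le_right M.2 h1) hC
      exact_mod_cast this
    refine ⟨P, hP, fun k hk => ?_, fun i hi => ?_⟩
    · have hk' : k = 0 ∨ k = 1 := by omega
      rcases hk' with rfl | rfl
      · simpa [hP.marg_eq.1] using (hμ.mono hMC le_rfl).2.1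
      · simpa [hP.marg_eq.2] using (hν.mono hMC le_rfl).2.1
    · have : i = 0 := by omega
      subst this
      have := Wsq_nonneg μ ν
      simp only [pow_zero, hP.marg_eq.2]
      nlinarith [mul_nonneg hκ this]
  | succ j ih =>
    intro R D δ M C μ ν hδ hμ hν hD hC
    have hκ := hG.nonneg
    have hM0 : (0 : ℝ) < M := by exact_mod_cast hμ.pos.1
    have hR : 0 ≤ R := hμ.pos.2
    set M' : ℝ≥0 := ((M : ℝ) * Real.exp (κ * D ^ 2 + δ)).toNNReal with hM'
    have hM'c : (M' : ℝ) = M * Real.exp (κ * D ^ 2 + δ) :=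
      Real.coe_toNNReal _ (by positivity)
    have hlt : (M : ℝ) * Real.exp (κ * D ^ 2) < M' := by
      rw [hM'c]
      exact mul_lt_mul_of_pos_left (Real.exp_lt_exp.2 (by linarith)) hM0
    have hMM' : M ≤ M' := by
      have h1 : (1 : ℝ) ≤ Real.exp (κ * D ^ 2) := Real.one_le_exp (by positivity)
      have : (M : ℝ) ≤ M' := le_trans (le_mul_of_one_le_right M.2 h1) hlt.le
      exact_mod_cast this
    obtain ⟨Q, hQ, hω, hE⟩ := mid_ent hG hμ hν hD hlt
    obtain ⟨hω2, hW1, hW2, hD1, hD2⟩ := hQ.half hμ.isP2 hν.isP2 hD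
    set ω := marg Q (1 / 2) with hωdef
    have hC' : (M' : ℝ) * Real.exp (2 * κ * (D / 2) ^ 2 + 2 * (δ / 2)) ≤ C := by
      refine le_trans ?_ hC
      rw [hM'c, mul_assoc, ← Real.exp_add]
      refine mul_le_mul_of_nonneg_left (Real.exp_le_exp.2 ?_) hM0.le
      nlinarith [mul_nonneg hκ (sq_nonneg D)]
    obtain ⟨P₀, hP₀, hb₀, he₀⟩ := ih (2 * R) (D / 2) (δ / 2) M' C μ ω (by linarith)
      (hμ.mono hMM' (by linarith)) hω hD1 hC'
    obtain ⟨P₁, hP₁, hb₁, -⟩ := ih (2 * R) (D / 2) (δ / 2) M' C ω ν (by linarith)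
      hω (hν.mono hMM' (by linarith)) hD2 hC'
    obtain ⟨P, hP, hm⟩ := glue_plans hμ.isP2 hω2 hν.isP2 hP₀ hP₁ hW1.le hW2.le
    refine ⟨P, hP, fun k hk => ?_, fun i hi => ?_⟩
    · have h2 : (0 : ℝ) < 2 ^ j := by positivity
      by_cases hk' : k ≤ 2 ^ j
      · have hk2 : (k : ℝ) ≤ 2 ^ j := by exact_mod_cast hk'
        have : (k : ℝ) / 2 ^ (j + 1) ≤ 1 / 2 := by
          rw [div_le_iff₀ (by positivity), pow_succ]; linarith
        rw [(hm _).1 this]
        have e : 2 * ((k : ℝ) / 2 ^ (j + 1)) = (k : ℝ) / 2 ^ j := by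
          rw [pow_succ]; field_simp
        rw [e]; exact hb₀ k hk'
      · obtain ⟨l, rfl⟩ : ∃ l, k = 2 ^ j + l := ⟨k - 2 ^ j, by omega⟩
        have hl : l ≤ 2 ^ j := by rw [pow_succ] at hk; omega
        have : 1 / 2 ≤ ((2 ^ j + l : ℕ) : ℝ) / 2 ^ (j + 1) := by
          rw [le_div_iff₀ (by positivity), pow_succ]; push_cast
          have : (0 : ℝ) ≤ l := Nat.cast_nonneg l
          linarith
        rw [(hm _).2 this]
        have e : 2 * (((2 ^ j + l : ℕ) : ℝ) / 2 ^ (j + 1)) - 1 = (l : ℝ) / 2 ^ j := by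
          rw [pow_succ]; push_cast; field_simp; ring
        rw [e]; exact hb₁ l hl
    · rcases i with _ | i
      · have := Wsq_nonneg μ ν
        simp only [pow_zero, hP.marg_eq.2]
        nlinarith [mul_nonneg hκ this]
      · have hp : (0 : ℝ) < (1 / 2) ^ i := by positivity
        have hp1 : ((1 : ℝ) / 2) ^ i ≤ 1 := pow_le_one₀ (by norm_num) (by norm_num)
        have : ((1 : ℝ) / 2) ^ (i + 1) ≤ 1 / 2 := by rw [pow_succ]; linarith
        rw [(hm _).1 this]
        have e : 2 * ((1 : ℝ) / 2) ^ (i + 1) = (1 / 2) ^ i := by rw [pow_succ]; ring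
        rw [e]
        refine (he₀ i (by omega)).trans ?_
        rw [hW1, pow_succ]
        nlinarith [mul_le_mul_of_nonneg_left hE hp.le]

end Crest.Agent.R242
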