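import Crest.Agent.R242.ADefs

/-!
# Row 242: the gluing lemma
-/

set_option autoImplicit false
set_option linter.unusedSectionVars false

open MeasureTheory Filter Set Topology
open scoped ENNReal NNReal
open Crest.GeometryTopology.SyntheticRicci

namespace Crest.Agent.R242

theorem exists_glue {α β γ : Type*} [MeasurableSpace α] [StandardBorelSpace α]
    [MeasurableSpace β] [StandardBorelSpace β] [MeasurableSpace γ] [StandardBorelSpace γ]
    (P : Measure α) (Q : Measure β) [IsProbabilityMeasure P] [IsProbabilityMeasure Q]
    {f : α → γ} {g : β → γ} (hf : Measurable f) (hg : Measurable g) (h : P.map f = Q.map g) :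
    ∃ Θ : Measure (α × β), IsProbabilityMeasure Θ ∧ Θ.map Prod.fst = P ∧ Θ.map Prod.snd = Q ∧
      ∀ᵐ p ∂Θ, f p.1 = g p.2 := by
  have : Nonempty β := Q.nonempty_of_neZero
  have hgm : Measurable fun b => (g b, b) := hg.prodMk measurable_id
  have hfm : Measurable fun p : α × β => (f p.1, p.2) :=
    (hf.comp measurable_fst).prodMk measurable_snd
  let ρ : Measure (γ × β) := Q.map fun b => (g b, b)
  have : IsProbabilityMeasure ρ := Measure.isProbabilityMeasure_map hgm.aemeasurable
  have h1 : ρ.fst = P.map f := by
    rw [h, Measure.fst, Measure.map_map measurable_fst hgm]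
    rfl
  have h2 : (P.compProd (ρ.condKernel.comap f hf)).map (fun p => (f p.1, p.2)) = ρ := by
    ext s hs
    rw [Measure.map_apply hfm hs, Measure.compProd_apply (hfm hs)]
    conv_rhs => rw [← ρ.disintegrate ρ.condKernel, Measure.compProd_apply hs, h1,
      lintegral_map (ProbabilityTheory.Kernel.measurable_kernel_prodMk_left hs) hf]
    rfl
  refine ⟨P.compProd (ρ.condKernel.comap f hf), inferInstance, Measure.fst_compProd _ _, ?_, ?_⟩
  · have h3 := congrArg (Measure.map Prod.snd) h2
    rw [Measure.map_map measurable_snd hfm, Measure.map_map measurable_snd hgm] at h3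
    exact h3.trans Measure.map_id
  · have h3 : ∀ᵐ q ∂ρ, q.1 = g q.2 :=
      (ae_map_iff hgm.aemeasurable
        (measurableSet_eq_fun measurable_fst (hg.comp measurable_snd))).2
        (Eventually.of_forall fun _ => rfl)
    rw [← h2] at h3
    exact ae_of_ae_map hfm.aemeasurable h3

section curves

variable {X : Type*} [MetricSpace X]

instance instMetrizableUCurve : TopologicalSpace.MetrizableSpace (UCurve X) :=
  isEmbedding_toMap.metrizableSpace

instance instPolishUCurve [ProperSpace X] : PolishSpace (UCurve X) :=
  inferInstance

instance instStandardBorelUCurve [ProperSpace X] : StandardBorelSpace (UCurve X) :=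
  inferInstance

end curves

end Crest.Agent.R242
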