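import Crest.Agent.R242.OTBasic

/-! Row 242: triangle inequality, convexity and continuity of the Wasserstein cost. -/

set_option autoImplicit false
set_option linter.unusedSectionVars false

open MeasureTheory Filter Set Topology
open scoped ENNReal NNReal
open Crest.GeometryTopology.SyntheticRicci

namespace Crest.Agent.R242

variable {X : Type*} [MetricSpace X] [ProperSpace X] [MeasurableSpace X] [BorelSpace X]
  {m : Measure X} [IsLocallyFiniteMeasure m] [m.IsOpenPosMeasure]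

theorem WT_meas : Measurable fun p : X × X => dist p.1 p.2 ^ 2 := by fun_prop

theorem WT_coupling {Ω : Type*} [MeasurableSpace Ω] (Q : Measure Ω) {f g : Ω → X}
    (hf : Measurable f) (hg : Measurable g) :
    IsCouplingOf (Q.map fun w => (f w, g w)) (Q.map f) (Q.map g) :=
  ⟨Measure.map_map measurable_fst (hf.prodMk hg), Measure.map_map measurable_snd (hf.prodMk hg)⟩

theorem WT_le {Ω : Type*} [MeasurableSpace Ω] (Q : Measure Ω) {f g : Ω → X}
    (hf : Measurable f) (hg : Measurable g) (hμ : IsP2 (Q.map f)) (hν : IsP2 (Q.map g)) :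
    Wsq (Q.map f) (Q.map g) ≤ ∫ w, dist (f w) (g w) ^ 2 ∂Q :=
  (Wsq_le_of_coupling hμ hν (WT_coupling Q hf hg)).trans_eq
    (integral_map (hf.prodMk hg).aemeasurable WT_meas.aestronglyMeasurable)

open ProbabilityTheory in
theorem WT_glue (q q' : Measure (X × X)) [IsProbabilityMeasure q] [IsProbabilityMeasure q']
    (h : q.fst = q'.fst) : ∃ Q : Measure (X × X × X),
      Q.map (Prod.map id Prod.fst) = q ∧ Q.map (Prod.map id Prod.snd) = q' := by
  have : Nonempty X := (nonempty_of_isProbabilityMeasure q).map Prod.fst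
  refine ⟨q.fst ⊗ₘ (q.condKernel ×ₖ q'.condKernel), ?_, ?_⟩
  · rw [← Measure.compProd_map measurable_fst, ← Kernel.fst_eq, Kernel.fst_prod,
      Measure.disintegrate]
  · rw [← Measure.compProd_map measurable_snd, ← Kernel.snd_eq, Kernel.snd_prod, h,
      Measure.disintegrate]

theorem WT_real {A B C : ℝ} (hA : 0 ≤ A) (hB : 0 ≤ B)
    (h : ∀ s η : ℝ, 0 < s → 0 < η → C ≤ (1 + s) * (A + η) + (1 + s⁻¹) * (B + η)) :
    √C ≤ √A + √B := by
  have h1 : ∀ s : ℝ, 0 < s → C ≤ (1 + s) * A + (1 + s⁻¹) * B := fun s hs =>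
    le_of_forall_pos_le_add fun ε hε => (h s (ε / (2 + s + s⁻¹)) hs (by positivity)).trans_eq
      (by field_simp; ring)
  have a0 := Real.sqrt_nonneg A
  have b0 := Real.sqrt_nonneg B
  rw [← Real.sq_sqrt hA, ← Real.sq_sqrt hB] at h1
  generalize √A = a at *
  generalize √B = b at *
  refine le_of_forall_pos_le_add fun ε hε => Real.sqrt_le_iff.2 ⟨by positivity, ?_⟩
  have h2 := h1 ((b + ε) / (a + ε)) (by positivity)
  have h3 : (b + ε) / (a + ε) * a ^ 2 ≤ (b + ε) * a := by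
    rw [div_mul_eq_mul_div, div_le_iff₀ (by positivity)]
    nlinarith [mul_nonneg (mul_nonneg a0 hε.le) (add_nonneg b0 hε.le)]
  have h4 : (a + ε) / (b + ε) * b ^ 2 ≤ (a + ε) * b := by
    rw [div_mul_eq_mul_div, div_le_iff₀ (by positivity)]
    nlinarith [mul_nonneg (mul_nonneg b0 hε.le) (add_nonneg a0 hε.le)]
  rw [inv_div] at h2
  nlinarith [mul_nonneg a0 hε.le, mul_nonneg b0 hε.le]

theorem Wsq_triangle {μ ν ω : Measure X} (hμ : IsP2 μ) (hν : IsP2 ν) (hω : IsP2 ω) :
    √(Wsq μ ω) ≤ √(Wsq μ ν) + √(Wsq ν ω) := by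
  rw [Wsq_comm μ ν]
  refine WT_real (Wsq_nonneg _ _) (Wsq_nonneg _ _) fun s η hs hη => ?_
  obtain ⟨q, q1, q2⟩ := exists_coupling_lt hν hμ hη
  obtain ⟨q', q1', q2'⟩ := exists_coupling_lt hν hω hη
  have := hν.1
  have := IsCouplingOf.isProb q1
  have := IsCouplingOf.isProb q1'
  obtain ⟨Q, rfl, rfl⟩ := WT_glue q q' (q1.1.trans q1'.1.symm)
  have m1 : Measurable (Prod.map id Prod.fst : X × X × X → X × X) := by fun_prop
  have m2 : Measurable (Prod.map id Prod.snd : X × X × X → X × X) := by fun_prop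
  have i1 := (integrable_map_measure WT_meas.aestronglyMeasurable m1.aemeasurable).1
    (integrable_sq_of_coupling hν hμ q1)
  have i2 := (integrable_map_measure WT_meas.aestronglyMeasurable m2.aemeasurable).1
    (integrable_sq_of_coupling hν hω q1')
  rw [integral_map m1.aemeasurable WT_meas.aestronglyMeasurable] at q2
  rw [integral_map m2.aemeasurable WT_meas.aestronglyMeasurable] at q2'
  obtain rfl : Q.map (fun p => p.2.1) = μ := (Measure.map_map measurable_snd m1).symm.trans q1.2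
  obtain rfl : Q.map (fun p => p.2.2) = ω := (Measure.map_map measurable_snd m2).symm.trans q1'.2
  refine (WT_le Q (by fun_prop) (by fun_prop) hμ hω).trans ((integral_mono_of_nonneg
    (Eventually.of_forall fun _ => sq_nonneg _) ((i1.const_mul (1 + s)).add
    (i2.const_mul (1 + s⁻¹))) (Eventually.of_forall fun p => ?_)).trans ?_)
  · have h1 := pow_le_pow_left₀ dist_nonneg (dist_triangle_left p.2.1 p.2.2 p.1) 2
    have h2 := mul_nonneg (inv_pos.2 hs).le (sq_nonneg (s * dist p.1 p.2.1 - dist p.1 p.2.2))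
    have h3 : s⁻¹ * (s * dist p.1 p.2.1 - dist p.1 p.2.2) ^ 2 = s * dist p.1 p.2.1 ^ 2 -
        2 * dist p.1 p.2.1 * dist p.1 p.2.2 + s⁻¹ * dist p.1 p.2.2 ^ 2 := by field_simp; ring
    change dist p.2.1 p.2.2 ^ 2 ≤ (1 + s) * dist p.1 p.2.1 ^ 2 + (1 + s⁻¹) * dist p.1 p.2.2 ^ 2
    linarith
  · rw [integral_add' (i1.const_mul _) (i2.const_mul _), integral_const_mul, integral_const_mul]
    exact add_le_add (mul_le_mul_of_nonneg_left q2 (by positivity))
      (mul_le_mul_of_nonneg_left q2' (by positivity))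

theorem WT_dm_add {a b : X → ℝ} (ha : Measurable a) (a0 : ∀ x, 0 ≤ a x) (b0 : ∀ x, 0 ≤ b x) :
    (dm m fun x => a x + b x) = dm m a + dm m b := by
  rw [dm, dm, dm, ← withDensity_add_left ha.ennreal_ofReal]
  exact congrArg _ (funext fun x => ENNReal.ofReal_add (a0 x) (b0 x))

theorem WT_dm_smul (a : X → ℝ) {t : ℝ} (ht : 0 ≤ t) :
    (dm m fun x => t * a x) = ENNReal.ofReal t • dm m a := by
  rw [dm, dm, ← withDensity_smul' _ _ ENNReal.ofReal_ne_top]
  exact congrArg _ (funext fun x => ENNReal.ofReal_mul ht)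

theorem WT_inv_smul (ν : Measure X) [IsFiniteMeasure ν] : (ν univ)⁻¹ • ν univ • ν = ν := by
  rcases eq_or_ne ν 0 with rfl | h
  · simp
  · rw [smul_smul, ENNReal.inv_mul_cancel (by simpa using h) (measure_ne_top _ _), one_smul]

theorem Wsq_dm_le {ρ η : X → ℝ} (hρ : NiceD m ρ) (hη : NiceD m η) (o : X) :
    Wsq (dm m ρ) (dm m η) ≤ 2 * ∫ x, dist x o ^ 2 * |ρ x - η x| ∂m := by
  have ma := hρ.meas.min hη.meas
  have a0 : ∀ x, 0 ≤ min (ρ x) (η x) := fun x => le_min (hρ.nonneg x) (hη.nonneg x)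
  have p0 : ∀ x, 0 ≤ ρ x - min (ρ x) (η x) := fun x => sub_nonneg.2 (min_le_left _ _)
  have n0 : ∀ x, 0 ≤ η x - min (ρ x) (η x) := fun x => sub_nonneg.2 (min_le_right _ _)
  have e1 := WT_dm_add (m := m) ma a0 p0
  have e2 := WT_dm_add (m := m) ma a0 n0
  simp only [add_sub_cancel] at e1 e2
  have j1 := integral_dm (m := m) (hρ.meas.sub ma) p0 fun x => dist x o ^ 2
  have j2 := integral_dm (m := m) (hη.meas.sub ma) n0 fun x => dist x o ^ 2
  have k1 := integrable_dm_iff (m := m) (hρ.meas.sub ma) p0 fun x => dist x o ^ 2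
  have k2 := integrable_dm_iff (m := m) (hη.meas.sub ma) n0 fun x => dist x o ^ 2
  have hμ := hρ.isP2
  have hν := hη.isP2
  change dm m ρ = _ at e1
  change dm m η = _ at e2
  rw [e1] at hμ ⊢
  rw [e2] at hν ⊢
  generalize (dm m fun x => min (ρ x) (η x)) = α at *
  generalize (dm m fun x => ρ x - min (ρ x) (η x)) = β at *
  generalize (dm m fun x => η x - min (ρ x) (η x)) = γ at *
  have := hμ.1
  have := hν.1
  have := isFiniteMeasure_of_le (α + β) (Measure.le_add_right (le_refl α))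
  have := isFiniteMeasure_of_le (α + β) (Measure.le_add_left (le_refl β))
  have := isFiniteMeasure_of_le (α + γ) (Measure.le_add_left (le_refl γ))
  have hc : β univ = γ univ := (ENNReal.add_right_inj (measure_ne_top α univ)).1
    ((measure_univ (μ := α + β)).trans (measure_univ (μ := α + γ)).symm)
  have i1 := (hμ.integrable_sq o).mono_measure (Measure.le_add_left (le_refl β))
  have i2 := (hν.integrable_sq o).mono_measure (Measure.le_add_left (le_refl γ))
  have c1 := WT_coupling α measurable_id measurable_id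
  have c2 : IsCouplingOf ((β univ)⁻¹ • β.prod γ) β γ :=
    ⟨by rw [Measure.map_smul, Measure.map_fst_prod, ← hc, WT_inv_smul],
      by rw [Measure.map_smul, Measure.map_snd_prod, hc, WT_inv_smul]⟩
  generalize (β univ)⁻¹ • β.prod γ = q at c2
  have c3 : IsCouplingOf (α.map (fun w => (id w, id w)) + q) (α + β) (α + γ) :=
    ⟨by rw [Measure.map_add _ _ measurable_fst, c1.1, c2.1, Measure.map_id],
      by rw [Measure.map_add _ _ measurable_snd, c1.2, c2.2, Measure.map_id]⟩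
  obtain ⟨i3, i4⟩ := integrable_add_measure.1 (integrable_sq_of_coupling hμ hν c3)
  have md : AEStronglyMeasurable (fun x => dist x o ^ 2) (q.map Prod.fst) := c2.1 ▸ i1.1
  have md' : AEStronglyMeasurable (fun x => dist x o ^ 2) (q.map Prod.snd) := c2.2 ▸ i2.1
  have i5 := (integrable_map_measure md measurable_fst.aemeasurable).1 (c2.1 ▸ i1)
  have i6 := (integrable_map_measure md' measurable_snd.aemeasurable).1 (c2.2 ▸ i2)
  have j3 := integral_map measurable_fst.aemeasurable md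
  have j4 := integral_map measurable_snd.aemeasurable md'
  rw [c2.1, j1] at j3
  rw [c2.2, j2] at j4
  have j5 : ∫ x, dist x o ^ 2 * |ρ x - η x| ∂m = ∫ p, (dist p.1 o ^ 2 + dist p.2 o ^ 2) ∂q := by
    refine Eq.trans ?_ (integral_add i5 i6).symm
    refine Eq.trans ?_ ((integral_add (k1.1 i1) (k2.1 i2)).trans (congrArg₂ _ j3 j4))
    refine integral_congr_ae (Eventually.of_forall fun x => ?_)
    simp only [← max_sub_min_eq_abs', ← add_mul, mul_comm (dist x o ^ 2), Pi.sub_apply]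
    congr 1
    linarith [min_add_max (ρ x) (η x)]
  refine (Wsq_le_of_coupling hμ hν c3).trans ?_
  rw [integral_add_measure i3 i4, integral_map (by fun_prop) WT_meas.aestronglyMeasurable, j5,
    ← integral_const_mul]
  simp only [id, dist_self, ne_eq, OfNat.ofNat_ne_zero, not_false_eq_true, zero_pow, integral_zero,
    zero_add]
  refine integral_mono i4 ((i5.add i6).const_mul 2) fun p => ?_
  have h1 := pow_le_pow_left₀ dist_nonneg (dist_triangle_right p.1 p.2 o) 2
  nlinarith [sq_nonneg (dist p.1 o - dist p.2 o)]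

theorem Wsq_mix {ρ η ρ' η' : X → ℝ} (hρ : NiceD m ρ) (hη : NiceD m η) (hρ' : NiceD m ρ')
    (hη' : NiceD m η') {t : ℝ} (h0 : 0 ≤ t) (h1 : t ≤ 1) :
    Wsq (dm m fun x => t * ρ x + (1 - t) * ρ' x) (dm m fun x => t * η x + (1 - t) * η' x) ≤
      t * Wsq (dm m ρ) (dm m η) + (1 - t) * Wsq (dm m ρ') (dm m η') := by
  have h2 := sub_nonneg.2 h1
  have e : ∀ {ρ ρ' : X → ℝ}, NiceD m ρ → NiceD m ρ' →
      (dm m fun x => t * ρ x + (1 - t) * ρ' x) =
        ENNReal.ofReal t • dm m ρ + ENNReal.ofReal (1 - t) • dm m ρ' := fun h h' => by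
    rw [WT_dm_add (h.meas.const_mul t) (fun x => mul_nonneg h0 (h.nonneg x))
      fun x => mul_nonneg h2 (h'.nonneg x), WT_dm_smul _ h0, WT_dm_smul _ h2]
  refine le_of_forall_pos_le_add fun ε hε => ?_
  obtain ⟨q, q1, q2⟩ := exists_coupling_lt hρ.isP2 hη.isP2 hε
  obtain ⟨q', q1', q2'⟩ := exists_coupling_lt hρ'.isP2 hη'.isP2 hε
  refine (Wsq_le_of_coupling (q := ENNReal.ofReal t • q + ENNReal.ofReal (1 - t) • q')
    (hρ.mix hρ' h0 h1).isP2 (hη.mix hη' h0 h1).isP2 ⟨?_, ?_⟩).trans ?_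
  · rw [Measure.map_add _ _ measurable_fst, Measure.map_smul, Measure.map_smul, q1.1, q1'.1,
      e hρ hρ']
  · rw [Measure.map_add _ _ measurable_snd, Measure.map_smul, Measure.map_smul, q1.2, q1'.2,
      e hη hη']
  rw [integral_add_measure
    ((integrable_sq_of_coupling hρ.isP2 hη.isP2 q1).smul_measure ENNReal.ofReal_ne_top)
    ((integrable_sq_of_coupling hρ'.isP2 hη'.isP2 q1').smul_measure ENNReal.ofReal_ne_top),
    integral_smul_measure, integral_smul_measure, ENNReal.toReal_ofReal h0,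
    ENNReal.toReal_ofReal h2, smul_eq_mul, smul_eq_mul]
  linarith [mul_le_mul_of_nonneg_left q2 h0, mul_le_mul_of_nonneg_left q2' h2]

theorem tendsto_Wsq {μ ν : ℕ → Measure X} {μ' ν' : Measure X} (hμ : ∀ n, IsP2 (μ n))
    (hν : ∀ n, IsP2 (ν n)) (hμ' : IsP2 μ') (hν' : IsP2 ν')
    (h₁ : Tendsto (fun n => Wsq (μ n) μ') atTop (𝓝 0))
    (h₂ : Tendsto (fun n => Wsq (ν n) ν') atTop (𝓝 0)) :
    Tendsto (fun n => Wsq (μ n) (ν n)) atTop (𝓝 (Wsq μ' ν')) := by
  have h3 := h₁.sqrt.add h₂.sqrt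
  rw [Real.sqrt_zero, add_zero] at h3
  have h4 : Tendsto (fun n => √(Wsq (μ n) (ν n))) atTop (𝓝 √(Wsq μ' ν')) := by
    refine tendsto_iff_norm_sub_tendsto_zero.2 (squeeze_zero (fun _ => norm_nonneg _)
      (fun n => abs_le.2 ⟨?_, ?_⟩) h3)
    · linarith [Wsq_triangle hμ' (hμ n) hν', Wsq_triangle (hμ n) (hν n) hν',
        congrArg Real.sqrt (Wsq_comm μ' (μ n))]
    · linarith [Wsq_triangle (hμ n) hμ' (hν n), Wsq_triangle hμ' hν' (hν n),
        congrArg Real.sqrt (Wsq_comm ν' (ν n))]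
  simpa only [Real.sq_sqrt (Wsq_nonneg _ _)] using h4.pow 2

theorem Wsq_self {μ : Measure X} (hμ : IsP2 μ) : Wsq μ μ = 0 := by
  have h := WT_le μ measurable_id measurable_id (Measure.map_id.symm ▸ hμ)
    (Measure.map_id.symm ▸ hμ)
  exact le_antisymm (by simpa using h) (Wsq_nonneg _ _)

/-- Every piece of an optimal geodesic plan is optimal. -/
theorem IsOptPlan.restr {P : Measure (UCurve X)} {μ ν : Measure X} (hP : IsOptPlan P μ ν)
    (hμ : IsP2 μ) (hν : IsP2 ν) {a b : ℝ} (ha : a ∈ Icc (0 : ℝ) 1) (hb : b ∈ Icc (0 : ℝ) 1) :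
    IsP2 (marg P a) ∧ IsOptPlan (P.map (restr a b)) (marg P a) (marg P b) := by
  have := hP.1
  obtain ⟨il, hW⟩ := hP.Wsq_eq hμ hν
  obtain ⟨rfl, rfl⟩ := hP.marg_eq
  have me : ∀ t, Measurable fun γ : UCurve X => γ.ext t := fun t =>
    (continuous_ext_left t).measurable
  have h0 : (0 : ℝ) ∈ Icc (0 : ℝ) 1 := ⟨le_rfl, zero_le_one⟩
  have h1 : (1 : ℝ) ∈ Icc (0 : ℝ) 1 := ⟨zero_le_one, le_rfl⟩
  have p2 : ∀ a ∈ Icc (0 : ℝ) 1, IsP2 (marg P a) := fun a ha => by
    obtain ⟨o, -⟩ := hμ.2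
    have md : Measurable fun x => dist x o ^ 2 := by fun_prop
    have i0 := (integrable_map_measure md.aestronglyMeasurable (me 0).aemeasurable).1
      (hμ.integrable_sq o)
    have i1 : Integrable (fun x => dist x o ^ 2) (marg P a) := by
      refine (integrable_map_measure md.aestronglyMeasurable (me a).aemeasurable).2
        (((i0.add il).const_mul 2).mono' (md.comp (me a)).aestronglyMeasurable
        (hP.2.1.mono fun γ hγ => ?_))
      have h2 := pow_le_pow_left₀ dist_nonneg (dist_triangle (γ.ext a) (γ.ext 0) o) 2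
      have h3 : dist (γ.ext a) (γ.ext 0) ^ 2 ≤ len γ ^ 2 := by
        rw [geo_dist_ext hγ ha h0, sub_zero, abs_of_nonneg ha.1, mul_pow]
        exact mul_le_of_le_one_left (sq_nonneg _) (pow_le_one₀ ha.1 ha.2)
      change ‖dist (γ.ext a) o ^ 2‖ ≤ 2 * (dist (γ.ext 0) o ^ 2 + len γ ^ 2)
      rw [Real.norm_of_nonneg (sq_nonneg _)]
      nlinarith [sq_nonneg (dist (γ.ext a) (γ.ext 0) - dist (γ.ext 0) o)]
    refine ⟨Measure.isProbabilityMeasure_map (me a).aemeasurable, o, ?_⟩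
    simpa only [edist_dist, ← ENNReal.ofReal_pow dist_nonneg] using i1.lintegral_lt_top
  have cost : ∀ a ∈ Icc (0 : ℝ) 1, ∀ b ∈ Icc (0 : ℝ) 1, ∫ γ, dist (γ.ext a) (γ.ext b) ^ 2 ∂P =
      (|a - b| * √(Wsq (marg P 0) (marg P 1))) ^ 2 := fun a ha b hb => by
    rw [mul_pow, Real.sq_sqrt (Wsq_nonneg _ _), hW, ← integral_const_mul]
    exact integral_congr_ae (hP.2.1.mono fun γ hγ => by simp only [geo_dist_ext hγ ha hb, mul_pow])
  have up : ∀ a ∈ Icc (0 : ℝ) 1, ∀ b ∈ Icc (0 : ℝ) 1, √(Wsq (marg P a) (marg P b)) ≤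
      |a - b| * √(Wsq (marg P 0) (marg P 1)) := fun a ha b hb =>
    Real.sqrt_le_iff.2 ⟨by positivity,
      (WT_le P (me a) (me b) (p2 a ha) (p2 b hb)).trans_eq (cost a ha b hb)⟩
  have lo : ∀ a ∈ Icc (0 : ℝ) 1, ∀ b ∈ Icc (0 : ℝ) 1, a ≤ b →
      |a - b| * √(Wsq (marg P 0) (marg P 1)) ≤ √(Wsq (marg P a) (marg P b)) :=
    fun a ha b hb hab => by
      have u1 := up 0 h0 a ha
      have u2 := up b hb 1 h1
      rw [abs_of_nonpos (by linarith [ha.1])] at u1
      rw [abs_of_nonpos (by linarith [hb.2])] at u2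
      rw [abs_of_nonpos (by linarith)]
      linarith [Wsq_triangle hμ (p2 a ha) hν, Wsq_triangle (p2 a ha) (p2 b hb) hν]
  have lo' : |a - b| * √(Wsq (marg P 0) (marg P 1)) ≤ √(Wsq (marg P a) (marg P b)) := by
    rcases le_total a b with h | h
    · exact lo a ha b hb h
    · rw [abs_sub_comm, Wsq_comm (marg P a)]
      exact lo b hb a ha h
  have mr := (continuous_restr (X := X) a b).measurable.aemeasurable (μ := P)
  refine ⟨p2 a ha, Measure.isProbabilityMeasure_map mr, (ae_map_iff mr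
    isClosed_geodesic.measurableSet).2 (hP.2.1.mono fun γ hγ => (geo_restr hγ ha hb).1), ?_⟩
  rw [endpointLaw_map_restr]
  refine isOpt_of_le (p2 a ha) (p2 b hb) (WT_coupling P (me a) (me b)) ?_
  rw [integral_map ((me a).prodMk (me b)).aemeasurable WT_meas.aestronglyMeasurable, cost a ha b hb]
  exact (Real.le_sqrt (by positivity) (Wsq_nonneg _ _)).1 lo'

end Crest.Agent.R242
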