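import Crest.Agent.R242.AGlue
import Crest.Agent.R242.WTriangle

/-!
# Row 242: midpoints: the equality case of the triangle inequality
-/

set_option autoImplicit false
set_option linter.unusedSectionVars false

open MeasureTheory Filter Set Topology
open scoped ENNReal NNReal
open Crest.GeometryTopology.SyntheticRicci

namespace Crest.Agent.R242

variable {X : Type*} [MetricSpace X] [ProperSpace X] [MeasurableSpace X] [BorelSpace X]
  {m : Measure X} [IsLocallyFiniteMeasure m] [m.IsOpenPosMeasure]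

/-- The equality case. -/
theorem glue_eq {Ω : Type*} [MeasurableSpace Ω] (Θ : Measure Ω) [IsProbabilityMeasure Θ]
    {x z y : Ω → X} (hx : Measurable x) (hz : Measurable z) (hy : Measurable y)
    (hμ : IsP2 (Θ.map x)) (hω : IsP2 (Θ.map z)) (hν : IsP2 (Θ.map y))
    (h₁ : ∫ w, dist (x w) (z w) ^ 2 ∂Θ ≤ Wsq (Θ.map x) (Θ.map y) / 4)
    (h₂ : ∫ w, dist (z w) (y w) ^ 2 ∂Θ ≤ Wsq (Θ.map x) (Θ.map y) / 4) :
    IsOptCouplingOf (Θ.map fun w => (x w, y w)) (Θ.map x) (Θ.map y) ∧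
      ∀ᵐ w ∂Θ, dist (x w) (z w) = dist (x w) (y w) / 2 ∧
        dist (z w) (y w) = dist (x w) (y w) / 2 := by
  have hc : ∀ {a b : Ω → X}, Measurable a → Measurable b →
      IsCouplingOf (Θ.map fun w => (a w, b w)) (Θ.map a) (Θ.map b) := by
    intro a b ha hb
    exact ⟨by rw [Measure.map_map measurable_fst (ha.prodMk hb)]; rfl,
      by rw [Measure.map_map measurable_snd (ha.prodMk hb)]; rfl⟩
  have hd : Continuous fun p : X × X => dist p.1 p.2 ^ 2 := by fun_prop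
  have hi : ∀ {a b : Ω → X}, Measurable a → Measurable b → IsP2 (Θ.map a) → IsP2 (Θ.map b) →
      Integrable (fun w => dist (a w) (b w) ^ 2) Θ := by
    intro a b ha hb h1 h2
    exact (integrable_map_measure hd.aestronglyMeasurable (ha.prodMk hb).aemeasurable).1
      (integrable_sq_of_coupling h1 h2 (hc ha hb))
  have hI : ∫ p, dist p.1 p.2 ^ 2 ∂(Θ.map fun w => (x w, y w)) =
      ∫ w, dist (x w) (y w) ^ 2 ∂Θ :=
    integral_map (hx.prodMk hy).aemeasurable hd.aestronglyMeasurable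
  have h0 := Wsq_le_of_coupling hμ hν (hc hx hy)
  rw [hI] at h0
  have ia := hi hx hz hμ hω
  have ib := hi hz hy hω hν
  have ic := hi hx hy hμ hν
  have hpt : ∀ w, 0 ≤ 2 * dist (x w) (z w) ^ 2 + 2 * dist (z w) (y w) ^ 2 -
      dist (x w) (y w) ^ 2 := by
    intro w
    have h1 := dist_triangle (x w) (z w) (y w)
    have h2 : dist (x w) (y w) ^ 2 ≤ (dist (x w) (z w) + dist (z w) (y w)) ^ 2 :=
      pow_le_pow_left₀ dist_nonneg h1 2
    nlinarith [sq_nonneg (dist (x w) (z w) - dist (z w) (y w))]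
  have iab : Integrable (fun w => 2 * dist (x w) (z w) ^ 2 + 2 * dist (z w) (y w) ^ 2) Θ :=
    (ia.const_mul 2).add (ib.const_mul 2)
  have hint : ∫ w, (2 * dist (x w) (z w) ^ 2 + 2 * dist (z w) (y w) ^ 2 -
      dist (x w) (y w) ^ 2) ∂Θ = 2 * ∫ w, dist (x w) (z w) ^ 2 ∂Θ +
        2 * ∫ w, dist (z w) (y w) ^ 2 ∂Θ - ∫ w, dist (x w) (y w) ^ 2 ∂Θ := by
    rw [integral_sub iab ic, integral_add (ia.const_mul 2) (ib.const_mul 2), integral_const_mul,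
      integral_const_mul]
  have hnn : 0 ≤ ∫ w, (2 * dist (x w) (z w) ^ 2 + 2 * dist (z w) (y w) ^ 2 -
      dist (x w) (y w) ^ 2) ∂Θ := integral_nonneg hpt
  refine ⟨isOpt_of_le hμ hν (hc hx hy) (by rw [hI]; linarith), ?_⟩
  have hz0 : ∫ w, (2 * dist (x w) (z w) ^ 2 + 2 * dist (z w) (y w) ^ 2 -
      dist (x w) (y w) ^ 2) ∂Θ = 0 := by linarith
  have := (integral_eq_zero_iff_of_nonneg hpt (iab.sub ic)).1 hz0
  filter_upwards [this] with w hw
  simp only [Pi.zero_apply] at hw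
  have h1 := dist_triangle (x w) (z w) (y w)
  set a := dist (x w) (z w)
  set b := dist (z w) (y w)
  set c := dist (x w) (y w)
  have ha : 0 ≤ a := dist_nonneg
  have hb : 0 ≤ b := dist_nonneg
  have hc0 : 0 ≤ c := dist_nonneg
  have h2 : c ^ 2 ≤ (a + b) ^ 2 := pow_le_pow_left₀ hc0 h1 2
  have hab : a = b := by
    have : (a - b) ^ 2 = 0 := by nlinarith [sq_nonneg (a - b)]
    linarith [pow_eq_zero_iff (two_ne_zero) |>.1 this]
  have h3 : c ^ 2 = (2 * a) ^ 2 := by rw [← hab] at hw; nlinarith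
  have h4 : c = 2 * a := (pow_left_inj₀ hc0 (by positivity) two_ne_zero).1 h3
  constructor <;> linarith

theorem IsOptPlan.Wsq_marg {P : Measure (UCurve X)} {μ ν : Measure X} (hP : IsOptPlan P μ ν)
    (hμ : IsP2 μ) (hν : IsP2 ν) {a b : ℝ} (ha : a ∈ Icc (0 : ℝ) 1) (hb : b ∈ Icc (0 : ℝ) 1) :
    Wsq (marg P a) (marg P b) = (b - a) ^ 2 * Wsq μ ν := by
  obtain ⟨h1, h2⟩ := hP.restr hμ hν ha hb
  obtain ⟨h3, -⟩ := hP.restr hμ hν hb ha
  have hc : Continuous fun γ : UCurve X => len γ ^ 2 := continuous_len.pow 2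
  rw [(h2.Wsq_eq h1 h3).2, (hP.Wsq_eq hμ hν).2, ← integral_const_mul,
    integral_map (continuous_restr a b).measurable.aemeasurable hc.aestronglyMeasurable]
  refine integral_congr_ae ?_
  filter_upwards [hP.2.1] with γ hγ
  rw [(geo_restr hγ ha hb).2, mul_pow, sq_abs]

theorem AHalf_aux {μ ω ν : Measure X} (hμ : IsP2 μ) (hω : IsP2 ω) (hν : IsP2 ν)
    (h₁ : Wsq μ ω ≤ Wsq μ ν / 4) (h₂ : Wsq ω ν ≤ Wsq μ ν / 4) {D : ℝ} (hD : LenLe μ ν D)
    {q₀ q₁ : Measure (X × X)} (h₀ : IsOptCouplingOf q₀ μ ω) (hq₁ : IsOptCouplingOf q₁ ω ν) :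
    (∀ᵐ p ∂q₀, dist p.1 p.2 ≤ D / 2) ∧ ∀ᵐ p ∂q₁, dist p.1 p.2 ≤ D / 2 := by
  have := hμ.1
  have := hω.1
  have : IsProbabilityMeasure q₀ := IsCouplingOf.isProb h₀.1
  have : IsProbabilityMeasure q₁ := IsCouplingOf.isProb hq₁.1
  obtain ⟨Θ, hΘ, e1, e2, hae⟩ := exists_glue q₀ q₁ (f := Prod.snd) (g := Prod.fst) measurable_snd
    measurable_fst (h₀.1.2.trans hq₁.1.1.symm)
  have mx : Measurable fun p : (X × X) × X × X => p.1.1 := by fun_prop
  have mz : Measurable fun p : (X × X) × X × X => p.1.2 := by fun_prop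
  have my : Measurable fun p : (X × X) × X × X => p.2.2 := by fun_prop
  have ex : Θ.map (fun p => p.1.1) = μ := by
    rw [← h₀.1.1, ← e1, Measure.map_map measurable_fst measurable_fst]; rfl
  have ez : Θ.map (fun p => p.1.2) = ω := by
    rw [← h₀.1.2, ← e1, Measure.map_map measurable_snd measurable_fst]; rfl
  have ey : Θ.map (fun p => p.2.2) = ν := by
    rw [← hq₁.1.2, ← e2, Measure.map_map measurable_snd measurable_snd]; rfl
  have hd : Continuous fun p : X × X => dist p.1 p.2 ^ 2 := by fun_prop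
  have i1 : ∫ p, dist p.1.1 p.1.2 ^ 2 ∂Θ = Wsq μ ω := by
    rw [Wsq_eq_of_opt hμ hω h₀, ← e1,
      integral_map measurable_fst.aemeasurable hd.aestronglyMeasurable]
  have i2 : ∫ p, dist p.1.2 p.2.2 ^ 2 ∂Θ = Wsq ω ν := by
    rw [Wsq_eq_of_opt hω hν hq₁, ← e2,
      integral_map measurable_snd.aemeasurable hd.aestronglyMeasurable]
    refine integral_congr_ae ?_
    filter_upwards [hae] with p hp
    rw [hp]
  obtain ⟨hopt, hm⟩ := glue_eq Θ mx mz my (ex ▸ hμ) (ez ▸ hω) (ey ▸ hν)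
    (by rw [i1, ex, ey]; exact h₁) (by rw [i2, ex, ey]; exact h₂)
  rw [ex, ey] at hopt
  have hl := ae_of_ae_map (mx.prodMk my).aemeasurable (hD _ hopt)
  have hs : MeasurableSet {p : X × X | dist p.1 p.2 ≤ D / 2} :=
    (isClosed_le (by fun_prop) continuous_const).measurableSet
  constructor
  · rw [← e1, ae_map_iff measurable_fst.aemeasurable hs]
    filter_upwards [hl, hm] with p h1 h2
    linarith [h2.1]
  · rw [← e2, ae_map_iff measurable_snd.aemeasurable hs]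
    filter_upwards [hl, hm, hae] with p h1 h2 h3
    rw [← h3]
    linarith [h2.2]

theorem lenLe_half_left {μ ω ν : Measure X} (hμ : IsP2 μ) (hω : IsP2 ω) (hν : IsP2 ν)
    (h₁ : Wsq μ ω ≤ Wsq μ ν / 4) (h₂ : Wsq ω ν ≤ Wsq μ ν / 4)
    (hq : ∃ q, IsOptCouplingOf q ω ν) {D : ℝ} (hD : LenLe μ ν D) : LenLe μ ω (D / 2) := by
  obtain ⟨q₁, hq₁⟩ := hq
  exact fun q₀ h₀ => (AHalf_aux hμ hω hν h₁ h₂ hD h₀ hq₁).1

theorem lenLe_half_right {μ ω ν : Measure X} (hμ : IsP2 μ) (hω : IsP2 ω) (hν : IsP2 ν)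
    (h₁ : Wsq μ ω ≤ Wsq μ ν / 4) (h₂ : Wsq ω ν ≤ Wsq μ ν / 4)
    (hq : ∃ q, IsOptCouplingOf q μ ω) {D : ℝ} (hD : LenLe μ ν D) : LenLe ω ν (D / 2) := by
  obtain ⟨q₀, h₀⟩ := hq
  exact fun q₁ hq₁ => (AHalf_aux hμ hω hν h₁ h₂ hD h₀ hq₁).2

theorem IsOptPlan.half {P : Measure (UCurve X)} {μ ν : Measure X} (hP : IsOptPlan P μ ν)
    (hμ : IsP2 μ) (hν : IsP2 ν) {D : ℝ} (hD : LenLe μ ν D) :
    IsP2 (marg P (1 / 2)) ∧ Wsq μ (marg P (1 / 2)) = Wsq μ ν / 4 ∧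
      Wsq (marg P (1 / 2)) ν = Wsq μ ν / 4 ∧ LenLe μ (marg P (1 / 2)) (D / 2) ∧
      LenLe (marg P (1 / 2)) ν (D / 2) := by
  have h0 : (0 : ℝ) ∈ Icc (0 : ℝ) 1 := ⟨le_rfl, zero_le_one⟩
  have h1 : (1 : ℝ) ∈ Icc (0 : ℝ) 1 := ⟨zero_le_one, le_rfl⟩
  have hh : (1 / 2 : ℝ) ∈ Icc (0 : ℝ) 1 := ⟨by norm_num, by norm_num⟩
  obtain ⟨hω, hr⟩ := hP.restr hμ hν hh h1
  obtain ⟨-, hl⟩ := hP.restr hμ hν h0 hh
  have w1 := hP.Wsq_marg hμ hν h0 hh
  have w2 := hP.Wsq_marg hμ hν hh h1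
  rw [hP.marg_eq.1] at w1 hl
  rw [hP.marg_eq.2] at w2 hr
  have e1 : Wsq μ (marg P (1 / 2)) = Wsq μ ν / 4 := by rw [w1]; ring
  have e2 : Wsq (marg P (1 / 2)) ν = Wsq μ ν / 4 := by rw [w2]; ring
  exact ⟨hω, e1, e2, lenLe_half_left hμ hω hν e1.le e2.le ⟨_, hr.2.2⟩ hD,
    lenLe_half_right hμ hω hν e1.le e2.le ⟨_, hl.2.2⟩ hD⟩

end Crest.Agent.R242
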