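import Crest.Agent.R242.AUsc

/-!
# Row 242: the perturbation in Rajala's argument
-/

set_option autoImplicit false
set_option linter.unusedSectionVars false

open MeasureTheory Filter Set Topology
open scoped ENNReal NNReal
open Crest.GeometryTopology.SyntheticRicci

namespace Crest.Agent.R242

variable {X : Type*} [MetricSpace X] [ProperSpace X] [MeasurableSpace X] [BorelSpace X]
  {m : Measure X} [IsLocallyFiniteMeasure m] [m.IsOpenPosMeasure]

namespace APertAux

theorem dens_smul (ν : Measure X) [IsFiniteMeasure ν] {c : ℝ≥0∞} (hc : c ≠ ∞) :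
    ∀ᵐ x ∂m, (c • ν).rnDeriv m x = c * ν.rnDeriv m x :=
  Measure.rnDeriv_smul_left_of_ne_top' ν m hc

/-- The density of the perturbed measure. -/
theorem dens (ν ν' : Measure X) [IsFiniteMeasure ν] [IsFiniteMeasure ν'] {A : Set X}
    (hA : MeasurableSet A) {c c' : ℝ≥0∞} (hc : c ≠ ∞) (hc' : c' ≠ ∞) :
    ∀ᵐ x ∂m, (x ∈ A → ((ν.restrict Aᶜ + c • ν.restrict A + c' • ν').rnDeriv m x).toReal =
        c.toReal * (ν.rnDeriv m x).toReal + c'.toReal * (ν'.rnDeriv m x).toReal) ∧
      (x ∉ A → ((ν.restrict Aᶜ + c • ν.restrict A + c' • ν').rnDeriv m x).toReal =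
        (ν.rnDeriv m x).toReal + c'.toReal * (ν'.rnDeriv m x).toReal) := by
  have := Measure.smul_finite (ν.restrict A) hc
  have := Measure.smul_finite ν' hc'
  filter_upwards [Measure.rnDeriv_add' (ν.restrict Aᶜ + c • ν.restrict A) (c' • ν') m,
    Measure.rnDeriv_add' (ν.restrict Aᶜ) (c • ν.restrict A) m, dens_smul (ν.restrict A) hc,
    dens_smul ν' hc', Measure.rnDeriv_restrict ν m hA, Measure.rnDeriv_restrict ν m hA.compl,
    Measure.rnDeriv_lt_top ν m, Measure.rnDeriv_lt_top ν' m] with x h1 h2 h3 h4 h5 h6 h7 h8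
  rw [h1, Pi.add_apply, h2, Pi.add_apply, h3, h4, h5, h6]
  constructor
  · intro hx
    rw [indicator_of_notMem (notMem_compl_iff.2 hx), indicator_of_mem hx, zero_add,
      ENNReal.toReal_add (ENNReal.mul_ne_top hc h7.ne) (ENNReal.mul_ne_top hc' h8.ne),
      ENNReal.toReal_mul, ENNReal.toReal_mul]
  · intro hx
    rw [indicator_of_mem (mem_compl hx), indicator_of_notMem hx, mul_zero, add_zero,
      ENNReal.toReal_add h7.ne (ENNReal.mul_ne_top hc' h8.ne), ENNReal.toReal_mul]

/-- The set from which mass is removed. -/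
theorem exists_set {lam : ℝ} (ν : Measure X) [IsFiniteMeasure ν]
    (hn : ¬ν ≤ ENNReal.ofReal lam • m) :
    ∃ A : Set X, MeasurableSet A ∧ ν A ≠ 0 ∧ (∀ x, x ∉ A → ν.rnDeriv m x < ENNReal.ofReal lam) ∧
      ∀ᵐ x ∂m, x ∈ A → ENNReal.ofReal lam ≤ ν.rnDeriv m x := by
  obtain ⟨s, hs, h1, h2⟩ := Measure.mutuallySingular_singularPart ν m
  have hA : MeasurableSet ({x | ENNReal.ofReal lam ≤ ν.rnDeriv m x} ∪ sᶜ) :=
    (measurableSet_le measurable_const (Measure.measurable_rnDeriv ν m)).union hs.compl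
  refine ⟨_, hA, fun h0 => hn (Measure.le_iff.2 fun B hB => ?_),
    fun x hx => not_le.1 fun h => hx (Or.inl h), ?_⟩
  · set A := {x | ENNReal.ofReal lam ≤ ν.rnDeriv m x} ∪ sᶜ
    have h3 : ν.singularPart m (B \ A) = 0 :=
      measure_mono_null (fun x hx => not_not.1 fun h => hx.2 (Or.inr h)) h1
    rw [← measure_sdiff_null (s := B) h0, Measure.haveLebesgueDecomposition_add ν m,
      Measure.add_apply, h3, zero_add, withDensity_apply _ (hB.diff hA), Measure.smul_apply,
      smul_eq_mul]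
    calc ∫⁻ x in B \ A, ν.rnDeriv m x ∂m ≤ ∫⁻ _ in B \ A, ENNReal.ofReal lam ∂m :=
          setLIntegral_mono' (hB.diff hA) fun x hx => (not_le.1 fun h => hx.2 (Or.inl h)).le
      _ ≤ ENNReal.ofReal lam * m B := by
          rw [setLIntegral_const]
          exact mul_le_mul_right (measure_mono sdiff_subset) _
  · filter_upwards [show ∀ᵐ x ∂m, x ∈ s from h2] with x hx h
    exact h.elim id fun h' => absurd hx h'

end APertAux

/-- If `ν` is not below `lam • m`, moving a small fraction of the mass of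
`A = {ρ ≥ lam} ∪ (singular set)` to a sufficiently spread measure increases `Psi`. -/
theorem perturb {V : ℝ → ℝ} {lam : ℝ} (hV : IsV V lam) {ν : Measure X} {o : X} {R : ℝ}
    (hν : PK (Metric.closedBall o R) ν) (hn : ¬ν ≤ ENNReal.ofReal lam • m) :
    ∃ A : Set X, MeasurableSet A ∧ ν A ≠ 0 ∧
      ∀ ν' : Measure X, PK (Metric.closedBall o R) ν' →
        ν A / ENNReal.ofReal lam < m {x | ν'.rnDeriv m x ≠ 0} →
        ∃ t : ℝ≥0∞, t ≤ 1 ∧
          Psi m V ν < Psi m V (ν.restrict Aᶜ + (1 - t) • ν.restrict A + (t * ν A) • ν') := by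
  have := hν.1
  obtain ⟨A, hA, hA0, hA1, hA2⟩ := APertAux.exists_set ν hn
  refine ⟨A, hA, hA0, fun ν' hν' hlt => ?_⟩
  have := hν'.1
  have hl0 : ENNReal.ofReal lam ≠ 0 := (ENNReal.ofReal_pos.2 hV.pos).ne'
  have hmA : m A ≤ ν A / ENNReal.ofReal lam := by
    rw [ENNReal.le_div_iff_mul_le (Or.inl hl0) (Or.inl ENNReal.ofReal_ne_top), mul_comm,
      ← setLIntegral_const]
    exact (lintegral_mono_ae ((ae_restrict_iff' hA).2 hA2)).trans
      (Measure.setLIntegral_rnDeriv_le A)
  have hmA' : m A ≠ ∞ := (hmA.trans_lt (ENNReal.div_lt_top (measure_ne_top ν A) hl0)).ne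
  have ha : 0 < (ν A).toReal := ENNReal.toReal_pos hA0 (measure_ne_top ν A)
  -- integrability of `V` of the perturbed densities
  have hint : ∀ c c' : ℝ≥0∞, c ≠ ∞ → c' ≠ ∞ → Integrable (fun x =>
      V ((ν.restrict Aᶜ + c • ν.restrict A + c' • ν').rnDeriv m x).toReal) m := by
    intro c c' hc hc'
    have := Measure.smul_finite (ν.restrict A) hc
    have := Measure.smul_finite ν' hc'
    refine psi_integrable hV (o := o) (R := R) ?_
    have h1 : ∀ B : Set X, ν.restrict B (Metric.closedBall o R)ᶜ = 0 := fun B =>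
      le_antisymm ((Measure.restrict_le_self _).trans hν.2.le) bot_le
    simp only [Measure.add_apply, Measure.smul_apply, h1, hν'.2, smul_zero, add_zero]
  have hi0 : Integrable (fun x => V (ν.rnDeriv m x).toReal) m := psi_integrable hV hν.2
  -- the gain
  set g : X → ℝ := Aᶜ.indicator fun x =>
    V ((ν.rnDeriv m x).toReal + (ν A).toReal * (ν'.rnDeriv m x).toReal) -
      V (ν.rnDeriv m x).toReal with hg
  have hgi : Integrable g m := by
    refine (((hint 0 (ν A) ENNReal.zero_ne_top (measure_ne_top ν A)).sub hi0).indicator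
      hA.compl).congr ?_
    filter_upwards [APertAux.dens (m := m) ν ν' hA ENNReal.zero_ne_top (measure_ne_top ν A)]
      with x hx
    by_cases h : x ∈ A
    · rw [hg, indicator_of_notMem (notMem_compl_iff.2 h), indicator_of_notMem (notMem_compl_iff.2 h)]
    · rw [hg, indicator_of_mem (mem_compl h), indicator_of_mem (mem_compl h), Pi.sub_apply, hx.2 h]
  have hg0 : ∀ x, 0 ≤ g x := fun x => indicator_nonneg (fun x _ => sub_nonneg.2
    (hV.monotoneOn ENNReal.toReal_nonneg (mem_Ici.2 (by positivity))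
      (le_add_of_nonneg_right (by positivity)))) x
  have hc : 0 < ∫ x, g x ∂m := by
    rw [integral_pos_iff_support_of_nonneg hg0 hgi, pos_iff_ne_zero]
    intro h0
    refine (hmA.trans_lt hlt).not_ge (measure_mono_ae ?_)
    filter_upwards [measure_eq_zero_iff_ae_notMem.1 h0, Measure.rnDeriv_lt_top ν' m] with x h1 h2 h3
    by_contra h
    have h4 : 0 < (ν'.rnDeriv m x).toReal := ENNReal.toReal_pos h3 h2.ne
    have h5 : (ν.rnDeriv m x).toReal < lam := ENNReal.toReal_lt_of_lt_ofReal (hA1 x h)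
    have h6 : 0 ≤ (ν.rnDeriv m x).toReal := ENNReal.toReal_nonneg
    have h7 := mul_pos ha h4
    refine h1 (ne_of_gt ?_)
    rw [hg, indicator_of_mem (mem_compl h), sub_pos]
    generalize (ν.rnDeriv m x).toReal = r at h5 h6 ⊢
    generalize (ν A).toReal * (ν'.rnDeriv m x).toReal = r' at h7 ⊢
    have h8 : r < min (r + r') lam := lt_min (by linarith) h5
    exact (hV.mono ⟨h6, h5.le⟩ ⟨h6.trans h8.le, min_le_right _ _⟩ h8).trans_le
      (hV.monotoneOn (h6.trans h8.le) (mem_Ici.2 (by linarith)) (min_le_left _ _))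
  obtain ⟨C, hC⟩ := hV.quad
  set c := ∫ x, g x ∂m
  set K := |C| * m.real A with hK
  have hK0 : 0 ≤ K := by positivity
  obtain ⟨s, hs0, hs1, hs⟩ : ∃ s : ℝ, 0 < s ∧ s ≤ 1 ∧ K * s < c := by
    refine ⟨c / (K + c + 1), by positivity, (div_le_one (by positivity)).2 (by linarith), ?_⟩
    rw [← mul_div_assoc, div_lt_iff₀ (by positivity)]
    nlinarith
  have ht : ENNReal.ofReal s ≤ 1 := ENNReal.ofReal_le_one.2 hs1
  have h1 : 1 - ENNReal.ofReal s ≠ ∞ := ENNReal.sub_ne_top ENNReal.one_ne_top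
  have h2 : ENNReal.ofReal s * ν A ≠ ∞ :=
    ENNReal.mul_ne_top ENNReal.ofReal_ne_top (measure_ne_top ν A)
  refine ⟨ENNReal.ofReal s, ht, ?_⟩
  have hj : Integrable (A.indicator fun _ => |C| * s ^ 2) m :=
    (integrableOn_const hmA').integrable_indicator hA
  have key : ∫ x, (V (ν.rnDeriv m x).toReal + s * g x - A.indicator (fun _ => |C| * s ^ 2) x) ∂m ≤
      Psi m V (ν.restrict Aᶜ + (1 - ENNReal.ofReal s) • ν.restrict A +
        (ENNReal.ofReal s * ν A) • ν') := by
    refine integral_mono_ae ((hi0.add (hgi.const_mul s)).sub hj) (hint _ _ h1 h2) ?_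
    filter_upwards [APertAux.dens (m := m) ν ν' hA h1 h2, hA2, Measure.rnDeriv_lt_top ν m]
      with x hx h3 h4
    have h5 : 0 ≤ (ν.rnDeriv m x).toReal := ENNReal.toReal_nonneg
    have h6 : 0 ≤ (ν A).toReal * (ν'.rnDeriv m x).toReal := by positivity
    by_cases h : x ∈ A
    · have h7 : lam ≤ (ν.rnDeriv m x).toReal := (ENNReal.ofReal_le_iff_le_toReal h4.ne).1 (h3 h)
      rw [hx.1 h, hg, indicator_of_notMem (notMem_compl_iff.2 h), indicator_of_mem h,
        ENNReal.toReal_sub_of_le ht ENNReal.one_ne_top, ENNReal.toReal_mul,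
        ENNReal.toReal_ofReal hs0.le, ENNReal.toReal_one, hV.const _ h7, mul_assoc]
      have h8 : (1 - s) * lam ≤ (1 - s) * (ν.rnDeriv m x).toReal :=
        mul_le_mul_of_nonneg_left h7 (by linarith)
      have h9 : 0 ≤ (1 - s) * lam := mul_nonneg (by linarith) hV.pos.le
      have h10 := mul_nonneg hs0.le h6
      have h11 := hV.monotoneOn h9 (mem_Ici.2 (by linarith)) (h8.trans (le_add_of_nonneg_right h10))
      have h12 := mul_le_mul_of_nonneg_right (le_abs_self C) (sq_nonneg s)
      linarith [hC s hs0.le hs1]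
    · rw [hx.2 h, hg, indicator_of_mem (mem_compl h), indicator_of_notMem h, ENNReal.toReal_mul,
        ENNReal.toReal_ofReal hs0.le, mul_assoc]
      generalize (ν.rnDeriv m x).toReal = r at h5 ⊢
      generalize (ν A).toReal * (ν'.rnDeriv m x).toReal = r' at h6 ⊢
      have h7 := hV.conc.2 (mem_Ici.2 h5) (mem_Ici.2 (add_nonneg h5 h6)) (sub_nonneg.2 hs1) hs0.le
        (sub_add_cancel 1 s)
      simp only [smul_eq_mul] at h7
      rw [show (1 - s) * r + s * (r + r') = r + s * r' by ring] at h7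
      linarith
  have hi1 : Integrable (fun x => V (ν.rnDeriv m x).toReal + s * g x) m :=
    hi0.add (hgi.const_mul s)
  rw [integral_sub hi1 hj, integral_add hi0 (hgi.const_mul s),
    integral_const_mul, integral_indicator_const _ hA, smul_eq_mul] at key
  refine lt_of_lt_of_le ?_ key
  have h3 := mul_lt_mul_of_pos_left hs hs0
  rw [hK] at h3
  unfold Psi
  linarith

end Crest.Agent.R242
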