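import Crest.Agent.R242.ADefs
import Crest.Agent.R242.OTBasic

/-!
# Row 242: conditioning optimal plans and re-routing a part of them
-/

set_option autoImplicit false
set_option linter.unusedSectionVars false

open MeasureTheory Filter Set Topology
open scoped ENNReal NNReal
open Crest.GeometryTopology.SyntheticRicci

namespace Crest.Agent.R242

variable {X : Type*} [MetricSpace X] [ProperSpace X] [MeasurableSpace X] [BorelSpace X]
  {m : Measure X} [IsLocallyFiniteMeasure m] [m.IsOpenPosMeasure]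

namespace APlanCondAux

theorem smul_cond {Y : Type*} [MeasurableSpace Y] (P : Measure Y) [IsFiniteMeasure P]
    (A : Set Y) : P A • ProbabilityTheory.cond P A = P.restrict A := by
  unfold ProbabilityTheory.cond
  by_cases h : P A = 0
  · rw [Measure.restrict_eq_zero.2 h, smul_zero, smul_zero]
  · rw [smul_smul, ENNReal.mul_inv_cancel h (measure_ne_top _ _), one_smul]

theorem split {Y : Type*} [MeasurableSpace Y] (P : Measure Y) [IsFiniteMeasure P]
    {A : Set Y} (hA : MeasurableSet A) :
    P = P.restrict Aᶜ + P A • ProbabilityTheory.cond P A := by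
  rw [smul_cond, add_comm, Measure.restrict_add_restrict_compl hA]

theorem el_add (P Q : Measure (UCurve X)) :
    endpointLaw (P + Q) = endpointLaw P + endpointLaw Q :=
  Measure.map_add _ _ OTBasic_meas

theorem el_smul (c : ℝ≥0∞) (P : Measure (UCurve X)) :
    endpointLaw (c • P) = c • endpointLaw P :=
  Measure.map_smul _ _ _

theorem marg_add (P Q : Measure (UCurve X)) (t : ℝ) :
    marg (P + Q) t = marg P t + marg Q t :=
  Measure.map_add _ _ (TestPlan_meas t)

theorem marg_smul (c : ℝ≥0∞) (P : Measure (UCurve X)) (t : ℝ) :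
    marg (c • P) t = c • marg P t :=
  Measure.map_smul _ _ _

theorem qc_add (q q' : Measure (X × X)) : quadCost (q + q') = quadCost q + quadCost q' :=
  lintegral_add_measure _ _ _

theorem qc_smul (c : ℝ≥0∞) (q : Measure (X × X)) : quadCost (c • q) = c * quadCost q :=
  lintegral_smul_measure _ _

theorem cpl_add {q q' : Measure (X × X)} {μ ν μ' ν' : Measure X} (h : IsCouplingOf q μ ν)
    (h' : IsCouplingOf q' μ' ν') : IsCouplingOf (q + q') (μ + μ') (ν + ν') :=
  ⟨by rw [Measure.map_add _ _ measurable_fst, h.1, h'.1],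
    by rw [Measure.map_add _ _ measurable_snd, h.2, h'.2]⟩

theorem cpl_smul {q : Measure (X × X)} {μ ν : Measure X} (h : IsCouplingOf q μ ν) (c : ℝ≥0∞) :
    IsCouplingOf (c • q) (c • μ) (c • ν) :=
  ⟨by rw [Measure.map_smul, h.1], by rw [Measure.map_smul, h.2]⟩

theorem marg_split (P : Measure (UCurve X)) [IsFiniteMeasure P] {A : Set (UCurve X)}
    (hA : MeasurableSet A) (t : ℝ) :
    marg P t = marg (P.restrict Aᶜ) t + P A • marg (ProbabilityTheory.cond P A) t := by
  rw [← marg_smul, ← marg_add, ← split P hA]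

theorem glue {P : Measure (UCurve X)} {μ ν : Measure X} (hP : IsOptPlan P μ ν)
    {A : Set (UCurve X)} (hA : MeasurableSet A) {q : Measure (X × X)}
    (hq : IsCouplingOf q (marg (ProbabilityTheory.cond P A) 0)
      (marg (ProbabilityTheory.cond P A) 1)) :
    IsCouplingOf (endpointLaw (P.restrict Aᶜ) + P A • q) μ ν := by
  have := hP.1
  have h := cpl_add (isCouplingOf_endpointLaw (P.restrict Aᶜ)) (cpl_smul hq (P A))
  rwa [← marg_split P hA, ← marg_split P hA, hP.marg_eq.1, hP.marg_eq.2] at h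

theorem cost_split (P : Measure (UCurve X)) [IsFiniteMeasure P] {A : Set (UCurve X)}
    (hA : MeasurableSet A) :
    quadCost (endpointLaw P) = quadCost (endpointLaw (P.restrict Aᶜ)) +
      P A * quadCost (endpointLaw (ProbabilityTheory.cond P A)) := by
  rw [← qc_smul, ← qc_add, ← el_smul, ← el_add, ← split P hA]

theorem p2 {P : Measure (UCurve X)} [IsProbabilityMeasure P] {A : Set (UCurve X)}
    (hA : MeasurableSet A) (h0 : P A ≠ 0) {t : ℝ} (h : IsP2 (marg P t)) :
    IsP2 (marg (ProbabilityTheory.cond P A) t) := by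
  have := ProbabilityTheory.cond_isProbabilityMeasure (μ := P) h0
  refine ⟨Measure.isProbabilityMeasure_map (TestPlan_meas t).aemeasurable, ?_⟩
  obtain ⟨o, ho⟩ := h.2
  refine ⟨o, ?_⟩
  rw [marg_split P hA, lintegral_add_measure, lintegral_smul_measure, ENNReal.add_lt_top] at ho
  by_contra h1
  have h2 := ho.2
  rw [not_lt, top_le_iff] at h1
  rw [h1, smul_eq_mul, ENNReal.mul_top h0] at h2
  exact lt_irrefl _ h2

theorem opt {P : Measure (UCurve X)} {μ ν : Measure X} (hP : IsOptPlan P μ ν)
    (hμ : IsP2 μ) (hν : IsP2 ν) {A : Set (UCurve X)} (hA : MeasurableSet A) (h0 : P A ≠ 0) :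
    IsOptCouplingOf (endpointLaw (ProbabilityTheory.cond P A))
      (marg (ProbabilityTheory.cond P A) 0) (marg (ProbabilityTheory.cond P A) 1) := by
  have := hP.1
  refine ⟨isCouplingOf_endpointLaw _, fun q hq => ?_⟩
  have h1 := hP.2.2.2 _ (glue hP hA hq)
  have h2 : quadCost (endpointLaw P) ≠ ⊤ := by
    rw [quadCost_eq (integrable_sq_of_coupling hμ hν hP.2.2.1)]
    exact ENNReal.ofReal_ne_top
  rw [cost_split P hA] at h1 h2
  rw [qc_add, qc_smul, ENNReal.add_le_add_iff_left (ENNReal.add_ne_top.1 h2).1] at h1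
  exact (ENNReal.mul_le_mul_iff_right h0 (measure_ne_top _ _)).1 h1

theorem glue_opt {P : Measure (UCurve X)} {μ ν : Measure X} (hP : IsOptPlan P μ ν)
    {A : Set (UCurve X)} (hA : MeasurableSet A) {q : Measure (X × X)}
    (hq : IsOptCouplingOf q (marg (ProbabilityTheory.cond P A) 0)
      (marg (ProbabilityTheory.cond P A) 1)) :
    IsOptCouplingOf (endpointLaw (P.restrict Aᶜ) + P A • q) μ ν := by
  have := hP.1
  refine ⟨glue hP hA hq.1, fun q' hq' => le_trans ?_ (hP.2.2.2 q' hq')⟩
  rw [cost_split P hA, qc_add, qc_smul]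
  have := hq.2 _ (isCouplingOf_endpointLaw _)
  gcongr

end APlanCondAux

open APlanCondAux

theorem smul_marg_cond_le {P : Measure (UCurve X)} [IsProbabilityMeasure P] (A : Set (UCurve X))
    (t : ℝ) : P A • marg (ProbabilityTheory.cond P A) t ≤ marg P t := by
  rw [← marg_smul, smul_cond]
  exact Measure.map_mono Measure.restrict_le_self (TestPlan_meas t)

theorem IsOptPlan.cond {P : Measure (UCurve X)} {μ ν : Measure X} (hP : IsOptPlan P μ ν)
    (hμ : IsP2 μ) (hν : IsP2 ν) {A : Set (UCurve X)} (hA : MeasurableSet A) (h0 : P A ≠ 0) :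
    IsP2 (marg (ProbabilityTheory.cond P A) 0) ∧ IsP2 (marg (ProbabilityTheory.cond P A) 1) ∧
      IsOptPlan (ProbabilityTheory.cond P A) (marg (ProbabilityTheory.cond P A) 0) (marg (ProbabilityTheory.cond P A) 1) := by
  have := hP.1
  exact ⟨p2 hA h0 (hP.marg_eq.1.symm ▸ hμ), p2 hA h0 (hP.marg_eq.2.symm ▸ hν),
    ProbabilityTheory.cond_isProbabilityMeasure h0,
    ProbabilityTheory.cond_absolutelyContinuous.ae_le hP.2.1, opt hP hμ hν hA h0⟩

theorem LenLe.cond {P : Measure (UCurve X)} {μ ν : Measure X} {D : ℝ} (hD : LenLe μ ν D)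
    (hP : IsOptPlan P μ ν) (hμ : IsP2 μ) (hν : IsP2 ν) {A : Set (UCurve X)}
    (hA : MeasurableSet A) (h0 : P A ≠ 0) :
    LenLe (marg (ProbabilityTheory.cond P A) 0) (marg (ProbabilityTheory.cond P A) 1) D := by
  intro q hq
  have h := hD _ (glue_opt hP hA hq)
  rw [ae_add_measure_iff] at h
  exact (Measure.ae_ennreal_smul_measure_iff h0).1 h.2

theorem IsOptPlan.replace {P Q : Measure (UCurve X)} {μ ν : Measure X} (hP : IsOptPlan P μ ν)
    (hμ : IsP2 μ) (hν : IsP2 ν) {A : Set (UCurve X)} (hA : MeasurableSet A) (h0 : P A ≠ 0)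
    (hQ : IsOptPlan Q (marg (ProbabilityTheory.cond P A) 0) (marg (ProbabilityTheory.cond P A) 1))
    {t : ℝ≥0∞} (ht : t ≤ 1) :
    IsOptPlan (P.restrict Aᶜ + (1 - t) • P.restrict A + (t * P A) • Q) μ ν := by
  have := hP.1
  have := hQ.1
  have ht' : 1 - t + t = 1 := tsub_add_cancel_of_le ht
  have hc := opt hP hμ hν hA h0
  have e1 : endpointLaw (P.restrict Aᶜ + (1 - t) • P.restrict A + (t * P A) • Q) =
      endpointLaw (P.restrict Aᶜ) + P A • ((1 - t) • endpointLaw (ProbabilityTheory.cond P A) +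
        t • endpointLaw Q) := by
    rw [el_add, el_add, ← smul_cond P A, el_smul, el_smul, el_smul, add_assoc, smul_add,
      smul_smul, smul_smul, smul_smul, mul_comm (1 - t), mul_comm t]
  refine ⟨⟨?_⟩, ?_, ?_⟩
  · simp only [Measure.add_apply, Measure.smul_apply, smul_eq_mul, Measure.restrict_apply_univ,
      measure_univ, mul_one]
    rw [add_assoc, ← add_mul, ht', one_mul, add_comm, prob_add_prob_compl hA]
  · rw [ae_add_measure_iff, ae_add_measure_iff]
    exact ⟨⟨ae_restrict_of_ae hP.2.1, Measure.ae_smul_measure (ae_restrict_of_ae hP.2.1) _⟩,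
      Measure.ae_smul_measure hQ.2.1 _⟩
  · rw [e1]
    refine glue_opt hP hA ⟨?_, fun q hq => ?_⟩
    · have h := cpl_add (cpl_smul hc.1 (1 - t)) (cpl_smul hQ.2.2.1 t)
      rwa [← add_smul, ← add_smul, ht', one_smul, one_smul] at h
    · rw [qc_add, qc_smul, qc_smul]
      have h1 := hc.2 q hq
      have h2 := hQ.2.2.2 q hq
      calc _ ≤ (1 - t) * quadCost q + t * quadCost q := by gcongr
        _ = _ := by rw [← add_mul, ht', one_mul]

theorem marg_replace (P Q : Measure (UCurve X)) {B : Set X} (hB : MeasurableSet B) (s : ℝ)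
    (a b : ℝ≥0∞) :
    marg (P.restrict ((fun γ : UCurve X => γ.ext s) ⁻¹' B)ᶜ +
        a • P.restrict ((fun γ : UCurve X => γ.ext s) ⁻¹' B) + b • Q) s =
      (marg P s).restrict Bᶜ + a • (marg P s).restrict B + b • marg Q s := by
  rw [marg_add, marg_add, marg_smul, marg_smul]
  unfold marg
  rw [Measure.restrict_map (TestPlan_meas s) hB, Measure.restrict_map (TestPlan_meas s) hB.compl,
    preimage_compl]

end Crest.Agent.R242
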