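import Crest.Agent.R242.AUsc
import Crest.Agent.R242.EntBasic

/-!
# Row 242: the entropy profile
-/

set_option autoImplicit false
set_option linter.unusedSectionVars false

open MeasureTheory Filter Set Topology
open scoped ENNReal NNReal
open Crest.GeometryTopology.SyntheticRicci

namespace Crest.Agent.R242

variable {X : Type*} [MetricSpace X] [ProperSpace X] [MeasurableSpace X] [BorelSpace X]
  {m : Measure X} [IsLocallyFiniteMeasure m] [m.IsOpenPosMeasure]

namespace AVentAux

theorem vent_eq (lam y : ℝ) :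
    Vent lam y = min y lam * (1 + Real.log lam) + Real.negMulLog (min y lam) := by
  unfold Vent
  split_ifs with h
  · rw [min_eq_left h, Real.negMulLog]; ring
  · rw [min_eq_right (not_le.mp h).le, Real.negMulLog]; ring

theorem mono {lam : ℝ} :
    StrictMonoOn (fun y => y * (1 + Real.log lam) + Real.negMulLog y) (Icc 0 lam) := by
  refine strictMonoOn_of_deriv_pos (convex_Icc _ _)
    ((continuous_id.mul continuous_const).add Real.continuous_negMulLog).continuousOn
    fun y hy => ?_
  rw [interior_Icc] at hy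
  have h1 : HasDerivAt (fun y => y * (1 + Real.log lam) + Real.negMulLog y)
      (1 * (1 + Real.log lam) + (-Real.log y - 1)) y :=
    ((hasDerivAt_id y).mul_const _).add (Real.hasDerivAt_negMulLog hy.1.ne')
  rw [h1.deriv]
  have := Real.log_lt_log hy.1 hy.2
  linarith

theorem conc {lam : ℝ} :
    ConcaveOn ℝ (Ici 0) (fun y => y * (1 + Real.log lam) + Real.negMulLog y) := by
  refine ConcaveOn.add ?_ Real.concaveOn_negMulLog
  refine ⟨convex_Ici _, fun x _ y _ a b _ _ _ => le_of_eq ?_⟩
  simp only [smul_eq_mul]; ring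

theorem vent_ge {lam y : ℝ} (hlam : 0 < lam) (hy : 0 ≤ y) :
    y * (1 + Real.log lam) - y * Real.log y ≤ Vent lam y := by
  unfold Vent
  split_ifs with h
  · exact le_rfl
  · have hy0 : 0 < y := hlam.trans (not_le.mp h)
    have h1 := Real.log_le_sub_one_of_pos (div_pos hlam hy0)
    rw [Real.log_div hlam.ne' hy0.ne'] at h1
    have h2 := mul_le_mul_of_nonneg_left h1 hy
    have h3 : y * (lam / y - 1) = lam - y := by field_simp
    linarith

theorem split {μ : Measure X} [IsProbabilityMeasure μ] (hac : μ ≪ m)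
    (hint : Integrable (fun x => Real.log (μ.rnDeriv m x).toReal) μ) (c : ℝ) :
    Integrable (fun x => (μ.rnDeriv m x).toReal * c -
      (μ.rnDeriv m x).toReal * Real.log (μ.rnDeriv m x).toReal) m ∧
    ∫ x, ((μ.rnDeriv m x).toReal * c -
      (μ.rnDeriv m x).toReal * Real.log (μ.rnDeriv m x).toReal) ∂m = c - Ent m μ := by
  have h1 : Integrable (fun x => (μ.rnDeriv m x).toReal * c) m :=
    Measure.integrable_toReal_rnDeriv.mul_const c
  have h2 := AUscAux.integrable_wd (m := m) hint
  refine ⟨h1.sub h2, ?_⟩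
  rw [integral_sub h1 h2, integral_mul_const, Measure.integral_toReal_rnDeriv hac,
    ← AUscAux.integral_wd, Measure.withDensity_rnDeriv_eq _ _ hac]
  simp [Ent]

theorem rn_le {μ : Measure X} [IsFiniteMeasure μ] {M : ℝ≥0} (h : μ ≤ (M : ℝ≥0∞) • m) :
    ∀ᵐ x ∂m, (μ.rnDeriv m x).toReal ≤ M := by
  have h1 : μ.rnDeriv m ≤ᵐ[m] fun _ => (M : ℝ≥0∞) := by
    refine ae_le_of_forall_setLIntegral_le_of_sigmaFinite (Measure.measurable_rnDeriv _ _)
      fun s _ _ => ?_
    rw [setLIntegral_const]
    exact (Measure.setLIntegral_rnDeriv_le _).trans (h s)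
  filter_upwards [h1] with x hx
  exact ENNReal.toReal_le_coe_of_le_coe hx

end AVentAux

theorem isV_vent {lam : ℝ} (hlam : 0 < lam) : IsV (Vent lam) lam := by
  have hl : Vent lam lam = lam := by
    unfold Vent; rw [if_pos le_rfl]; ring
  refine ⟨hlam, by simp [Vent, hlam.le], ⟨convex_Ici _, fun x hx y hy a b ha hb hab => ?_⟩, ?_,
    fun x hx y hy hxy => ?_, fun y hy => ?_, lam, fun η h0 h1 => ?_⟩
  · have hx' : 0 ≤ min x lam := le_min hx hlam.le
    have hy' : 0 ≤ min y lam := le_min hy hlam.le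
    have h1 := (AVentAux.conc (lam := lam)).2 (mem_Ici.2 hx') (mem_Ici.2 hy') ha hb hab
    have h2 : a * min x lam + b * min y lam ≤ lam := by
      have := mul_le_mul_of_nonneg_left (min_le_right x lam) ha
      have := mul_le_mul_of_nonneg_left (min_le_right y lam) hb
      have : a * lam + b * lam = lam := by rw [← add_mul, hab, one_mul]
      linarith
    have h3 : a * min x lam + b * min y lam ≤ a * x + b * y :=
      add_le_add (mul_le_mul_of_nonneg_left (min_le_left x lam) ha)
        (mul_le_mul_of_nonneg_left (min_le_left y lam) hb)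
    have h4 : 0 ≤ a * min x lam + b * min y lam := by positivity
    have h5 := (AVentAux.mono (lam := lam)).monotoneOn ⟨h4, h2⟩
      ⟨h4.trans (le_min h3 h2), min_le_right _ _⟩ (le_min h3 h2)
    simp only [AVentAux.vent_eq, smul_eq_mul] at h1 h5 ⊢
    exact h1.trans h5
  · have : Continuous (Vent lam) := by
      rw [show Vent lam = _ from funext (AVentAux.vent_eq lam)]
      exact ((continuous_id.min continuous_const).mul continuous_const).add
        (Real.continuous_negMulLog.comp (continuous_id.min continuous_const))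
    exact this.continuousOn
  · rw [AVentAux.vent_eq, AVentAux.vent_eq, min_eq_left hx.2, min_eq_left hy.2]
    exact AVentAux.mono hx hy hxy
  · rw [AVentAux.vent_eq, AVentAux.vent_eq, min_eq_right hy, min_self]
  · rw [hl]
    rcases h1.eq_or_lt with rfl | h1
    · simp [Vent, hlam.le]
    have h2 : 0 < 1 - η := by linarith
    refine le_trans ?_ (AVentAux.vent_ge hlam (by positivity))
    rw [Real.log_mul h2.ne' hlam.ne']
    have h3 := Real.log_le_sub_one_of_pos h2
    have h4 := mul_le_mul_of_nonneg_left h3 (mul_pos h2 hlam).le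
    nlinarith

theorem Bdd.pk {μ : Measure X} {M : ℝ≥0} {o : X} {R : ℝ} (h : Bdd m μ M o R) :
    PK (Metric.closedBall o R) μ := ⟨h.1, h.2.2⟩

theorem Bdd.pos {μ : Measure X} {M : ℝ≥0} {o : X} {R : ℝ} (h : Bdd m μ M o R) :
    0 < M ∧ 0 ≤ R := by
  have := h.1
  constructor
  · rw [pos_iff_ne_zero]
    rintro rfl
    have h1 := h.2.1 univ
    simp at h1
  · by_contra hR
    have h1 := h.2.2
    rw [Metric.closedBall_eq_empty.2 (not_le.mp hR)] at h1
    simp at h1

theorem psi_vent_ge {μ : Measure X} {o : X} {R : ℝ} (hμ : PK (Metric.closedBall o R) μ)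
    (hac : μ ≪ m) (hint : Integrable (fun x => Real.log (μ.rnDeriv m x).toReal) μ) {lam : ℝ}
    (hlam : 0 < lam) : 1 + Real.log lam - Ent m μ ≤ Psi m (Vent lam) μ := by
  have := hμ.1
  obtain ⟨h1, h2⟩ := AVentAux.split hac hint (1 + Real.log lam)
  rw [← h2]
  exact integral_mono h1 (psi_integrable (isV_vent hlam) hμ.2) fun x =>
    AVentAux.vent_ge hlam ENNReal.toReal_nonneg

theorem psi_vent_eq {μ : Measure X} {M : ℝ≥0} {o : X} {R : ℝ} (h : Bdd m μ M o R) :
    Psi m (Vent M) μ = 1 + Real.log M - Ent m μ := by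
  have := h.1
  rw [← (AVentAux.split (Measure.absolutelyContinuous_of_le_smul h.2.1) h.integrable_log
    (1 + Real.log M)).2]
  refine integral_congr_ae ?_
  filter_upwards [AVentAux.rn_le h.2.1] with x hx
  exact if_pos hx

theorem ent_lsc {P : ℕ → Measure X} {Q : Measure X} {M : ℝ≥0} {o : X} {R : ℝ}
    (hP : ∀ᶠ n in atTop, Bdd m (P n) M o R) (hQ : Bdd m Q M o R) (h : WConv P Q) {E : ℝ}
    (hE : ∀ᶠ n in atTop, Ent m (P n) ≤ E) : Ent m Q ≤ E := by
  obtain ⟨N, hN⟩ := eventually_atTop.1 (hP.and hE)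
  refine le_of_forall_pos_le_add fun η hη => ?_
  have hM : (0 : ℝ) < M := by exact_mod_cast hQ.pos.1
  obtain ⟨n, hn⟩ := (psi_usc (m := m) (isV_vent hM) (P := fun n => P (n + N))
    (fun n => (hN _ (Nat.le_add_left _ _)).1.pk) hQ.pk
    (fun f hf => (tendsto_add_atTop_iff_nat N).2 (h f hf)) hη).exists
  have h1 := hN _ (Nat.le_add_left N n)
  rw [psi_vent_eq h1.1, psi_vent_eq hQ] at hn
  linarith [h1.2]

end Crest.Agent.R242
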