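import Crest.Agent.R242.APert
import Crest.Agent.R242.AVent
import Crest.Agent.R242.APlanLim
import Crest.Agent.R242.APlanCond

/-!
# Row 242: Rajala's midpoints
-/

set_option autoImplicit false
set_option linter.unusedSectionVars false

open MeasureTheory Filter Set Topology
open scoped ENNReal NNReal
open Crest.GeometryTopology.SyntheticRicci

namespace Crest.Agent.R242

variable {X : Type*} [MetricSpace X] [ProperSpace X] [MeasurableSpace X] [BorelSpace X]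
  {m : Measure X} [IsLocallyFiniteMeasure m] [m.IsOpenPosMeasure]

theorem exists_max_plan {V : ℝ → ℝ} {lam : ℝ} (hV : IsV V lam) {μ ν : Measure X} {o : X} {R : ℝ}
    (hμ : PK (Metric.closedBall o R) μ) (hν : PK (Metric.closedBall o R) ν)
    (hne : ∃ P : Measure (UCurve X), IsOptPlan P μ ν) :
    ∃ P : Measure (UCurve X), IsOptPlan P μ ν ∧ ∀ P' : Measure (UCurve X), IsOptPlan P' μ ν →
      Psi m V (marg P' (1 / 2)) ≤ Psi m V (marg P (1 / 2)) := by
  set f : Measure (UCurve X) → ℝ := fun P => Psi m V (marg P (1 / 2)) with hf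
  set S : Set ℝ := f '' {P | IsOptPlan P μ ν} with hS
  have hSne : S.Nonempty := let ⟨P, hP⟩ := hne; ⟨_, P, hP, rfl⟩
  have hSb : BddAbove S := by
    refine ⟨V lam * m.real (Metric.closedBall o (2 * R)), ?_⟩
    rintro _ ⟨P, hP, rfl⟩
    have h := IsOptPlan.pk_marg hP hμ.2 hν.2 (1 / 2)
    have := h.1
    exact psi_le hV h.2
  obtain ⟨u, -, hu, huS⟩ := exists_seq_tendsto_sSup hSne hSb
  choose P hP hPu using huS
  obtain ⟨Q, φ, hφ, hQ, hw⟩ := exists_optPlan_lim P hμ hν hP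
  refine ⟨Q, hQ, fun P' hP' => ?_⟩
  have h1 : f P' ≤ sSup S := le_csSup hSb ⟨P', hP', rfl⟩
  refine h1.trans (le_of_forall_pos_le_add fun η hη => ?_)
  have h2 := psi_usc (m := m) hV (fun n => IsOptPlan.pk_marg (hP (φ n)) hμ.2 hν.2 (1 / 2))
    (hQ.pk_marg hμ.2 hν.2 (1 / 2)) (hw (1 / 2)) hη
  refine le_of_tendsto (hu.comp hφ.tendsto_atTop) ?_
  filter_upwards [h2] with n hn
  simpa only [Function.comp_apply, ← hPu] using hn

theorem rajala {V : ℝ → ℝ} {lam : ℝ} (hV : IsV V lam) {μ ν : Measure X} {o : X} {R D : ℝ}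
    (hμ : PK (Metric.closedBall o R) μ) (hν : PK (Metric.closedBall o R) ν) (hD : LenLe μ ν D)
    (hne : ∃ P : Measure (UCurve X), IsOptPlan P μ ν)
    (hsp : ∀ (a : ℝ≥0∞) (μ' ν' : Measure X), a ≠ 0 → a ≤ 1 → IsProbabilityMeasure μ' →
      IsProbabilityMeasure ν' → a • μ' ≤ μ → a • ν' ≤ ν → LenLe μ' ν' D →
      ∃ Q : Measure (UCurve X), IsOptPlan Q μ' ν' ∧
        a / ENNReal.ofReal lam < m {x | (marg Q (1 / 2)).rnDeriv m x ≠ 0}) :
    ∃ P : Measure (UCurve X), IsOptPlan P μ ν ∧ marg P (1 / 2) ≤ ENNReal.ofReal lam • m ∧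
      ∀ P' : Measure (UCurve X), IsOptPlan P' μ ν →
        Psi m V (marg P' (1 / 2)) ≤ Psi m V (marg P (1 / 2)) := by
  obtain ⟨P, hP, hmax⟩ := exists_max_plan (m := m) hV hμ hν hne
  refine ⟨P, hP, ?_, hmax⟩
  by_contra hn
  have hpk := hP.pk_marg hμ.2 hν.2 (1 / 2)
  obtain ⟨B, hB, hB0, hpert⟩ := perturb hV hpk hn
  have hmeas : Measurable fun γ : UCurve X => γ.ext (1 / 2) := (continuous_ext_left _).measurable
  set A : Set (UCurve X) := (fun γ : UCurve X => γ.ext (1 / 2)) ⁻¹' B with hAdef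
  have hA : MeasurableSet A := hmeas hB
  have hPA : marg P (1 / 2) B = P A := by rw [marg, Measure.map_apply hmeas hB]
  have h0 : P A ≠ 0 := hPA ▸ hB0
  have := hP.1
  have hc := hP.cond hμ.isP2 hν.isP2 hA h0
  have hl0 : P A • marg (ProbabilityTheory.cond P A) 0 ≤ μ := by
    simpa only [hP.marg_eq.1] using smul_marg_cond_le (P := P) A 0
  have hl1 : P A • marg (ProbabilityTheory.cond P A) 1 ≤ ν := by
    simpa only [hP.marg_eq.2] using smul_marg_cond_le (P := P) A 1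
  obtain ⟨Q, hQ, hsp'⟩ := hsp (P A) _ _ h0 prob_le_one hc.1.1 hc.2.1.1 hl0 hl1
    (hD.cond hP hμ.isP2 hν.isP2 hA h0)
  have hz : ∀ {a b : Measure X}, P A • a ≤ b → b (Metric.closedBall o R)ᶜ = 0 →
      a (Metric.closedBall o R)ᶜ = 0 := by
    intro a b hab hb
    have := hab (Metric.closedBall o R)ᶜ
    rw [hb, Measure.smul_apply, smul_eq_mul, nonpos_iff_eq_zero, mul_eq_zero] at this
    exact this.resolve_left h0
  obtain ⟨t, ht, hlt⟩ := hpert (marg Q (1 / 2)) (hQ.pk_marg (hz hl0 hμ.2) (hz hl1 hν.2) _)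
    (by rwa [hPA])
  have hrep := hP.replace hμ.isP2 hν.isP2 hA h0 hQ ht
  have h1 := hmax _ hrep
  rw [hAdef, marg_replace P Q hB, ← hAdef, ← hPA] at h1
  exact absurd h1 (not_le.2 hlt)

theorem mid_ent {κ : ℝ} (hG : Good m κ) {μ ν : Measure X} {M M' : ℝ≥0} {o : X} {R D : ℝ}
    (hμ : Bdd m μ M o R) (hν : Bdd m ν M o R) (hD : LenLe μ ν D)
    (hM' : (M : ℝ) * Real.exp (κ * D ^ 2) < M') :
    ∃ P : Measure (UCurve X), IsOptPlan P μ ν ∧ Bdd m (marg P (1 / 2)) M' o (2 * R) ∧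
      Ent m (marg P (1 / 2)) ≤ Ent m μ / 2 + Ent m ν / 2 + κ * Wsq μ ν := by
  have hM0 : 0 < M := hμ.pos.1
  have hM0' : (0 : ℝ) < M := by exact_mod_cast hM0
  have hlam : (0 : ℝ) < M' := lt_trans (by positivity) hM'
  obtain ⟨P', hP', -, hac, hint, hE⟩ := hG.mid μ ν M o R hμ hν
  obtain ⟨P, hP, hle, hmax⟩ := rajala (m := m) (isV_vent hlam) hμ.pk hν.pk hD ⟨P', hP'⟩ (by
    intro a μ' ν' ha0 ha1 hμ' hν' hl0 hl1 hD'
    have hat : a ≠ ⊤ := ne_top_of_le_ne_top ENNReal.one_ne_top ha1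
    lift a to ℝ≥0 using hat
    have ha0' : a ≠ 0 := by simpa using ha0
    have hb : ∀ {x y : Measure X}, IsProbabilityMeasure x → (a : ℝ≥0∞) • x ≤ y → Bdd m y M o R →
        Bdd m x (M / a) o R := by
      intro x y hx hxy hy
      refine ⟨hx, fun s => ?_, ?_⟩
      · have h1 := (hxy s).trans (hy.2.1 s)
        simp only [Measure.smul_apply, smul_eq_mul] at h1 ⊢
        rw [ENNReal.coe_div ha0', div_eq_mul_inv, mul_right_comm, ← div_eq_mul_inv,
          ENNReal.le_div_iff_mul_le (Or.inl ha0) (Or.inl ENNReal.coe_ne_top), mul_comm]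
        exact h1
      · have h1 := hxy (Metric.closedBall o R)ᶜ
        rw [hy.2.2, Measure.smul_apply, smul_eq_mul, nonpos_iff_eq_zero, mul_eq_zero] at h1
        exact h1.resolve_left ha0
    obtain ⟨Q, hQ, hs, -⟩ := hG.mid μ' ν' (M / a) o R (hb hμ' hl0 hμ) (hb hν' hl1 hν)
    refine ⟨Q, hQ, ?_⟩
    have h1 := hs D (hD'.len_le hQ)
    by_contra hlt
    rw [not_lt] at hlt
    have h2 := h1.trans (mul_le_mul_right hlt _)
    have ha' : (0 : ℝ) < a := by exact_mod_cast pos_iff_ne_zero.2 ha0'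
    have hM'0 : M' ≠ 0 := by
      intro h; rw [h] at hlam; exact lt_irrefl _ hlam
    rw [ENNReal.ofReal_coe_nnreal, ← ENNReal.coe_div hM'0, ← ENNReal.coe_mul,
      ← ENNReal.ofReal_coe_nnreal, ENNReal.ofReal_le_ofReal_iff (NNReal.coe_nonneg _)] at h2
    push_cast at h2
    have h3 : (M : ℝ) / a * (a / M') = M / M' := by field_simp
    rw [h3, le_div_iff₀ hlam, Real.exp_neg, inv_mul_le_iff₀ (Real.exp_pos _)] at h2
    linarith)
  have hpk := hP.pk_marg hμ.2.2 hν.2.2 (1 / 2)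
  have hb : Bdd m (marg P (1 / 2)) M' o (2 * R) :=
    ⟨hpk.1, by simpa only [ENNReal.ofReal_coe_nnreal] using hle, hpk.2⟩
  refine ⟨P, hP, hb, ?_⟩
  have h1 := psi_vent_ge (hP'.pk_marg hμ.2.2 hν.2.2 (1 / 2)) hac hint hlam
  have h2 := psi_vent_eq hb
  have h3 := hmax P' hP'
  linarith

end Crest.Agent.R242
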