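import Crest.Agent.R242.ADefs
import Crest.Agent.R242.OTBasic

/-!
# Row 242: from Rényi functionals to supports and to the entropy
-/

set_option autoImplicit false
set_option linter.unusedSectionVars false

open MeasureTheory Filter Set Topology
open scoped ENNReal NNReal
open Crest.GeometryTopology.SyntheticRicci

namespace Crest.Agent.R242

variable {X : Type*} [MetricSpace X] [ProperSpace X] [MeasurableSpace X] [BorelSpace X]
  {m : Measure X} [IsLocallyFiniteMeasure m] [m.IsOpenPosMeasure]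

namespace ARenyiAux

theorem young {y n : ℝ} (hy : 0 ≤ y) (hn : 1 < n) : y ^ (1 - 1 / n) ≤ (1 - 1 / n) * y + 1 / n := by
  have h1 : 1 / n ≤ 1 := (div_le_one (by linarith)).2 hn.le
  have := Real.geom_mean_le_arith_mean2_weighted (w₁ := 1 - 1 / n) (w₂ := 1 / n) (p₁ := y) (p₂ := 1)
    (by linarith) (by positivity) hy zero_le_one (by ring)
  simpa using this

theorem exp_pos {n : ℝ} (hn : 1 < n) : 0 < 1 - 1 / n :=
  sub_pos.2 ((div_lt_one (by linarith)).2 hn)

theorem lim {y : ℝ} (hy : 0 ≤ y) :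
    Tendsto (fun n : ℝ => n * (y - y ^ (1 - 1 / n))) atTop (𝓝 (y * Real.log y)) := by
  rcases hy.eq_or_lt with rfl | hy
  · refine tendsto_const_nhds.congr' ?_
    filter_upwards [eventually_gt_atTop 1] with n hn
    rw [Real.zero_rpow (exp_pos hn).ne']
    simp
  · have h1 := ((Real.hasStrictDerivAt_const_rpow hy (1 - 0)).hasDerivAt.comp (0 : ℝ)
      ((hasDerivAt_id (0 : ℝ)).const_sub 1)).neg
    have h2 := (hasDerivAt_iff_tendsto_slope_zero.1 h1).comp
      (tendsto_inv_atTop_nhdsGT_zero.mono_right (nhdsGT_le_nhdsNE 0))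
    convert h2 using 2 with n
    · simp [sub_eq_add_neg, add_comm]
    · simp

theorem main {Y : Type*} [MeasurableSpace Y] {m : Measure Y} {r : Y → ℝ} (hr : Measurable r)
    (h0 : ∀ x, 0 ≤ r x) (hi : Integrable r m) {B : Set Y} (hB : MeasurableSet B) (hB' : m B ≠ ⊤)
    (hz : ∀ᵐ x ∂m, x ∉ B → r x = 0) (ha : ∫ x, r x ∂m ≤ 1) {N E : ℝ} (hN : 1 < N)
    (h : ∀ n : ℝ, N ≤ n →
      ENNReal.ofReal (1 - E / n) ≤ ∫⁻ x, ENNReal.ofReal (r x ^ (1 - 1 / n)) ∂m) :
    ∫ x, r x ∂m = 1 ∧ Integrable (fun x => r x * Real.log (r x)) m ∧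
      ∫ x, r x * Real.log (r x) ∂m ≤ E := by
  set b : Y → ℝ := B.indicator fun _ => 1 with hb
  have ib : Integrable b m := (integrable_indicator_iff hB).2 (integrableOn_const hB')
  have mb : Measurable b := measurable_const.indicator hB
  have ip : ∀ n : ℝ, 1 < n → Integrable (fun x => r x ^ (1 - 1 / n)) m := fun n hn => by
    refine (hi.add ib).mono' (hr.pow_const _).aestronglyMeasurable ?_
    filter_upwards [hz] with x hx
    rw [Real.norm_of_nonneg (Real.rpow_nonneg (h0 x) _), Pi.add_apply]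
    by_cases hxB : x ∈ B
    · have h1 : 1 / n ≤ 1 := (div_le_one (by linarith)).2 hn.le
      have h2 : 0 ≤ 1 / n * r x := mul_nonneg (by positivity) (h0 x)
      rw [hb, indicator_of_mem hxB]
      linarith [young (h0 x) hn]
    · rw [hb, indicator_of_notMem hxB, hx hxB, Real.zero_rpow (exp_pos hn).ne', add_zero]
  set g : ℝ → Y → ℝ := fun n x => n * (r x - r x ^ (1 - 1 / n)) + b x with hg
  have ig : ∀ n, 1 < n → Integrable (g n) m := fun n hn =>
    ((hi.sub (ip n hn)).const_mul n).add ib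
  have g0 : ∀ᵐ x ∂m, ∀ n, 1 < n → 0 ≤ g n x := by
    filter_upwards [hz] with x hx n hn
    simp only [hg]
    by_cases hxB : x ∈ B
    · have h1 := mul_le_mul_of_nonneg_left (young (h0 x) hn) (by linarith : 0 ≤ n)
      have e : n * ((1 - 1 / n) * r x + 1 / n) = n * r x - r x + 1 := by field_simp
      rw [hb, indicator_of_mem hxB]
      linarith [h0 x]
    · rw [hb, indicator_of_notMem hxB, hx hxB, Real.zero_rpow (exp_pos hn).ne']
      simp
  have g1 : ∀ n, N ≤ n → ∫ x, g n x ∂m ≤ n * (∫ x, r x ∂m - 1) + (E + ∫ x, b x ∂m) := by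
    intro n hn
    have hn1 : 1 < n := hN.trans_le hn
    have h1 := h n hn
    rw [← ofReal_integral_eq_lintegral_ofReal (ip n hn1)
      (Eventually.of_forall fun x => Real.rpow_nonneg (h0 x) _),
      ENNReal.ofReal_le_ofReal_iff (integral_nonneg fun x => Real.rpow_nonneg (h0 x) _)] at h1
    have h2 := mul_le_mul_of_nonneg_left h1 (by linarith : 0 ≤ n)
    have e : n * (1 - E / n) = n - E := by field_simp
    have i1 : Integrable (fun x => n * (r x - r x ^ (1 - 1 / n))) m := (hi.sub (ip n hn1)).const_mul n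
    simp only [hg]
    rw [integral_add i1 ib, integral_const_mul, integral_sub hi (ip n hn1)]
    linarith
  have g2 : ∀ n, N ≤ n → 0 ≤ ∫ x, g n x ∂m := fun n hn =>
    integral_nonneg_of_ae (g0.mono fun x hx => hx n (hN.trans_le hn))
  have ha1 : ∫ x, r x ∂m = 1 := by
    refine le_antisymm ha (not_lt.1 fun hlt => ?_)
    have h1 := (tendsto_id.atTop_mul_const_of_neg (sub_neg.2 hlt)).eventually
      (eventually_lt_atBot (-(E + ∫ x, b x ∂m)))
    obtain ⟨n, hn, hn'⟩ := (h1.and (eventually_ge_atTop N)).exists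
    have := (g2 n hn').trans (g1 n hn')
    simp only [id] at hn
    linarith
  simp only [ha1, sub_self, mul_zero, zero_add] at g1
  have hE : 0 ≤ E + ∫ x, b x ∂m := (g2 N le_rfl).trans (g1 N le_rfl)
  have tg : ∀ x, Tendsto (fun n => g n x) atTop (𝓝 (r x * Real.log (r x) + b x)) := fun x =>
    (lim (h0 x)).add_const _
  have l0 : 0 ≤ᵐ[m] fun x => r x * Real.log (r x) + b x := by
    filter_upwards [g0] with x hx
    exact ge_of_tendsto (tg x) ((eventually_gt_atTop 1).mono hx)
  have F : ∫⁻ x, ENNReal.ofReal (r x * Real.log (r x) + b x) ∂m ≤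
      ENNReal.ofReal (E + ∫ x, b x ∂m) := by
    have h1 := lintegral_liminf_le (μ := m) (u := atTop) (f := fun n x => ENNReal.ofReal (g n x))
      fun n => (((hr.sub (hr.pow_const _)).const_mul n).add mb).ennreal_ofReal
    simp only [fun x => (ENNReal.tendsto_ofReal (tg x)).liminf_eq] at h1
    refine h1.trans (liminf_le_of_frequently_le' (Eventually.frequently ?_))
    filter_upwards [eventually_ge_atTop N] with n hn
    rw [← ofReal_integral_eq_lintegral_ofReal (ig n (hN.trans_le hn))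
      (g0.mono fun x hx => hx n (hN.trans_le hn))]
    exact ENNReal.ofReal_le_ofReal (g1 n hn)
  have iF : Integrable (fun x => r x * Real.log (r x) + b x) m :=
    ⟨((hr.mul hr.log).add mb).aestronglyMeasurable,
      (hasFiniteIntegral_iff_ofReal l0).2 (F.trans_lt ENNReal.ofReal_lt_top)⟩
  have iL : Integrable (fun x => r x * Real.log (r x)) m :=
    (iF.sub ib).congr (Eventually.of_forall fun x => by simp)
  refine ⟨ha1, iL, ?_⟩
  rw [← ofReal_integral_eq_lintegral_ofReal iF l0, ENNReal.ofReal_le_ofReal_iff hE,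
    integral_add iL ib] at F
  linarith

end ARenyiAux

theorem renyi_le_support {ν : Measure X} [IsProbabilityMeasure ν] {N : ℝ} (hN : 1 < N) :
    renyiPower m ν N ≤ m {x | ν.rnDeriv m x ≠ 0} ^ (1 / N) := by
  have h0 := ARenyiAux.exp_pos hN
  have hpq : (1 - 1 / N)⁻¹.HolderConjugate N :=
    ⟨by rw [inv_inv, one_div]; simp, inv_pos.2 h0, by linarith⟩
  have mρ := Measure.measurable_rnDeriv ν m
  have hs : MeasurableSet {x | ν.rnDeriv m x ≠ 0} := (mρ (measurableSet_singleton 0)).compl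
  have h := ENNReal.lintegral_mul_le_Lp_mul_Lq m hpq (f := fun x => ν.rnDeriv m x ^ (1 - 1 / N))
    (g := {x | ν.rnDeriv m x ≠ 0}.indicator 1) (mρ.pow_const _).aemeasurable
    (measurable_one.indicator hs).aemeasurable
  have e1 : ∀ x, ν.rnDeriv m x ^ (1 - 1 / N) * {x | ν.rnDeriv m x ≠ 0}.indicator 1 x =
      ν.rnDeriv m x ^ (1 - 1 / N) := fun x => by
    by_cases hx : ν.rnDeriv m x = 0
    · simp [hx, ENNReal.zero_rpow_of_pos h0, -one_div]
    · simp [hx]
  have e2 : ∀ x, (ν.rnDeriv m x ^ (1 - 1 / N)) ^ (1 - 1 / N)⁻¹ = ν.rnDeriv m x := fun x =>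
    ENNReal.rpow_rpow_inv h0.ne' _
  have e3 : ∀ x, ({x | ν.rnDeriv m x ≠ 0}.indicator 1 x : ℝ≥0∞) ^ N =
      {x | ν.rnDeriv m x ≠ 0}.indicator 1 x := fun x => by
    by_cases hx : ν.rnDeriv m x = 0
    · simp [hx, ENNReal.zero_rpow_of_pos (zero_lt_one.trans hN)]
    · simp [hx]
  simp only [Pi.mul_apply, e1, e2, e3] at h
  rw [lintegral_indicator_one hs] at h
  refine h.trans (mul_le_of_le_one_left' (ENNReal.rpow_le_one ?_ (by positivity)))
  exact Measure.lintegral_rnDeriv_le.trans measure_univ.le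

theorem ent_of_renyi {ν : Measure X} {o : X} {R : ℝ} (hν : PK (Metric.closedBall o R) ν)
    {N E : ℝ} (hN : 1 < N)
    (h : ∀ N' : ℝ, N ≤ N' → ENNReal.ofReal (1 - E / N') ≤ renyiPower m ν N') :
    ν ≪ m ∧ Integrable (fun x => Real.log (ν.rnDeriv m x).toReal) ν ∧ Ent m ν ≤ E := by
  have := hν.1
  have mρ := Measure.measurable_rnDeriv ν m
  have hz : ∀ᵐ x ∂m, x ∉ Metric.closedBall o R → (ν.rnDeriv m x).toReal = 0 := by
    have h1 : ∫⁻ x in (Metric.closedBall o R)ᶜ, ν.rnDeriv m x ∂m = 0 :=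
      le_antisymm ((Measure.setLIntegral_rnDeriv_le _).trans hν.2.le) zero_le
    rw [lintegral_eq_zero_iff mρ, Filter.EventuallyEq,
      ae_restrict_iff' measurableSet_closedBall.compl] at h1
    filter_upwards [h1] with x hx hx'
    rw [hx hx']
    rfl
  have ha := Measure.integral_toReal_rnDeriv' (μ := ν) (ν := m)
  rw [probReal_univ] at ha
  obtain ⟨h1, h2, h3⟩ := ARenyiAux.main mρ.ennreal_toReal (fun x => ENNReal.toReal_nonneg)
    Measure.integrable_toReal_rnDeriv measurableSet_closedBall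
    (isCompact_closedBall o R).measure_lt_top.ne hz
    (by rw [ha]; exact sub_le_self _ measureReal_nonneg) hN fun n hn => (h n hn).trans (le_of_eq (by
      refine lintegral_congr_ae ?_
      filter_upwards [Measure.rnDeriv_lt_top ν m] with x hx
      rw [← ENNReal.ofReal_rpow_of_nonneg ENNReal.toReal_nonneg
        (ARenyiAux.exp_pos (hN.trans_le hn)).le, ENNReal.ofReal_toReal hx.ne]))
  have hac : ν ≪ m := by
    rw [← Measure.singularPart_eq_zero, ← Measure.measure_univ_eq_zero,
      ← measureReal_eq_zero_iff]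
    linarith
  exact ⟨hac, (integrable_toReal_rnDeriv_mul_iff hac).1 h2,
    (integral_toReal_rnDeriv_mul hac).symm.trans_le h3⟩

end Crest.Agent.R242
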