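import Crest.Agent.R242.AWeak
import Crest.Agent.R242.OTBasic

/-!
# Row 242: upper semicontinuity of concave functionals of the density
-/

set_option autoImplicit false
set_option linter.unusedSectionVars false

open MeasureTheory Filter Set Topology
open scoped ENNReal NNReal
open Crest.GeometryTopology.SyntheticRicci

namespace Crest.Agent.R242

variable {X : Type*} [MetricSpace X] [ProperSpace X] [MeasurableSpace X] [BorelSpace X]
  {m : Measure X} [IsLocallyFiniteMeasure m] [m.IsOpenPosMeasure]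

theorem IsV.nonneg {V : ℝ → ℝ} {lam : ℝ} (hV : IsV V lam) {y : ℝ} (hy : 0 ≤ y) : 0 ≤ V y := by
  rw [← hV.zero]
  rcases le_total y lam with h | h
  · exact hV.mono.monotoneOn ⟨le_rfl, hV.pos.le⟩ ⟨hy, h⟩ hy
  · rw [hV.const y h]
    exact hV.mono.monotoneOn ⟨le_rfl, hV.pos.le⟩ ⟨hV.pos.le, le_rfl⟩ hV.pos.le

theorem IsV.le {V : ℝ → ℝ} {lam : ℝ} (hV : IsV V lam) {y : ℝ} (hy : 0 ≤ y) : V y ≤ V lam := by
  rcases le_total y lam with h | h
  · exact hV.mono.monotoneOn ⟨hy, h⟩ ⟨hV.pos.le, le_rfl⟩ h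
  · exact (hV.const y h).le

theorem IsV.monotoneOn {V : ℝ → ℝ} {lam : ℝ} (hV : IsV V lam) : MonotoneOn V (Ici 0) := by
  intro x hx y hy hxy
  rcases le_total y lam with h | h
  · exact hV.mono.monotoneOn ⟨hx, hxy.trans h⟩ ⟨hy, h⟩ hxy
  · rw [hV.const y h]
    exact hV.le hx

namespace AUscAux

theorem rn_zero {μ : Measure X} {B : Set X} (hB : MeasurableSet B) (hμ : μ Bᶜ = 0) :
    ∀ᵐ x ∂m, x ∉ B → (μ.rnDeriv m x).toReal = 0 := by
  have h1 : ∫⁻ x in Bᶜ, μ.rnDeriv m x ∂m = 0 :=
    le_antisymm ((Measure.setLIntegral_rnDeriv_le _).trans hμ.le) zero_le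
  rw [lintegral_eq_zero_iff (Measure.measurable_rnDeriv _ _)] at h1
  filter_upwards [(ae_restrict_iff' hB.compl).1 h1] with x hx hxB
  rw [hx hxB]
  rfl

theorem meas {V : ℝ → ℝ} {lam : ℝ} (hV : IsV V lam) {f : X → ℝ} (hf : Measurable f)
    (h0 : ∀ x, 0 ≤ f x) : Measurable fun x => V (f x) := by
  have h1 : Continuous fun y : ℝ => V (max 0 y) :=
    hV.cont.comp_continuous (continuous_const.max continuous_id) fun y => mem_Ici.2 (le_max_left _ _)
  have h2 := h1.measurable.comp hf
  refine (congrArg Measurable (funext fun x => ?_)).mp h2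
  simp only [Function.comp, max_eq_right (h0 x)]

theorem integrableOn {V : ℝ → ℝ} {lam : ℝ} (hV : IsV V lam) (μ : Measure X) (o : X) (R : ℝ) :
    IntegrableOn (fun x => V (μ.rnDeriv m x).toReal) (Metric.closedBall o R) m :=
  Measure.integrableOn_of_bounded (isCompact_closedBall o R).measure_lt_top.ne
    (meas hV (Measure.measurable_rnDeriv _ _).ennreal_toReal
      fun _ => ENNReal.toReal_nonneg).aestronglyMeasurable (M := V lam)
    (Eventually.of_forall fun _ => by
      rw [Real.norm_of_nonneg (hV.nonneg ENNReal.toReal_nonneg)]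
      exact hV.le ENNReal.toReal_nonneg)

theorem psi_eq {V : ℝ → ℝ} {lam : ℝ} (hV : IsV V lam) {μ : Measure X} {B : Set X}
    (hB : MeasurableSet B) (hμ : μ Bᶜ = 0) :
    Psi m V μ = ∫ x in B, V (μ.rnDeriv m x).toReal ∂m := by
  refine (setIntegral_eq_integral_of_ae_compl_eq_zero ?_).symm
  filter_upwards [rn_zero (m := m) hB hμ] with x hx hxB
  rw [hx hxB, hV.zero]

theorem small {V : ℝ → ℝ} {lam : ℝ} (hV : IsV V lam) {ε : ℝ} (hε : 0 < ε) :
    ∃ h, 0 < h ∧ ∀ r, 0 ≤ r → V (r + h) - V r ≤ ε := by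
  obtain ⟨δ, hδ, h⟩ := Metric.continuousWithinAt_iff.1 (hV.cont 0 (mem_Ici.2 le_rfl)) ε hε
  have h1 := h (x := δ / 2) (mem_Ici.2 (by positivity)) (by
    rw [Real.dist_eq, sub_zero, abs_of_pos (by positivity)]; linarith)
  rw [hV.zero, Real.dist_eq, sub_zero] at h1
  refine ⟨δ / 2, by positivity, fun r hr => ?_⟩
  have hs : 0 < r + δ / 2 := by positivity
  have e : r / (r + δ / 2) + δ / 2 / (r + δ / 2) = 1 := by rw [← add_div, div_self hs.ne']
  have a1 := hV.conc.2 (mem_Ici.2 hs.le) (mem_Ici.2 (le_refl (0 : ℝ))) (div_nonneg hr hs.le)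
    (div_nonneg (half_pos hδ).le hs.le) e
  have a2 := hV.conc.2 (mem_Ici.2 (le_refl (0 : ℝ))) (mem_Ici.2 hs.le) (div_nonneg hr hs.le)
    (div_nonneg (half_pos hδ).le hs.le) e
  simp only [smul_eq_mul, mul_zero, add_zero, zero_add, hV.zero, div_mul_cancel₀ _ hs.ne'] at a1 a2
  have a3 : (r / (r + δ / 2) + δ / 2 / (r + δ / 2)) * V (r + δ / 2) = V (r + δ / 2) := by
    rw [e, one_mul]
  linarith [le_abs_self (V (δ / 2))]

theorem secant {V : ℝ → ℝ} {lam : ℝ} (hV : IsV V lam) {h r y : ℝ} (hh : 0 < h) (hr : 0 ≤ r)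
    (hy : 0 ≤ y) : V y ≤ V (r + h) + (V (r + h) - V r) / h * (y - r) := by
  have h0 : V r ≤ V (r + h) := hV.monotoneOn hr (mem_Ici.2 (by linarith)) (by linarith)
  have hs : 0 ≤ (V (r + h) - V r) / h := div_nonneg (by linarith) hh.le
  rcases lt_or_ge y r with h1 | h1
  · have := hV.conc.slope_anti_adjacent (mem_Ici.2 hy) (mem_Ici.2 (by linarith : 0 ≤ r + h)) h1
      (by linarith)
    rw [add_sub_cancel_left, le_div_iff₀ (by linarith)] at this
    linarith
  rcases le_or_gt y (r + h) with h2 | h2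
  · have := hV.monotoneOn hy (mem_Ici.2 (by linarith : 0 ≤ r + h)) h2
    nlinarith
  · have := hV.conc.slope_anti_adjacent (mem_Ici.2 hr) (mem_Ici.2 hy) (by linarith : r < r + h) h2
    rw [add_sub_cancel_left, div_le_iff₀ (by linarith)] at this
    nlinarith

theorem integral_wd (ν : Measure X) [IsFiniteMeasure ν] (φ : X → ℝ) :
    ∫ x, φ x ∂(m.withDensity (ν.rnDeriv m)) = ∫ x, (ν.rnDeriv m x).toReal * φ x ∂m :=
  integral_withDensity_eq_integral_toReal_smul (Measure.measurable_rnDeriv _ _)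
    (Measure.rnDeriv_lt_top _ _) φ

theorem integrable_wd {ν : Measure X} [IsFiniteMeasure ν] {φ : X → ℝ} (h : Integrable φ ν) :
    Integrable (fun x => (ν.rnDeriv m x).toReal * φ x) m :=
  (integrable_withDensity_iff_integrable_smul' (Measure.measurable_rnDeriv _ _)
    (Measure.rnDeriv_lt_top _ _)).1 (h.mono_measure (Measure.withDensity_rnDeriv_le _ _))

/-- The bound by a family of supporting lines. -/
theorem psi_le_lines {V : ℝ → ℝ} {lam : ℝ} (hV : IsV V lam) {ν : Measure X} [IsFiniteMeasure ν]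
    {o : X} {R : ℝ} (hν : ν (Metric.closedBall o R)ᶜ = 0) {a G : X → ℝ}
    (ha : IntegrableOn a (Metric.closedBall o R) m) (hG : Integrable G ν) (hG0 : ∀ x, 0 ≤ G x)
    (h : ∀ᵐ x ∂m, ∀ y, 0 ≤ y → V y ≤ a x + y * G x) :
    Psi m V ν ≤ ∫ x in Metric.closedBall o R, a x ∂m + ∫ x, G x ∂ν := by
  have hi := integrable_wd (m := m) hG
  rw [psi_eq hV measurableSet_closedBall hν]
  refine (integral_mono_ae (integrableOn hV ν o R) (ha.add hi.integrableOn)
    (ae_restrict_of_ae (h.mono fun x hx => hx _ ENNReal.toReal_nonneg))).trans ?_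
  refine (integral_add ha hi.integrableOn).trans_le (add_le_add le_rfl ?_)
  refine (setIntegral_le_integral hi (Eventually.of_forall fun x =>
    mul_nonneg ENNReal.toReal_nonneg (hG0 x))).trans ?_
  rw [← integral_wd]
  exact integral_mono_measure (Measure.withDensity_rnDeriv_le _ _) (Eventually.of_forall hG0) hG

end AUscAux

theorem psi_integrable {V : ℝ → ℝ} {lam : ℝ} (hV : IsV V lam) {μ : Measure X} [IsFiniteMeasure μ]
    {o : X} {R : ℝ} (hμ : μ (Metric.closedBall o R)ᶜ = 0) :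
    Integrable (fun x => V (μ.rnDeriv m x).toReal) m := by
  refine (AUscAux.integrableOn hV μ o R).integrable_of_ae_notMem_eq_zero ?_
  filter_upwards [AUscAux.rn_zero (m := m) measurableSet_closedBall hμ] with x hx hxB
  rw [hx hxB, hV.zero]

theorem psi_le {V : ℝ → ℝ} {lam : ℝ} (hV : IsV V lam) {μ : Measure X} [IsFiniteMeasure μ]
    {o : X} {R : ℝ} (hμ : μ (Metric.closedBall o R)ᶜ = 0) :
    Psi m V μ ≤ V lam * m.real (Metric.closedBall o R) := by
  rw [AUscAux.psi_eq hV measurableSet_closedBall hμ]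
  refine (le_abs_self _).trans ?_
  exact norm_setIntegral_le_of_norm_le_const (isCompact_closedBall o R).measure_lt_top fun x _ =>
    (Real.norm_of_nonneg (hV.nonneg ENNReal.toReal_nonneg)).trans_le (hV.le ENNReal.toReal_nonneg)

theorem psi_usc {V : ℝ → ℝ} {lam : ℝ} (hV : IsV V lam) {P : ℕ → Measure X} {Q : Measure X}
    {o : X} {R : ℝ} (hP : ∀ n, PK (Metric.closedBall o R) (P n))
    (hQ : PK (Metric.closedBall o R) Q) (h : WConv P Q) {η : ℝ} (hη : 0 < η) :
    ∀ᶠ n in atTop, Psi m V (P n) ≤ Psi m V Q + η := by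
  have := hQ.1
  set B := Metric.closedBall o R with hB
  have hBm : MeasurableSet B := measurableSet_closedBall
  have hBf : m B < ∞ := (isCompact_closedBall o R).measure_lt_top
  have : IsFiniteMeasure (m.restrict B) := isFiniteMeasure_restrict.2 hBf.ne
  have hl := hV.pos
  have hm0 : 0 ≤ m.real B := measureReal_nonneg
  set ε : ℝ := η / (m.real B + lam + 2) with hε
  have hε0 : 0 < ε := by positivity
  have hε1 : ε * (m.real B + lam + 2) = η := div_mul_cancel₀ _ (by positivity)
  obtain ⟨δ, hδ, hs⟩ := AUscAux.small hV hε0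
  obtain ⟨S, hS, hS1, hS2⟩ := Measure.mutuallySingular_singularPart Q m
  set ρ : X → ℝ := fun x => (Q.rnDeriv m x).toReal with hρ
  have hρm : Measurable ρ := (Measure.measurable_rnDeriv _ _).ennreal_toReal
  have hρ0 : ∀ x, 0 ≤ ρ x := fun _ => ENNReal.toReal_nonneg
  set s : X → ℝ := S.indicator fun x => (V (ρ x + δ) - V (ρ x)) / δ with hsdef
  have hsm : Measurable s := (((AUscAux.meas hV (hρm.add_const δ) fun x => by
    linarith [hρ0 x]).sub (AUscAux.meas hV hρm hρ0)).div_const δ).indicator hS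
  have hs0 : ∀ x, 0 ≤ s x := fun x => indicator_nonneg (fun x _ => div_nonneg (sub_nonneg.2
    (hV.monotoneOn (hρ0 x) (mem_Ici.2 (by linarith [hρ0 x])) (by linarith))) hδ.le) x
  have hs1 : ∀ x, s x ≤ ε / δ := fun x => indicator_apply_le' (fun _ =>
    div_le_div_of_nonneg_right (hs _ (hρ0 x)) hδ.le) fun _ => by positivity
  have hsi : Integrable s (m.restrict B + Q) := Integrable.of_bound hsm.aestronglyMeasurable (ε / δ)
    (Eventually.of_forall fun x => by rw [Real.norm_of_nonneg (hs0 x)]; exact hs1 x)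
  obtain ⟨g, hg, hgi⟩ := hsi.exists_boundedContinuous_integral_sub_le hε0
  have hd := (hsi.sub hgi).norm
  have hdB : IntegrableOn (fun x => ‖s x - g x‖) B m := hd.left_of_add_measure
  have hdQ : Integrable (fun x => ‖s x - g x‖) Q := hd.right_of_add_measure
  rw [integral_add_measure hdB hdQ] at hg
  have n1 : 0 ≤ ∫ x in B, ‖s x - g x‖ ∂m := integral_nonneg fun _ => norm_nonneg _
  have n2 : 0 ≤ ∫ x, ‖s x - g x‖ ∂Q := integral_nonneg fun _ => norm_nonneg _
  have hab : ∀ x, |(|g x|) - s x| ≤ ‖s x - g x‖ := fun x => by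
    have := abs_abs_sub_abs_le (g x) (s x)
    rwa [abs_of_nonneg (hs0 x), abs_sub_comm (g x)] at this
  have hsQ := hsi.right_of_add_measure
  have hρs : IntegrableOn (fun x => ρ x * s x) B m := (AUscAux.integrable_wd hsQ).integrableOn
  have hVi := AUscAux.integrableOn (m := m) hV Q o R
  have i1 : IntegrableOn (fun x => V (ρ x) + ε) B m := hVi.add (integrable_const ε)
  have i2 : IntegrableOn (fun x => V (ρ x) + ε - ρ x * s x) B m := i1.sub hρs
  have i3 : IntegrableOn (fun x => lam * ‖s x - g x‖) B m := hdB.const_mul lam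
  have e1 : ∫ x, s x ∂Q = ∫ x in B, ρ x * s x ∂m := by
    have d := Measure.haveLebesgueDecomposition_add Q m
    have z : ∫ x, s x ∂(Q.singularPart m) = 0 := by
      rw [hsdef, integral_indicator hS, Measure.restrict_eq_zero.2 hS1, integral_zero_measure]
    have hsQ' := hsQ
    rw [d] at hsQ'
    rw [setIntegral_eq_integral_of_ae_compl_eq_zero, ← AUscAux.integral_wd]
    · conv_lhs => rw [d]
      rw [integral_add_measure hsQ'.left_of_add_measure hsQ'.right_of_add_measure, z, zero_add]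
    · filter_upwards [AUscAux.rn_zero (m := m) hBm hQ.2] with x hx hxB
      simp only [hρ]
      rw [hx hxB, zero_mul]
  have e2 : ∫ x, |g x| ∂Q ≤ ∫ x, s x ∂Q + ∫ x, ‖s x - g x‖ ∂Q := by
    rw [← integral_add hsQ hdQ]
    exact integral_mono hgi.right_of_add_measure.abs (hsQ.add hdQ) fun x => by
      have := (le_abs_self _).trans (hab x)
      simp only
      linarith
  have e3 : ∫ x in B, (V (ρ x) + ε - ρ x * s x + lam * ‖s x - g x‖) ∂m =
      Psi m V Q + m.real B * ε - ∫ x in B, ρ x * s x ∂m + lam * ∫ x in B, ‖s x - g x‖ ∂m := by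
    rw [integral_add i2 i3, integral_sub i1 hρs, integral_add hVi (integrable_const ε),
      integral_const_mul, setIntegral_const, smul_eq_mul, AUscAux.psi_eq hV hBm hQ.2]
  have key : ∀ᵐ x ∂m, ∀ y, 0 ≤ y →
      V y ≤ V (ρ x) + ε - ρ x * s x + lam * ‖s x - g x‖ + y * |g x| := by
    filter_upwards [show ∀ᵐ x ∂m, x ∈ S from hS2] with x hx
    have k1 : ∀ y, 0 ≤ y → y ≤ lam →
        V y ≤ V (ρ x) + ε - ρ x * s x + lam * ‖s x - g x‖ + y * |g x| := by
      intro y hy hy'
      have a1 := AUscAux.secant hV hδ (hρ0 x) hy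
      have a2 : s x = (V (ρ x + δ) - V (ρ x)) / δ := indicator_of_mem hx _
      rw [← a2] at a1
      have a3 := hs _ (hρ0 x)
      have a4 := (neg_le_abs _).trans (hab x)
      have a5 := mul_le_mul_of_nonneg_left a4 hy
      have a6 := mul_le_mul_of_nonneg_right hy' (norm_nonneg (s x - g x))
      linarith
    intro y hy
    rcases le_total y lam with h1 | h1
    · exact k1 y hy h1
    · have := mul_le_mul_of_nonneg_right h1 (abs_nonneg (g x))
      rw [hV.const y h1]
      linarith [k1 lam hl.le le_rfl]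
  filter_upwards [(h (fun x => |g x|) g.continuous.abs).eventually
    (gt_mem_nhds (lt_add_of_pos_right _ hε0))] with n hn
  have := (hP n).1
  have k := AUscAux.psi_le_lines hV (hP n).2 (i2.add i3) (G := fun x => |g x|)
    (g.integrable (P n)).abs (fun _ => abs_nonneg _) key
  have k' : Psi m V (P n) ≤ ∫ x in B, (V (ρ x) + ε - ρ x * s x + lam * ‖s x - g x‖) ∂m +
      ∫ x, |g x| ∂(P n) := k
  have := mul_le_mul_of_nonneg_left (show ∫ x in B, ‖s x - g x‖ ∂m ≤ ε by linarith) hl.le
  linarith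

end Crest.Agent.R242
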