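import Crest.Agent.R242.AGlue

/-!
# Row 242: weak limits of measures carried by a compact set
-/

set_option autoImplicit false
set_option linter.unusedSectionVars false

open MeasureTheory Filter Set Topology
open scoped ENNReal NNReal
open Crest.GeometryTopology.SyntheticRicci

namespace Crest.Agent.R242

variable {Y : Type*} [TopologicalSpace Y] [TopologicalSpace.MetrizableSpace Y] [MeasurableSpace Y]
  [BorelSpace Y]

theorem PK.ae {K : Set Y} {μ : Measure Y} (h : PK K μ) : ∀ᵐ y ∂μ, y ∈ K := h.2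

theorem PK.integrable {K : Set Y} (hK : IsCompact K) {μ : Measure Y} (h : PK K μ) {f : Y → ℝ}
    (hf : Continuous f) : Integrable f μ := by
  have := h.1
  have h1 : IntegrableOn f K μ := hf.continuousOn.integrableOn_compact hK
  rwa [IntegrableOn, Measure.restrict_eq_self_of_ae_mem h.ae] at h1

theorem exists_wconv {K : Set Y} (hK : IsCompact K) (P : ℕ → Measure Y) (hP : ∀ n, PK K (P n)) :
    ∃ (Q : Measure Y) (φ : ℕ → ℕ), StrictMono φ ∧ PK K Q ∧ WConv (fun n => P (φ n)) Q := by
  have hKm : MeasurableSet K := hK.isClosed.measurableSet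
  have : CompactSpace K := isCompact_iff_compactSpace.1 hK
  have he : MeasurableEmbedding (Subtype.val : K → Y) := MeasurableEmbedding.subtype_coe hKm
  have h1 : ∀ n, ((P n).comap (Subtype.val : K → Y)).map Subtype.val = P n := fun n => by
    rw [he.map_comap, Subtype.range_coe, Measure.restrict_eq_self_of_ae_mem (hP n).ae]
  have h2 : ∀ n, IsProbabilityMeasure ((P n).comap (Subtype.val : K → Y)) := fun n => by
    have := (hP n).1
    exact he.isProbabilityMeasure_comap (by simpa using (hP n).ae)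
  let p : ℕ → ProbabilityMeasure K := fun n => ⟨_, h2 n⟩
  obtain ⟨q, φ, hφ, hq⟩ := CompactSpace.tendsto_subseq p
  refine ⟨(q : Measure K).map Subtype.val, φ, hφ,
    ⟨Measure.isProbabilityMeasure_map he.measurable.aemeasurable, ?_⟩, fun f hf => ?_⟩
  · rw [he.map_apply]
    simp
  · have h3 := ProbabilityMeasure.tendsto_iff_forall_integral_tendsto.1 hq
      (BoundedContinuousFunction.mkOfCompact ⟨fun y : K => f y, hf.comp continuous_subtype_val⟩)
    rw [he.integral_map]
    refine h3.congr fun n => ?_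
    show _ = ∫ y, f y ∂(P (φ n))
    rw [← h1 (φ n), he.integral_map]
    rfl

theorem WConv.map {Z : Type*} [TopologicalSpace Z] [MeasurableSpace Z] [BorelSpace Z]
    {P : ℕ → Measure Y} {Q : Measure Y} (h : WConv P Q) {g : Y → Z} (hg : Continuous g) :
    WConv (fun n => (P n).map g) (Q.map g) := by
  intro f hf
  simp only [integral_map hg.measurable.aemeasurable hf.aestronglyMeasurable]
  exact h _ (hf.comp hg)

theorem AWeakAux.tendsto {P : ℕ → Measure Y} {Q : Measure Y}
    (hP : ∀ n, IsProbabilityMeasure (P n)) (hQ : IsProbabilityMeasure Q) (h : WConv P Q) :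
    Tendsto (β := ProbabilityMeasure Y) (fun n => ⟨P n, hP n⟩) atTop
      (@nhds (ProbabilityMeasure Y) _ ⟨Q, hQ⟩) :=
  ProbabilityMeasure.tendsto_iff_forall_integral_tendsto.2 fun f => h f f.continuous

theorem WConv.limsup_le {P : ℕ → Measure Y} {Q : Measure Y} (hP : ∀ n, IsProbabilityMeasure (P n))
    (hQ : IsProbabilityMeasure Q) (h : WConv P Q) {C : Set Y} (hC : IsClosed C) :
    limsup (fun n => P n C) atTop ≤ Q C :=
  ProbabilityMeasure.limsup_measure_closed_le_of_tendsto (AWeakAux.tendsto hP hQ h) hC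

theorem WConv.le_liminf {P : ℕ → Measure Y} {Q : Measure Y} (hP : ∀ n, IsProbabilityMeasure (P n))
    (hQ : IsProbabilityMeasure Q) (h : WConv P Q) {U : Set Y} (hU : IsOpen U) :
    Q U ≤ liminf (fun n => P n U) atTop :=
  ProbabilityMeasure.le_liminf_measure_open_of_tendsto (AWeakAux.tendsto hP hQ h) hU

theorem WConv.ae_mem {P : ℕ → Measure Y} {Q : Measure Y} (hP : ∀ n, IsProbabilityMeasure (P n))
    (hQ : IsProbabilityMeasure Q) (h : WConv P Q) {C : Set Y} (hC : IsClosed C)
    (hm : ∀ᶠ n in atTop, ∀ᵐ y ∂(P n), y ∈ C) : ∀ᵐ y ∂Q, y ∈ C := by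
  have h1 := h.le_liminf hP hQ hC.isOpen_compl
  have h2 : liminf (fun n => P n Cᶜ) atTop ≤ 0 :=
    liminf_le_of_frequently_le (hm.mono fun n hn => le_of_eq hn).frequently
  exact le_antisymm (h1.trans h2) zero_le

theorem WConv.eq_of_eventually {P : ℕ → Measure Y} {Q μ : Measure Y}
    (hP : ∀ n, IsProbabilityMeasure (P n)) (hQ : IsProbabilityMeasure Q) (h : WConv P Q)
    (hm : ∀ᶠ n in atTop, P n = μ) : Q = μ := by
  obtain ⟨n, hn⟩ := hm.exists
  have : IsProbabilityMeasure μ := hn ▸ hP n
  refine ext_of_forall_integral_eq_of_IsFiniteMeasure fun f => ?_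
  refine tendsto_nhds_unique (h f f.continuous) (tendsto_const_nhds.congr' ?_)
  filter_upwards [hm] with n hn
  rw [hn]

theorem WConv.le_of_eventually {P : ℕ → Measure Y} {Q ν : Measure Y} [ν.OuterRegular]
    (hP : ∀ n, IsProbabilityMeasure (P n)) (hQ : IsProbabilityMeasure Q) (h : WConv P Q)
    (hm : ∀ᶠ n in atTop, P n ≤ ν) : Q ≤ ν := by
  refine Measure.le_iff'.2 fun s => ?_
  rw [s.measure_eq_iInf_isOpen ν]
  refine le_iInf fun U => le_iInf fun hsU => le_iInf fun hU => ?_
  refine (measure_mono hsU).trans ((h.le_liminf hP hQ hU).trans ?_)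
  exact liminf_le_of_frequently_le (hm.mono fun n hn => hn U).frequently

end Crest.Agent.R242
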