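import Crest.Agent.R242.Para

/-! Row 242: bilinearity of the gradient pairing. -/

set_option autoImplicit false
set_option linter.unusedSectionVars false

open MeasureTheory Filter Set Topology
open scoped ENNReal NNReal
open Crest.GeometryTopology.SyntheticRicci

namespace Crest.Agent.R242

variable {X : Type*} [MetricSpace X] [ProperSpace X] [MeasurableSpace X] [BorelSpace X]
  {m : Measure X} [IsLocallyFiniteMeasure m] [m.IsOpenPosMeasure]

theorem gamma_self {f : X → ℝ} (hf : IsSobolevLoc m f) :
    ∀ᵐ x ∂m, gradPairing m f f x = minWeakGrad m f x ^ 2 := by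
  have h1 : (fun y => f y + f y) = fun y => 2 * f y := funext fun y => by ring
  have h2 : (fun y => f y - f y) = fun _ => (0 : ℝ) := funext fun y => by ring
  filter_upwards [(sl_const_mul hf 2).2, (sl_const (m := m) 0).2] with x h3 h4
  rw [gradPairing, h1, h2, h3, h4, abs_two]
  ring

theorem gamma_comm {f g : X → ℝ} (hf : IsSobolevLoc m f) (hg : IsSobolevLoc m g) :
    ∀ᵐ x ∂m, gradPairing m f g x = gradPairing m g f x := by
  have h1 : (fun y => g y + f y) = fun y => f y + g y := funext fun y => by ring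
  have h2 : (fun y => g y - f y) = fun y => -(f y - g y) := funext fun y => by ring
  filter_upwards [(sl_neg (sl_sub hf hg).1).2] with x h3
  rw [gradPairing, gradPairing, h1, h2, h3]

theorem gamma_meas {f g : X → ℝ} (hf : IsSobolevLoc m f) (hg : IsSobolevLoc m g) :
    AEStronglyMeasurable (gradPairing m f g) m := by
  have h := (((sl_D_meas (sl_add hf hg).1).pow 2).sub ((sl_D_meas (sl_sub hf hg).1).pow 2)).mul_const
    (4⁻¹ : ℝ)
  exact h.congr (Eventually.of_forall fun x => by simp [gradPairing, div_eq_mul_inv])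

theorem D_add_sq (hH : IsInfHilbertian m) {f g : X → ℝ} (hf : IsSobolevLoc m f)
    (hg : IsSobolevLoc m g) : ∀ᵐ x ∂m, minWeakGrad m (fun y => f y + g y) x ^ 2 =
      minWeakGrad m f x ^ 2 + 2 * gradPairing m f g x + minWeakGrad m g x ^ 2 := by
  filter_upwards [parallelogram_ae hH hf hg] with x h
  rw [gradPairing]
  linarith

theorem D_sub_sq (hH : IsInfHilbertian m) {f g : X → ℝ} (hf : IsSobolevLoc m f)
    (hg : IsSobolevLoc m g) : ∀ᵐ x ∂m, minWeakGrad m (fun y => f y - g y) x ^ 2 =
      minWeakGrad m f x ^ 2 - 2 * gradPairing m f g x + minWeakGrad m g x ^ 2 := by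
  filter_upwards [parallelogram_ae hH hf hg] with x h
  rw [gradPairing]
  linarith

theorem abs_gamma_le (hH : IsInfHilbertian m) {f g : X → ℝ} (hf : IsSobolevLoc m f)
    (hg : IsSobolevLoc m g) :
    ∀ᵐ x ∂m, |gradPairing m f g x| ≤ minWeakGrad m f x * minWeakGrad m g x := by
  filter_upwards [D_add_sq hH hf hg, D_sub_sq hH hf hg, (sl_add hf hg).2, (sl_sub hf hg).2,
    sl_D_nonneg (sl_add hf hg).1, sl_D_nonneg (sl_sub hf hg).1] with x h1 h2 h3 h4 h5 h6
  have h7 := pow_le_pow_left₀ h5 h3 2
  have h8 := pow_le_pow_left₀ h6 h4 2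
  rw [abs_le]
  constructor <;> nlinarith

theorem gamma_add_left (hH : IsInfHilbertian m) {f g h : X → ℝ} (hf : IsSobolevLoc m f)
    (hg : IsSobolevLoc m g) (hh : IsSobolevLoc m h) : ∀ᵐ x ∂m,
      gradPairing m (fun y => f y + g y) h x = gradPairing m f h x + gradPairing m g h x := by
  have e1 : (fun y => f y + h y + g y) = fun y => f y + g y + h y := funext fun y => by ring
  have e2 : (fun y => f y - h y + g y) = fun y => f y + g y - h y := funext fun y => by ring
  have e3 : (fun y => g y + h y + f y) = fun y => f y + g y + h y := funext fun y => by ring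
  have e4 : (fun y => g y - h y + f y) = fun y => f y + g y - h y := funext fun y => by ring
  have e5 : (fun y => g y + h y - f y) = fun y => -(f y - h y - g y) := funext fun y => by ring
  have e6 : (fun y => g y - h y - f y) = fun y => -(f y + h y - g y) := funext fun y => by ring
  filter_upwards [parallelogram_ae hH (sl_add hf hh).1 hg, parallelogram_ae hH (sl_sub hf hh).1 hg,
    parallelogram_ae hH (sl_add hg hh).1 hf, parallelogram_ae hH (sl_sub hg hh).1 hf,
    (sl_neg (sl_sub (sl_sub hf hh).1 hg).1).2, (sl_neg (sl_sub (sl_add hf hh).1 hg).1).2]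
    with x h1 h2 h3 h4 h5 h6
  rw [e1] at h1
  rw [e2] at h2
  rw [e3, e5, h5] at h3
  rw [e4, e6, h6] at h4
  simp only [gradPairing]
  linarith

theorem gamma_const_mul_left (hH : IsInfHilbertian m) {f h : X → ℝ} (hf : IsSobolevLoc m f)
    (hh : IsSobolevLoc m h) (c : ℝ) :
    ∀ᵐ x ∂m, gradPairing m (fun y => c * f y) h x = c * gradPairing m f h x := by
  have hadd : ∀ a b : ℝ, ∀ᵐ x ∂m, gradPairing m (fun y => (a + b) * f y) h x =
      gradPairing m (fun y => a * f y) h x + gradPairing m (fun y => b * f y) h x := fun a b => by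
    simp only [add_mul]
    exact gamma_add_left hH (sl_const_mul hf a).1 (sl_const_mul hf b).1 hh
  let φ : ℝ →+ Germ (ae m) ℝ := AddMonoidHom.mk'
    (fun c => (gradPairing m (fun y => c * f y) h : Germ (ae m) ℝ))
    fun a b => Germ.coe_eq.2 (hadd a b)
  have hq : ∀ q : ℚ, ∀ᵐ x ∂m,
      gradPairing m (fun y => (q : ℝ) * f y) h x = q * gradPairing m f h x := fun q => by
    have h1 := map_ratCast_smul φ ℝ ℝ q 1
    simp only [φ, AddMonoidHom.mk'_apply, smul_eq_mul, mul_one, one_mul] at h1
    exact Germ.coe_eq.1 h1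
  have key : ∀ᵐ x ∂m, ∀ q : ℚ, |gradPairing m (fun y => c * f y) h x - q * gradPairing m f h x| ≤
      |c - q| * minWeakGrad m f x * minWeakGrad m h x := ae_all_iff.2 fun q => by
    filter_upwards [hq q, hadd (c - q) q, abs_gamma_le hH (sl_const_mul hf (c - q)).1 hh,
      (sl_const_mul hf (c - q)).2] with x h1 h2 h3 h4
    rw [sub_add_cancel, h1] at h2
    rwa [h2, add_sub_cancel_right, ← h4]
  filter_upwards [key] with x hx
  have h1 : |gradPairing m (fun y => c * f y) h x - c * gradPairing m f h x| ≤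
      |c - c| * minWeakGrad m f x * minWeakGrad m h x :=
    Rat.denseRange_cast.induction_on
      (p := fun t : ℝ => |gradPairing m (fun y => c * f y) h x - t * gradPairing m f h x| ≤
        |c - t| * minWeakGrad m f x * minWeakGrad m h x) c
      (isClosed_le (by fun_prop) (by fun_prop)) hx
  rwa [sub_self, abs_zero, zero_mul, zero_mul, abs_nonpos_iff, sub_eq_zero] at h1

theorem gamma_sub_left (hH : IsInfHilbertian m) {f g h : X → ℝ} (hf : IsSobolevLoc m f)
    (hg : IsSobolevLoc m g) (hh : IsSobolevLoc m h) : ∀ᵐ x ∂m,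
      gradPairing m (fun y => f y - g y) h x = gradPairing m f h x - gradPairing m g h x := by
  have e : (fun y => f y - g y) = fun y => f y + -1 * g y := funext fun y => by ring
  filter_upwards [gamma_add_left hH hf (sl_const_mul hg (-1)).1 hh,
    gamma_const_mul_left hH hg hh (-1)] with x h1 h2
  rw [e, h1, h2]
  ring

theorem gamma_add_right (hH : IsInfHilbertian m) {f g h : X → ℝ} (hf : IsSobolevLoc m f)
    (hg : IsSobolevLoc m g) (hh : IsSobolevLoc m h) : ∀ᵐ x ∂m,
      gradPairing m h (fun y => f y + g y) x = gradPairing m h f x + gradPairing m h g x := by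
  filter_upwards [gamma_add_left hH hf hg hh, gamma_comm hh (sl_add hf hg).1, gamma_comm hh hf,
    gamma_comm hh hg] with x h1 h2 h3 h4
  rw [h2, h1, h3, h4]

theorem gamma_const_mul_right (hH : IsInfHilbertian m) {f h : X → ℝ} (hf : IsSobolevLoc m f)
    (hh : IsSobolevLoc m h) (c : ℝ) :
    ∀ᵐ x ∂m, gradPairing m h (fun y => c * f y) x = c * gradPairing m h f x := by
  filter_upwards [gamma_const_mul_left hH hf hh c, gamma_comm hh (sl_const_mul hf c).1,
    gamma_comm hh hf] with x h1 h2 h3
  rw [h2, h1, h3]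

theorem gamma_sub_right (hH : IsInfHilbertian m) {f g h : X → ℝ} (hf : IsSobolevLoc m f)
    (hg : IsSobolevLoc m g) (hh : IsSobolevLoc m h) : ∀ᵐ x ∂m,
      gradPairing m h (fun y => f y - g y) x = gradPairing m h f x - gradPairing m h g x := by
  filter_upwards [gamma_sub_left hH hf hg hh, gamma_comm hh (sl_sub hf hg).1, gamma_comm hh hf,
    gamma_comm hh hg] with x h1 h2 h3 h4
  rw [h2, h1, h3, h4]

theorem gamma_integrable (hH : IsInfHilbertian m) {f g : X → ℝ} (hf : IsSobolev m f)
    (hg : IsSobolev m g) : Integrable (gradPairing m f g) m := by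
  exact (hf.2.2.integrable_mul hg.2.2).mono' (gamma_meas hf.2.1 hg.2.1)
    (abs_gamma_le hH hf.2.1 hg.2.1)

theorem gamma_integrableOn (hH : IsInfHilbertian m) {f g : X → ℝ} (hf : IsSobolevLoc m f)
    (hg : IsSobolevLoc m g) (o : X) (R : ℝ) :
    IntegrableOn (gradPairing m f g) (Metric.closedBall o R) m := by
  have h : IntegrableOn (gradPairing m f g) (Metric.ball o (R + 1)) m :=
    ((sl_D_l2 hf o (R + 1)).integrable_mul (sl_D_l2 hg o (R + 1))).mono'
      (gamma_meas hf hg).restrict (ae_restrict_of_ae (abs_gamma_le hH hf hg))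
  exact h.mono_set (Metric.closedBall_subset_ball (by linarith))

theorem gamma_memLp (hH : IsInfHilbertian m) {f g : X → ℝ} (hf : IsSobolevLoc m f) {L : ℝ}
    (hL : ∀ᵐ x ∂m, minWeakGrad m f x ≤ L) (hg : IsSobolev m g) :
    MemLp (gradPairing m f g) 2 m := by
  refine (hg.2.2.const_mul L).mono' (gamma_meas hf hg.2.1) ?_
  filter_upwards [abs_gamma_le hH hf hg.2.1, hL, sl_D_nonneg hg.2.1] with x h1 h2 h3
  exact h1.trans (mul_le_mul_of_nonneg_right h2 h3)

end Crest.Agent.R242
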