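import Crest.Agent.R242.MinWUG

/-! Row 242: Lipschitz functions are Sobolev. -/

set_option autoImplicit false
set_option linter.unusedSectionVars false

open MeasureTheory Filter Set Topology
open scoped ENNReal NNReal
open Crest.GeometryTopology.SyntheticRicci

namespace Crest.Agent.R242

variable {X : Type*} [MetricSpace X] [ProperSpace X] [MeasurableSpace X] [BorelSpace X]
  {m : Measure X} [IsLocallyFiniteMeasure m] [m.IsOpenPosMeasure]

theorem measurable_ascSlope {u : X → ℝ} (hu : Continuous u) : Measurable (ascSlope u) := by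
  have key : ∀ (r : ℝ) (y : X), LowerSemicontinuous fun x =>
      ⨆ _ : y ∈ Metric.ball x r ∩ {x}ᶜ, ENNReal.ofReal ((u y - u x) / dist y x) := by
    intro r y x c hc
    obtain ⟨⟨h1, h2⟩, h3⟩ := lt_iSup_iff.1 hc
    have hd : dist y x ≠ 0 := dist_ne_zero.2 h2
    have h4 : ContinuousAt (fun x => ENNReal.ofReal ((u y - u x) / dist y x)) x :=
      ENNReal.continuous_ofReal.continuousAt.comp
        ((continuous_const.sub hu).continuousAt.div (by fun_prop) hd)
    have h5 : ∀ᶠ x' in 𝓝 x, dist y x' < r :=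
      (by fun_prop : Continuous fun x' => dist y x').continuousAt.eventually_lt continuousAt_const h1
    filter_upwards [h4.eventually (lt_mem_nhds h3), h5, eventually_ne_nhds (Ne.symm h2)] with
      x' e1 e2 e3
    exact lt_iSup_iff.2 ⟨⟨e2, Ne.symm e3⟩, e1⟩
  have e : ascSlope u = fun x => ⨅ n : ℕ, ⨆ y, ⨆ _ : y ∈ Metric.ball x (1 / ((n : ℝ) + 1)) ∩ {x}ᶜ,
      ENNReal.ofReal ((u y - u x) / dist y x) := by
    funext x
    have h := (nhdsWithin_hasBasis (Metric.nhds_basis_ball_inv_nat_succ (x := x))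
      {x}ᶜ).limsup_eq_iInf_iSup (u := fun y => ENNReal.ofReal ((u y - u x) / dist y x))
    simp only [iInf_pos] at h
    exact h
  rw [e]
  exact Measurable.iInf fun n => (lowerSemicontinuous_iSup (key _)).measurable

theorem LipSob_ascSlope_le {u : X → ℝ} {x : X} {L : ℝ}
    (h : ∀ᶠ y in 𝓝 x, u y - u x ≤ L * dist y x) : ascSlope u x ≤ ENNReal.ofReal L := by
  refine limsup_le_of_le (h := ?_)
  filter_upwards [nhdsWithin_le_nhds h, self_mem_nhdsWithin] with y h1 h2
  exact ENNReal.ofReal_le_ofReal ((div_le_iff₀ (dist_pos.2 h2)).2 h1)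

theorem LipSob_l2 {f : X → ℝ} (hf : AEStronglyMeasurable f m)
    (h : ∀ (o : X) (R : ℝ), ∃ C : ℝ, ∀ x ∈ Metric.ball o R, |f x| ≤ C) : IsL2OnBalls m f := by
  intro o R
  obtain ⟨C, hC⟩ := h o R
  have : IsFiniteMeasure (m.restrict (Metric.ball o R)) :=
    isFiniteMeasure_restrict.2 measure_ball_lt_top.ne
  exact MemLp.of_bound hf.restrict C
    ((ae_restrict_iff' Metric.isOpen_ball.measurableSet).2 (Eventually.of_forall hC))

theorem LipBdd.continuous {u : X → ℝ} (hu : LipBdd u) : Continuous u := by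
  refine continuous_iff_continuousAt.2 fun x => ?_
  obtain ⟨L, hL⟩ := hu x 1
  exact hL.continuousOn.continuousAt (Metric.closedBall_mem_nhds x one_pos)

theorem lipBdd_of_lipschitz {u : X → ℝ} {L : ℝ≥0} (hu : LipschitzWith L u) : LipBdd u :=
  fun _ _ => ⟨L, hu.lipschitzOnWith⟩

theorem LipSob_cst_sub (a b y : X) :
    cst a y - cst b y ≤ (dist a y + dist b y) / 2 * dist a b := by
  unfold cst
  have h1 := dist_triangle a b y
  have h2 : 0 ≤ dist a y + dist b y := by positivity
  nlinarith [mul_le_mul_of_nonneg_left h1 h2]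

theorem lipBdd_cst (y : X) : LipBdd (fun x => cst x y) := by
  intro o R
  refine ⟨(R + dist o y).toNNReal, LipschitzOnWith.of_le_add_mul' _ fun a ha b hb => ?_⟩
  have h1 := LipSob_cst_sub a b y
  have h2 := dist_triangle a o y
  have h3 := dist_triangle b o y
  rw [Metric.mem_closedBall] at ha hb
  have h4 : (dist a y + dist b y) / 2 * dist a b ≤ (R + dist o y) * dist a b :=
    mul_le_mul_of_nonneg_right (by linarith) dist_nonneg
  linarith

theorem ascSlope_cst_le (x y : X) :
    ascSlope (fun x => cst x y) x ≤ ENNReal.ofReal (dist x y) := by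
  refine ENNReal.le_of_forall_pos_le_add fun ε hε _ => ?_
  rw [← ENNReal.ofReal_coe_nnreal, ← ENNReal.ofReal_add dist_nonneg ε.coe_nonneg]
  refine LipSob_ascSlope_le ?_
  filter_upwards [Metric.ball_mem_nhds x (show (0 : ℝ) < ε from hε)] with z hz
  refine (LipSob_cst_sub z x y).trans (mul_le_mul_of_nonneg_right ?_ dist_nonneg)
  have h1 := dist_triangle z x y
  have h2 : dist z x < ε := hz
  have h3 : (0 : ℝ) ≤ ε := ε.2
  change _ ≤ dist x y + (ε : ℝ)
  linarith

theorem LipSob_bdd {u : X → ℝ} (hu : LipBdd u) (o : X) (R : ℝ) :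
    ∃ L : ℝ≥0, ∀ x ∈ Metric.ball o R, ascSlope u x ≤ ENNReal.ofReal L := by
  obtain ⟨L, hL⟩ := hu o R
  refine ⟨L, fun x hx => LipSob_ascSlope_le ?_⟩
  filter_upwards [Metric.isOpen_ball.mem_nhds hx] with y hy
  have := hL.dist_le_mul y (Metric.ball_subset_closedBall hy) x (Metric.ball_subset_closedBall hx)
  exact (le_abs_self _).trans this

theorem LipBdd.sl {u : X → ℝ} (hu : LipBdd u) :
    IsSobolevLoc m u ∧
      ∀ᵐ x ∂m, ENNReal.ofReal (minWeakGrad m u x) ≤ ascSlope u x := by
  have hfin : ∀ x, ascSlope u x ≠ ⊤ := fun x => by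
    obtain ⟨L, hL⟩ := LipSob_bdd hu x 1
    exact ne_top_of_le_ne_top ENNReal.ofReal_ne_top (hL x (Metric.mem_ball_self one_pos))
  have h1 : IsL2OnBalls m u := LipSob_l2 hu.continuous.aestronglyMeasurable fun o R => by
    obtain ⟨C, hC⟩ := (isCompact_closedBall o R).exists_bound_of_continuousOn
      hu.continuous.continuousOn
    exact ⟨C, fun x hx => hC x (Metric.ball_subset_closedBall hx)⟩
  have h2 : IsL2OnBalls m fun x => (ascSlope u x).toReal :=
    LipSob_l2 (measurable_ascSlope hu.continuous).ennreal_toReal.aestronglyMeasurable fun o R => by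
      obtain ⟨L, hL⟩ := LipSob_bdd hu o R
      refine ⟨L, fun x hx => ?_⟩
      rw [abs_of_nonneg ENNReal.toReal_nonneg]
      exact ENNReal.toReal_le_of_le_ofReal L.2 (hL x hx)
  have h3 : IsWUGLoc m u fun x => (ascSlope u x).toReal := by
    refine isWUGLoc_of_ac h2 (Eventually.of_forall fun _ => ENNReal.toReal_nonneg) fun P hP _ => ?_
    filter_upwards [hP.2.2.1] with γ hγ
    obtain ⟨h4, h5⟩ := lipBdd_comp_curve hγ hu
    refine ⟨_, h4, by rw [ext_zero], by rw [ext_one], ?_⟩
    simpa only [ENNReal.ofReal_toReal (hfin _)] using h5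
  obtain ⟨h4, h5⟩ := sobolevLoc_of_wug h1 h3
  refine ⟨h4, h5.mono fun x hx => ?_⟩
  exact (ENNReal.ofReal_le_ofReal hx).trans (ENNReal.ofReal_toReal (hfin x)).le

theorem sl_of_lipschitz {u : X → ℝ} {L : ℝ≥0} (hu : LipschitzWith L u) :
    IsSobolevLoc m u ∧ ∀ᵐ x ∂m, minWeakGrad m u x ≤ L := by
  obtain ⟨h1, h2⟩ := (lipBdd_of_lipschitz hu).sl (m := m)
  refine ⟨h1, h2.mono fun x hx => (ENNReal.ofReal_le_ofReal_iff L.2).1 (hx.trans ?_)⟩
  exact LipSob_ascSlope_le (Eventually.of_forall fun y => (le_abs_self _).trans (hu.dist_le_mul y x))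

theorem lipS_of_lipschitz {u : X → ℝ} {L : ℝ≥0} (hu : LipschitzWith L u)
    (hc : HasCompactSupport u) : LipS m u L := by
  obtain ⟨h1, h2⟩ := (lipBdd_of_lipschitz hu).sl (m := m)
  have h3 := (sl_of_lipschitz (m := m) hu).2
  refine ⟨sob_of_sl (hu.continuous.memLp_of_hasCompactSupport hc) h1
    (memLp_indicator_const 2 (isClosed_tsupport u).measurableSet (L : ℝ)
      (Or.inr hc.isCompact.measure_lt_top.ne)) ?_, h3⟩
  filter_upwards [h2, h3] with x e2 e3
  by_cases hx : x ∈ tsupport u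
  · rwa [indicator_of_mem hx]
  · rw [indicator_of_notMem hx]
    refine (ENNReal.ofReal_le_ofReal_iff le_rfl).1 (e2.trans (LipSob_ascSlope_le ?_))
    have h4 := notMem_tsupport_iff_eventuallyEq.1 hx
    filter_upwards [h4] with y hy
    rw [hy, h4.self_of_nhds]
    simp

/-- A function Lipschitz on bounded sets agrees on a given ball with a compactly supported
Lipschitz function. -/
theorem LipBdd.exists_compact {u : X → ℝ} (hu : LipBdd u) (o : X) (R : ℝ) :
    ∃ (v : X → ℝ) (L : ℝ≥0), LipschitzWith L v ∧ HasCompactSupport v ∧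
      ∀ x, dist x o ≤ R → v x = u x := by
  obtain ⟨L, hL⟩ := hu o R
  obtain ⟨w, hw, huw⟩ := hL.extend_real
  obtain ⟨C, hC⟩ := (isCompact_closedBall o R).exists_bound_of_continuousOn hL.continuousOn
  obtain ⟨χ, h1, h2, -, h3, -⟩ := exists_cutoff o R (S := 1) one_pos
  have h4 : ∀ a : ℝ, LipschitzWith (‖a‖₊ * 1⁻¹) fun x => a * χ x := fun a =>
    (lipschitzWith_smul a).comp h1
  refine ⟨fun x => max (min (w x) (|C| * χ x)) (-|C| * χ x), _, (hw.min (h4 _)).max (h4 _),
    h2.mono fun x hx h0 => hx ?_, fun x hx => ?_⟩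
  · simp [h0]
  · have h5 := abs_le.1 ((hC x hx).trans (le_abs_self C))
    simp only [h3 x hx, mul_one, ← huw hx]
    rw [min_eq_left h5.2, max_eq_left h5.1]

end Crest.Agent.R242
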