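import Crest.Agent.R242.OTBasic
import Crest.Agent.R242.Gamma
import Crest.Agent.R242.LipSob

/-! Row 242: first-order differentiation along geodesic plans. -/

set_option autoImplicit false
set_option linter.unusedSectionVars false

open MeasureTheory Filter Set Topology
open scoped ENNReal NNReal
open Crest.GeometryTopology.SyntheticRicci

namespace Crest.Agent.R242

variable {X : Type*} [MetricSpace X] [ProperSpace X] [MeasurableSpace X] [BorelSpace X]
  {m : Measure X} [IsLocallyFiniteMeasure m] [m.IsOpenPosMeasure]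

theorem FD_sq {D : X → ℝ} (hD : IsL2OnBalls m D) (o : X) (R : ℝ) :
    IntegrableOn (fun x => D x ^ 2) (Metric.closedBall o R) m :=
  IntegrableOn.mono_set (hD o (R + 1)).integrable_sq
    (Metric.closedBall_subset_ball (lt_add_one R))

theorem FD_int {f : X → ℝ} (hf : IsL2OnBalls m f) (o : X) (R : ℝ) :
    IntegrableOn f (Metric.closedBall o R) m := by
  have : IsFiniteMeasure (m.restrict (Metric.ball o (R + 1))) :=
    isFiniteMeasure_restrict.2 Metric.isBounded_ball.measure_lt_top.ne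
  exact IntegrableOn.mono_set ((hf o (R + 1)).integrable one_le_two)
    (Metric.closedBall_subset_ball (lt_add_one R))

theorem FD_marg {P : Measure (UCurve X)} {g : X → ℝ} {t : ℝ} (hg : Integrable g (marg P t)) :
    Integrable (fun γ : UCurve X => g (γ.ext t)) P ∧
      ∫ x, g x ∂(marg P t) = ∫ γ, g (γ.ext t) ∂P :=
  ⟨(integrable_map_measure hg.1 (TestPlan_meas t).aemeasurable).1 hg,
    integral_map (TestPlan_meas t).aemeasurable hg.1⟩

theorem FD_len {P : Measure (UCurve X)} {C : ℝ≥0} {o : X} {R : ℝ} (hP : IsGP m P C o R) :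
    Integrable (fun γ : UCurve X => len γ ^ 2) P := by
  have := hP.1
  refine Integrable.of_bound (continuous_len.pow 2).aestronglyMeasurable ((2 * R) ^ 2) ?_
  filter_upwards [hP.2.2.1] with γ hγ
  rw [Real.norm_eq_abs, abs_of_nonneg (sq_nonneg _)]
  refine pow_le_pow_left₀ dist_nonneg ?_ 2
  have h0 := Metric.mem_closedBall.1 (hγ 0)
  have h1 := Metric.mem_closedBall.1 (hγ 1)
  have := dist_triangle_right (γ.toMap 0) (γ.toMap 1) o
  linarith

theorem brenier_le {P : Measure (UCurve X)} {C : ℝ≥0} {o : X} {R : ℝ} (hP : IsGP m P C o R)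
    {φ : X → ℝ} (hφ : LipBdd φ) (hp : IsPot φ (endpointLaw P)) :
    ∫ x, minWeakGrad m φ x ^ 2 ∂(marg P 0) ≤ ∫ γ, len γ ^ 2 ∂P := by
  have hsl := hφ.sl (m := m)
  have hT := hP.isTestPlan.1
  rw [(FD_marg ((hP.bdd 0).integrable (FD_sq (sl_D_l2 hsl.1) o R))).2]
  refine integral_mono_of_nonneg (Eventually.of_forall fun γ => sq_nonneg _) (FD_len hP) ?_
  filter_upwards [(isPot_endpointLaw_iff hφ.continuous P).1 hp, testPlan_ae_ext hT hsl.2 0,
    testPlan_ae_ext hT (sl_D_nonneg hsl.1) 0] with γ h1 h2 h3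
  refine pow_le_pow_left₀ h3 ?_ 2
  rw [ext_zero] at h2 ⊢
  have h4 : ascSlope φ (γ.toMap 0) ≤ ascSlope (fun x => cst x (γ.toMap 1)) (γ.toMap 0) := by
    unfold ascSlope
    refine limsup_le_limsup (Eventually.of_forall fun y => ?_)
    exact ENNReal.ofReal_le_ofReal (div_le_div_of_nonneg_right (h1 y) dist_nonneg)
  exact (ENNReal.ofReal_le_ofReal_iff dist_nonneg).1
    (h2.trans (h4.trans (ascSlope_cst_le _ _)))

theorem FD_pot {P : Measure (UCurve X)} {C : ℝ≥0} {o : X} {R : ℝ} (hP : IsGP m P C o R)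
    {φ : X → ℝ} (hφ : LipBdd φ) (hp : IsPot φ (endpointLaw P)) {t : ℝ} (ht : t ∈ Icc (0 : ℝ) 1) :
    ∫ x, φ x ∂(marg P t) - ∫ x, φ x ∂(marg P 0) ≤ ((1 - t) ^ 2 - 1) / 2 * ∫ γ, len γ ^ 2 ∂P := by
  have hi := FD_int (hφ.sl (m := m)).1.1 o R
  obtain ⟨a1, a2⟩ := FD_marg ((hP.bdd t).integrable hi)
  obtain ⟨b1, b2⟩ := FD_marg ((hP.bdd 0).integrable hi)
  rw [a2, b2, ← integral_sub a1 b1, ← integral_const_mul]
  refine integral_mono_ae (a1.sub b1) ((FD_len hP).const_mul _) ?_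
  filter_upwards [(isPot_endpointLaw_iff hφ.continuous P).1 hp, hP.2.1] with γ h1 h2
  have h3 := h1 (γ.ext t)
  have h4 := geo_dist_ext h2 ht (right_mem_Icc.2 zero_le_one)
  rw [ext_one] at h4
  have h5 : cst (γ.ext t) (γ.toMap 1) = (1 - t) ^ 2 * len γ ^ 2 / 2 := by
    unfold cst
    rw [h4, mul_pow, sq_abs]; ring
  have h6 : cst (γ.toMap 0) (γ.toMap 1) = len γ ^ 2 / 2 := rfl
  rw [ext_zero]
  rw [h5, h6] at h3
  linarith

theorem FD_avg {A : ℝ → ℝ} (hA : Continuous A) {δ : ℝ} (hδ : 0 < δ) :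
    ∀ᶠ t in 𝓝[>] (0 : ℝ), ∫ r in (0 : ℝ)..t, A r ≤ t * (A 0 + δ) := by
  have h1 : ∀ᶠ r in 𝓝 (0 : ℝ), A r < A 0 + δ :=
    hA.continuousAt.eventually (gt_mem_nhds (lt_add_of_pos_right _ hδ))
  obtain ⟨ρ, hρ, h2⟩ := Metric.eventually_nhds_iff.1 h1
  filter_upwards [Ioo_mem_nhdsGT hρ] with t ht
  have h3 := intervalIntegral.integral_mono_on (μ := volume) ht.1.le (hA.intervalIntegrable 0 t)
    (intervalIntegrable_const (c := A 0 + δ)) fun r hr => (h2 (by
      rw [Real.dist_eq, sub_zero, abs_of_nonneg hr.1]; exact hr.2.trans_lt ht.2)).le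
  rw [intervalIntegral.integral_const, sub_zero, smul_eq_mul] at h3
  exact h3

theorem FD_upper (hH : IsInfHilbertian m) {P : Measure (UCurve X)} {C : ℝ≥0} {o : X} {R : ℝ}
    (hP : IsGP m P C o R) {φ u : X → ℝ} (hφ : LipBdd φ) (hp : IsPot φ (endpointLaw P))
    (hu : IsSobolevLoc m u) {η : ℝ} (hη : 0 < η) :
    ∀ᶠ t in 𝓝[>] (0 : ℝ), ∫ x, u x ∂(marg P 0) - ∫ x, u x ∂(marg P t) ≤
      t * (∫ x, gradPairing m φ u x ∂(marg P 0) + η) := by
  have hφs := (hφ.sl (m := m)).1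
  set W := ∫ γ, len γ ^ 2 ∂P with hW
  have hW0 : 0 ≤ W := integral_nonneg fun γ => sq_nonneg _
  set G := ∫ x, gradPairing m φ u x ∂(marg P 0) with hG
  set U := ∫ x, minWeakGrad m u x ^ 2 ∂(marg P 0) with hU
  have hU0 : 0 ≤ U := integral_nonneg fun γ => sq_nonneg _
  obtain ⟨ε, hε, hεU⟩ : ∃ ε : ℝ, 0 < ε ∧ ε * U ≤ η := by
    refine ⟨η / (U + 1), by positivity, ?_⟩
    rw [div_mul_eq_mul_div, div_le_iff₀ (by positivity)]
    nlinarith
  have heu := sl_const_mul hu ε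
  have hw := (sl_add hφs heu.1).1
  have hA : Continuous fun r : ℝ =>
      ∫ x, minWeakGrad m (fun y => φ y + ε * u y) x ^ 2 ∂(marg P r) :=
    continuous_integral_marg hP.bdd (FD_sq (sl_D_l2 hw) o R)
  have hA0 : ∫ x, minWeakGrad m (fun y => φ y + ε * u y) x ^ 2 ∂(marg P 0) ≤
      W + 2 * ε * G + ε ^ 2 * U := by
    have i1 := (hP.bdd 0).integrable (FD_sq (sl_D_l2 hφs) o R)
    have i2 := (hP.bdd 0).integrable (gamma_integrableOn hH hφs hu o R)
    have i3 := (hP.bdd 0).integrable (FD_sq (sl_D_l2 hu) o R)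
    have e : ∀ᵐ x ∂m, minWeakGrad m (fun y => φ y + ε * u y) x ^ 2 =
        minWeakGrad m φ x ^ 2 + 2 * ε * gradPairing m φ u x + ε ^ 2 * minWeakGrad m u x ^ 2 := by
      filter_upwards [D_add_sq hH hφs heu.1, gamma_const_mul_right hH hu hφs ε, heu.2]
        with x h1 h2 h3
      rw [h1, h2, h3, mul_pow, sq_abs]; ring
    have i4 : Integrable (fun x => minWeakGrad m φ x ^ 2 + 2 * ε * gradPairing m φ u x)
        (marg P 0) := i1.add (i2.const_mul _)
    rw [integral_congr_ae ((hP.bdd 0).ac.ae_le e),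
      integral_add i4 (i3.const_mul _), integral_add i1 (i2.const_mul _),
      integral_const_mul, integral_const_mul]
    have := brenier_le hP hφ hp
    linarith
  have hsplit : ∀ s : ℝ, ∫ x, (φ x + ε * u x) ∂(marg P s) =
      ∫ x, φ x ∂(marg P s) + ε * ∫ x, u x ∂(marg P s) := fun s => by
    rw [integral_add ((hP.bdd s).integrable (FD_int hφs.1 o R))
      (((hP.bdd s).integrable (FD_int hu.1 o R)).const_mul _), integral_const_mul]
  have hδ : 0 < ε * η / 2 := by positivity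
  have hsm : ∀ᶠ t in 𝓝[>] (0 : ℝ), t * W < ε * η / 2 := by
    refine nhdsWithin_le_nhds ?_
    have : Continuous fun t : ℝ => t * W := by fun_prop
    exact this.continuousAt.eventually (gt_mem_nhds (by simpa using hδ))
  filter_upwards [FD_avg hA hδ, hsm, Ioo_mem_nhdsGT (zero_lt_one' ℝ)] with t h1 h2 ht
  have h3 := hP.abs_integral_sub_le hw.1 (sl_wug hw) le_rfl ht.1.le ht.2.le
  have h4 := FD_pot hP hφ hp ⟨ht.1.le, ht.2.le⟩
  rw [hsplit, hsplit, sub_zero, ← hW] at h3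
  rw [← hW] at h4
  set J := ∫ r in (0 : ℝ)..t, ∫ x, minWeakGrad m (fun y => φ y + ε * u y) x ^ 2 ∂(marg P r)
    with hJ
  have hJ0 : 0 ≤ J := intervalIntegral.integral_nonneg ht.1.le fun r _ =>
    integral_nonneg fun x => sq_nonneg _
  have h5 : √(t * W) * √J ≤ (t * W + J) / 2 := by
    have e1 := Real.sq_sqrt (mul_nonneg ht.1.le hW0)
    have e2 := Real.sq_sqrt hJ0
    nlinarith [sq_nonneg (√(t * W) - √J)]
  have h6 := (abs_le.1 (h3.trans h5)).1
  have h7 : J ≤ t * (W + 2 * ε * G + ε ^ 2 * U + ε * η / 2) :=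
    h1.trans (mul_le_mul_of_nonneg_left (by linarith) ht.1.le)
  have h8 : t * (ε ^ 2 * U) ≤ t * (ε * η) :=
    mul_le_mul_of_nonneg_left (by nlinarith) ht.1.le
  have h9 : t * (t * W) ≤ t * (ε * η / 2) := mul_le_mul_of_nonneg_left h2.le ht.1.le
  refine le_of_mul_le_mul_left ?_ hε
  nlinarith

theorem first_diff (hH : IsInfHilbertian m) {P : Measure (UCurve X)} {C : ℝ≥0} {o : X} {R : ℝ}
    (hP : IsGP m P C o R) {φ u : X → ℝ} (hφ : LipBdd φ) (hp : IsPot φ (endpointLaw P))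
    (hu : IsSobolevLoc m u) :
    HasDerivWithinAt (fun t => ∫ x, u x ∂(marg P t))
      (-∫ x, gradPairing m φ u x ∂(marg P 0)) (Ici 0) 0 := by
  have hφs := (hφ.sl (m := m)).1
  have hn := sl_const_mul hu (-1)
  have e1 : ∀ s : ℝ, ∫ x, (-1) * u x ∂(marg P s) = -∫ x, u x ∂(marg P s) := fun s => by
    rw [integral_const_mul, neg_one_mul]
  have e2 : ∫ x, gradPairing m φ (fun y => (-1) * u y) x ∂(marg P 0) =
      -∫ x, gradPairing m φ u x ∂(marg P 0) := by
    rw [integral_congr_ae ((hP.bdd 0).ac.ae_le (gamma_const_mul_right hH hu hφs (-1))),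
      integral_const_mul, neg_one_mul]
  rw [hasDerivWithinAt_iff_tendsto_slope, Ici_sdiff_left, Metric.tendsto_nhds]
  intro η hη
  filter_upwards [FD_upper hH hP hφ hp hu (half_pos hη), FD_upper hH hP hφ hp hn.1 (half_pos hη),
    self_mem_nhdsWithin] with t h1 h2 ht
  have ht0 : (0 : ℝ) < t := ht
  rw [e1, e1, e2] at h2
  rw [Real.dist_eq, slope_def_field, sub_zero, abs_lt, sub_neg_eq_add]
  constructor
  · rw [← sub_lt_iff_lt_add, lt_div_iff₀ ht0]
    nlinarith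
  · rw [← lt_sub_iff_add_lt, div_lt_iff₀ ht0]
    nlinarith

theorem first_diff_restr (hH : IsInfHilbertian m) {P : Measure (UCurve X)} {C : ℝ≥0} {o : X}
    {R : ℝ} (hP : IsGP m P C o R) {a b : ℝ} (ha : a ∈ Icc (0 : ℝ) 1) (hb : b ∈ Icc (0 : ℝ) 1)
    {φ u : X → ℝ} (hφ : LipBdd φ) (hp : IsPot φ (endpointLaw (P.map (restr a b))))
    (hu : IsSobolevLoc m u) :
    HasDerivWithinAt (fun t => ∫ x, u x ∂(marg P (a + (b - a) * t)))
      (-∫ x, gradPairing m φ u x ∂(marg P a)) (Ici 0) 0 := by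
  have h := first_diff hH (hP.map_restr ha hb).1 hφ hp hu
  have e0 : marg (P.map (restr a b)) 0 = marg P a := by
    rw [marg_map_restr P a b (left_mem_Icc.2 zero_le_one), mul_zero, add_zero]
  rw [e0] at h
  refine h.congr_of_eventuallyEq ?_ ?_
  · filter_upwards [Icc_mem_nhdsGE (zero_lt_one' ℝ)] with t ht
    rw [marg_map_restr P a b ht]
  · rw [e0, mul_zero, add_zero]

end Crest.Agent.R242
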