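import Crest.Agent.R242.Stab
import Crest.Agent.R242.FirstDiff

/-! Row 242: the function lies below its tangent parabola along plans. -/

set_option autoImplicit false
set_option linter.unusedSectionVars false

open MeasureTheory Filter Set Topology
open scoped ENNReal NNReal
open Crest.GeometryTopology.SyntheticRicci

namespace Crest.Agent.R242

variable {X : Type*} [MetricSpace X] [ProperSpace X] [MeasurableSpace X] [BorelSpace X]
  {m : Measure X} [IsLocallyFiniteMeasure m] [m.IsOpenPosMeasure]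

theorem above_tan {κ lam₀ : ℝ} {F G : X → ℝ} (H : Hyp m κ lam₀ F G) {P : Measure (UCurve X)}
    {C : ℝ≥0} {o : X} {R : ℝ} (hR : 0 < R) (hP : IsGP m P C o R)
    (hO : IsOptPlan P (marg P 0) (marg P 1)) {φ : X → ℝ} (hφ : LipBdd φ)
    (hp : IsPot φ (endpointLaw P)) {k : ℝ} (hk : ∀ x, dist x o ≤ 4 * R → G x ≤ k) :
    ∫ x, F x ∂(marg P 1) - ∫ x, F x ∂(marg P 0) ≤
      -∫ x, gradPairing m φ F x ∂(marg P 0) + k / 2 * ∫ γ, len γ ^ 2 ∂P := by
  obtain ⟨L, hL⟩ := H.Fl
  have hH := H.good.hilb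
  have hF : IsSobolevLoc m F := (sl_of_lipschitz hL).1
  obtain ⟨f, hf⟩ : ∃ f : ℝ → ℝ, f = fun t => ∫ x, F x ∂(marg P t) := ⟨_, rfl⟩
  obtain ⟨c, hc⟩ : ∃ c : ℝ, c = -∫ x, gradPairing m φ F x ∂(marg P 0) := ⟨_, rfl⟩
  obtain ⟨W, hW⟩ : ∃ W : ℝ, W = ∫ γ, len γ ^ 2 ∂P := ⟨_, rfl⟩
  have hfc : Continuous f := by
    rw [hf]
    exact continuous_integral_marg hP.bdd
      (hL.continuous.continuousOn.integrableOn_compact (isCompact_closedBall o R))
  have hd0 : HasDerivWithinAt f c (Ici 0) 0 := by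
    rw [hf, hc]
    exact first_diff hH hP hφ hp hF
  have h0 : (0 : ℝ) ∈ Icc (0 : ℝ) 1 := ⟨le_rfl, zero_le_one⟩
  have key := sub_le_of_left_deriv hfc (c := c) (k := k * W) fun t ht => by
    have ht' : t ∈ Icc (0 : ℝ) 1 := ⟨ht.1.le, ht.2⟩
    have ht0 : t ≠ 0 := ht.1.ne'
    obtain ⟨ψ, Λ, hψ, hpot, hle⟩ := stab H hR (hP.bdd 0) (hP.bdd t) hk
    have hopt := (hO.restr (hP.bdd 0).isP2 (hP.bdd 1).isP2 h0 ht').2
    have hWsq : Wsq (marg P 0) (marg P t) = t ^ 2 * W := by
      rw [(hopt.Wsq_eq (hP.bdd 0).isP2 (hP.bdd t).isP2).2, (hP.map_restr h0 ht').2, sub_zero, hW]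
    obtain ⟨hp1, hp2⟩ := hpot _ hopt.2.2
    rw [← endpointLaw_map_restr_swap] at hp2
    have d1 := first_diff_restr hH hP h0 ht' (lipBdd_of_lipschitz hψ.lip.neg) hp1 hF
    have d3 := first_diff_restr hH hP ht' h0
      (lipBdd_of_lipschitz (hψ.hopfLax ⟨zero_le_one, le_rfl⟩).lip) hp2 hF
    have e1 : -∫ x, gradPairing m (fun x => -ψ x) F x ∂(marg P 0) =
        ∫ x, gradPairing m ψ F x ∂(marg P 0) := by
      rw [← integral_neg]
      refine integral_congr_ae ?_
      have h1 := gamma_const_mul_left hH (sl_of_lipschitz hψ.lip).1 hF (-1)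
      filter_upwards [(hP.bdd 0).ac.ae_le h1] with x hx
      have h2 : (fun y => -1 * ψ y) = fun y => -ψ y := funext fun y => by ring
      rw [h2] at hx
      rw [hx]; ring
    have d2 : HasDerivWithinAt (fun r => f (0 + (t - 0) * r)) (c * t) (Ici 0) 0 := by
      have hg : HasDerivWithinAt (fun r : ℝ => 0 + (t - 0) * r) t (Ici 0) 0 := by
        have := ((hasDerivAt_id (0 : ℝ)).const_mul (t - 0)).const_add 0
        simpa using this.hasDerivWithinAt
      refine HasDerivWithinAt.comp_of_eq (0 : ℝ) hd0 hg (fun r hr => ?_) (by simp)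
      have : (0 : ℝ) ≤ r := hr
      show 0 ≤ 0 + (t - 0) * r
      have := ht.1
      positivity
    have e2 : ∫ x, gradPairing m ψ F x ∂(marg P 0) = c * t := by
      rw [← e1]
      refine (uniqueDiffWithinAt_Ici (0 : ℝ)).eq_deriv _ d1 ?_
      rw [hf] at d2
      exact d2
    obtain ⟨A, hA⟩ : ∃ A : ℝ, A = ∫ x, gradPairing m (hopfLax ψ 1) F x ∂(marg P t) := ⟨_, rfl⟩
    rw [← hA] at d3 hle
    have d4 : HasDerivWithinAt (fun r => f (t + (0 - t) * r)) (-A) (Ici 0) 0 := by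
      rw [hf]; exact d3
    have hg : HasDerivWithinAt (fun s : ℝ => (t - s) / t) (-1 / t) (Iic t) t :=
      (((hasDerivAt_id t).const_sub t).div_const t).hasDerivWithinAt
    have d5 := HasDerivWithinAt.comp_of_eq t d4 hg (fun s hs => by
      have h1 : s ≤ t := hs
      exact div_nonneg (sub_nonneg.2 h1) ht.1.le) (by simp)
    refine ⟨A / t, ?_, ?_⟩
    · have e3 : ((fun r => f (t + (0 - t) * r)) ∘ fun s : ℝ => (t - s) / t) = f := by
        funext s
        show f (t + (0 - t) * ((t - s) / t)) = f s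
        congr 1
        field_simp
        ring
      rw [e3] at d5
      have e4 : A / t = -A * (-1 / t) := by ring
      rw [e4]
      exact d5
    · rw [div_le_iff₀ ht.1]
      rw [e2, hWsq] at hle
      nlinarith
  rw [hf] at key
  rw [← hc, ← hW]
  linarith

end Crest.Agent.R242
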