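import Crest.Agent.R242.AboveTan

/-! Row 242: the tangent parabola towards a point. -/

set_option autoImplicit false
set_option linter.unusedSectionVars false

open MeasureTheory Filter Set Topology
open scoped ENNReal NNReal
open Crest.GeometryTopology.SyntheticRicci

namespace Crest.Agent.R242

variable {X : Type*} [MetricSpace X] [ProperSpace X] [MeasurableSpace X] [BorelSpace X]
  {m : Measure X} [IsLocallyFiniteMeasure m] [m.IsOpenPosMeasure]

theorem AboveTanPt_step {κ lam₀ : ℝ} {F G : X → ℝ} (H : Hyp m κ lam₀ F G) {μ : Measure X}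
    {M : ℝ≥0} {o : X} {R : ℝ} (hR : 0 < R) (hμ : Bdd m μ M o R) {y : X} (hy : dist y o ≤ R)
    {k : ℝ} (hk : ∀ x, dist x o ≤ 16 * R → G x ≤ k) {L : ℝ≥0} (hL : LipschitzWith L F)
    {r : ℝ} (hr : 0 < r) (hrR : r ≤ R) :
    ∃ φ : X → ℝ, LipBdd φ ∧ (∀ᵐ x ∂m, dist x o ≤ R + 1 → minWeakGrad m φ x ≤ 3 * R + 1) ∧
      (∀ x, dist x o ≤ R + 1 → |φ x - cst x y| ≤ r * (4 * R + 1)) ∧
      F y - ∫ x, F x ∂μ ≤ -∫ x, gradPairing m φ F x ∂μ + k / 2 * ∫ x, dist x y ^ 2 ∂μ +
        r * (L + |k| / 2 * (5 * R)) := by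
  have h0 : m (Metric.closedBall y r) ≠ 0 := (Metric.measure_closedBall_pos m y hr).ne'
  have hν1 := bdd_cond (m := m) measurableSet_closedBall h0 (o := y) (R := r) Subset.rfl
  have hν2 := bdd_cond (m := m) measurableSet_closedBall h0 (o := o) (R := 2 * R)
    (Metric.closedBall_subset_closedBall' (by linarith))
  set ν := ProbabilityTheory.cond m (Metric.closedBall y r) with hνd
  obtain ⟨c, hc⟩ := exists_goodPlan H.good (2 * R)
  obtain ⟨P, hP, hGP, -⟩ := hc o (max M (m (Metric.closedBall y r)).toNNReal⁻¹) μ ν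
    (hμ.mono (le_max_left _ _) (by linarith)) (hν2.mono (le_max_right _ _) le_rfl)
  have := hν1.1
  have := hμ.1
  have := hP.1
  obtain ⟨φ0, hc0, hp0⟩ := exists_pot hμ.isP2 hν1.2.2 hP.2.2
  have hc1 : IsCConc (fun x => φ0 x - φ0 o + cst o y) y r := fun x η hη => by
    obtain ⟨z, hz, h⟩ := hc0 x η hη
    exact ⟨z, hz, fun x' => by linarith [h x']⟩
  have hp1 : IsPot (fun x => φ0 x - φ0 o + cst o y) (endpointLaw P) := by
    filter_upwards [hp0] with p hp x'
    linarith [hp x']
  obtain ⟨e0, e1⟩ := hP.marg_eq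
  have key := above_tan H (R := 2 * (2 * R)) (by linarith) hGP (by rw [e0, e1]; exact hP)
    hc1.lipBdd hp1 (k := k) fun x hx => hk x (by linarith)
  rw [e0, e1] at key
  refine ⟨_, hc1.lipBdd, ?_, fun x hx => ?_, ?_⟩
  · filter_upwards [hc1.D_le (m := m)] with x hx hx'
    have := dist_triangle_right x y o
    linarith
  · have h1 := hc0.near o x
    have h2 := dist_triangle_right x y o
    rw [dist_comm o y] at h1
    rw [show φ0 x - φ0 o + cst o y - cst x y = φ0 x - φ0 o - (cst x y - cst o y) by ring]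
    exact h1.trans (mul_le_mul_of_nonneg_left (by linarith) hr.le)
  · have i1 : F y - r * L ≤ ∫ x, F x ∂ν := by
      obtain ⟨B, hB⟩ := H.Fb
      have hi : Integrable F ν :=
        Integrable.of_bound hL.continuous.aestronglyMeasurable B (Eventually.of_forall hB)
      have : ∫ _ : X, (F y - r * L) ∂ν ≤ ∫ x, F x ∂ν := by
        refine integral_mono_ae (integrable_const _) hi ?_
        filter_upwards [hν1.ae_mem] with x hx
        have h1 := hL.dist_le_mul y x
        rw [Real.dist_eq, dist_comm y x] at h1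
        have h2 := mul_le_mul_of_nonneg_left hx L.coe_nonneg
        linarith [le_abs_self (F y - F x)]
      simpa using this
    have m0 := (continuous_ext_left (X := X) 0).measurable
    have m1 := (continuous_ext_left (X := X) 1).measurable
    have a0 : ∀ᵐ γ ∂P, dist (γ.ext 0) o ≤ R :=
      ae_of_ae_map m0.aemeasurable (p := fun x => dist x o ≤ R) (by
        have := hμ.ae_mem
        rwa [← e0] at this)
    have a1 : ∀ᵐ γ ∂P, dist (γ.ext 1) y ≤ r :=
      ae_of_ae_map m1.aemeasurable (p := fun x => dist x y ≤ r) (by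
        have := hν1.ae_mem
        rwa [← e1] at this)
    have hd : Continuous fun x : X => dist x y ^ 2 := by fun_prop
    have i2 : ∫ x, dist x y ^ 2 ∂μ = ∫ γ, dist (γ.ext 0) y ^ 2 ∂P := by
      rw [← e0, marg, integral_map m0.aemeasurable hd.aestronglyMeasurable]
    have j1 := (hP.Wsq_eq hμ.isP2 hν1.isP2).1
    have j2 : Integrable (fun γ : UCurve X => dist (γ.ext 0) y ^ 2) P := by
      have := hμ.isP2.integrable_sq y
      rw [← e0] at this
      exact this.comp_measurable m0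
    have i3 : |∫ γ, len γ ^ 2 ∂P - ∫ x, dist x y ^ 2 ∂μ| ≤ r * (5 * R) := by
      rw [i2, ← integral_sub j1 j2, ← Real.norm_eq_abs]
      refine (norm_integral_le_of_norm_le_const (C := r * (5 * R)) ?_).trans (by simp)
      filter_upwards [a0, a1] with γ b0 b1
      rw [ext_zero] at b0 ⊢
      rw [ext_one] at b1
      have c1 : |len γ - dist (γ.toMap 0) y| ≤ r := by
        have := abs_dist_sub_le (γ.toMap 1) y (γ.toMap 0)
        rw [dist_comm (γ.toMap 1) (γ.toMap 0), dist_comm y (γ.toMap 0)] at this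
        exact this.trans b1
      have c2 := dist_triangle_right (γ.toMap 0) y o
      have c3 : 0 ≤ len γ := dist_nonneg
      have c4 := dist_nonneg (x := γ.toMap 0) (y := y)
      rw [Real.norm_eq_abs, sq_sub_sq, abs_mul, mul_comm, abs_of_nonneg (add_nonneg c3 c4)]
      refine mul_le_mul c1 ?_ (add_nonneg c3 c4) hr.le
      linarith [(abs_le.1 c1).2]
    have i4 : k / 2 * (∫ γ, len γ ^ 2 ∂P - ∫ x, dist x y ^ 2 ∂μ) ≤ |k| / 2 * (r * (5 * R)) := by
      refine (le_abs_self _).trans ?_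
      rw [abs_mul, abs_div, abs_two]
      exact mul_le_mul_of_nonneg_left i3 (by positivity)
    nlinarith

theorem above_tan_pt {κ lam₀ : ℝ} {F G : X → ℝ} (H : Hyp m κ lam₀ F G) {μ : Measure X}
    {M : ℝ≥0} {o : X} {R : ℝ} (hR : 0 < R) (hμ : Bdd m μ M o R) {y : X} (hy : dist y o ≤ R)
    {k : ℝ} (hk : ∀ x, dist x o ≤ 16 * R → G x ≤ k) :
    F y - ∫ x, F x ∂μ ≤
      -∫ x, gradPairing m (fun w => cst w y) F x ∂μ + k / 2 * ∫ x, dist x y ^ 2 ∂μ := by
  obtain ⟨L, hL⟩ := H.Fl
  have hr : ∀ n : ℕ, 0 < R / (n + 1) := fun n => by positivity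
  have hrR : ∀ n : ℕ, R / (n + 1) ≤ R := fun n =>
    div_le_self hR.le (by linarith [n.cast_nonneg (α := ℝ)])
  choose φ h1 h2 h3 h4 using fun n : ℕ => AboveTanPt_step H hR hμ hy hk hL (hr n) (hrR n)
  have ht : Tendsto (fun n : ℕ => R / (n + 1)) atTop (𝓝 0) := by
    simpa [div_eq_mul_inv] using (tendsto_one_div_add_atTop_nhds_zero_nat (𝕜 := ℝ)).const_mul R
  have hg := tendsto_gamma_loc H.good.hilb hμ h1 (lipBdd_cst y) h2 (fun e he => by
    have h5 : Tendsto (fun n : ℕ => R / (n + 1) * (4 * R + 1)) atTop (𝓝 0) := by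
      simpa using ht.mul_const (4 * R + 1)
    filter_upwards [h5.eventually (gt_mem_nhds he)] with n hn x hx
    exact (h3 n x hx).trans hn.le) hL
  have h6 := (hg.neg.add_const (k / 2 * ∫ x, dist x y ^ 2 ∂μ)).add
    (ht.mul_const (L + |k| / 2 * (5 * R)))
  rw [zero_mul, add_zero] at h6
  exact ge_of_tendsto' h6 h4

end Crest.Agent.R242
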