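import Crest.Agent.R242.Tau

/-! Row 242: volume comparison of concentric balls from the curvature-dimension condition. -/

set_option autoImplicit false
set_option linter.unusedSectionVars false

open MeasureTheory Filter Set Topology
open scoped ENNReal NNReal
open Crest.GeometryTopology.SyntheticRicci

namespace Crest.Agent.R242

variable {X : Type*} [MetricSpace X] [CompleteSpace X] [TopologicalSpace.SeparableSpace X]
  [MeasurableSpace X] [BorelSpace X] {m : Measure X} [m.IsOpenPosMeasure]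

theorem isLocallyFiniteMeasure_of_balls (hfin : IsFiniteOnBalls m) :
    IsLocallyFiniteMeasure m :=   ⟨fun x => ⟨Metric.ball x 1, Metric.ball_mem_nhds x one_pos, hfin x 1⟩⟩

theorem bg_measurable_ev (t : unitInterval) : Measurable fun γ : UCurve X => γ.toMap t :=
  ((continuous_eval_const t).comp isometry_toMap.continuous).measurable

theorem bg_renyi_le (ν : Measure X) [IsProbabilityMeasure ν] {B : Set X} (hB : MeasurableSet B)
    (h0 : ν Bᶜ = 0) {N : ℝ} (hN : 1 < N) : renyiPower m ν N ≤ m B ^ (1 / N) := by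
  have hN0 : 0 < N := by linarith
  have hp : 0 < 1 - 1 / N := by
    rw [sub_pos, div_lt_one hN0]
    exact hN
  have h1 : ∫⁻ x in Bᶜ, ν.rnDeriv m x ∂m = 0 := by
    refine le_antisymm ?_ zero_le
    rw [← withDensity_apply _ hB.compl, ← h0]
    exact Measure.withDensity_rnDeriv_le ν m _
  have h2 : ∀ᵐ x ∂m, x ∈ Bᶜ → ν.rnDeriv m x = 0 := by
    rw [← ae_restrict_iff' hB.compl]
    exact (lintegral_eq_zero_iff (Measure.measurable_rnDeriv ν m)).1 h1
  have h3 : renyiPower m ν N =
      ∫⁻ x, ν.rnDeriv m x ^ (1 - 1 / N) * B.indicator (fun _ => (1 : ℝ≥0∞)) x ^ (1 / N) ∂m := by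
    refine lintegral_congr_ae ?_
    filter_upwards [h2] with x hx
    by_cases hxB : x ∈ B
    · rw [indicator_of_mem hxB, ENNReal.one_rpow, mul_one]
    · rw [hx hxB, ENNReal.zero_rpow_of_pos hp, zero_mul]
  rw [h3]
  refine (ENNReal.lintegral_mul_norm_pow_le (Measure.measurable_rnDeriv ν m).aemeasurable
    (measurable_const.indicator hB).aemeasurable hp.le (by positivity) (by ring)).trans ?_
  rw [lintegral_indicator_const hB, one_mul]
  have h4 : ∫⁻ x, ν.rnDeriv m x ∂m ≤ 1 := Measure.lintegral_rnDeriv_le.trans measure_univ.le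
  exact mul_le_of_le_one_left' (ENNReal.rpow_le_one h4 hp.le)

theorem bg_rnDeriv_cond [SigmaFinite m] {s : Set X} (hs : MeasurableSet s) :
    ∀ᵐ x ∂(ProbabilityTheory.cond m s), (ProbabilityTheory.cond m s).rnDeriv m x = (m s)⁻¹ := by
  have h1 : ProbabilityTheory.cond m s = m.withDensity (s.indicator fun _ => (m s)⁻¹) := by
    rw [withDensity_indicator hs, withDensity_const]
    rfl
  have h2 : (ProbabilityTheory.cond m s).rnDeriv m =ᵐ[m] s.indicator fun _ => (m s)⁻¹ := by
    rw [h1]
    exact Measure.rnDeriv_withDensity m (measurable_const.indicator hs)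
  filter_upwards [ProbabilityTheory.cond_absolutelyContinuous.ae_le h2,
    ProbabilityTheory.ae_cond_mem (μ := m) hs] with x hx hxs
  rw [hx, indicator_of_mem hxs]

theorem bg_moment (x : X) (R : ℝ) [IsProbabilityMeasure (ProbabilityTheory.cond m (Metric.ball x R))] :
    HasFiniteSecondMoment (ProbabilityTheory.cond m (Metric.ball x R)) := by
  refine ⟨x, lt_of_le_of_lt (lintegral_mono_ae (g := fun _ => ENNReal.ofReal R ^ 2) ?_) ?_⟩
  · filter_upwards [ProbabilityTheory.ae_cond_mem (μ := m) (Metric.isOpen_ball (x := x) (ε := R)).measurableSet]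
      with y hy
    rw [edist_dist]
    gcongr
    exact (Metric.mem_ball.1 hy).le
  · rw [lintegral_const, measure_univ, mul_one]
    exact ENNReal.pow_lt_top ENNReal.ofReal_lt_top

theorem ball_growth (hfin : IsFiniteOnBalls m) {K N : ℝ} (hN : 1 < N) (hCD : IsCD m K N) :
    ∃ A β : ℝ, 1 ≤ A ∧ 0 ≤ β ∧ ∀ (x : X) (R : ℝ), 0 < R →
      m (Metric.ball x R) ≤ ENNReal.ofReal (A * Real.exp (β * R)) * m (Metric.ball x (3 * R / 4)) := by
  have hN0 : 0 < N := by linarith
  have := isLocallyFiniteMeasure_of_balls hfin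
  have : SecondCountableTopology X := UniformSpace.secondCountable_of_separable X
  refine ⟨2 ^ N, 2 * N * √|K|, Real.one_le_rpow (by norm_num) hN0.le, by positivity,
    fun x R hR => ?_⟩
  have hm : ∀ r : ℝ, MeasurableSet (Metric.ball x r) := fun r => Metric.isOpen_ball.measurableSet
  have h0 := ProbabilityTheory.cond_isProbabilityMeasure_of_finite (μ := m)
    (Metric.measure_ball_pos m x hR).ne' (hfin x R).ne
  have h1 := ProbabilityTheory.cond_isProbabilityMeasure_of_finite (μ := m)
    (Metric.measure_ball_pos m x (by positivity : 0 < R / 6)).ne' (hfin x (R / 6)).ne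
  obtain ⟨P, hP, hgeo, ⟨⟨hc0, hc1⟩, -⟩, hineq⟩ := hCD _ _ h0 h1 (bg_moment x R) (bg_moment x (R / 6))
    ProbabilityTheory.cond_absolutelyContinuous ProbabilityTheory.cond_absolutelyContinuous
  have hpair : Measurable fun γ : UCurve X => (γ.toMap 0, γ.toMap 1) :=
    (bg_measurable_ev 0).prodMk (bg_measurable_ev 1)
  have e0 : P.map (fun γ : UCurve X => γ.toMap 0) = ProbabilityTheory.cond m (Metric.ball x R) := by
    rw [← hc0, endpointLaw, Measure.map_map measurable_fst hpair]
    rfl
  have e1 : P.map (fun γ : UCurve X => γ.toMap 1) =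
      ProbabilityTheory.cond m (Metric.ball x (R / 6)) := by
    rw [← hc1, endpointLaw, Measure.map_map measurable_snd hpair]
    rfl
  have a0 : ∀ᵐ γ ∂P, γ.toMap 0 ∈ Metric.ball x R :=
    ae_of_ae_map (bg_measurable_ev 0).aemeasurable (p := fun y => y ∈ Metric.ball x R)
      (e0 ▸ ProbabilityTheory.ae_cond_mem (hm R))
  have a1 : ∀ᵐ γ ∂P, γ.toMap 1 ∈ Metric.ball x (R / 6) :=
    ae_of_ae_map (bg_measurable_ev 1).aemeasurable (p := fun y => y ∈ Metric.ball x (R / 6))
      (e1 ▸ ProbabilityTheory.ae_cond_mem (hm (R / 6)))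
  have a2 : ∀ᵐ γ ∂P, (ProbabilityTheory.cond m (Metric.ball x R)).rnDeriv m (γ.toMap 0) =
      (m (Metric.ball x R))⁻¹ :=
    ae_of_ae_map (bg_measurable_ev 0).aemeasurable
      (p := fun y => (ProbabilityTheory.cond m (Metric.ball x R)).rnDeriv m y =
        (m (Metric.ball x R))⁻¹) (by rw [e0]; exact bg_rnDeriv_cond (hm R))
  let t : unitInterval := ⟨1 / 2, by norm_num, by norm_num⟩
  have ht : (t : ℝ) = 1 / 2 := rfl
  have hlen : ∀ γ : UCurve X, γ.toMap 0 ∈ Metric.ball x R → γ.toMap 1 ∈ Metric.ball x (R / 6) →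
      dist (γ.toMap 0) (γ.toMap 1) < R + R / 6 := fun γ b0 b1 =>
    (dist_triangle_right _ _ x).trans_lt (add_lt_add (Metric.mem_ball.1 b0) (Metric.mem_ball.1 b1))
  have : IsProbabilityMeasure (timeMarginal P t) :=
    Measure.isProbabilityMeasure_map (bg_measurable_ev t).aemeasurable
  have hmid : timeMarginal P t (Metric.ball x (3 * R / 4))ᶜ = 0 := by
    rw [timeMarginal, Measure.map_apply (bg_measurable_ev t) (hm _).compl]
    have : ∀ᵐ γ ∂P, γ.toMap t ∈ Metric.ball x (3 * R / 4) := by
      filter_upwards [hgeo, a0, a1] with γ hg b0 b1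
      have d1 := hg t 1
      have d2 := hlen γ b0 b1
      have d3 := dist_triangle (γ.toMap t) (γ.toMap 1) x
      have d4 := Metric.mem_ball.1 b1
      have d5 : |(t : ℝ) - ((1 : unitInterval) : ℝ)| = 1 / 2 := by
        rw [ht, Set.Icc.coe_one, abs_of_neg (by norm_num)]
        norm_num
      rw [d5] at d1
      rw [Metric.mem_ball]
      linarith
    exact this
  have hup := (hineq N le_rfl t).trans (bg_renyi_le (timeMarginal P t) (hm _) hmid hN)
  set c : ℝ := Real.exp (-(√|K| * (2 * R))) / 2 with hc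
  have hc0' : 0 < c := by positivity
  have hlow : ENNReal.ofReal c * m (Metric.ball x R) ^ (1 / N) ≤
      m (Metric.ball x (3 * R / 4)) ^ (1 / N) := by
    refine le_trans ?_ hup
    rw [← mul_one (ENNReal.ofReal c * _), ← measure_univ (μ := P), ← lintegral_const]
    refine lintegral_mono_ae ?_
    filter_upwards [a0, a1, a2] with γ b0 b1 b2
    refine le_trans ?_ le_self_add
    rw [b2, ht, show (1 : ℝ) - 1 / 2 = 1 / 2 by norm_num, ENNReal.inv_rpow, neg_div,
      ENNReal.rpow_neg, inv_inv]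
    refine mul_le_mul_left (le_trans ?_ (tau_half_ge_lin K N _ hN dist_nonneg)) _
    refine ENNReal.ofReal_le_ofReal ?_
    have d2 := hlen γ b0 b1
    rw [hc]
    gcongr
    linarith
  have hpow := ENNReal.rpow_le_rpow hlow hN0.le
  rw [ENNReal.mul_rpow_of_nonneg _ _ hN0.le, ← ENNReal.rpow_mul, ← ENNReal.rpow_mul,
    one_div_mul_cancel hN0.ne', ENNReal.rpow_one, ENNReal.rpow_one,
    ENNReal.ofReal_rpow_of_pos hc0'] at hpow
  have hone : ENNReal.ofReal (2 ^ N * Real.exp (2 * N * √|K| * R)) * ENNReal.ofReal (c ^ N) = 1 := by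
    rw [← ENNReal.ofReal_mul (by positivity), hc, Real.div_rpow (Real.exp_pos _).le (by norm_num),
      ← Real.exp_mul]
    have h2 : (0 : ℝ) < 2 ^ N := by positivity
    have h3 : Real.exp (2 * N * √|K| * R) * Real.exp (-(√|K| * (2 * R)) * N) = 1 := by
      rw [← Real.exp_add, ← Real.exp_zero]
      congr 1
      ring
    rw [show (2 : ℝ) ^ N * Real.exp (2 * N * √|K| * R) * (Real.exp (-(√|K| * (2 * R)) * N) / 2 ^ N) =
      Real.exp (2 * N * √|K| * R) * Real.exp (-(√|K| * (2 * R)) * N) by field_simp, h3,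
      ENNReal.ofReal_one]
  calc m (Metric.ball x R) = ENNReal.ofReal (2 ^ N * Real.exp (2 * N * √|K| * R)) *
        (ENNReal.ofReal (c ^ N) * m (Metric.ball x R)) := by rw [← mul_assoc, hone, one_mul]
    _ ≤ _ := mul_le_mul_right hpow _

end Crest.Agent.R242
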