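import Crest.Agent.R242.Lsc
import Crest.Agent.R242.Gamma

/-! Row 242: weak and strong convergence in W^{1,2}. -/

set_option autoImplicit false
set_option linter.unusedSectionVars false

open MeasureTheory Filter Set Topology
open scoped ENNReal NNReal
open Crest.GeometryTopology.SyntheticRicci

namespace Crest.Agent.R242

variable {X : Type*} [MetricSpace X] [ProperSpace X] [MeasurableSpace X] [BorelSpace X]
  {m : Measure X} [IsLocallyFiniteMeasure m] [m.IsOpenPosMeasure]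

/-- Cauchy-Schwarz. -/
theorem WC_cs {Ω : Type*} [MeasurableSpace Ω] {μ : Measure Ω} {a b : Ω → ℝ} (ha : MemLp a 2 μ)
    (hb : MemLp b 2 μ) : |∫ x, a x * b x ∂μ| ≤ √(∫ x, a x ^ 2 ∂μ) * √(∫ x, b x ^ 2 ∂μ) := by
  have h := abs_real_inner_le_norm (ha.toLp a) (hb.toLp b)
  rwa [Lsc.inner_toLp, Lsc.norm_toLp, Lsc.norm_toLp, integral_congr_ae
    (hb.coeFn_toLp.mono fun x hx => show a x * _ = a x * b x by rw [hx])] at h

theorem WC_exp (hH : IsInfHilbertian m) {u w θ : X → ℝ} (hu : IsSobolev m u) (hw : IsSobolev m w)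
    (hθ : AEStronglyMeasurable θ m) {B : ℝ} (hB : ∀ᵐ x ∂m, ‖θ x‖ ≤ B) (t : ℝ) :
    ∫ x, θ x * minWeakGrad m (fun y => u y + t * w y) x ^ 2 ∂m =
      ∫ x, θ x * minWeakGrad m u x ^ 2 ∂m + 2 * t * ∫ x, θ x * gradPairing m u w x ∂m +
        ∫ x, θ x * minWeakGrad m (fun y => t * w y) x ^ 2 ∂m := by
  have h1 := hu.2.2.integrable_sq.bdd_mul hθ hB
  have h2 := ((gamma_integrable hH hu hw).bdd_mul hθ hB).const_mul (2 * t)
  have h3 := (sob_const_mul hw t).2.2.integrable_sq.bdd_mul hθ hB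
  rw [← integral_const_mul, ← integral_add' h1 h2, ← integral_add' (h1.add h2) h3]
  refine integral_congr_ae ?_
  filter_upwards [D_add_sq hH hu.2.1 (sob_const_mul hw t).2.1,
    gamma_const_mul_right hH hw.2.1 hu.2.1 t] with x a1 a2
  simp only [Pi.add_apply]
  rw [a1, a2]
  ring

theorem WC_pos (hH : IsInfHilbertian m) {u : ℕ → X → ℝ} {f v θ : X → ℝ}
    (hu : ∀ n, IsSobolev m (u n)) (hf : MemLp f 2 m) (hc : L2Conv m u f) {A : ℝ}
    (hA : ∀ n, ∫ x, minWeakGrad m (u n) x ^ 2 ∂m ≤ A) (hv : IsSobolev m v)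
    (hθ : AEStronglyMeasurable θ m) {B : ℝ} (hB0 : 0 ≤ B) (hB : ∀ᵐ x ∂m, 0 ≤ θ x ∧ θ x ≤ B) :
    Tendsto (fun n => ∫ x, θ x * gradPairing m (u n) v x ∂m) atTop
      (𝓝 (∫ x, θ x * gradPairing m f v x ∂m)) := by
  have hfs := (sob_of_limit hu hf hc hA).1
  have hB' : ∀ᵐ x ∂m, ‖θ x‖ ≤ B := hB.mono fun x hx => (Real.norm_of_nonneg hx.1).trans_le hx.2
  have key : ∀ t : ℝ, ∀ᶠ n in atTop, 2 * t * (∫ x, θ x * gradPairing m f v x ∂m -
      ∫ x, θ x * gradPairing m (u n) v x ∂m) ≤ B * |A| + 1 := fun t => by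
    have hw := sob_const_mul hv t
    have h1 := (sob_of_limit (u := fun n y => u n y + t * v y) (f := fun y => f y + t * v y)
      (fun n => sob_add (hu n) hw) (sob_add hfs hw).1 (by simpa [L2Conv] using hc)
      (A := 2 * A + 2 * ∫ x, minWeakGrad m (fun y => t * v y) x ^ 2 ∂m) fun n => ?_).2 θ B hθ hB
      1 one_pos
    · filter_upwards [h1] with n hn
      rw [WC_exp hH hfs hv hθ hB', WC_exp hH (hu n) hv hθ hB'] at hn
      have h2 : 0 ≤ ∫ x, θ x * minWeakGrad m f x ^ 2 ∂m :=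
        integral_nonneg_of_ae (hB.mono fun x hx => mul_nonneg hx.1 (sq_nonneg _))
      have h3 : ∫ x, θ x * minWeakGrad m (u n) x ^ 2 ∂m ≤
          ∫ x, B * minWeakGrad m (u n) x ^ 2 ∂m :=
        integral_mono_ae ((hu n).2.2.integrable_sq.bdd_mul hθ hB')
          ((hu n).2.2.integrable_sq.const_mul B)
          (hB.mono fun x hx => mul_le_mul_of_nonneg_right hx.2 (sq_nonneg _))
      rw [integral_const_mul] at h3
      have h4 := mul_le_mul_of_nonneg_left ((hA n).trans (le_abs_self A)) hB0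
      linarith
    · have a1 := (hu n).2.2.integrable_sq.const_mul 2
      have a2 := hw.2.2.integrable_sq.const_mul 2
      refine (integral_mono_ae (sob_add (hu n) hw).2.2.integrable_sq (a1.add a2) ?_).trans ?_
      · filter_upwards [(sl_add (hu n).2.1 hw.2.1).2, sl_D_nonneg (sob_add (hu n) hw).2.1]
          with x b1 b2
        have := pow_le_pow_left₀ b2 b1 2
        simp only [Pi.add_apply]
        nlinarith [sq_nonneg (minWeakGrad m (u n) x - minWeakGrad m (fun y => t * v y) x)]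
      · simp only [Pi.add_apply]
        rw [integral_add a1 a2, integral_const_mul, integral_const_mul]
        linarith [hA n]
  refine Metric.tendsto_nhds.2 fun ε hε => ?_
  have hK : 0 < B * |A| + 1 := by positivity
  filter_upwards [key ((B * |A| + 1) / ε), key (-((B * |A| + 1) / ε))] with n h1 h2
  rw [Real.dist_eq, abs_sub_comm]
  have h3 : 2 * ((B * |A| + 1) / ε) * |∫ x, θ x * gradPairing m f v x ∂m -
      ∫ x, θ x * gradPairing m (u n) v x ∂m| ≤ B * |A| + 1 := by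
    rcases abs_choice (∫ x, θ x * gradPairing m f v x ∂m -
      ∫ x, θ x * gradPairing m (u n) v x ∂m) with h | h <;> rw [h] <;> linarith
  by_contra h4
  have h5 := mul_le_mul_of_nonneg_left (not_lt.1 h4)
    (show 0 ≤ 2 * ((B * |A| + 1) / ε) by positivity)
  rw [mul_assoc, div_mul_cancel₀ _ hε.ne'] at h5
  linarith

theorem weak_conv (hH : IsInfHilbertian m) {u : ℕ → X → ℝ} {f v θ : X → ℝ}
    (hu : ∀ n, IsSobolev m (u n)) (hf : MemLp f 2 m) (hc : L2Conv m u f) {A : ℝ}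
    (hA : ∀ n, ∫ x, minWeakGrad m (u n) x ^ 2 ∂m ≤ A) (hv : IsSobolev m v)
    (hθ : AEStronglyMeasurable θ m) {B : ℝ} (hB : ∀ᵐ x ∂m, |θ x| ≤ B) :
    Tendsto (fun n => ∫ x, θ x * gradPairing m (u n) v x ∂m) atTop
      (𝓝 (∫ x, θ x * gradPairing m f v x ∂m)) := by
  have h1 := WC_pos hH hu hf hc hA hv (θ := fun x => θ x + |B|)
    (hθ.add aestronglyMeasurable_const) (B := 2 * |B|) (by positivity) (hB.mono fun x hx =>
      ⟨by linarith [neg_abs_le (θ x), le_abs_self B], by linarith [le_abs_self (θ x), le_abs_self B]⟩)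
  have h2 := WC_pos hH hu hf hc hA hv (θ := fun _ => |B|) aestronglyMeasurable_const (abs_nonneg B)
    (Eventually.of_forall fun _ => ⟨abs_nonneg B, le_rfl⟩)
  have h3 : ∀ w, IsSobolev m w → ∫ x, (θ x + |B|) * gradPairing m w v x ∂m -
      ∫ x, |B| * gradPairing m w v x ∂m = ∫ x, θ x * gradPairing m w v x ∂m := fun w hw => by
    simp only [add_mul]
    rw [integral_add ((gamma_integrable hH hw hv).bdd_mul hθ hB)
      ((gamma_integrable hH hw hv).const_mul _), add_sub_cancel_right]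
  have h4 := h1.sub h2
  rw [h3 f (sob_of_limit hu hf hc hA).1] at h4
  exact h4.congr fun n => h3 _ (hu n)

theorem sob_complete {u : ℕ → X → ℝ} (hu : ∀ n, IsSobolev m (u n))
    (hc : ∀ η : ℝ, 0 < η → ∃ N, ∀ n k, N ≤ n → N ≤ k → ∫ x, (u n x - u k x) ^ 2 ∂m ≤ η ∧
      ∫ x, minWeakGrad m (fun y => u n y - u k y) x ^ 2 ∂m ≤ η) :
    ∃ f : X → ℝ, IsSobolev m f ∧ W12Conv m u f := by
  have hd : ∀ {a b : X → ℝ} (ha : MemLp a 2 m) (hb : MemLp b 2 m),
      dist (ha.toLp a) (hb.toLp b) = √(∫ x, (a x - b x) ^ 2 ∂m) := fun ha hb => by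
    rw [dist_eq_norm, ← MemLp.toLp_sub, Lsc.norm_toLp]
    rfl
  have h1 : CauchySeq fun n => (hu n).1.toLp (u n) := Metric.cauchySeq_iff.2 fun ε hε => by
    obtain ⟨N, hN⟩ := hc (ε ^ 2 / 2) (by positivity)
    refine ⟨N, fun n hn k hk => ?_⟩
    rw [hd, Real.sqrt_lt' hε]
    exact (hN n k hn hk).1.trans_lt (half_lt_self (by positivity))
  obtain ⟨F, hF⟩ := cauchySeq_tendsto_of_complete h1
  have h2 : L2Conv m u F := by
    have h3 := (tendsto_iff_dist_tendsto_zero.1 hF).pow 2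
    rw [zero_pow two_ne_zero] at h3
    refine h3.congr fun n => ?_
    conv_lhs => rw [← Lp.toLp_coeFn F (Lp.memLp F), hd]
    exact Real.sq_sqrt (integral_nonneg fun x => sq_nonneg _)
  have h3 : ∀ η : ℝ, 0 < η → ∃ N, ∀ n, N ≤ n → IsSobolev m (fun y => u n y - F y) ∧
      ∫ x, minWeakGrad m (fun y => u n y - F y) x ^ 2 ∂m ≤ 2 * η := fun η hη => by
    obtain ⟨N, hN⟩ := hc η hη
    refine ⟨N, fun n hn => ?_⟩
    obtain ⟨a1, a2⟩ := sob_of_limit (u := fun k y => u n y - u (k + N) y)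
      (f := fun y => u n y - F y) (fun k => sob_sub (hu n) (hu _)) ((hu n).1.sub (Lp.memLp F))
      ((h2.comp (tendsto_add_atTop_nat N)).congr fun k => integral_congr_ae
        (Eventually.of_forall fun x => by ring))
      fun k => (hN n _ hn (Nat.le_add_left N k)).2
    obtain ⟨k, hk⟩ := (a2 1 1 aestronglyMeasurable_const
      (Eventually.of_forall fun _ => ⟨zero_le_one, le_rfl⟩) η hη).exists
    simp only [Pi.one_apply, one_mul] at hk
    exact ⟨a1, by linarith [(hN n _ hn (Nat.le_add_left N k)).2]⟩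
  refine ⟨F, ?_, h2, Metric.tendsto_atTop.2 fun ε hε => ?_⟩
  · obtain ⟨N, hN⟩ := h3 1 one_pos
    simpa using sob_sub (hu N) (hN N le_rfl).1
  · obtain ⟨N, hN⟩ := h3 (ε / 3) (by positivity)
    refine ⟨N, fun n hn => ?_⟩
    rw [Real.dist_0_eq_abs, abs_of_nonneg (integral_nonneg fun x => sq_nonneg _)]
    linarith [(hN n hn).2]

theorem W12Conv.gamma_L1 (hH : IsInfHilbertian m) {u v : ℕ → X → ℝ} {f g : X → ℝ}
    (hu : ∀ n, IsSobolev m (u n)) (hv : ∀ n, IsSobolev m (v n)) (hf : IsSobolev m f)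
    (hg : IsSobolev m g) (huf : W12Conv m u f) (hvg : W12Conv m v g) :
    Tendsto (fun n => ∫ x, |gradPairing m (u n) (v n) x - gradPairing m f g x| ∂m) atTop (𝓝 0) := by
  have h1 := huf.2.sqrt
  have h2 := hvg.2.sqrt
  have h3 := ((h1.mul h2).add (h1.mul_const √(∫ x, minWeakGrad m g x ^ 2 ∂m))).add
    (h2.const_mul √(∫ x, minWeakGrad m f x ^ 2 ∂m))
  simp only [Real.sqrt_zero, mul_zero, zero_mul, add_zero] at h3
  refine squeeze_zero (fun n => integral_nonneg fun x => abs_nonneg _) (fun n => ?_) h3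
  have a := sob_sub (hu n) hf
  have b := sob_sub (hv n) hg
  have i1 := a.2.2.integrable_mul b.2.2
  have i2 := a.2.2.integrable_mul hg.2.2
  have i3 := hf.2.2.integrable_mul b.2.2
  refine (integral_mono_ae ((gamma_integrable hH (hu n) (hv n)).sub
    (gamma_integrable hH hf hg)).abs ((i1.add i2).add i3) ?_).trans ?_
  · filter_upwards [gamma_sub_left hH (hu n).2.1 hf.2.1 b.2.1,
      gamma_sub_left hH (hu n).2.1 hf.2.1 hg.2.1, gamma_sub_right hH (hv n).2.1 hg.2.1 hf.2.1,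
      gamma_sub_right hH (hv n).2.1 hg.2.1 (hu n).2.1, abs_gamma_le hH a.2.1 b.2.1,
      abs_gamma_le hH a.2.1 hg.2.1, abs_gamma_le hH hf.2.1 b.2.1] with x e1 e2 e3 e4 e5 e6 e7
    simp only [Pi.add_apply, Pi.mul_apply, Pi.sub_apply]
    refine le_trans ?_ (add_le_add (add_le_add e5 e6) e7)
    refine le_trans (le_of_eq ?_) (abs_add_three _ _ _)
    rw [e1, e2, e4, e3]
    congr 1
    ring
  · rw [integral_add' (i1.add i2) i3, integral_add' i1 i2]
    exact add_le_add (add_le_add ((le_abs_self _).trans (WC_cs a.2.2 b.2.2))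
      ((le_abs_self _).trans (WC_cs a.2.2 hg.2.2))) ((le_abs_self _).trans (WC_cs hf.2.2 b.2.2))

theorem W12Conv.gamma_L2 (hH : IsInfHilbertian m) {u : ℕ → X → ℝ} {f : X → ℝ} {L : ℝ}
    (hu : ∀ n, LipS m (u n) L) (hf : LipS m f L) (huf : W12Conv m u f) :
    L2Conv m (fun n => gradPairing m (u n) (u n)) (gradPairing m f f) := by
  have h1 := huf.2.const_mul ((2 * L) ^ 2)
  rw [mul_zero] at h1
  refine squeeze_zero (fun n => integral_nonneg fun x => sq_nonneg _) (fun n => ?_) h1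
  have a := sob_sub (hu n).1 hf.1
  rw [← integral_const_mul]
  refine integral_mono_of_nonneg (Eventually.of_forall fun x => sq_nonneg _)
    (a.2.2.integrable_sq.const_mul _) ?_
  have e1 := (sl_add a.2.1 hf.1.2.1).2
  have e2 := (sl_sub (hu n).1.2.1 a.2.1).2
  simp only [sub_add_cancel, sub_sub_cancel] at e1 e2
  filter_upwards [e1, e2, gamma_self (hu n).1.2.1, gamma_self hf.1.2.1, (hu n).2, hf.2,
    sl_D_nonneg (hu n).1.2.1, sl_D_nonneg hf.1.2.1] with x b1 b2 b3 b4 b5 b6 b7 b8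
  rw [b3, b4, sq_sub_sq, mul_pow]
  exact mul_le_mul (pow_le_pow_left₀ (by linarith) (by linarith) 2)
    (sq_le_sq' (by linarith) (by linarith)) (sq_nonneg _) (sq_nonneg _)

theorem WC_ind {Ω : Type*} [MeasurableSpace Ω] {μ : Measure Ω} {s : Set Ω} (hs : MeasurableSet s)
    (a : Ω → ℝ) : ∫ x, s.indicator (fun _ => (1 : ℝ)) x * a x ∂μ = ∫ x in s, a x ∂μ := by
  rw [← integral_indicator hs]
  congr 1 with x
  by_cases h : x ∈ s <;> simp [h]

theorem WC_le {u : ℕ → X → ℝ} {f g : X → ℝ} (hu : ∀ n, IsSobolev m (u n))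
    (hf : MemLp f 2 m) (hc : L2Conv m u f) {A : ℝ}
    (hA : ∀ n, ∫ x, minWeakGrad m (u n) x ^ 2 ∂m ≤ A)
    (hg : ∀ s, MeasurableSet s → m s < ∞ → IntegrableOn g s m)
    (h : ∀ s, MeasurableSet s → m s < ∞ → ∀ η : ℝ, 0 < η → ∀ᶠ n in atTop,
      ∫ x in s, minWeakGrad m (u n) x ^ 2 ∂m ≤ ∫ x in s, g x ∂m + η) :
    ∀ᵐ x ∂m, minWeakGrad m f x ^ 2 ≤ g x := by
  obtain ⟨hfs, h1⟩ := sob_of_limit hu hf hc hA
  have h2 := ae_nonneg_of_forall_setIntegral_nonneg_of_sigmaFinite (μ := m)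
    (f := fun x => g x - minWeakGrad m f x ^ 2)
    (fun s hs hs' => (hg s hs hs').sub hfs.2.2.integrable_sq.integrableOn) fun s hs hs' => by
      rw [integral_sub (hg s hs hs') hfs.2.2.integrable_sq.integrableOn, sub_nonneg]
      refine le_of_forall_pos_le_add fun η hη => ?_
      obtain ⟨n, a1, a2⟩ := ((h1 (s.indicator fun _ => 1) 1 (aestronglyMeasurable_const.indicator hs)
        (Eventually.of_forall fun x => ⟨indicator_nonneg (fun _ _ => zero_le_one) x,
          indicator_le_self' (fun _ _ => zero_le_one) x⟩) (η / 2) (half_pos hη)).and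
        (h s hs hs' (η / 2) (half_pos hη))).exists
      rw [WC_ind hs, WC_ind hs] at a1
      linarith
  exact h2.mono fun x hx => sub_nonneg.1 hx

/-- A pointwise bound on the gradients passes to the limit. -/
theorem D_sq_le_of_limit {u w : ℕ → X → ℝ} {f g : X → ℝ} (hu : ∀ n, IsSobolev m (u n))
    (hf : MemLp f 2 m) (hc : L2Conv m u f) {A : ℝ}
    (hA : ∀ n, ∫ x, minWeakGrad m (u n) x ^ 2 ∂m ≤ A) (hw : ∀ n, MemLp (w n) 2 m)
    (hg : MemLp g 2 m) (hwg : L2Conv m w g)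
    (h : ∀ n, ∀ᵐ x ∂m, minWeakGrad m (u n) x ^ 2 ≤ w n x) :
    ∀ᵐ x ∂m, minWeakGrad m f x ^ 2 ≤ g x := by
  have hi : ∀ {a : X → ℝ}, MemLp a 2 m → ∀ s, m s < ∞ → IntegrableOn a s m := fun ha s hs =>
    haveI : Fact (m s < ∞) := ⟨hs⟩
    (ha.restrict s).integrable one_le_two
  refine WC_le hu hf hc hA (fun s _ hs => hi hg s hs) fun s hs hs' η hη => ?_
  have h1 := hwg.sqrt.const_mul √(∫ x, s.indicator (fun _ => (1 : ℝ)) x ^ 2 ∂m)
  rw [Real.sqrt_zero, mul_zero] at h1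
  filter_upwards [h1.eventually (gt_mem_nhds hη)] with n hn
  have h2 := (le_abs_self _).trans (WC_cs (memLp_indicator_const 2 hs (1 : ℝ) (.inr hs'.ne))
    ((hw n).sub hg))
  have h3 := integral_mono_ae (hu n).2.2.integrable_sq.integrableOn (hi (hw n) s hs')
    (ae_restrict_of_ae (h n))
  simp only [Pi.sub_apply] at h2
  rw [WC_ind hs, integral_sub (hi (hw n) s hs') (hi hg s hs')] at h2
  linarith

theorem D_le_of_limit {u : ℕ → X → ℝ} {f : X → ℝ} (hu : ∀ n, IsSobolev m (u n))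
    (hf : MemLp f 2 m) (hc : L2Conv m u f) {A L : ℝ}
    (hA : ∀ n, ∫ x, minWeakGrad m (u n) x ^ 2 ∂m ≤ A)
    (h : ∀ n, ∀ᵐ x ∂m, minWeakGrad m (u n) x ≤ L) : LipS m f L := by
  refine ⟨(sob_of_limit hu hf hc hA).1, ?_⟩
  have h1 := WC_le hu hf hc hA (g := fun _ => L ^ 2) (fun s _ hs => integrableOn_const hs.ne)
    fun s hs hs' η hη => Eventually.of_forall fun n => by
      refine (integral_mono_ae (hu n).2.2.integrable_sq.integrableOn (integrableOn_const hs'.ne)
        (ae_restrict_of_ae ?_)).trans (le_add_of_nonneg_right hη.le)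
      filter_upwards [h n, sl_D_nonneg (hu n).2.1] with x a1 a2 using pow_le_pow_left₀ a2 a1 2
  filter_upwards [h1, h 0, sl_D_nonneg (hu 0).2.1] with x a1 a2 a3
  exact (abs_le_of_sq_le_sq' a1 (a3.trans a2)).2

end Crest.Agent.R242
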