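import Crest.Agent.R242.SobToLip
import Crest.Agent.R242.WeakConv
import Crest.Agent.R242.LipSob

/-! Row 242: cutting off functions with bounded gradient. -/

set_option autoImplicit false
set_option linter.unusedSectionVars false

open MeasureTheory Filter Set Topology
open scoped ENNReal NNReal
open Crest.GeometryTopology.SyntheticRicci

namespace Crest.Agent.R242

variable {X : Type*} [MetricSpace X] [ProperSpace X] [MeasurableSpace X] [BorelSpace X]
  {m : Measure X} [IsLocallyFiniteMeasure m] [m.IsOpenPosMeasure]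

theorem DLS_le {a b : X → ℝ} (ha : Continuous a) (hb : Continuous b) (h : ∀ᵐ x ∂m, a x ≤ b x)
    (x : X) : a x ≤ b x := by
  have h1 : (fun x => min (a x) (b x)) = a :=
    (Continuous.ae_eq_iff_eq m (ha.min hb) ha).1 (h.mono fun x hx => min_eq_left hx)
  exact min_eq_left_iff.1 (congrFun h1 x)

theorem DLS_rep {κ : ℝ} (hG : Good m κ) {f : X → ℝ} {L : ℝ} (hf : LipS m f L) :
    ∃ g : X → ℝ, LipschitzWith L.toNNReal g ∧ f =ᵐ[m] g :=
  sobToLip hG hf.1.2.1 (hf.2.mono fun _ hx => hx.trans (Real.le_coe_toNNReal L))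

theorem DLS_mul {a b : X → ℝ} {K K' A B : ℝ≥0} (ha : LipschitzWith K a) (hb : LipschitzWith K' b)
    (hA : ∀ x, |a x| ≤ A) (hB : ∀ x, |b x| ≤ B) :
    LipschitzWith (A * K' + B * K) fun x => a x * b x := by
  refine LipschitzWith.of_dist_le_mul fun x y => ?_
  have h1 := ha.dist_le_mul x y
  have h2 := hb.dist_le_mul x y
  rw [Real.dist_eq] at h1 h2 ⊢
  rw [show a x * b x - a y * b y = a x * (b x - b y) + b y * (a x - a y) by ring]
  refine (abs_add_le _ _).trans ?_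
  rw [abs_mul, abs_mul]
  push_cast
  rw [add_mul, mul_assoc, mul_assoc]
  exact add_le_add (mul_le_mul (hA x) h2 (abs_nonneg _) A.2)
    (mul_le_mul (hB y) h1 (abs_nonneg _) B.2)

theorem DLS_clamp {c : ℝ} (hc : 0 ≤ c) (t : ℝ) :
    |max (-c) (min c t)| ≤ c ∧ |max (-c) (min c t)| ≤ |t| := by
  rcases le_total c t with h | h
  · rw [min_eq_left h, max_eq_right (by linarith), abs_of_nonneg hc]
    exact ⟨le_rfl, h.trans (le_abs_self t)⟩
  · rw [min_eq_right h]
    rcases le_total (-c) t with h' | h'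
    · rw [max_eq_right h']
      exact ⟨abs_le.2 ⟨h', h⟩, le_rfl⟩
    · rw [max_eq_left h', abs_neg, abs_of_nonneg hc]
      exact ⟨le_rfl, by linarith [neg_le_abs t]⟩

theorem DLS_tendsto {u : ℕ → X → ℝ} {b : X → ℝ} (hu : ∀ n, AEStronglyMeasurable (u n) m)
    (hb : MemLp b 2 m) (h : ∀ n, ∀ᵐ x ∂m, |u n x| ≤ b x) (h0 : ∀ᵐ x ∂m, ∀ᶠ n in atTop, u n x = 0) :
    Tendsto (fun n => ∫ x, u n x ^ 2 ∂m) atTop (𝓝 0) := by
  have := tendsto_integral_of_dominated_convergence (F := fun n x => u n x ^ 2)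
    (f := fun _ => (0 : ℝ)) (fun x => b x ^ 2) (fun n => (hu n).pow 2) hb.integrable_sq
    (fun n => (h n).mono fun x hx => by
      rw [norm_pow]
      exact pow_le_pow_left₀ (abs_nonneg _) hx 2)
    (h0.mono fun x hx => tendsto_const_nhds.congr' (hx.mono fun n hn => by simp [hn]))
  simpa using this

/-- One cut-off step. -/
theorem DLS_step {f : X → ℝ} {L : ℝ} {K : ℝ≥0} (hf : LipS m f L) (hK : LipschitzWith K f) (o : X)
    (n : ℕ) : ∃ g : X → ℝ, (∃ K : ℝ≥0, LipschitzWith K g) ∧ HasCompactSupport g ∧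
      LipS m g (L + 1) ∧ ((∀ x, 0 ≤ f x) → ∀ x, 0 ≤ g x) ∧ (∀ x, |g x| ≤ |f x|) ∧
      (∀ᵐ x ∂m, minWeakGrad m g x ≤ minWeakGrad m f x + |f x|) ∧
      ∀ x, dist x o ≤ n → |f x| ≤ n → g x = f x := by
  obtain ⟨χ, χ1, χ2, χ3, χ4, -⟩ := exists_cutoff o n (S := n + 1) (by positivity)
  have hc : (0 : ℝ) ≤ n + 1 := by positivity
  have hcl := DLS_clamp hc
  obtain ⟨c1, c2⟩ := sob_clamp hf.1 (a := -(n + 1)) (b := n + 1) (by linarith) hc
  have cL : LipschitzWith K fun y => max (-(n + 1 : ℝ)) (min (n + 1) (f y)) :=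
    (hK.const_min _).const_max _
  have χa : ∀ x, |χ x| ≤ 1 := fun x => abs_le.2 ⟨by linarith [(χ3 x).1], (χ3 x).2⟩
  have gL := DLS_mul (A := 1) (B := n + 1) χ1 cL χa fun x => by
    simpa using (hcl (f x)).1
  have gs : HasCompactSupport fun x => χ x * max (-(n + 1 : ℝ)) (min (n + 1) (f x)) :=
    χ2.mul_right
  have gS := (lipS_of_lipschitz (m := m) gL gs).1
  obtain ⟨s1, s2⟩ := sl_of_lipschitz (m := m) χ1
  have key : ∀ᵐ x ∂m, 0 ≤ |χ x| * minWeakGrad m (fun y => max (-(n + 1 : ℝ)) (min (n + 1) (f y))) x +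
        |max (-(n + 1 : ℝ)) (min (n + 1) (f x))| * minWeakGrad m χ x ∧
      |χ x| * minWeakGrad m (fun y => max (-(n + 1 : ℝ)) (min (n + 1) (f y))) x +
        |max (-(n + 1 : ℝ)) (min (n + 1) (f x))| * minWeakGrad m χ x ≤
      minWeakGrad m f x + min 1 |f x| := by
    filter_upwards [c2, s2, sl_D_nonneg c1.2.1, sl_D_nonneg s1] with x a1 a2 a3 a4
    have a5 : minWeakGrad m χ x ≤ ((n : ℝ) + 1)⁻¹ := by simpa using a2
    refine ⟨by positivity, add_le_add ((mul_le_of_le_one_left a3 (χa x)).trans a1) (le_min ?_ ?_)⟩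
    · exact (mul_le_mul (hcl _).1 a5 a4 hc).trans_eq (mul_inv_cancel₀ (by positivity))
    · exact (mul_le_of_le_one_right (abs_nonneg _)
        (a5.trans (inv_le_one_of_one_le₀ (by linarith [Nat.cast_nonneg (α := ℝ) n])))).trans
        (hcl _).2
  have hD := (sl_mul s1 c1.2.1 gS.2.1.1 (isL2OnBalls_of_le
    ((χ1.continuous.abs.aestronglyMeasurable.mul (sl_D_meas c1.2.1)).add
      (cL.continuous.abs.aestronglyMeasurable.mul (sl_D_meas s1)))
    (isL2OnBalls_of_memLp (hf.1.2.2.add hf.1.1.abs)) (key.mono fun x hx => by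
      rw [abs_of_nonneg hx.1]
      exact hx.2.trans (add_le_add le_rfl (min_le_right _ _))))).2
  refine ⟨_, ⟨_, gL⟩, gs, ⟨gS, ?_⟩, fun h0 x => ?_, fun x => ?_, ?_, fun x h1 h2 => ?_⟩
  · filter_upwards [hD, key, hf.2] with x a1 a2 a3
    linarith [a2.2, min_le_left 1 |f x|]
  · exact mul_nonneg (χ3 x).1 (le_max_of_le_right (le_min hc (h0 x)))
  · rw [abs_mul]
    exact (mul_le_of_le_one_left (abs_nonneg _) (χa x)).trans (hcl _).2
  · filter_upwards [hD, key] with x a1 a2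
    linarith [a2.2, min_le_right 1 |f x|]
  · obtain ⟨h3, h4⟩ := abs_le.1 h2
    simp only [χ4 x h1, one_mul]
    rw [min_eq_right (by linarith), max_eq_right (by linarith)]

theorem densLipS {κ : ℝ} (hG : Good m κ) {f : X → ℝ} {L : ℝ} (hf : LipS m f L) :
    ∃ g : ℕ → X → ℝ, (∀ n, (∃ K : ℝ≥0, LipschitzWith K (g n)) ∧ HasCompactSupport (g n) ∧
      LipS m (g n) (L + 1) ∧ ((∀ᵐ x ∂m, 0 ≤ f x) → ∀ x, 0 ≤ g n x)) ∧ W12Conv m g f := by
  rcases isEmpty_or_nonempty X with hX | ⟨⟨o⟩⟩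
  · refine ⟨fun _ => f, fun n => ⟨⟨0, fun x => hX.elim x⟩, HasCompactSupport.of_compactSpace f,
      ⟨hf.1, .of_forall fun x => hX.elim x⟩, fun _ x => hX.elim x⟩, ?_, ?_⟩ <;>
      simp [L2Conv, integral_of_isEmpty]
  obtain ⟨f', hK, hff⟩ := DLS_rep hG hf
  have hD : minWeakGrad m f = minWeakGrad m f' := minWeakGrad_congr hff
  have hf' : LipS m f' L := ⟨sob_congr hf.1 hff, hD ▸ hf.2⟩
  choose g g1 g2 g3 g4 g5 g6 g7 using DLS_step hf' hK o
  have hev : ∀ᵐ x ∂m, ∀ᶠ n in atTop, g n x - f x = 0 := by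
    filter_upwards [hff] with x hx
    filter_upwards [tendsto_natCast_atTop_atTop.eventually_ge_atTop (dist x o),
      tendsto_natCast_atTop_atTop.eventually_ge_atTop |f' x|] with n h1 h2
    rw [g7 n x h1 h2, hx, sub_self]
  have hs := fun n => sl_sub (g3 n).1.2.1 hf.1.2.1
  refine ⟨g, fun n => ⟨g1 n, g2 n, g3 n, fun h0 => g4 n (DLS_le (m := m) continuous_const
    hK.continuous ?_)⟩, ?_, ?_⟩
  · filter_upwards [h0, hff] with x h1 h2
    rwa [← h2]
  · refine DLS_tendsto (fun n => ((g3 n).1.1.sub hf.1.1).1) (hf.1.1.abs.add hf.1.1.abs)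
      (fun n => ?_) hev
    filter_upwards [hff] with x hx
    have := g5 n x
    rw [← hx] at this
    exact (abs_sub _ _).trans (add_le_add this le_rfl)
  · refine DLS_tendsto (fun n => sl_D_meas (hs n).1) ((hf.1.2.2.add hf.1.1.abs).add hf.1.2.2)
      (fun n => ?_) ?_
    · filter_upwards [hff, (hs n).2, sl_D_nonneg (hs n).1, g6 n] with x a1 a2 a3 a4
      rw [← hD, ← a1] at a4
      rw [abs_of_nonneg a3]
      exact a2.trans (add_le_add a4 le_rfl)
    · filter_upwards [hev, ae_all_iff.2 fun n =>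
        D_eq_zero_on_countable (hs n).1 (countable_singleton 0)] with x a1 a2
      exact a1.mono fun n hn => a2 n hn

/-- A bounded function with bounded gradient has a bounded Lipschitz representative. -/
theorem exists_bdd_lip_rep {κ : ℝ} (hG : Good m κ) {f : X → ℝ} {L B : ℝ} (hf : LipS m f L)
    (hB : ∀ᵐ x ∂m, |f x| ≤ B) :
    ∃ g : X → ℝ, LipschitzWith L.toNNReal g ∧ (∀ x, |g x| ≤ B) ∧ f =ᵐ[m] g := by
  obtain ⟨g, hK, hg⟩ := DLS_rep hG hf
  refine ⟨g, hK, DLS_le (m := m) hK.continuous.abs continuous_const ?_, hg⟩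
  filter_upwards [hB, hg] with x h1 h2
  rwa [← h2]

theorem LipS.mono {f : X → ℝ} {L L' : ℝ} (hf : LipS m f L) (h : L ≤ L') : LipS m f L' := by
  exact ⟨hf.1, hf.2.mono fun _ hx => hx.trans h⟩

theorem LipS.gamma_memLp (hH : IsInfHilbertian m) {f : X → ℝ} {L : ℝ} (hf : LipS m f L) :
    MemLp (gradPairing m f f) 2 m ∧
      ∀ᵐ x ∂m, 0 ≤ gradPairing m f f x ∧ gradPairing m f f x ≤ L ^ 2 := by
  refine ⟨Crest.Agent.R242.gamma_memLp hH hf.1.2.1 hf.2 hf.1, ?_⟩
  filter_upwards [gamma_self hf.1.2.1, sl_D_nonneg hf.1.2.1, hf.2] with x h1 h2 h3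
  rw [h1]
  exact ⟨sq_nonneg _, pow_le_pow_left₀ h2 h3 2⟩

end Crest.Agent.R242
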