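import Crest.Agent.R242.ResExist
import Crest.Agent.R242.LipSob

/-! Row 242: maximum principle for the weighted resolvent. -/

set_option autoImplicit false
set_option linter.unusedSectionVars false

open MeasureTheory Filter Set Topology
open scoped ENNReal NNReal
open Crest.GeometryTopology.SyntheticRicci

namespace Crest.Agent.R242

variable {X : Type*} [MetricSpace X] [ProperSpace X] [MeasurableSpace X] [BorelSpace X]
  {m : Measure X} [IsLocallyFiniteMeasure m] [m.IsOpenPosMeasure]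

theorem ResMarkov_deriv (c : ℝ) {t : ℝ} (ht : t ∉ ({c, c + 1} : Set ℝ)) :
    HasDerivAt (fun t : ℝ => max 0 (min 1 (t - c))) (if t ∈ Ioo c (c + 1) then 1 else 0) t := by
  simp only [mem_insert_iff, mem_singleton_iff, not_or] at ht
  split_ifs with h
  · refine ((hasDerivAt_id t).sub_const c).congr_of_eventuallyEq ?_
    filter_upwards [Ioo_mem_nhds h.1 h.2] with s hs
    rw [min_eq_right (by linarith [hs.2]), max_eq_right (by linarith [hs.1])]
    rfl
  · rcases lt_or_gt_of_ne ht.1 with h1 | h1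
    · refine (hasDerivAt_const t (0 : ℝ)).congr_of_eventuallyEq ?_
      filter_upwards [Iio_mem_nhds h1] with s hs
      exact max_eq_left ((min_le_right _ _).trans (by linarith [mem_Iio.1 hs]))
    · have h2 : c + 1 < t := lt_of_le_of_ne (not_lt.1 fun h' => h ⟨h1, h'⟩) (Ne.symm ht.2)
      refine (hasDerivAt_const t (1 : ℝ)).congr_of_eventuallyEq ?_
      filter_upwards [Ioi_mem_nhds h2] with s hs
      rw [min_eq_left (by linarith [mem_Ioi.1 hs]), max_eq_right zero_le_one]

/-- Comparison of a weak subsolution with a constant; bounded test functions suffice. -/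
theorem subsol_le_const (hH : IsInfHilbertian m) {V : X → ℝ} (hV : IsWt V) {lam : ℝ}
    (hl : 0 < lam) {z g : X → ℝ} (hz : IsSobolev m z) (hg : MemLp g 2 m) {c : ℝ} (hc : 0 ≤ c)
    (hgc : ∀ᵐ x ∂m, g x ≤ c)
    (h : ∀ v : X → ℝ, IsSobolev m v → (∀ x, 0 ≤ v x ∧ v x ≤ 1) →
      ∫ x, Real.exp (V x) * gradPairing m z v x ∂m ≤
        lam * ∫ x, Real.exp (V x) * ((g x - z x) * v x) ∂m) :
    ∀ᵐ x ∂m, z x ≤ c := by
  have hΦ : LipschitzWith (1 + 0) fun t : ℝ => max 0 (min 1 (t - c)) :=
    ((LipschitzWith.id.sub (LipschitzWith.const c)).const_min 1).const_max 0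
  have hm : Measurable fun t : ℝ => if t ∈ Ioo c (c + 1) then (1 : ℝ) else 0 :=
    Measurable.ite measurableSet_Ioo measurable_const measurable_const
  have hK : ∀ t : ℝ, |if t ∈ Ioo c (c + 1) then (1 : ℝ) else 0| ≤ ((1 + 0 : ℝ≥0) : ℝ) := by
    intro t
    split_ifs <;> simp
  have hS : ({c, c + 1} : Set ℝ).Countable := Set.to_countable _
  have hv := sob_comp hz hΦ (max_eq_left ((min_le_right _ _).trans (by linarith))) hm hK hS
    fun t ht => ResMarkov_deriv c ht
  have h1 := h _ hv fun x => ⟨le_max_left _ _, max_le zero_le_one (min_le_left _ _)⟩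
  have h2 : 0 ≤ ∫ x, Real.exp (V x) * gradPairing m z (fun y => max 0 (min 1 (z y - c))) x ∂m := by
    refine integral_nonneg_of_ae ?_
    filter_upwards [gamma_comp_right hH hz.2.1 hz.2.1 hΦ hm hK hS fun t ht => ResMarkov_deriv c ht,
      gamma_self hz.2.1] with x e1 e2
    rw [e1, e2]
    refine mul_nonneg (Real.exp_pos _).le (mul_nonneg ?_ (sq_nonneg _))
    split_ifs <;> norm_num
  have h3 := nonneg_of_mul_nonneg_right (h2.trans h1) hl
  have hi : Integrable (fun x => Real.exp (V x) * ((g x - z x) * max 0 (min 1 (z x - c)))) m :=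
    hV.integrable_mul ((hg.sub hz.1).integrable_mul hv.1)
  have hn : 0 ≤ᵐ[m] fun x => -(Real.exp (V x) * ((g x - z x) * max 0 (min 1 (z x - c)))) := by
    filter_upwards [hgc] with x hx
    refine neg_nonneg.2 (mul_nonpos_of_nonneg_of_nonpos (Real.exp_pos _).le ?_)
    rcases le_total (z x) c with h' | h'
    · rw [max_eq_left ((min_le_right _ _).trans (by linarith)), mul_zero]
    · exact mul_nonpos_of_nonpos_of_nonneg (by linarith) (le_max_left _ _)
  have h4 := (integral_eq_zero_iff_of_nonneg_ae hn hi.neg).1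
    (le_antisymm (by rw [integral_neg]; linarith) (integral_nonneg_of_ae hn))
  filter_upwards [h4, hgc] with x hx hx'
  by_contra hlt
  push Not at hlt
  have : Real.exp (V x) * ((g x - z x) * max 0 (min 1 (z x - c))) < 0 :=
    mul_neg_of_pos_of_neg (Real.exp_pos _) (mul_neg_of_neg_of_pos (by linarith)
      (lt_max_of_lt_right (lt_min one_pos (by linarith))))
  simp only [Pi.zero_apply, neg_eq_zero] at hx
  linarith

theorem subsol_le_res (hH : IsInfHilbertian m) {V : X → ℝ} (hV : IsWt V) {lam : ℝ}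
    (hl : 0 < lam) {z g w : X → ℝ} (hz : IsSobolev m z) (hg : MemLp g 2 m)
    (hw : IsRes m V lam g w)
    (h : ∀ v : X → ℝ, IsSobolev m v → (∀ x, 0 ≤ v x ∧ v x ≤ 1) →
      ∫ x, Real.exp (V x) * gradPairing m z v x ∂m ≤
        lam * ∫ x, Real.exp (V x) * ((g x - z x) * v x) ∂m) :
    ∀ᵐ x ∂m, z x ≤ w x := by
  have h0 := subsol_le_const hH hV hl (sob_sub hz hw.1) (g := fun _ => 0) MemLp.zero' le_rfl
    (ae_of_all _ fun _ => le_rfl) fun v hv hv' => by
      have e1 : ∫ x, Real.exp (V x) * gradPairing m (fun y => z y - w y) v x ∂m =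
          ∫ x, Real.exp (V x) * gradPairing m z v x ∂m -
            ∫ x, Real.exp (V x) * gradPairing m w v x ∂m := by
        rw [← integral_sub (hV.integrable_mul (gamma_integrable hH hz hv))
          (hV.integrable_mul (gamma_integrable hH hw.1 hv))]
        refine integral_congr_ae ?_
        filter_upwards [gamma_sub_left hH hz.2.1 hw.1.2.1 hv.2.1] with x hx
        rw [hx, mul_sub]
      have e2 : ∫ x, Real.exp (V x) * ((0 - (z x - w x)) * v x) ∂m =
          ∫ x, Real.exp (V x) * ((g x - z x) * v x) ∂m -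
            ∫ x, Real.exp (V x) * ((g x - w x) * v x) ∂m := by
        rw [← integral_sub (f := fun x => Real.exp (V x) * ((g x - z x) * v x))
          (g := fun x => Real.exp (V x) * ((g x - w x) * v x))
          (hV.integrable_mul ((hg.sub hz.1).integrable_mul hv.1))
          (hV.integrable_mul ((hg.sub hw.1.1).integrable_mul hv.1))]
        exact integral_congr_ae (ae_of_all _ fun x => by ring)
      rw [e1, e2, hw.2 v hv, mul_sub]
      linarith [h v hv hv']
  filter_upwards [h0] with x hx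
  linarith

theorem IsRes.le_const (hH : IsInfHilbertian m) {V : X → ℝ} (hV : IsWt V) {lam : ℝ}
    (hl : 0 < lam) {f u : X → ℝ} (hf : MemLp f 2 m) (hu : IsRes m V lam f u) {c : ℝ} (hc : 0 ≤ c)
    (h : ∀ᵐ x ∂m, f x ≤ c) : ∀ᵐ x ∂m, u x ≤ c := by
  exact subsol_le_const hH hV hl hu.1 hf hc h fun v hv _ => (hu.2 v hv).le

theorem IsRes.nonneg (hH : IsInfHilbertian m) {V : X → ℝ} (hV : IsWt V) {lam : ℝ}
    (hl : 0 < lam) {f u : X → ℝ} (hf : MemLp f 2 m) (hu : IsRes m V lam f u)
    (h : ∀ᵐ x ∂m, 0 ≤ f x) : ∀ᵐ x ∂m, 0 ≤ u x := by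
  filter_upwards [(hu.const_mul hH (-1)).le_const hH hV hl (hf.const_mul (-1)) le_rfl
    (h.mono fun x hx => by linarith)] with x hx
  linarith

theorem IsRes.abs_le (hH : IsInfHilbertian m) {V : X → ℝ} (hV : IsWt V) {lam : ℝ}
    (hl : 0 < lam) {f u : X → ℝ} (hf : MemLp f 2 m) (hu : IsRes m V lam f u) {c : ℝ}
    (h : ∀ᵐ x ∂m, |f x| ≤ c) : ∀ᵐ x ∂m, |u x| ≤ c := by
  rcases le_or_gt 0 c with hc | hc
  · filter_upwards [hu.le_const hH hV hl hf hc (h.mono fun x hx => (_root_.abs_le.1 hx).2),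
      (hu.const_mul hH (-1)).le_const hH hV hl (hf.const_mul (-1)) hc
        (h.mono fun x hx => by linarith [(_root_.abs_le.1 hx).1])] with x h1 h2
    exact _root_.abs_le.2 ⟨by linarith, h1⟩
  · exact h.mono fun x hx => absurd (hx.trans_lt hc) (not_lt.2 (abs_nonneg _))

theorem IsRes.mono (hH : IsInfHilbertian m) {V : X → ℝ} (hV : IsWt V) {lam : ℝ}
    (hl : 0 < lam) {f g u w : X → ℝ} (hf : MemLp f 2 m) (hg : MemLp g 2 m)
    (hu : IsRes m V lam f u) (hw : IsRes m V lam g w) (h : ∀ᵐ x ∂m, f x ≤ g x) :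
    ∀ᵐ x ∂m, u x ≤ w x := by
  filter_upwards [(hu.sub hH hV hf hg hw).le_const hH hV hl (hf.sub hg) le_rfl
    (h.mono fun x hx => sub_nonpos.2 hx)] with x hx
  linarith

end Crest.Agent.R242
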