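import Crest.Agent.R242.ResLap
import Crest.Agent.R242.ResMarkov
import Crest.Agent.R242.DensLipS

/-! Row 242: the Bochner inequality for regular functions. -/

set_option autoImplicit false
set_option linter.unusedSectionVars false

open MeasureTheory Filter Set Topology
open scoped ENNReal NNReal
open Crest.GeometryTopology.SyntheticRicci

namespace Crest.Agent.R242

variable {X : Type*} [MetricSpace X] [ProperSpace X] [MeasurableSpace X] [BorelSpace X]
  {m : Measure X} [IsLocallyFiniteMeasure m] [m.IsOpenPosMeasure]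

theorem GradEst.pos {κ lam₀ : ℝ} (hG : Good m κ) (hE : GradEst m κ lam₀) : 1 ≤ lam₀ := by
  have := hG.nonneg
  have := hE.1
  linarith

theorem res_lipS {κ lam₀ : ℝ} (hG : Good m κ) (hE : GradEst m κ lam₀) {lam : ℝ}
    (hl : lam₀ ≤ lam) {f u : X → ℝ} {L : ℝ} (hf : LipS m f L) (hu : IsRes m 0 lam f u) :
    LipS m u (2 * L) := by
  have h1 := hE.1
  have h2 := hG.nonneg
  have h3 : 0 < lam := by linarith
  obtain ⟨h4, h5⟩ := hf.gamma_memLp hG.hilb
  obtain ⟨w, hw⟩ := exists_res hG.hilb isWt_zero h3 h4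
  refine ⟨hu.1, ?_⟩
  filter_upwards [hE.2 lam hl f u w L hf hu hw, gamma_self hu.1.2.1, sl_D_nonneg hf.1.2.1, hf.2,
    hw.le_const hG.hilb isWt_zero h3 h4 (sq_nonneg L) (h5.mono fun x hx => hx.2),
    sl_D_nonneg hu.1.2.1] with x a1 a2 a3 a4 a5 a6
  have a7 : 0 < lam - 16 * κ := by linarith
  have a8 : lam / (lam - 16 * κ) ≤ 2 := by
    rw [div_le_iff₀ a7]
    linarith
  refine (pow_le_pow_iff_left₀ a6 (by linarith) two_ne_zero).1 ?_
  have := mul_le_mul_of_nonneg_left a5 (div_pos h3 a7).le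
  have := mul_le_mul_of_nonneg_right a8 (sq_nonneg L)
  nlinarith [sq_nonneg L]

theorem Bochner_gam (hH : IsInfHilbertian m) {u v : ℕ → X → ℝ} {f k : X → ℝ} {L : ℝ}
    (hu : ∀ n, LipS m (u n) L) (hf : LipS m f L) (huf : W12Conv m u f)
    (hv : ∀ n, IsSobolev m (v n)) (hk : IsSobolev m k) (hvk : W12Conv m v k) :
    L2Conv m (fun n => gradPairing m (u n) (v n)) (gradPairing m f k) := by
  have h1 := fun n => gamma_memLp hH (hu n).1.2.1 (hu n).2 (sob_sub (hv n) hk)
  have h2 : ∀ {a : X → ℝ}, LipS m a L → MemLp (gradPairing m k a) 2 m := fun ha =>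
    (memLp_congr_ae (gamma_comm ha.1.2.1 hk.2.1)).1 (gamma_memLp hH ha.1.2.1 ha.2 hk)
  have h3 : L2Conv m (fun n => gradPairing m (u n) fun y => v n y - k y) fun _ => 0 := by
    refine squeeze_zero (fun n => integral_nonneg fun x => sq_nonneg _) (fun n => ?_)
      (by simpa using hvk.2.const_mul (L ^ 2))
    rw [← integral_const_mul]
    refine integral_mono_of_nonneg (.of_forall fun x => sq_nonneg _)
      ((sob_sub (hv n) hk).2.2.integrable_sq.const_mul _) ?_
    filter_upwards [abs_gamma_le hH (hu n).1.2.1 (sob_sub (hv n) hk).2.1, (hu n).2,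
      sl_D_nonneg (sob_sub (hv n) hk).2.1] with x a1 a2 a3
    rw [sub_zero, ← mul_pow, ← sq_abs]
    exact pow_le_pow_left₀ (abs_nonneg _) (a1.trans (mul_le_mul_of_nonneg_right a2 a3)) 2
  refine (L2Conv.add h1 (fun n => h2 (hu n)) MemLp.zero' (h2 hf) h3
    (huf.gamma_mixed hH hu hf hk)).congr (fun n => ?_) ?_
  · filter_upwards [gamma_sub_right hH (hv n).2.1 hk.2.1 (hu n).1.2.1,
      gamma_comm hk.2.1 (hu n).1.2.1] with x a1 a2
    rw [a1, a2, sub_add_cancel]
  · filter_upwards [gamma_comm hk.2.1 hf.1.2.1] with x a1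
    rw [a1, zero_add]

theorem bochner_sob {κ lam₀ : ℝ} (hG : Good m κ) (hE : GradEst m κ lam₀) {g Lg : X → ℝ}
    (hg : IsWeakLaplacian m g Lg) (hLg : IsSobolev m Lg) {L : ℝ}
    (hL : ∀ᵐ x ∂m, minWeakGrad m g x ≤ L) :
    IsSobolev m (gradPairing m g g) ∧ ∀ h : X → ℝ, IsSobolev m h → (∀ᵐ x ∂m, 0 ≤ h x) →
      ∫ x, gradPairing m (gradPairing m g g) h x ∂m ≤
        16 * κ * ∫ x, h x * gradPairing m g g x ∂m - 2 * ∫ x, h x * gradPairing m g Lg x ∂m := by
  have hH := hG.hilb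
  have h1 := hE.1
  have h2 := hG.nonneg
  have hl₀ : ∀ n : ℕ, lam₀ ≤ lam₀ + n := fun n => le_add_of_nonneg_right n.cast_nonneg
  have hl : ∀ n : ℕ, 0 < lam₀ + n := fun n => by linarith [hl₀ n]
  have hlam : Tendsto (fun n : ℕ => lam₀ + n) atTop atTop :=
    tendsto_atTop_add_const_left _ _ tendsto_natCast_atTop_atTop
  have gL : LipS m g L := ⟨hg.1, hL⟩
  have gL2 : LipS m g (2 * L) := ⟨hg.1, by
    filter_upwards [hL, sl_D_nonneg hg.1.2.1] with x a1 a2
    linarith⟩
  obtain ⟨G2, G0⟩ := gL.gamma_memLp hH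
  choose u hu using fun n : ℕ => exists_res hH isWt_zero (hl n) hg.1.1
  choose w hw using fun n : ℕ => exists_res hH isWt_zero (hl n) G2
  have hv := fun n => (hu n).comm_lap hH hg
  have uL := fun n => res_lipS hG hE (hl₀ n) gL (hu n)
  have cu := res_W12Conv hH isWt_zero hl hlam hg.1 hu
  have cv := res_W12Conv hH isWt_zero hl hlam hLg hv
  have cw := res_L2Conv hH isWt_zero hl hlam (fun _ => G2) G2 hw (L2Conv.const _)
  have mA := fun n => ((uL n).gamma_memLp hH).1
  have mB := fun n => gamma_memLp hH (uL n).1.2.1 (uL n).2 (hv n).1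
  have mC := fun n => gamma_memLp hH hg.1.2.1 hL (hv n).1
  have mΓ := gamma_memLp hH hg.1.2.1 hL hLg
  have key : ∀ h : X → ℝ, MemLp h 2 m → (∀ᵐ x ∂m, 0 ≤ h x) → ∃ T : ℕ → ℝ,
      (∀ n : ℕ, (lam₀ + n) * ∫ x, (gradPairing m g g x - w n x) * h x ∂m ≤ T n) ∧ Tendsto T atTop
        (𝓝 (16 * κ * ∫ x, h x * gradPairing m g g x ∂m -
          2 * ∫ x, h x * gradPairing m g Lg x ∂m)) := fun h h3 h4 => by
    have t := fun {a : ℕ → X → ℝ} {b : X → ℝ} (ha : ∀ n, MemLp (a n) 2 m) (hb : MemLp b 2 m)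
      (hc : L2Conv m a b) => L2Conv.tendsto_integral_mul (fun _ => h3) ha h3 hb (L2Conv.const h) hc
    refine ⟨_, fun n => ?_, (((t mA G2 (cu.gamma_L2 hH uL gL2)).const_mul (16 * κ)).sub
      ((t mB mΓ (Bochner_gam hH uL gL2 cu (fun n => (hv n).1) hLg cv)).add
        (t mC mΓ (cv.gamma_bdd hH (fun n => (hv n).1) hLg hg.1.2.1 hL)))).mono_right
      (by rw [two_mul])⟩
    have i1 := (h3.integrable_mul (mA n)).const_mul (16 * κ)
    have i2 := h3.integrable_mul (mB n)
    have i3 := h3.integrable_mul (mC n)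
    rw [← integral_const_mul, ← integral_const_mul, ← integral_add (by exact i2) (by exact i3),
      ← integral_sub (by exact i1) (by exact i2.add i3)]
    refine integral_mono_ae (((G2.sub (hw n).1.1).integrable_mul h3).const_mul _)
      (i1.sub (i2.add i3)) ?_
    have su := (hu n).1.2.1
    have sg := hg.1.2.1
    filter_upwards [h4, hE.2 _ (hl₀ n) g _ _ L gL (hu n) (hw n), gamma_comm su sg,
      gamma_const_mul_right hH (sl_sub su sg).1 su (lam₀ + n),
      gamma_const_mul_right hH (sl_sub su sg).1 sg (lam₀ + n),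
      gamma_sub_right hH su sg su, gamma_sub_right hH su sg sg] with x a1 a2 a3 a4 a5 a6 a7
    rw [div_mul_eq_mul_div, le_div_iff₀ (by linarith [hl₀ n])] at a2
    rw [a4, a5, a6, a7, a3]
    nlinarith [mul_le_mul_of_nonneg_left a2 a1]
  obtain ⟨T, hT, cT⟩ := key _ G2 (G0.mono fun x hx => hx.1)
  obtain ⟨A, hA⟩ := cT.bddAbove_range
  have hA' : ∀ n, ∫ x, minWeakGrad m (w n) x ^ 2 ∂m ≤ A := fun n => by
    have := ((hw n).energy isWt_zero (hl n) G2).2.2
    simp only [Pi.zero_apply, Real.exp_zero, one_mul] at this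
    exact this.trans ((hT n).trans (hA ⟨n, rfl⟩))
  refine ⟨(sob_of_limit (fun n => (hw n).1) G2 cw hA').1, fun h h3 h4 => ?_⟩
  obtain ⟨T, hT, cT⟩ := key h h3.1 h4
  have := weak_conv hH (fun n => (hw n).1) G2 cw hA' h3 (θ := fun _ => 1) (B := 1)
    aestronglyMeasurable_const (by simp)
  simp only [one_mul] at this
  exact le_of_tendsto_of_tendsto' this cT fun n =>
    ((isRes_zero_iff.1 (hw n)).2 h h3).trans_le (hT n)

end Crest.Agent.R242
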