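import Crest.Agent.R242.Bochner

/-! Row 242: the Bochner inequality with first-order terms only. -/

set_option autoImplicit false
set_option linter.unusedSectionVars false

open MeasureTheory Filter Set Topology
open scoped ENNReal NNReal
open Crest.GeometryTopology.SyntheticRicci

namespace Crest.Agent.R242

variable {X : Type*} [MetricSpace X] [ProperSpace X] [MeasurableSpace X] [BorelSpace X]
  {m : Measure X} [IsLocallyFiniteMeasure m] [m.IsOpenPosMeasure]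

theorem BW_memLp (hH : IsInfHilbertian m) {f h : X → ℝ} {L : ℝ} (hf : LipS m f L)
    (hh : IsSobolev m h) : MemLp (gradPairing m h f) 2 m :=
  (gamma_memLp hH hf.1.2.1 hf.2 hh).ae_eq (gamma_comm hf.1.2.1 hh.2.1)

theorem BW_two {f : X → ℝ} {L : ℝ} (hf : LipS m f L) : LipS m f (2 * L) := by
  refine ⟨hf.1, ?_⟩
  filter_upwards [hf.2, sl_D_nonneg hf.1.2.1] with x h1 h2
  linarith

theorem BW_abs {h : X → ℝ} {B : ℝ} (hB : ∀ᵐ x ∂m, 0 ≤ h x ∧ h x ≤ B) : ∀ᵐ x ∂m, |h x| ≤ B :=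
  hB.mono fun _ hx => (abs_of_nonneg hx.1).trans_le hx.2

theorem bochner_sob' {κ lam₀ : ℝ} (hG : Good m κ) (hE : GradEst m κ lam₀) {g Lg : X → ℝ}
    (hg : IsWeakLaplacian m g Lg) (hLg : IsSobolev m Lg) {L : ℝ}
    (hL : ∀ᵐ x ∂m, minWeakGrad m g x ≤ L) :
    (∫ x, minWeakGrad m (gradPairing m g g) x ^ 2 ∂m ≤
      32 * κ * L ^ 2 * ∫ x, minWeakGrad m g x ^ 2 ∂m + 8 * L ^ 2 * ∫ x, Lg x ^ 2 ∂m) ∧
    ∀ (h : X → ℝ) (B : ℝ), IsSobolev m h → (∀ᵐ x ∂m, 0 ≤ h x ∧ h x ≤ B) →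
      ∫ x, gradPairing m (gradPairing m g g) h x ∂m ≤
        16 * κ * ∫ x, h x * gradPairing m g g x ∂m +
          2 * ∫ x, (h x * Lg x + gradPairing m h g x) * Lg x ∂m := by
  have hH := hG.hilb
  obtain ⟨hS, hb⟩ := bochner_sob hG hE hg hLg hL
  have h2 : ∀ (h : X → ℝ) (B : ℝ), IsSobolev m h → (∀ᵐ x ∂m, 0 ≤ h x ∧ h x ≤ B) →
      ∫ x, gradPairing m (gradPairing m g g) h x ∂m ≤
        16 * κ * ∫ x, h x * gradPairing m g g x ∂m +
          2 * ∫ x, (h x * Lg x + gradPairing m h g x) * Lg x ∂m := fun h B hh hB => by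
    have := hb h hh (hB.mono fun _ hx => hx.1)
    rw [lap_ibp hH hg hL hh (BW_abs hB) hLg] at this
    linarith
  refine ⟨?_, h2⟩
  have hl : LipS m g L := ⟨hg.1, hL⟩
  obtain ⟨hG2, hGB⟩ := hl.gamma_memLp hH
  have h3 := h2 _ _ hS hGB
  rw [integral_congr_ae (gamma_self hS.2.1)] at h3
  have iD := hS.2.2.integrable_sq
  have ig := hg.1.2.2.integrable_sq
  have iL := hLg.1.integrable_sq
  have h4 : ∫ x, gradPairing m g g x * gradPairing m g g x ∂m ≤
      L ^ 2 * ∫ x, minWeakGrad m g x ^ 2 ∂m := by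
    rw [← integral_const_mul]
    refine integral_mono_ae (hG2.integrable_mul hG2) (ig.const_mul _) ?_
    filter_upwards [hGB, gamma_self hg.1.2.1] with x h1 h2
    rw [← h2]
    exact mul_le_mul_of_nonneg_right h1.2 h1.1
  have h5 : ∫ x, (gradPairing m g g x * Lg x + gradPairing m (gradPairing m g g) g x) * Lg x ∂m ≤
      1 / 4 * ∫ x, minWeakGrad m (gradPairing m g g) x ^ 2 ∂m + 2 * L ^ 2 * ∫ x, Lg x ^ 2 ∂m := by
    rw [← integral_const_mul, ← integral_const_mul,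
      ← integral_add (iD.const_mul _) (iL.const_mul _)]
    refine integral_mono_ae (((C2_bdd hG2.1 (BW_abs hGB) hLg.1).add
      (BW_memLp hH hl hS)).integrable_mul hLg.1) ((iD.const_mul _).add (iL.const_mul _)) ?_
    filter_upwards [hGB, abs_gamma_le hH hS.2.1 hg.1.2.1, hL, sl_D_nonneg hS.2.1] with x h1 h2 h3 h4
    have h6 := mul_le_mul_of_nonneg_right h1.2 (sq_nonneg (Lg x))
    have h7 : gradPairing m (gradPairing m g g) g x * Lg x ≤
        minWeakGrad m (gradPairing m g g) x * L * |Lg x| := by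
      refine (le_abs_self _).trans ?_
      rw [abs_mul]
      exact mul_le_mul_of_nonneg_right (h2.trans (mul_le_mul_of_nonneg_left h3 h4)) (abs_nonneg _)
    have h8 := sq_abs (Lg x)
    nlinarith [sq_nonneg (minWeakGrad m (gradPairing m g g) x / 2 - L * |Lg x|)]
  have h6 := mul_le_mul_of_nonneg_left h4 hG.nonneg
  linarith

/-- Regularisation of a function in the domain of the Laplacian. -/
theorem approx_lap {κ lam₀ : ℝ} (hG : Good m κ) (hE : GradEst m κ lam₀) {g Lg : X → ℝ}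
    (hg : IsWeakLaplacian m g Lg) {L : ℝ} (hL : ∀ᵐ x ∂m, minWeakGrad m g x ≤ L) :
    ∃ u Lu : ℕ → X → ℝ, (∀ n, IsWeakLaplacian m (u n) (Lu n) ∧ IsSobolev m (Lu n) ∧
      LipS m (u n) (2 * L) ∧ ∀ B : ℝ, (∀ᵐ x ∂m, |g x| ≤ B) → ∀ᵐ x ∂m, |u n x| ≤ B) ∧
      W12Conv m u g ∧ L2Conv m Lu Lg ∧
      L2Conv m (fun n => gradPairing m (u n) (u n)) (gradPairing m g g) ∧
      ∃ A : ℝ, ∀ n, IsSobolev m (gradPairing m (u n) (u n)) ∧
        ∫ x, minWeakGrad m (gradPairing m (u n) (u n)) x ^ 2 ∂m ≤ A := by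
  have hH := hG.hilb
  have h1 := hE.pos hG
  have hl : LipS m g L := ⟨hg.1, hL⟩
  have hl0 : ∀ n : ℕ, lam₀ ≤ lam₀ + n := fun n => le_add_of_nonneg_right n.cast_nonneg
  have hpos : ∀ n : ℕ, 0 < lam₀ + n := fun n => by linarith [hl0 n]
  have hlam : Tendsto (fun n : ℕ => lam₀ + n) atTop atTop :=
    tendsto_atTop_add_const_left _ _ tendsto_natCast_atTop_atTop
  choose u hu using fun n : ℕ => exists_res hH isWt_zero (hpos n) hg.1.1
  have hlap := fun n => (hu n).lap hg.1.1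
  have hcomm := fun n => (hu n).comm_lap hH hg
  have hlip := fun n => res_lipS hG hE (hl0 n) hl (hu n)
  have hW := res_W12Conv hH isWt_zero hpos hlam hg.1 hu
  have hL2 := res_L2Conv hH isWt_zero hpos hlam (fun _ => hg.2.1) hg.2.1 hcomm (L2Conv.const Lg)
  obtain ⟨A1, hA1⟩ := hW.bounded (fun n => (hu n).1) hg.1
  obtain ⟨A2, hA2⟩ := hL2.bounded (fun n => (hcomm n).1.1) hg.2.1
  refine ⟨u, fun n x => (lam₀ + n) * (u n x - g x), fun n => ⟨hlap n, (hcomm n).1, hlip n,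
    fun B hB => (hu n).abs_le hH isWt_zero (hpos n) hg.1.1 hB⟩, hW, hL2,
    hW.gamma_L2 hH hlip (BW_two hl), 32 * κ * (2 * L) ^ 2 * A1 + 8 * (2 * L) ^ 2 * A2, fun n =>
    ⟨(bochner_sob hG hE (hlap n) (hcomm n).1 (hlip n).2).1,
      (bochner_sob' hG hE (hlap n) (hcomm n).1 (hlip n).2).1.trans ?_⟩⟩
  have := hG.nonneg
  exact add_le_add (mul_le_mul_of_nonneg_left (hA1 n) (by positivity))
    (mul_le_mul_of_nonneg_left (hA2 n) (by positivity))

theorem bochner_weak {κ lam₀ : ℝ} (hG : Good m κ) (hE : GradEst m κ lam₀) {g Lg : X → ℝ}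
    (hg : IsWeakLaplacian m g Lg) {L : ℝ} (hL : ∀ᵐ x ∂m, minWeakGrad m g x ≤ L) :
    IsSobolev m (gradPairing m g g) ∧
    ∀ (h : X → ℝ) (B : ℝ), IsSobolev m h → (∀ᵐ x ∂m, 0 ≤ h x ∧ h x ≤ B) →
      ∫ x, gradPairing m (gradPairing m g g) h x ∂m ≤
        16 * κ * ∫ x, h x * gradPairing m g g x ∂m +
          2 * ∫ x, (h x * Lg x + gradPairing m h g x) * Lg x ∂m := by
  have hH := hG.hilb
  have hl : LipS m g L := ⟨hg.1, hL⟩
  obtain ⟨u, Lu, hu, hW, hL2, hΓ, A, hA⟩ := approx_lap hG hE hg hL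
  have hG2 := (hl.gamma_memLp hH).1
  refine ⟨(sob_of_limit (fun n => (hA n).1) hG2 hΓ fun n => (hA n).2).1, fun h B hh hB => ?_⟩
  have h1 := weak_conv hH (θ := fun _ => 1) (fun n => (hA n).1) hG2 hΓ (fun n => (hA n).2) hh
    aestronglyMeasurable_const (B := 1) (.of_forall fun _ => by simp)
  simp only [one_mul] at h1
  have h2 := L2Conv.tendsto_integral_mul (fun _ => hh.1) (fun n => (hA n).1.1) hh.1 hG2
    (L2Conv.const h) hΓ
  have m1 := fun n => (hu n).2.1.1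
  have m2 := fun n => C2_bdd hh.1.1 (BW_abs hB) (m1 n)
  have m3 := fun n => BW_memLp hH (hu n).2.2.1 hh
  have m4 := C2_bdd hh.1.1 (BW_abs hB) hg.2.1
  have m5 := BW_memLp hH hl hh
  have h3 := L2Conv.tendsto_integral_mul (fun n => (m2 n).add (m3 n)) m1 (m4.add m5) hg.2.1
    (L2Conv.add m2 m3 m4 m5 (hL2.bdd_mul m1 hg.2.1 hh.1.1 (BW_abs hB))
      (hW.gamma_mixed hH (fun n => (hu n).2.2.1) (BW_two hl) hh)) hL2
  exact le_of_tendsto_of_tendsto' h1 ((h2.const_mul _).add (h3.const_mul _)) fun n =>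
    (bochner_sob' hG hE (hu n).1 (hu n).2.1 (hu n).2.2.1.2).2 h B hh hB

end Crest.Agent.R242
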