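import Crest.Agent.R242.LipSob

/-! Row 242: functions that are infima of translated costs. -/

set_option autoImplicit false
set_option linter.unusedSectionVars false

open MeasureTheory Filter Set Topology
open scoped ENNReal NNReal
open Crest.GeometryTopology.SyntheticRicci

namespace Crest.Agent.R242

variable {X : Type*} [MetricSpace X] [ProperSpace X] [MeasurableSpace X] [BorelSpace X]
  {m : Measure X} [IsLocallyFiniteMeasure m] [m.IsOpenPosMeasure]

theorem IsCConc.nonneg {φ : X → ℝ} {o : X} {R : ℝ} (h : IsCConc φ o R) : 0 ≤ R :=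
  let ⟨_, hy, _⟩ := h o 1 one_pos
  dist_nonneg.trans hy

theorem CConc_cst (x y z : X) : cst x z - cst x y ≤ dist z y * (dist x y + dist z y / 2) := by
  have h1 := pow_le_pow_left₀ dist_nonneg (dist_triangle_right x z y) 2
  unfold cst
  linarith

theorem CConc_cst' (x y z : X) : cst x y - cst x z ≤ dist z y * (dist x y - dist z y / 2) := by
  have h1 := pow_le_pow_left₀ (abs_nonneg _) (abs_dist_sub_le x z y) 2
  rw [sq_abs] at h1
  unfold cst
  linarith

theorem CConc_symm (x y : X) : cst x y = cst y x := by rw [cst, cst, dist_comm]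

theorem IsCConc.sub_le {φ : X → ℝ} {o : X} {R : ℝ} (h : IsCConc φ o R) (x x' : X) :
    φ x' - φ x ≤ dist x' x * (dist x o + R + dist x' x / 2) := by
  refine le_of_forall_pos_le_add fun η hη => ?_
  obtain ⟨y, hy, H⟩ := h x η hη
  have h1 := CConc_cst y x x'
  have h2 := mul_le_mul_of_nonneg_left ((dist_triangle_right y x o).trans
    (add_le_add hy le_rfl)) (dist_nonneg (x := x') (y := x))
  rw [CConc_symm y, CConc_symm y] at h1
  linarith [H x']

theorem IsCConc.lipBdd {φ : X → ℝ} {o : X} {R : ℝ} (h : IsCConc φ o R) : LipBdd φ := fun o' R' =>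
  ⟨_, LipschitzOnWith.of_le_add_mul' (dist o' o + R + 2 * R') fun x' hx' x hx => by
    have h1 := dist_triangle_right x' x o'
    have h2 := dist_triangle x o' o
    rw [Metric.mem_closedBall] at hx hx'
    have h3 := mul_le_mul_of_nonneg_left (show dist x o + R + dist x' x / 2 ≤
      dist o' o + R + 2 * R' by linarith) (dist_nonneg (x := x') (y := x))
    linarith [h.sub_le x x']⟩

theorem IsCConc.lower {φ : X → ℝ} {o : X} {R : ℝ} (h : IsCConc φ o R) (x : X) :
    φ o + dist x o ^ 2 / 2 - R * dist x o ≤ φ x := by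
  rw [← sub_nonpos]
  refine le_of_forall_pos_le_add fun η hη => ?_
  obtain ⟨y, hy, H⟩ := h x η hη
  have h1 := CConc_cst' y o x
  have h2 := mul_le_mul_of_nonneg_left (Metric.mem_closedBall.1 hy) (dist_nonneg (x := x) (y := o))
  rw [CConc_symm y, CConc_symm y] at h1
  linarith [H o]

theorem IsCConc.abs_sub_le {φ : X → ℝ} {o : X} {R : ℝ} (h : IsCConc φ o R) (x : X) :
    |φ x - φ o| ≤ (dist x o + R) ^ 2 := by
  have h1 := h.sub_le o x
  have h2 := mul_nonneg h.nonneg (dist_nonneg (x := x) (y := o))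
  rw [dist_self] at h1
  rw [abs_le]
  constructor <;> nlinarith [h.lower x, sq_nonneg R, sq_nonneg (dist x o)]

theorem IsCConc.D_le {φ : X → ℝ} {o : X} {R : ℝ} (h : IsCConc φ o R) :
    ∀ᵐ x ∂m, minWeakGrad m φ x ≤ dist x o + R := by
  filter_upwards [(h.lipBdd.sl (m := m)).2] with x hx
  refine le_of_forall_pos_le_add fun ε hε => (ENNReal.ofReal_le_ofReal_iff
    (by have := h.nonneg; positivity)).1 (hx.trans (limsup_le_of_le (h := ?_)))
  filter_upwards [self_mem_nhdsWithin, nhdsWithin_le_nhds (Metric.ball_mem_nhds x hε)] with y h1 h2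
  have h3 := dist_pos.2 h1
  refine ENNReal.ofReal_le_ofReal ((div_le_iff₀' h3).2 ((h.sub_le x y).trans
    (mul_le_mul_of_nonneg_left ?_ h3.le)))
  linarith [Metric.mem_ball.1 h2]

theorem IsCConc.growth {φ : X → ℝ} {o : X} {R : ℝ} (h : IsCConc φ o R) :
    ∃ A : ℝ, (∀ x, |φ x| ≤ A * (1 + dist x o ^ 2)) ∧
      ∀ᵐ x ∂m, minWeakGrad m φ x ≤ A * (1 + dist x o) := by
  have hR := h.nonneg
  have h0 := abs_nonneg (φ o)
  refine ⟨|φ o| + 2 * R ^ 2 + 2 + R, fun x => ?_, h.D_le.mono fun x hx => hx.trans ?_⟩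
  · have h1 := mul_nonneg (show 0 ≤ |φ o| + 2 * R ^ 2 + R by positivity) (sq_nonneg (dist x o))
    nlinarith [h.abs_sub_le x, abs_sub_abs_le_abs_sub (φ x) (φ o), sq_nonneg (dist x o - R)]
  · have h1 := mul_nonneg (show 0 ≤ |φ o| + 2 * R ^ 2 + 1 + R by positivity)
      (dist_nonneg (x := x) (y := o))
    nlinarith [sq_nonneg R]

/-- When the ball is small, `φ` is close to the cost to its centre. -/
theorem IsCConc.near {φ : X → ℝ} {y : X} {r : ℝ} (h : IsCConc φ y r) (x x' : X) :
    |φ x' - φ x - (cst x' y - cst x y)| ≤ r * (dist x y + dist x' y + r) := by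
  have key : ∀ x x', φ x' - φ x - (cst x' y - cst x y) ≤ r * (dist x y + dist x' y + r) := by
    intro x x'
    refine le_of_forall_pos_le_add fun η hη => ?_
    obtain ⟨z, hz, H⟩ := h x η hη
    have h0 := dist_nonneg (x := z) (y := y)
    have h1 := mul_le_mul (Metric.mem_closedBall.1 hz) (show dist x y + dist x' y ≤
      dist x y + dist x' y + r by linarith [h.nonneg]) (by positivity) h.nonneg
    linarith [H x', CConc_cst x' y z, CConc_cst' x y z]
  rw [abs_le]
  constructor <;> linarith [key x x', key x' x]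

end Crest.Agent.R242
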