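import Crest.Agent.R242.MinWUG

/-! Row 242: linear rules and locality for the minimal weak upper gradient. -/

set_option autoImplicit false
set_option linter.unusedSectionVars false

open MeasureTheory Filter Set Topology
open scoped ENNReal NNReal
open Crest.GeometryTopology.SyntheticRicci

namespace Crest.Agent.R242

variable {X : Type*} [MetricSpace X] [ProperSpace X] [MeasurableSpace X] [BorelSpace X]
  {m : Measure X} [IsLocallyFiniteMeasure m] [m.IsOpenPosMeasure]

theorem C1_l2_const (c : ℝ) : IsL2OnBalls m (fun _ => c) := fun o R =>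
  haveI : IsFiniteMeasure (m.restrict (Metric.ball o R)) :=
    isFiniteMeasure_restrict.2 measure_ball_lt_top.ne
  memLp_const c

theorem sl_const (c : ℝ) :
    IsSobolevLoc m (fun _ => c) ∧ ∀ᵐ x ∂m, minWeakGrad m (fun _ => c) x = 0 := by
  have h0 : IsWUGLoc m (fun _ => c) (fun _ => 0) :=
    ⟨C1_l2_const 0, ae_of_all _ fun _ => le_rfl, fun P _ _ => by simp⟩
  obtain ⟨h1, h2⟩ := sobolevLoc_of_wug (C1_l2_const c) h0
  refine ⟨h1, ?_⟩
  filter_upwards [h2, sl_D_nonneg h1] with x hx hx' using le_antisymm hx hx'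

theorem sl_add {f g : X → ℝ} (hf : IsSobolevLoc m f) (hg : IsSobolevLoc m g) :
    IsSobolevLoc m (fun y => f y + g y) ∧
      ∀ᵐ x ∂m, minWeakGrad m (fun y => f y + g y) x ≤ minWeakGrad m f x + minWeakGrad m g x := by
  refine sobolevLoc_of_wug (fun o R => (hf.1 o R).add (hg.1 o R))
    (isWUGLoc_of_ac (fun o R => (sl_D_l2 hf o R).add (sl_D_l2 hg o R)) ?_ fun P hP hB => ?_)
  · filter_upwards [sl_D_nonneg hf, sl_D_nonneg hg] with x h1 h2 using add_nonneg h1 h2
  filter_upwards [wug_structure hf.1 (sl_wug hf) hP hB, wug_structure hg.1 (sl_wug hg) hP hB,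
    testPlan_ae_ae_ext hP (sl_D_nonneg hf), testPlan_ae_ae_ext hP (sl_D_nonneg hg)] with
    γ ⟨v, hv, v0, v1, hv'⟩ ⟨w, hw, w0, w1, hw'⟩ h1 h2
  refine ⟨fun t => v t + w t, hv.add hw, by simp only [v0, w0], by simp only [v1, w1], ?_⟩
  filter_upwards [hv', hw', h1, h2, ae_deriv_eq_zero_of_countable hv countable_empty,
    ae_deriv_eq_zero_of_countable hw countable_empty] with t a1 a2 a3 a4 a5 a6
  rw [deriv_fun_add a5.1 a6.1, ENNReal.ofReal_add a3 a4, add_mul]
  exact ((ENNReal.ofReal_le_ofReal (abs_add_le _ _)).trans ENNReal.ofReal_add_le).trans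
    (add_le_add a1.2 a2.2)

theorem C1_mul_le {f : X → ℝ} (hf : IsSobolevLoc m f) (c : ℝ) :
    IsSobolevLoc m (fun y => c * f y) ∧
      ∀ᵐ x ∂m, minWeakGrad m (fun y => c * f y) x ≤ |c| * minWeakGrad m f x := by
  refine sobolevLoc_of_wug (fun o R => (hf.1 o R).const_mul c)
    (isWUGLoc_of_ac (fun o R => (sl_D_l2 hf o R).const_mul |c|) ?_ fun P hP hB => ?_)
  · filter_upwards [sl_D_nonneg hf] with x h1 using mul_nonneg (abs_nonneg c) h1
  filter_upwards [wug_structure hf.1 (sl_wug hf) hP hB] with γ ⟨v, hv, v0, v1, hv'⟩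
  refine ⟨fun t => c * v t, hv.const_mul c, by simp only [v0], by simp only [v1], ?_⟩
  filter_upwards [hv'] with t a1
  rw [deriv_const_mul_field', abs_mul, ENNReal.ofReal_mul (abs_nonneg c),
    ENNReal.ofReal_mul (abs_nonneg c), mul_assoc]
  exact mul_le_mul_right a1.2 _

theorem sl_const_mul {f : X → ℝ} (hf : IsSobolevLoc m f) (c : ℝ) :
    IsSobolevLoc m (fun y => c * f y) ∧
      ∀ᵐ x ∂m, minWeakGrad m (fun y => c * f y) x = |c| * minWeakGrad m f x := by
  obtain ⟨h1, h2⟩ := C1_mul_le hf c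
  refine ⟨h1, ?_⟩
  by_cases hc : c = 0
  · filter_upwards [h2, sl_D_nonneg h1] with x hx hx'
    rw [hc, abs_zero, zero_mul] at hx ⊢
    rw [hc] at hx'
    exact le_antisymm hx hx'
  · have h3 := (C1_mul_le h1 c⁻¹).2
    simp only [inv_mul_cancel_left₀ hc] at h3
    filter_upwards [h2, h3] with x hx hx'
    refine le_antisymm hx ?_
    have := mul_le_mul_of_nonneg_left hx' (abs_nonneg c)
    rwa [← mul_assoc, ← abs_mul, mul_inv_cancel₀ hc, abs_one, one_mul] at this

theorem sl_neg {f : X → ℝ} (hf : IsSobolevLoc m f) :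
    IsSobolevLoc m (fun y => -f y) ∧
      ∀ᵐ x ∂m, minWeakGrad m (fun y => -f y) x = minWeakGrad m f x := by
  simpa only [neg_mul, one_mul, abs_neg, abs_one] using sl_const_mul hf (-1)

theorem sl_sub {f g : X → ℝ} (hf : IsSobolevLoc m f) (hg : IsSobolevLoc m g) :
    IsSobolevLoc m (fun y => f y - g y) ∧
      ∀ᵐ x ∂m, minWeakGrad m (fun y => f y - g y) x ≤ minWeakGrad m f x + minWeakGrad m g x := by
  obtain ⟨h1, h2⟩ := sl_neg hg
  obtain ⟨h3, h4⟩ := sl_add hf h1
  simp only [← sub_eq_add_neg] at h3 h4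
  refine ⟨h3, ?_⟩
  filter_upwards [h2, h4] with x a1 a2 using a1 ▸ a2

theorem D_add_const {f : X → ℝ} (hf : IsSobolevLoc m f) (c : ℝ) :
    ∀ᵐ x ∂m, minWeakGrad m (fun y => f y + c) x = minWeakGrad m f x := by
  obtain ⟨h1, h2⟩ := sl_add hf (sl_const c).1
  have h3 := (sl_sub h1 (sl_const c).1).2
  simp only [add_sub_cancel_right] at h3
  filter_upwards [h2, h3, (sl_const (m := m) c).2] with x a1 a2 a3
  rw [a3, add_zero] at a1 a2
  exact le_antisymm a1 a2

theorem D_eq_zero_on_countable {f : X → ℝ} (hf : IsSobolevLoc m f) {S : Set ℝ}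
    (hS : S.Countable) : ∀ᵐ x ∂m, f x ∈ S → minWeakGrad m f x = 0 := by
  have hm := (isL2OnBalls_aemeasurable hf.1).aemeasurable
  have hA : MeasurableSet (hm.mk f ⁻¹' S)ᶜ := (hm.measurable_mk hS.measurableSet).compl
  have h1 : IsWUGLoc m f ((hm.mk f ⁻¹' S)ᶜ.indicator (minWeakGrad m f)) := by
    refine isWUGLoc_of_ac (fun o R => (sl_D_l2 hf o R).indicator hA) ?_ fun P hP hB => ?_
    · filter_upwards [sl_D_nonneg hf] with x hx using indicator_apply_nonneg fun _ => hx
    filter_upwards [wug_structure hf.1 (sl_wug hf) hP hB, testPlan_ae_ae_ext hP hm.ae_eq_mk] with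
      γ ⟨v, hv, v0, v1, hv'⟩ h2
    refine ⟨v, hv, v0, v1, ?_⟩
    filter_upwards [hv', h2, ae_deriv_eq_zero_of_countable hv hS] with t a1 a2 a3
    by_cases ht : γ.ext t ∈ (hm.mk f ⁻¹' S)ᶜ
    · rw [indicator_of_mem ht]
      exact a1.2
    · have : v t ∈ S := by
        rw [a1.1, a2]
        exact not_not.1 ht
      simp [a3.2 this]
  filter_upwards [(sl_isMin hf).2 _ h1, sl_D_nonneg hf, hm.ae_eq_mk] with x a1 a2 a3 hx
  rw [indicator_of_notMem (not_not.2 (show hm.mk f x ∈ S from a3 ▸ hx))] at a1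
  exact le_antisymm a1 a2

theorem C1_loc_le {f g : X → ℝ} (hf : IsSobolevLoc m f) (hg : IsSobolevLoc m g) :
    ∀ᵐ x ∂m, f x = g x → minWeakGrad m f x ≤ minWeakGrad m g x := by
  have h1 := (sl_sub hf hg).1
  have h2 := (sl_add hg h1).2
  simp only [add_sub_cancel] at h2
  filter_upwards [h2, D_eq_zero_on_countable h1 (countable_singleton 0)] with x a1 a2 hx
  rwa [a2 (sub_eq_zero.2 hx), add_zero] at a1

theorem D_locality {f g : X → ℝ} (hf : IsSobolevLoc m f) (hg : IsSobolevLoc m g) :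
    ∀ᵐ x ∂m, f x = g x → minWeakGrad m f x = minWeakGrad m g x := by
  filter_upwards [C1_loc_le hf hg, C1_loc_le hg hf] with x a1 a2 hx
  exact le_antisymm (a1 hx) (a2 hx.symm)

theorem sob_zero : IsSobolev m (fun _ => (0 : ℝ)) := by
  refine sob_of_sl MemLp.zero' (sl_const 0).1 MemLp.zero' ?_
  filter_upwards [(sl_const (m := m) 0).2] with x hx using hx.le

theorem sob_add {f g : X → ℝ} (hf : IsSobolev m f) (hg : IsSobolev m g) :
    IsSobolev m (fun y => f y + g y) := by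
  exact sob_of_sl (hf.1.add hg.1) (sl_add hf.2.1 hg.2.1).1 (hf.2.2.add hg.2.2)
    (sl_add hf.2.1 hg.2.1).2

theorem sob_sub {f g : X → ℝ} (hf : IsSobolev m f) (hg : IsSobolev m g) :
    IsSobolev m (fun y => f y - g y) := by
  exact sob_of_sl (hf.1.sub hg.1) (sl_sub hf.2.1 hg.2.1).1 (hf.2.2.add hg.2.2)
    (sl_sub hf.2.1 hg.2.1).2

theorem sob_const_mul {f : X → ℝ} (hf : IsSobolev m f) (c : ℝ) :
    IsSobolev m (fun y => c * f y) := by
  refine sob_of_sl (hf.1.const_mul c) (sl_const_mul hf.2.1 c).1 (hf.2.2.const_mul |c|) ?_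
  filter_upwards [(sl_const_mul hf.2.1 c).2] with x hx using hx.le

end Crest.Agent.R242
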