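import Crest.Agent.R242.Calc1

/-! Row 242: chain rule and Leibniz rule for the minimal weak upper gradient. -/

set_option autoImplicit false
set_option linter.unusedSectionVars false

open MeasureTheory Filter Set Topology
open scoped ENNReal NNReal
open Crest.GeometryTopology.SyntheticRicci

namespace Crest.Agent.R242

variable {X : Type*} [MetricSpace X] [ProperSpace X] [MeasurableSpace X] [BorelSpace X]
  {m : Measure X} [IsLocallyFiniteMeasure m] [m.IsOpenPosMeasure]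

theorem C2_ac {Φ w : ℝ → ℝ} {K : ℝ≥0} (hΦ : LipschitzWith K Φ)
    (hw : AbsolutelyContinuousOnInterval w 0 1) :
    AbsolutelyContinuousOnInterval (fun t => Φ (w t)) 0 1 := by
  refine squeeze_zero (fun E => Finset.sum_nonneg fun _ _ => dist_nonneg) (fun E => ?_)
    (by simpa only [mul_zero] using Tendsto.const_mul (K : ℝ) hw)
  rw [Finset.mul_sum]
  exact Finset.sum_le_sum fun i _ => hΦ.dist_le_mul _ _

theorem C2_zero {Φ w : ℝ → ℝ} {K : ℝ≥0} (hΦ : LipschitzWith K Φ) {t : ℝ}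
    (hw : HasDerivAt w 0 t) : HasDerivAt (fun t => Φ (w t)) 0 t := by
  rw [hasDerivAt_iff_isLittleO] at hw ⊢
  simp only [smul_zero, sub_zero] at hw ⊢
  exact (Asymptotics.IsBigO.of_bound K (.of_forall fun s => hΦ.norm_sub_le _ _)).trans_isLittleO hw

theorem sl_comp {f : X → ℝ} (hf : IsSobolevLoc m f) {Φ Φ' : ℝ → ℝ} {K : ℝ≥0}
    (hΦ : LipschitzWith K Φ) (hm : Measurable Φ') (hK : ∀ z, |Φ' z| ≤ K) {S : Set ℝ}
    (hS : S.Countable) (hd : ∀ z, z ∉ S → HasDerivAt Φ (Φ' z) z) :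
    IsSobolevLoc m (fun y => Φ (f y)) ∧
      ∀ᵐ x ∂m, minWeakGrad m (fun y => Φ (f y)) x ≤ |Φ' (f x)| * minWeakGrad m f x := by
  have hfm := isL2OnBalls_aemeasurable hf.1
  have h1 : IsL2OnBalls m fun y => Φ (f y) := by
    refine isL2OnBalls_of_le (g := fun y => |Φ 0| + K * ‖f y‖)
      (hΦ.continuous.comp_aestronglyMeasurable hfm)
      (fun o R => ((sl_const _).1.1 o R).add ((hf.1 o R).norm.const_mul _)) (.of_forall fun x => ?_)
    have h2 := hΦ.dist_le_mul (f x) 0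
    rw [Real.dist_eq, dist_zero_right] at h2
    linarith [abs_sub_abs_le_abs_sub (Φ (f x)) (Φ 0)]
  refine sobolevLoc_of_wug h1 (isWUGLoc_of_ac ?_ ?_ fun P hP hB => ?_)
  · refine isL2OnBalls_of_le (g := fun y => K * ‖minWeakGrad m f y‖)
      ((hm.comp_aemeasurable hfm.aemeasurable).aestronglyMeasurable.norm.mul (sl_D_meas hf))
      (fun o R => (sl_D_l2 hf o R).norm.const_mul _) (.of_forall fun x => ?_)
    rw [abs_mul, abs_abs]
    exact mul_le_mul_of_nonneg_right (hK _) (abs_nonneg _)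
  · exact (sl_D_nonneg hf).mono fun x hx => mul_nonneg (abs_nonneg _) hx
  · filter_upwards [wug_structure hf.1 (sl_wug hf) hP hB] with γ ⟨w, h2, h3, h4, h5⟩
    refine ⟨fun t => Φ (w t), C2_ac hΦ h2, congrArg Φ h3, congrArg Φ h4, ?_⟩
    filter_upwards [h5, ae_deriv_eq_zero_of_countable h2 hS] with t ⟨h6, h7⟩ ⟨h8, h9⟩
    by_cases h : w t ∈ S
    · rw [(C2_zero hΦ (h9 h ▸ h8.hasDerivAt)).deriv, abs_zero, ENNReal.ofReal_zero]
      exact zero_le
    · rw [show deriv (fun t => Φ (w t)) t = _ from ((hd _ h).comp t h8.hasDerivAt).deriv, abs_mul,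
        ENNReal.ofReal_mul (abs_nonneg _), ENNReal.ofReal_mul (abs_nonneg _), h6, mul_assoc]
      exact mul_le_mul_right h7 _

theorem sl_mul {f g : X → ℝ} (hf : IsSobolevLoc m f) (hg : IsSobolevLoc m g)
    (hfg : IsL2OnBalls m (fun y => f y * g y))
    (hD : IsL2OnBalls m (fun y => |f y| * minWeakGrad m g y + |g y| * minWeakGrad m f y)) :
    IsSobolevLoc m (fun y => f y * g y) ∧ ∀ᵐ x ∂m, minWeakGrad m (fun y => f y * g y) x ≤
      |f x| * minWeakGrad m g x + |g x| * minWeakGrad m f x := by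
  refine sobolevLoc_of_wug hfg (isWUGLoc_of_ac hD ?_ fun P hP hB => ?_)
  · filter_upwards [sl_D_nonneg hf, sl_D_nonneg hg] with x h1 h2
    positivity
  · filter_upwards [wug_structure hf.1 (sl_wug hf) hP hB, wug_structure hg.1 (sl_wug hg) hP hB,
      testPlan_ae_ae_ext hP (sl_D_nonneg hf), testPlan_ae_ae_ext hP (sl_D_nonneg hg)]
      with γ ⟨v, a1, a2, a3, a4⟩ ⟨w, b1, b2, b3, b4⟩ c1 c2
    refine ⟨fun t => v t * w t, a1.fun_mul b1, congrArg₂ _ a2 b2, congrArg₂ _ a3 b3, ?_⟩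
    filter_upwards [a4, b4, c1, c2, ae_deriv_eq_zero_of_countable a1 countable_empty,
      ae_deriv_eq_zero_of_countable b1 countable_empty] with t ⟨a5, a6⟩ ⟨b5, b6⟩ c3 c4 d1 d2
    rw [deriv_fun_mul d1.1 d2.1, ENNReal.ofReal_add (by positivity) (by positivity),
      ENNReal.ofReal_mul (abs_nonneg _), ENNReal.ofReal_mul (abs_nonneg _), add_mul, mul_assoc,
      mul_assoc, ← a5, ← b5, add_comm (deriv v t * w t)]
    refine (ENNReal.ofReal_le_ofReal (abs_add_le _ _)).trans (ENNReal.ofReal_add_le.trans ?_)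
    rw [mul_comm (deriv v t), abs_mul, abs_mul, ENNReal.ofReal_mul (abs_nonneg _),
      ENNReal.ofReal_mul (abs_nonneg _)]
    exact add_le_add (mul_le_mul_right b6 _) (mul_le_mul_right a6 _)

theorem sob_comp {f : X → ℝ} (hf : IsSobolev m f) {Φ Φ' : ℝ → ℝ} {K : ℝ≥0}
    (hΦ : LipschitzWith K Φ) (h0 : Φ 0 = 0) (hm : Measurable Φ') (hK : ∀ z, |Φ' z| ≤ K)
    {S : Set ℝ} (hS : S.Countable) (hd : ∀ z, z ∉ S → HasDerivAt Φ (Φ' z) z) :
    IsSobolev m (fun y => Φ (f y)) := by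
  obtain ⟨h1, h2⟩ := sl_comp hf.2.1 hΦ hm hK hS hd
  refine sob_of_sl (hΦ.comp_memLp h0 hf.1) h1 (hf.2.2.const_mul K) ?_
  filter_upwards [h2, sl_D_nonneg hf.2.1] with x h3 h4
  exact h3.trans (mul_le_mul_of_nonneg_right (hK _) h4)

/-- Clamping. -/
theorem sob_clamp {f : X → ℝ} (hf : IsSobolev m f) {a b : ℝ} (ha : a ≤ 0) (hb : 0 ≤ b) :
    IsSobolev m (fun y => max a (min b (f y))) ∧
      ∀ᵐ x ∂m, minWeakGrad m (fun y => max a (min b (f y))) x ≤ minWeakGrad m f x := by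
  have h1 : LipschitzWith 1 fun z : ℝ => max a (min b z) :=
    (LipschitzWith.id.const_min b).const_max a
  have h2 : Measurable ((Ioo a b).indicator (1 : ℝ → ℝ)) := measurable_one.indicator measurableSet_Ioo
  have h3 : ∀ z, |(Ioo a b).indicator (1 : ℝ → ℝ) z| ≤ (1 : ℝ≥0) := fun z => by
    by_cases h : z ∈ Ioo a b <;> simp [h]
  have h4 : ({a, b} : Set ℝ).Countable := (countable_singleton b).insert a
  have h5 : ∀ z, z ∉ ({a, b} : Set ℝ) →
      HasDerivAt (fun z : ℝ => max a (min b z)) ((Ioo a b).indicator 1 z) z := by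
    intro z hz
    have hz' : z ≠ a ∧ z ≠ b := not_or.1 hz
    rcases lt_or_gt_of_ne hz'.1 with h | h
    · rw [indicator_of_notMem fun h' => h.not_gt h'.1]
      refine (hasDerivAt_const z a).congr_of_eventuallyEq ((gt_mem_nhds h).mono fun y hy => ?_)
      exact max_eq_left ((min_le_right _ _).trans hy.le)
    rcases lt_or_gt_of_ne hz'.2 with h' | h'
    · rw [indicator_of_mem (show z ∈ Ioo a b from ⟨h, h'⟩)]
      refine (hasDerivAt_id z).congr_of_eventuallyEq
        (eventually_of_mem (Ioo_mem_nhds h h') fun y hy => ?_)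
      exact (congrArg _ (min_eq_right hy.2.le)).trans (max_eq_right hy.1.le)
    · rw [indicator_of_notMem fun h'' => h'.not_gt h''.2]
      refine (hasDerivAt_const z b).congr_of_eventuallyEq ((lt_mem_nhds h').mono fun y hy => ?_)
      exact (congrArg _ (min_eq_left hy.le)).trans (max_eq_right (ha.trans hb))
  refine ⟨sob_comp hf h1 (by rw [min_eq_right hb, max_eq_right ha]) h2 h3 h4 h5, ?_⟩
  filter_upwards [(sl_comp hf.2.1 h1 h2 h3 h4 h5).2, sl_D_nonneg hf.2.1] with x h6 h7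
  exact h6.trans (mul_le_of_le_one_left h7 (h3 _))

theorem C2_bdd {a f : X → ℝ} (ha : AEStronglyMeasurable a m) {B : ℝ} (hB : ∀ᵐ x ∂m, |a x| ≤ B)
    (hf : MemLp f 2 m) : MemLp (fun y => a y * f y) 2 m :=
  (hf.norm.const_mul B).mono' (ha.mul hf.1) (hB.mono fun x hx => by
    rw [norm_mul]
    exact mul_le_mul_of_nonneg_right hx (norm_nonneg _))

theorem C2_mul {f g : X → ℝ} (hf : IsSobolevLoc m f) (hg : IsSobolevLoc m g)
    (h1 : MemLp (fun y => f y * g y) 2 m) (h2 : MemLp (fun y => |f y| * minWeakGrad m g y) 2 m)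
    (h3 : MemLp (fun y => |g y| * minWeakGrad m f y) 2 m) : IsSobolev m (fun y => f y * g y) :=
  have h := sl_mul hf hg (isL2OnBalls_of_memLp h1) (isL2OnBalls_of_memLp (h2.add h3))
  sob_of_sl h1 h.1 (h2.add h3) h.2

/-- Product of a bounded function with bounded gradient and a Sobolev function. -/
theorem sob_mul_of_bdd {a f : X → ℝ} (ha : IsSobolevLoc m a) {B L : ℝ} (hB : ∀ᵐ x ∂m, |a x| ≤ B)
    (hL : ∀ᵐ x ∂m, minWeakGrad m a x ≤ L) (hf : IsSobolev m f) :
    IsSobolev m (fun y => a y * f y) := by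
  refine C2_mul ha hf.2.1 (C2_bdd (isL2OnBalls_aemeasurable ha.1) hB hf.1)
    (C2_bdd (isL2OnBalls_aemeasurable ha.1).norm (hB.mono fun x hx => (abs_abs _).trans_le hx) hf.2.2)
    ?_
  have h1 := C2_bdd (B := L) (sl_D_meas ha) (by
    filter_upwards [hL, sl_D_nonneg ha] with x h1 h2
    rwa [abs_of_nonneg h2]) hf.1.norm
  simpa only [mul_comm, Real.norm_eq_abs] using h1

/-- Product of two bounded Sobolev functions. -/
theorem sob_mul_bdd_bdd {f g : X → ℝ} (hf : IsSobolev m f) (hg : IsSobolev m g) {B : ℝ}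
    (hfB : ∀ᵐ x ∂m, |f x| ≤ B) (hgB : ∀ᵐ x ∂m, |g x| ≤ B) :
    IsSobolev m (fun y => f y * g y) := by
  exact C2_mul hf.2.1 hg.2.1 (C2_bdd hf.1.1 hfB hg.1)
    (C2_bdd hf.1.1.norm (hfB.mono fun x hx => (abs_abs _).trans_le hx) hg.2.2)
    (C2_bdd hg.1.1.norm (hgB.mono fun x hx => (abs_abs _).trans_le hx) hf.2.2)

end Crest.Agent.R242
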