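import Crest.Agent.R242.ResMarkov
import Crest.Agent.R242.OTBasic

/-! Row 242: decay at infinity of the resolvent of a density. -/

set_option autoImplicit false
set_option linter.unusedSectionVars false

open MeasureTheory Filter Set Topology
open scoped ENNReal NNReal
open Crest.GeometryTopology.SyntheticRicci

namespace Crest.Agent.R242

variable {X : Type*} [MetricSpace X] [ProperSpace X] [MeasurableSpace X] [BorelSpace X]
  {m : Measure X} [IsLocallyFiniteMeasure m] [m.IsOpenPosMeasure]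

theorem RW_fatou {g : X → ℝ} {G : ℕ → X → ℝ} {K : ℝ} (hG : ∀ n, Integrable (G n) m)
    (h0 : ∀ n, ∀ᵐ x ∂m, 0 ≤ G n x) (hK : ∀ n, ∫ x, G n x ∂m ≤ K)
    (hl : ∀ᵐ x ∂m, Tendsto (fun n => G n x) atTop (𝓝 (g x))) : Integrable g m := by
  refine ⟨aestronglyMeasurable_of_tendsto_ae _ (fun n => (hG n).1) hl, ?_⟩
  have h1 : ∫⁻ x, ‖g x‖ₑ ∂m ≤ liminf (fun n => ∫⁻ x, ‖G n x‖ₑ ∂m) atTop := by
    rw [← lintegral_congr_ae (by filter_upwards [hl] with x hx using hx.enorm.liminf_eq)]
    exact lintegral_liminf_le' fun n => (hG n).1.aemeasurable.enorm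
  refine lt_of_le_of_lt (h1.trans (liminf_le_of_frequently_le' (.of_forall fun n => ?_)))
    (ENNReal.ofReal_lt_top (r := K))
  rw [← ofReal_integral_norm_eq_lintegral_enorm (hG n)]
  refine ENNReal.ofReal_le_ofReal (le_trans (le_of_eq (integral_congr_ae ?_)) (hK n))
  filter_upwards [h0 n] with x hx using Real.norm_of_nonneg hx

/-- The weighted energy inequality for a bounded Lipschitz weight. -/
theorem RW_energy (hH : IsInfHilbertian m) {lam : ℝ} (hl : 0 ≤ lam) {f u V : X → ℝ} {L : ℝ≥0}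
    {B : ℝ} (hf : MemLp f 2 m) (hu : IsRes m 0 lam f u) (hV : LipschitzWith L V)
    (hB : ∀ x, |V x| ≤ B) :
    ∫ x, Real.exp (V x) * minWeakGrad m u x ^ 2 ∂m +
      (lam - L ^ 2) * ∫ x, Real.exp (V x) * u x ^ 2 ∂m ≤
      lam * ∫ x, Real.exp (V x) * f x ^ 2 ∂m := by
  obtain ⟨hs, he⟩ := isRes_zero_iff.1 hu
  obtain ⟨⟨L', hL'⟩, hg⟩ := exp_lip (m := m) hH hV hB
  have hW : IsWt V := isWt_of_continuous hV.continuous hB
  have hsl := sl_of_lipschitz (m := m) hL'
  have hVs := sl_of_lipschitz (m := m) hV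
  have hb : ∀ᵐ x ∂m, |Real.exp (V x)| ≤ Real.exp B := .of_forall fun x => by
    rw [abs_of_pos (Real.exp_pos _)]
    exact Real.exp_le_exp.2 ((le_abs_self _).trans (hB x))
  have hv := sob_mul_of_bdd hsl.1 hb hsl.2 hs
  have h1 := he _ hv
  have iD := hW.integrable_mul hs.2.2.integrable_sq
  have iu := hW.integrable_mul hs.1.integrable_sq
  have if' := hW.integrable_mul hf.integrable_sq
  have h2 : ∫ x, (Real.exp (V x) * minWeakGrad m u x ^ 2 - L ^ 2 * (Real.exp (V x) * u x ^ 2)) ∂m ≤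
      ∫ x, 2 * gradPairing m u (fun y => Real.exp (V y) * u y) x ∂m := by
    refine integral_mono_ae (iD.sub (iu.const_mul _)) ((gamma_integrable hH hs hv).const_mul _) ?_
    filter_upwards [(gamma_mul_right_of_bdd hH hsl.1 hb hsl.2 hs.2.1 hs.2.1).2, hg u hs.2.1,
      gamma_self hs.2.1, abs_gamma_le hH hs.2.1 hVs.1, hVs.2, sl_D_nonneg hs.2.1]
      with x a1 a2 a3 a4 a5 a6
    rw [a1, a2, a3]
    have a7 : |u x * gradPairing m u V x| ≤ |u x| * (minWeakGrad m u x * L) := by
      rw [abs_mul]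
      exact mul_le_mul_of_nonneg_left (a4.trans (mul_le_mul_of_nonneg_left a5 a6)) (abs_nonneg _)
    have a8 : -(L ^ 2 * u x ^ 2) ≤ minWeakGrad m u x ^ 2 + 2 * (u x * gradPairing m u V x) := by
      nlinarith [neg_abs_le (u x * gradPairing m u V x), sq_abs (u x),
        sq_nonneg (minWeakGrad m u x - |u x| * L)]
    nlinarith [mul_le_mul_of_nonneg_left a8 (Real.exp_pos (V x)).le]
  have h3 : ∫ x, 2 * ((f x - u x) * (Real.exp (V x) * u x)) ∂m ≤
      ∫ x, (Real.exp (V x) * f x ^ 2 - Real.exp (V x) * u x ^ 2) ∂m := by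
    refine integral_mono_ae (((hf.sub hs.1).integrable_mul hv.1).const_mul _) (if'.sub iu)
      (.of_forall fun x => ?_)
    nlinarith [mul_nonneg (Real.exp_pos (V x)).le (sq_nonneg (f x - u x))]
  rw [integral_sub iD (iu.const_mul _), integral_const_mul, integral_const_mul, h1] at h2
  rw [integral_sub if' iu, integral_const_mul] at h3
  nlinarith [mul_le_mul_of_nonneg_left h3 hl]

/-- Exponentially weighted energy estimate. -/
theorem res_exp_weight (hH : IsInfHilbertian m) {lam b : ℝ} (hb : 0 ≤ b) (hl : 8 * b ^ 2 < lam)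
    {f u : X → ℝ} (hf : MemLp f 2 m) (hu : IsRes m 0 lam f u) (o : X)
    (hfb : Integrable (fun x => Real.exp (2 * b * dist x o) * f x ^ 2) m) :
    Integrable (fun x => Real.exp (2 * b * dist x o) * u x ^ 2) m ∧
    Integrable (fun x => Real.exp (2 * b * dist x o) * minWeakGrad m u x ^ 2) m := by
  have hl0 : 0 ≤ lam := by nlinarith [sq_nonneg b]
  set V : ℕ → X → ℝ := fun n x => 2 * b * min (dist x o) n with hV
  have hL : ∀ n, LipschitzWith ⟨2 * b, by positivity⟩ (V n) := fun n =>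
    LipschitzWith.of_dist_le_mul fun x y => by
      have h1 := ((LipschitzWith.dist_left o).min_const (n : ℝ)).dist_le_mul x y
      rw [Real.dist_eq] at h1 ⊢
      simp only [hV]
      rw [← mul_sub, abs_mul, abs_of_nonneg (by positivity : 0 ≤ 2 * b)]
      exact mul_le_mul_of_nonneg_left (by simpa using h1) (by positivity)
  have hB : ∀ n x, |V n x| ≤ 2 * b * n := fun n x => by
    have h1 : 0 ≤ min (dist x o) (n : ℝ) := le_min dist_nonneg n.cast_nonneg
    simp only [hV]
    rw [abs_of_nonneg (by positivity)]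
    exact mul_le_mul_of_nonneg_left (min_le_right _ _) (by positivity)
  have hW : ∀ n, IsWt (V n) := fun n => isWt_of_continuous (hL n).continuous (hB n)
  have iD := fun n => (hW n).integrable_mul hu.1.2.2.integrable_sq
  have iu := fun n => (hW n).integrable_mul hu.1.1.integrable_sq
  have hE : ∀ n, ∫ x, Real.exp (V n x) * minWeakGrad m u x ^ 2 ∂m +
      (lam - (2 * b) ^ 2) * ∫ x, Real.exp (V n x) * u x ^ 2 ∂m ≤
      lam * ∫ x, Real.exp (2 * b * dist x o) * f x ^ 2 ∂m := fun n => by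
    refine (RW_energy hH hl0 hf hu (hL n) (hB n)).trans (mul_le_mul_of_nonneg_left ?_ hl0)
    refine integral_mono ((hW n).integrable_mul hf.integrable_sq) hfb fun x => ?_
    exact mul_le_mul_of_nonneg_right (Real.exp_le_exp.2
      (mul_le_mul_of_nonneg_left (min_le_left _ _) (by positivity))) (sq_nonneg _)
  have hlim : ∀ g : X → ℝ, ∀ᵐ x ∂m, Tendsto (fun n => Real.exp (V n x) * g x) atTop
      (𝓝 (Real.exp (2 * b * dist x o) * g x)) := fun g => .of_forall fun x => by
    refine tendsto_const_nhds.congr' ?_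
    filter_upwards [tendsto_natCast_atTop_atTop.eventually_ge_atTop (dist x o)] with n hn
    simp only [hV, min_eq_left hn]
  have p1 : ∀ n, 0 ≤ ∫ x, Real.exp (V n x) * minWeakGrad m u x ^ 2 ∂m := fun n =>
    integral_nonneg fun x => by positivity
  have p2 : ∀ n, 0 ≤ ∫ x, Real.exp (V n x) * u x ^ 2 ∂m := fun n =>
    integral_nonneg fun x => by positivity
  have hc : 0 < lam - (2 * b) ^ 2 := by nlinarith [sq_nonneg b]
  refine ⟨RW_fatou (K := lam * (∫ x, Real.exp (2 * b * dist x o) * f x ^ 2 ∂m) /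
      (lam - (2 * b) ^ 2)) iu (fun n => .of_forall fun x => by positivity) (fun n => ?_) (hlim _),
    RW_fatou (K := lam * ∫ x, Real.exp (2 * b * dist x o) * f x ^ 2 ∂m) iD
      (fun n => .of_forall fun x => by positivity) (fun n => ?_) (hlim _)⟩
  · rw [le_div_iff₀ hc]
    linarith [hE n, p1 n]
  · linarith [hE n, mul_nonneg hc.le (p2 n)]

/-- The resolvent equation tested against functions of quadratic growth. -/
theorem res_eq_growth (hH : IsInfHilbertian m) {lam : ℝ} {f u : X → ℝ} (hu : IsRes m 0 lam f u)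
    (o : X) (hf : Integrable (fun x => (1 + dist x o ^ 2) * f x) m)
    (hu2 : Integrable (fun x => (1 + dist x o ^ 2) * u x) m)
    (hD : Integrable (fun x => (1 + dist x o) * minWeakGrad m u x) m) {φ : X → ℝ} {A : ℝ}
    (hφ : LipBdd φ) (hA : ∀ x, |φ x| ≤ A * (1 + dist x o ^ 2))
    (hA' : ∀ᵐ x ∂m, minWeakGrad m φ x ≤ A * (1 + dist x o)) :
    ∫ x, gradPairing m φ u x ∂m = lam * ∫ x, (f x - u x) * φ x ∂m := by
  obtain ⟨hs, he⟩ := isRes_zero_iff.1 hu
  have hA0 : 0 ≤ A := by simpa using (abs_nonneg _).trans (hA o)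
  have hφs := (hφ.sl (m := m)).1
  have hpos : ∀ n : ℕ, (0 : ℝ≥0) < n + 1 := fun n => by positivity
  choose χ c1 c2 c3 c4 c5 using fun n : ℕ => exists_cutoff o (n + 1) (hpos n)
  have hχ := fun n => sl_of_lipschitz (m := m) (c1 n)
  have hχb : ∀ n, ∀ᵐ x ∂m, |χ n x| ≤ 1 := fun n => .of_forall fun x => by
    rw [abs_of_nonneg (c3 n x).1]
    exact (c3 n x).2
  have hv : ∀ n, IsSobolev m fun y => χ n y * φ y := fun n => by
    obtain ⟨ψ, L, h1, h2, h3⟩ := hφ.exists_compact o (n + 1 + (n + 1 : ℝ≥0))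
    refine sob_congr (sob_mul_of_bdd (hχ n).1 (hχb n) (hχ n).2 (lipS_of_lipschitz h1 h2).1)
      (.of_forall fun x => ?_)
    rcases le_total (dist x o) (n + 1 + (n + 1 : ℝ≥0)) with h4 | h4
    · simp only [h3 x h4]
    · simp only [c5 n x h4, zero_mul]
  have hg := fun n => (gamma_mul_right_of_bdd hH (hχ n).1 (hχb n) (hχ n).2 hφs hs.2.1).2
  have hev : ∀ x, ∀ᶠ n : ℕ in atTop, χ n x = 1 := fun x => by
    filter_upwards [tendsto_natCast_atTop_atTop.eventually_ge_atTop (dist x o)] with n hn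
    exact c4 n x (by linarith)
  have t1 : Tendsto (fun n => ∫ x, gradPairing m u (fun y => χ n y * φ y) x ∂m) atTop
      (𝓝 (∫ x, gradPairing m u φ x ∂m)) := by
    refine tendsto_integral_of_dominated_convergence
      (fun x => 3 * A * ((1 + dist x o) * minWeakGrad m u x))
      (fun n => gamma_meas hs.2.1 (hv n).2.1) (hD.const_mul _) (fun n => ?_) ?_
    · filter_upwards [hg n, abs_gamma_le hH hs.2.1 hφs, abs_gamma_le hH hs.2.1 (hχ n).1, hA',
        (hχ n).2, gamma_eq_zero_on_level hH (hχ n).1 hs.2.1 0, sl_D_nonneg hs.2.1, hχb n]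
        with x a1 a2 a3 a4 a5 a6 a7 a8
      rw [a1, Real.norm_eq_abs]
      have b1 : |χ n x * gradPairing m u φ x| ≤ A * ((1 + dist x o) * minWeakGrad m u x) := by
        rw [abs_mul]
        calc |χ n x| * |gradPairing m u φ x| ≤ 1 * (minWeakGrad m u x * (A * (1 + dist x o))) :=
              mul_le_mul a8 (a2.trans (mul_le_mul_of_nonneg_left a4 a7)) (abs_nonneg _) zero_le_one
          _ = A * ((1 + dist x o) * minWeakGrad m u x) := by ring
      have b2 : |φ x * gradPairing m u (χ n) x| ≤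
          2 * A * ((1 + dist x o) * minWeakGrad m u x) := by
        rcases le_total (dist x o) (n + 1 + (n + 1 : ℝ≥0)) with h4 | h4
        · have hn : (0 : ℝ) < n + 1 := by positivity
          have hd : 0 ≤ dist x o := dist_nonneg
          push_cast at h4 a5
          have h5 : (1 + dist x o ^ 2) * ((n : ℝ) + 1)⁻¹ ≤ 2 * (1 + dist x o) := by
            rw [mul_inv_le_iff₀ hn]
            nlinarith [n.cast_nonneg (α := ℝ)]
          rw [abs_mul]
          calc |φ x| * |gradPairing m u (χ n) x|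
              ≤ A * (1 + dist x o ^ 2) * (minWeakGrad m u x * ((n : ℝ) + 1)⁻¹) :=
                mul_le_mul (hA x) (a3.trans (mul_le_mul_of_nonneg_left a5 a7)) (abs_nonneg _)
                  (by positivity)
            _ = A * minWeakGrad m u x * ((1 + dist x o ^ 2) * ((n : ℝ) + 1)⁻¹) := by ring
            _ ≤ A * minWeakGrad m u x * (2 * (1 + dist x o)) :=
                mul_le_mul_of_nonneg_left h5 (by positivity)
            _ = 2 * A * ((1 + dist x o) * minWeakGrad m u x) := by ring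
        · rw [(a6 (c5 n x h4)).2, mul_zero, abs_zero]
          positivity
      linarith [abs_add_le (χ n x * gradPairing m u φ x) (φ x * gradPairing m u (χ n) x)]
    · filter_upwards [ae_all_iff.2 hg,
        ae_all_iff.2 fun n => gamma_eq_zero_on_level hH (hχ n).1 hs.2.1 1] with x a1 a2
      refine tendsto_const_nhds.congr' ?_
      filter_upwards [hev x] with n hn
      rw [a1 n, (a2 n hn).2, hn, one_mul, mul_zero, add_zero]
  have hw : Continuous fun x => (1 + dist x o ^ 2)⁻¹ :=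
    Continuous.inv₀ (by fun_prop) fun x => by positivity
  have hfm : AEStronglyMeasurable f m := by
    refine (hw.aestronglyMeasurable.mul hf.1).congr (.of_forall fun x => ?_)
    have : 1 + dist x o ^ 2 ≠ 0 := by positivity
    simp only [Pi.mul_apply, inv_mul_cancel_left₀ this]
  have t2 : Tendsto (fun n => ∫ x, (f x - u x) * (χ n x * φ x) ∂m) atTop
      (𝓝 (∫ x, (f x - u x) * φ x ∂m)) := by
    refine tendsto_integral_of_dominated_convergence
      (fun x => A * ‖(1 + dist x o ^ 2) * f x - (1 + dist x o ^ 2) * u x‖)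
      (fun n => (hfm.sub hs.1.1).mul (hv n).1.1) ((hf.sub hu2).norm.const_mul _) (fun n => ?_)
      (.of_forall fun x => ?_)
    · filter_upwards [hχb n] with x a1
      rw [← mul_sub, Real.norm_eq_abs, Real.norm_eq_abs, abs_mul, abs_mul, abs_mul,
        abs_of_pos (by positivity : 0 < 1 + dist x o ^ 2)]
      calc |f x - u x| * (|χ n x| * |φ x|) ≤ |f x - u x| * (1 * (A * (1 + dist x o ^ 2))) :=
            mul_le_mul_of_nonneg_left (mul_le_mul a1 (hA x) (abs_nonneg _) zero_le_one)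
              (abs_nonneg _)
        _ = A * ((1 + dist x o ^ 2) * |f x - u x|) := by ring
    · refine tendsto_const_nhds.congr' ?_
      filter_upwards [hev x] with n hn
      rw [hn, one_mul]
  rw [integral_congr_ae (gamma_comm hφs hs.2.1)]
  exact tendsto_nhds_unique t1 ((t2.const_mul lam).congr fun n => (he _ (hv n)).symm)

theorem RW_int1 {a : ℝ} {g d : X → ℝ} (hd : Continuous d) (hd0 : ∀ x, 0 ≤ a * d x)
    (hg : AEStronglyMeasurable g m) (h0 : ∀ᵐ x ∂m, 0 ≤ g x)
    (h1 : Integrable (fun x => Real.exp (2 * (2 * a) * d x) * g x ^ 2) m)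
    (h2 : Integrable (fun x => Real.exp (-(a * d x))) m) :
    Integrable (fun x => Real.exp (a * d x) * g x) m := by
  refine (h1.add h2).mono' ((by fun_prop : Continuous fun x =>
    Real.exp (a * d x)).aestronglyMeasurable.mul hg) ?_
  filter_upwards [h0] with x hx
  have hE := Real.exp_pos (a * d x)
  have hE1 : 1 ≤ Real.exp (a * d x) := Real.one_le_exp (hd0 x)
  have e1 : Real.exp (2 * (2 * a) * d x) = Real.exp (a * d x) ^ 4 := by
    rw [← Real.exp_nat_mul]
    congr 1
    push_cast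
    ring
  rw [Real.norm_of_nonneg (by positivity), Pi.add_apply, e1, Real.exp_neg]
  set E := Real.exp (a * d x)
  have h3 : E⁻¹ ^ 2 ≤ E⁻¹ := by
    have h4 : E⁻¹ ≤ 1 := inv_le_one_of_one_le₀ hE1
    have h5 : 0 < E⁻¹ := by positivity
    nlinarith
  have h4 : E ^ 2 * g x * E⁻¹ = E * g x := by field_simp
  nlinarith [sq_nonneg (E ^ 2 * g x - E⁻¹), mul_nonneg hE.le hx]

theorem RW_poly {a : ℝ} (ha : 0 < a) : ∃ C : ℝ, ∀ d : ℝ, 0 ≤ d →
    1 + d ^ 2 ≤ C * Real.exp (a * d) ∧ 1 + d ≤ C * Real.exp (a * d) := by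
  refine ⟨2 + 4 / a ^ 2, fun d hd => ?_⟩
  have h1 := Real.quadratic_le_exp_of_nonneg (mul_nonneg ha.le hd)
  have h2 : 0 ≤ a * d := mul_nonneg ha.le hd
  have h3 : 2 * d ^ 2 ≤ 4 / a ^ 2 * Real.exp (a * d) := by
    calc 2 * d ^ 2 = 4 / a ^ 2 * ((a * d) ^ 2 / 2) := by field_simp; ring
      _ ≤ 4 / a ^ 2 * Real.exp (a * d) := mul_le_mul_of_nonneg_left (by linarith) (by positivity)
  have h4 : 1 ≤ Real.exp (a * d) := Real.one_le_exp h2
  constructor <;> nlinarith [sq_nonneg (d - 1), sq_nonneg d]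

theorem RW_weight {w g E : X → ℝ} {C : ℝ} (hw : Continuous w) (hw0 : ∀ x, 0 ≤ w x)
    (hC : ∀ x, w x ≤ C * E x) (hg : AEStronglyMeasurable g m) (h0 : ∀ᵐ x ∂m, 0 ≤ g x)
    (h1 : Integrable (fun x => E x * g x) m) : Integrable (fun x => w x * g x) m := by
  refine (h1.const_mul C).mono' (hw.aestronglyMeasurable.mul hg) ?_
  filter_upwards [h0] with x hx
  rw [Real.norm_of_nonneg (mul_nonneg (hw0 x) hx), ← mul_assoc]
  exact mul_le_mul_of_nonneg_right (hC x) hx

theorem exists_resPair {κ : ℝ} (hG : Good m κ) : ∃ lam₀ : ℝ, ∀ lam : ℝ, lam₀ ≤ lam →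
    ∀ (ρ : X → ℝ) (M : ℝ≥0) (o : X) (R : ℝ), NiceD m ρ → (∀ x, ρ x ≤ M) →
      (∀ x, R < dist x o → ρ x = 0) →
      ∃ ρ' : X → ℝ, ResPair m lam ρ ρ' ∧ IsRes m 0 lam ρ ρ' ∧ ∀ x, ρ' x ≤ M := by
  obtain ⟨a, ha, hgr⟩ := hG.growth
  have hH := hG.hilb
  refine ⟨8 * (2 * a) ^ 2 + 1, fun lam hl ρ M o R hρ hM hR => ?_⟩
  have hl0 : 0 < lam := by nlinarith [sq_nonneg (2 * a)]
  obtain ⟨u, hu⟩ := exists_res hH isWt_zero hl0 hρ.memLp
  have hm := hu.1.1.1.aemeasurable
  set ρ' : X → ℝ := fun x => max 0 (min (M : ℝ) (hm.mk u x)) with hρ'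
  have hue : u =ᵐ[m] ρ' := by
    filter_upwards [hm.ae_eq_mk, hu.nonneg hH isWt_zero hl0 hρ.memLp (.of_forall hρ.nonneg),
      hu.le_const hH isWt_zero hl0 hρ.memLp M.coe_nonneg (.of_forall hM)] with x a1 a2 a3
    simp only [hρ', ← a1, min_eq_right a3, max_eq_right a2]
  have hr : IsRes m 0 lam ρ ρ' := hu.congr .rfl hue
  have hmeas : Measurable ρ' := measurable_const.max (measurable_const.min hm.measurable_mk)
  have h0 : ∀ x, 0 ≤ ρ' x := fun x => le_max_left _ _
  have h1 : ∀ x, ρ' x ≤ M := fun x => max_le M.coe_nonneg (min_le_left _ _)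
  have hW := fun o' : X => res_exp_weight hH (b := 2 * a) (by positivity) (by linarith) hρ.memLp
    hr o' (OTBasic_int (o := o) (R := R)
      (C := Real.exp (2 * (2 * a) * (R + dist o o')) * (M : ℝ) ^ 2)
      ((by fun_prop : Continuous fun x => Real.exp (2 * (2 * a) * dist x o')).measurable.mul
        (hρ.meas.pow_const 2)) (fun x hx => by
          rw [abs_of_nonneg (by positivity)]
          refine mul_le_mul (Real.exp_le_exp.2 (mul_le_mul_of_nonneg_left ?_ (by positivity)))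
            (pow_le_pow_left₀ (hρ.nonneg x) (hM x) 2) (sq_nonneg _) (Real.exp_pos _).le
          linarith [dist_triangle x o o'])
      fun x hx => by rw [hR x hx]; simp)
  have hd : ∀ o' : X, Continuous fun x => dist x o' := fun o' => by fun_prop
  have hd0 : ∀ o' x : X, 0 ≤ a * dist x o' := fun o' x => by positivity
  have i1 := fun o' : X => RW_int1 (hd o') (hd0 o') hmeas.aestronglyMeasurable (.of_forall h0)
    (hW o').1 (hgr o')
  have i2 := fun o' : X => RW_int1 (hd o') (hd0 o') (sl_D_meas hr.1.2.1) (sl_D_nonneg hr.1.2.1)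
    (hW o').2 (hgr o')
  obtain ⟨C, hC⟩ := RW_poly ha
  have hmom : ∀ o' : X, Integrable (fun x => (1 + dist x o' ^ 2) * ρ' x) m := fun o' =>
    RW_weight (by fun_prop) (fun x => by positivity) (fun x => (hC _ dist_nonneg).1)
      hmeas.aestronglyMeasurable (.of_forall h0) (i1 o')
  have hint : ∀ o' : X, Integrable (fun x => (1 + dist x o') * minWeakGrad m ρ' x) m := fun o' =>
    RW_weight (by fun_prop) (fun x => by positivity) (fun x => (hC _ dist_nonneg).2)
      (sl_D_meas hr.1.2.1) (sl_D_nonneg hr.1.2.1) (i2 o')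
  have hi : Integrable ρ' m := by
    refine (hmom o).mono' hmeas.aestronglyMeasurable (.of_forall fun x => ?_)
    rw [Real.norm_of_nonneg (h0 x)]
    nlinarith [mul_nonneg (sq_nonneg (dist x o)) (h0 x)]
  have hmass : ∫ x, ρ' x ∂m = 1 := by
    have hc := sl_const (m := m) (1 : ℝ)
    have h2 := res_eq_growth hH hr o (hρ.mom o) (hmom o) (hint o) (φ := fun _ => 1) (A := 1)
      (lipBdd_of_lipschitz (LipschitzWith.const 1))
      (fun x => by rw [abs_one]; nlinarith [sq_nonneg (dist x o)]) (by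
        filter_upwards [hc.2] with x hx
        rw [hx]
        positivity)
    have h3 : ∫ x, gradPairing m (fun _ => (1 : ℝ)) ρ' x ∂m = 0 := by
      refine integral_eq_zero_of_ae ?_
      filter_upwards [gamma_eq_zero_on_level hH hc.1 hr.1.2.1 1] with x hx using (hx rfl).1
    simp only [mul_one] at h2
    rw [h3, integral_sub hρ.integrable hi, hρ.mass] at h2
    have h4 := (mul_eq_zero.1 h2.symm).resolve_left hl0.ne'
    linarith
  have hsq : Integrable (fun x => √(ρ' x)) m := by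
    refine ((i1 o).add (hgr o)).mono' hmeas.sqrt.aestronglyMeasurable (.of_forall fun x => ?_)
    rw [Real.norm_of_nonneg (Real.sqrt_nonneg _), Pi.add_apply, Real.exp_neg]
    have hE := Real.exp_pos (a * dist x o)
    set E := Real.exp (a * dist x o)
    have h2 := Real.sq_sqrt (h0 x)
    have h3 := Real.sqrt_nonneg (ρ' x)
    set s := √(ρ' x)
    rw [← h2, ← sub_nonneg]
    have h4 : E * s ^ 2 + E⁻¹ - s = E⁻¹ * ((E * s) ^ 2 - E * s + 1) := by field_simp; ring
    rw [h4]
    exact mul_nonneg (by positivity) (by nlinarith [sq_nonneg (E * s - 1), sq_nonneg (E * s)])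
  exact ⟨ρ', ⟨hρ, ⟨hmeas, h0, ⟨M, h1⟩, hmass, hmom, hsq⟩, hr.1.2.1, hint,
    fun φ o' A h2 h3 h4 => res_eq_growth hH hr o' (hρ.mom o') (hmom o') (hint o') h2 h3 h4⟩,
    hr, h1⟩

theorem ResPair.shift {lam Lam : ℝ} (h0 : 0 ≤ lam) (hL : lam ≤ Lam) (hL0 : 0 < Lam)
    {ρ ρ' : X → ℝ} (h : ResPair m lam ρ ρ') :
    ResPair m Lam (fun x => lam / Lam * ρ x + (1 - lam / Lam) * ρ' x) ρ' := by
  refine ⟨h.nice.mix h.nice' (by positivity) ((div_le_one hL0).2 hL), h.nice', h.sob, h.int,
    fun φ o A h1 h2 h3 => ?_⟩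
  have e : ∀ x, (lam / Lam * ρ x + (1 - lam / Lam) * ρ' x - ρ' x) * φ x =
      lam / Lam * ((ρ x - ρ' x) * φ x) := fun x => by ring
  simp only [e]
  rw [h.eq φ o A h1 h2 h3, integral_const_mul, ← mul_assoc, mul_div_cancel₀ _ hL0.ne']

end Crest.Agent.R242
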