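import Crest.Agent.R242.EVI
import Crest.Agent.R242.ResWeighted

/-! Row 242: Wasserstein contraction of one resolvent step. -/

set_option autoImplicit false
set_option linter.unusedSectionVars false

open MeasureTheory Filter Set Topology
open scoped ENNReal NNReal
open Crest.GeometryTopology.SyntheticRicci

namespace Crest.Agent.R242

variable {X : Type*} [MetricSpace X] [ProperSpace X] [MeasurableSpace X] [BorelSpace X]
  {m : Measure X} [IsLocallyFiniteMeasure m] [m.IsOpenPosMeasure]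

theorem evi {κ : ℝ} (hG : Good m κ) {lam : ℝ} (hl : 0 < lam) {ρ ρ' σ : X → ℝ}
    (h : ResPair m lam ρ ρ') (hσ : NiceD m σ) :
    (1 / 2 - 4 * κ / lam) * Wsq (dm m ρ') (dm m σ) - (Ent m (dm m σ) - Ent m (dm m ρ')) / lam ≤
      Wsq (dm m ρ) (dm m σ) / 2 := by
  have hp := hσ.OTBasic_prob
  obtain ⟨o⟩ := (dm m σ).nonempty_of_neZero
  obtain ⟨C, hC⟩ := hσ.bdd
  let τ : ℕ → X → ℝ := fun n => (Metric.closedBall o n).indicator σ
  have hτm : ∀ n, Measurable (τ n) := fun n => hσ.meas.indicator measurableSet_closedBall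
  have hτ0 : ∀ n x, 0 ≤ τ n x := fun n x => indicator_nonneg (fun y _ => hσ.nonneg y) x
  have hτle : ∀ n x, τ n x ≤ σ x := fun n x => indicator_le_self' (fun y _ => hσ.nonneg y) x
  have hτc : ∀ x, Tendsto (fun n => τ n x) atTop (𝓝 (σ x)) := fun x => by
    refine tendsto_const_nhds.congr' ?_
    filter_upwards [tendsto_natCast_atTop_atTop.eventually_ge_atTop (dist x o)] with n hn
    exact (indicator_of_mem (Metric.mem_closedBall.2 hn) σ).symm
  let c : ℕ → ℝ := fun n => ∫ x, τ n x ∂m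
  have hc : Tendsto c atTop (𝓝 1) := by
    rw [← hσ.mass]
    refine tendsto_integral_of_dominated_convergence σ (fun n => (hτm n).aestronglyMeasurable)
      hσ.integrable (fun n => Eventually.of_forall fun x => ?_) (Eventually.of_forall hτc)
    rw [Real.norm_of_nonneg (hτ0 n x)]
    exact hτle n x
  obtain ⟨N, hN⟩ := eventually_atTop.1 (hc.eventually_const_le (show (1 / 2 : ℝ) < 1 by norm_num))
  let s : ℕ → X → ℝ := fun n x => τ (n + N) x / c (n + N)
  have hcN : ∀ n, 1 / 2 ≤ c (n + N) := fun n => hN _ (Nat.le_add_left N n)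
  have hc0 : ∀ n, 0 < c (n + N) := fun n => lt_of_lt_of_le (by norm_num) (hcN n)
  have hs0 : ∀ n x, 0 ≤ s n x := fun n x => div_nonneg (hτ0 _ x) (hc0 n).le
  have hsle : ∀ n x, s n x ≤ 2 * σ x := fun n x => by
    rw [div_le_iff₀ (hc0 n)]
    nlinarith [hτle (n + N) x, hσ.nonneg x, hcN n]
  have hsupp : ∀ n x, ((n + N : ℕ) : ℝ) < dist x o → s n x = 0 := fun n x hx => by
    have : τ (n + N) x = 0 := indicator_of_notMem (by simpa using hx) σ
    simp only [s, this, zero_div]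
  have hs : ∀ n, NiceD m (s n) := fun n =>
    niceD_of_bdd_support ((hτm _).div_const _) (hs0 n) (C := 2 * C)
      (fun x => (hsle n x).trans (by linarith [hC x]))
      (by simp only [s]; rw [integral_div]; exact div_self (hc0 n).ne') (hsupp n)
  have hsc : ∀ x, Tendsto (fun n => s n x) atTop (𝓝 (σ x)) := fun x => by
    have := ((hτc x).comp (tendsto_add_atTop_nat N)).div (hc.comp (tendsto_add_atTop_nat N))
      one_ne_zero
    rw [div_one] at this
    exact this
  obtain ⟨hE, hW⟩ := tendsto_ent hs hσ hσ hsle (Eventually.of_forall hsc)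
  have hW0 : Tendsto (fun n => Wsq (dm m (s n)) (dm m σ)) atTop (𝓝 0) := by
    refine squeeze_zero (fun n => Wsq_nonneg _ _) (fun n => Wsq_dm_le (hs n) hσ o) ?_
    simpa using (hW o).const_mul 2
  have hlim : ∀ {ζ : X → ℝ}, NiceD m ζ →
      Tendsto (fun n => Wsq (dm m ζ) (dm m (s n))) atTop (𝓝 (Wsq (dm m ζ) (dm m σ))) :=
    fun hζ => tendsto_Wsq (fun _ => hζ.isP2) (fun n => (hs n).isP2) hζ.isP2 hσ.isP2
      (by simp only [Wsq_self hζ.isP2]; exact tendsto_const_nhds) hW0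
  exact le_of_tendsto_of_tendsto'
    (((hlim h.nice').const_mul _).sub ((hE.sub_const _).div_const _)) ((hlim h.nice).div_const 2)
    fun n => evi_bdd hG hl h (hs n) (hsupp n)

theorem contract {κ : ℝ} (hG : Good m κ) {lam : ℝ} (hl : 0 < lam) {ρ ρ' η η' : X → ℝ}
    (h₁ : ResPair m lam ρ ρ') (h₂ : ResPair m lam η η') :
    (lam - 16 * κ) * Wsq (dm m ρ') (dm m η') ≤ lam * Wsq (dm m ρ) (dm m η) := by
  have hκ := hG.nonneg
  set W := Wsq (dm m ρ) (dm m η) with hW
  set W' := Wsq (dm m ρ') (dm m η') with hW'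
  set B := 2 * lam * (Ent m (dm m η) - Ent m (dm m η')) -
    16 * κ * (Ent m (dm m ρ') - Ent m (dm m η')) with hB
  have key : ∀ Lam : ℝ, lam ≤ Lam → 8 * κ ≤ Lam → (lam - 16 * κ) * W' ≤ lam * W + B / Lam := by
    intro Lam hL hL8
    have hL0 : 0 < Lam := hl.trans_le hL
    have t0 : 0 ≤ lam / Lam := div_nonneg hl.le hL0.le
    have t1 : lam / Lam ≤ 1 := (div_le_one hL0).2 hL
    have r₁ := h₁.shift hl.le hL hL0
    have r₂ := h₂.shift hl.le hL hL0
    have a₁ := evi hG hL0 r₁ r₂.nice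
    have a₂ := evi hG hL0 r₂ h₁.nice'
    have a₃ := Wsq_mix h₁.nice h₂.nice h₁.nice' h₂.nice' t0 t1
    have a₄ := ent_mix_le h₂.nice h₂.nice' t0 t1
    rw [Wsq_comm (dm m η') (dm m ρ'), Wsq_comm _ (dm m ρ')] at a₂
    rw [← hW'] at a₂
    rw [← hW, ← hW'] at a₃
    have w0 : 0 ≤ W' := Wsq_nonneg _ _
    generalize Wsq (dm m ρ') (dm m fun x => lam / Lam * η x + (1 - lam / Lam) * η' x) = V
      at a₁ a₂
    generalize Wsq (dm m fun x => lam / Lam * ρ x + (1 - lam / Lam) * ρ' x)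
      (dm m fun x => lam / Lam * η x + (1 - lam / Lam) * η' x) = V' at a₁ a₃
    generalize Ent m (dm m fun x => lam / Lam * η x + (1 - lam / Lam) * η' x) = e at a₁ a₄
    generalize Ent m (dm m η) = e₁ at *
    generalize Ent m (dm m η') = e₂ at *
    generalize Ent m (dm m ρ') = e₃ at *
    obtain ⟨i, hi⟩ : ∃ i, i = Lam⁻¹ := ⟨_, rfl⟩
    have i0 : 0 < i := hi ▸ inv_pos.2 hL0
    have i1 : Lam * i = 1 := hi ▸ mul_inv_cancel₀ hL0.ne'
    simp only [div_eq_mul_inv _ Lam, ← hi] at a₁ a₂ a₃ a₄ ⊢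
    have a0 : 0 ≤ 1 - 8 * κ * i := by nlinarith
    have b₂ := mul_le_mul_of_nonneg_left a₂ a0
    have b₄ := mul_le_mul_of_nonneg_left a₄ i0.le
    have b₅ : 0 ≤ κ ^ 2 * i ^ 2 * W' := by positivity
    have fin : i * ((lam - 16 * κ) * W') ≤ i * (lam * W + B * i) := by
      rw [hB]
      nlinarith
    exact le_of_mul_le_mul_left fin i0
  have lim : Tendsto (fun Lam : ℝ => lam * W + B / Lam) atTop (𝓝 (lam * W + 0)) :=
    (tendsto_const_nhds.div_atTop tendsto_id).const_add _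
  rw [add_zero] at lim
  refine ge_of_tendsto lim ?_
  filter_upwards [eventually_ge_atTop lam, eventually_ge_atTop (8 * κ)] with Lam h1 h2
  exact key Lam h1 h2

end Crest.Agent.R242
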