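import Crest.Agent.R242.Defs

/-! Row 242: elementary facts on curves. -/

set_option autoImplicit false
set_option linter.unusedSectionVars false

open MeasureTheory Filter Set Topology
open scoped ENNReal NNReal
open Crest.GeometryTopology.SyntheticRicci

namespace Crest.Agent.R242

variable {X : Type*} [MetricSpace X] [ProperSpace X] [MeasurableSpace X] [BorelSpace X]
  {m : Measure X} [IsLocallyFiniteMeasure m] [m.IsOpenPosMeasure]

theorem continuous_ext : Continuous (fun p : UCurve X × ℝ => p.1.ext p.2) := by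
  exact continuous_eval.comp ((isEmbedding_toMap.continuous.comp continuous_fst).prodMk
    ((continuous_projIcc (h := zero_le_one)).comp continuous_snd))

theorem continuous_ext_left (t : ℝ) : Continuous (fun γ : UCurve X => γ.ext t) := by
  exact continuous_ext.comp (continuous_id.prodMk continuous_const)

theorem ext_coe (γ : UCurve X) (t : unitInterval) : γ.ext (t : ℝ) = γ.toMap t := by
  exact congrArg γ.toMap (projIcc_val _ t)

theorem ext_zero (γ : UCurve X) : γ.ext 0 = γ.toMap 0 := by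
  exact ext_coe γ 0

theorem ext_one (γ : UCurve X) : γ.ext 1 = γ.toMap 1 := by
  exact ext_coe γ 1

theorem Curves_cont (t : unitInterval) : Continuous fun γ : UCurve X => γ.toMap t :=
  (continuous_eval_const t).comp isEmbedding_toMap.continuous

theorem continuous_len : Continuous (len : UCurve X → ℝ) := by
  exact (Curves_cont 0).dist (Curves_cont 1)

theorem measurable_upperSpeed : Measurable (fun p : UCurve X × ℝ => upperSpeed p.1 p.2) := by
  have e : (fun p : UCurve X × ℝ => upperSpeed p.1 p.2) = fun p => ⨅ (n : ℕ) (_ : True),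
      ⨆ h ∈ Metric.ball (0 : ℝ) (1 / (n + 1)) ∩ {0}ᶜ,
        ENNReal.ofReal (dist (p.1.ext (p.2 + h)) (p.1.ext p.2) / |h|) := by
    funext p
    rw [← (nhdsWithin_hasBasis Metric.nhds_basis_ball_inv_nat_succ _).limsup_eq_iInf_iSup,
      upperSpeed]
    have := (Homeomorph.addLeft p.2).map_punctured_nhds_eq 0
    simp only [Homeomorph.coe_addLeft, add_zero] at this
    rw [← this, ← limsup_comp]
    simp only [Function.comp_def, add_sub_cancel_left]
  rw [e]
  refine Measurable.iInf fun n => Measurable.iInf fun _ => LowerSemicontinuous.measurable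
    (lowerSemicontinuous_biSup fun h _ => Continuous.lowerSemicontinuous ?_)
  exact ENNReal.continuous_ofReal.comp (((continuous_ext.comp (continuous_fst.prodMk
    (continuous_snd.add continuous_const))).dist continuous_ext).div_const _)

theorem continuous_restr (a b : ℝ) : Continuous (restr a b : UCurve X → UCurve X) := by
  refine isEmbedding_toMap.continuous_iff.2 (ContinuousMap.continuous_of_continuous_uncurry _ ?_)
  exact continuous_ext.comp (continuous_fst.prodMk (continuous_const.add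
    (continuous_const.mul (continuous_subtype_val.comp continuous_snd))))

theorem restr_ext (a b : ℝ) (γ : UCurve X) {t : ℝ} (ht : t ∈ Icc (0 : ℝ) 1) :
    (restr a b γ).ext t = γ.ext (a + (b - a) * t) := by
  exact ext_coe (restr a b γ) ⟨t, ht⟩

theorem upperSpeed_restr_le (a b : ℝ) (γ : UCurve X) {t : ℝ} (ht : t ∈ Ioo (0 : ℝ) 1) :
    upperSpeed (restr a b γ) t ≤ ENNReal.ofReal |b - a| * upperSpeed γ (a + (b - a) * t) := by
  have e : ∀ s, a + (b - a) * s - (a + (b - a) * t) = (b - a) * (s - t) := fun s => by ring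
  rw [upperSpeed, limsup_congr (v := fun s => ENNReal.ofReal |b - a| * ENNReal.ofReal
    (dist (γ.ext (a + (b - a) * s)) (γ.ext (a + (b - a) * t)) /
      |a + (b - a) * s - (a + (b - a) * t)|)), ENNReal.limsup_const_mul_of_ne_top ENNReal.ofReal_ne_top]
  · rcases eq_or_ne (b - a) 0 with h | h
    · simp [h]
    refine mul_le_mul_right (Tendsto.limsup_comp_le_limsup (v := fun s => a + (b - a) * s)
      (u := fun s => ENNReal.ofReal (dist (γ.ext s) (γ.ext (a + (b - a) * t)) /
        |s - (a + (b - a) * t)|)) ?_) _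
    exact (Continuous.continuousWithinAt (by fun_prop)).tendsto_nhdsWithin fun s hs h' =>
      hs (mul_left_cancel₀ h (add_left_cancel h'))
  · filter_upwards [mem_nhdsWithin_of_mem_nhds (Icc_mem_nhds ht.1 ht.2)] with s hs
    rw [restr_ext a b γ hs, restr_ext a b γ (Ioo_subset_Icc_self ht), e, abs_mul,
      ← ENNReal.ofReal_mul (abs_nonneg _)]
    rcases eq_or_ne (b - a) 0 with h | h
    · simp [h]
    · rw [← mul_div_assoc, mul_div_mul_left _ _ (abs_ne_zero.2 h)]

theorem Curves_mem {a b t : ℝ} (ha : a ∈ Icc (0 : ℝ) 1) (hb : b ∈ Icc (0 : ℝ) 1)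
    (ht : t ∈ Icc (0 : ℝ) 1) : a + (b - a) * t ∈ Icc (0 : ℝ) 1 :=
  ⟨by nlinarith [ha.1, hb.1, ht.1, ht.2], by nlinarith [ha.2, hb.2, ht.1, ht.2]⟩

theorem Curves_cov (a : ℝ) {c : ℝ} (hc : c ≠ 0) {S : Set ℝ} (hS : MeasurableSet S)
    (F : ℝ → ℝ≥0∞) : ∫⁻ r in (fun r => a + c * r) '' S, F r =
      ∫⁻ r in S, ENNReal.ofReal |c| * F (a + c * r) :=
  lintegral_image_eq_lintegral_abs_deriv_mul hS
    (fun _ _ => ((hasDerivAt_const_mul c).const_add a).hasDerivWithinAt)
    (fun _ _ _ _ h => mul_left_cancel₀ hc (add_left_cancel h)) F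

theorem hasL2Speed_restr {a b : ℝ} (ha : a ∈ Icc (0 : ℝ) 1) (hb : b ∈ Icc (0 : ℝ) 1)
    {γ : UCurve X} (hγ : HasL2Speed γ) : HasL2Speed (restr a b γ) := by
  obtain ⟨α, h1, h2, h3⟩ := hγ
  have h4 : ∀ x ∈ Icc (0 : ℝ) 1, ∀ y ∈ Icc (0 : ℝ) 1,
      edist (γ.ext x) (γ.ext y) ≤ ∫⁻ r in uIcc x y, α r := fun x hx y hy => by
    rw [ext_coe γ ⟨x, hx⟩, ext_coe γ ⟨y, hy⟩]
    rcases le_total x y with h | h
    · rw [uIcc_of_le h]
      exact h3 ⟨x, hx⟩ ⟨y, hy⟩ h
    · rw [uIcc_of_ge h, edist_comm]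
      exact h3 ⟨y, hy⟩ ⟨x, hx⟩ h
  refine ⟨fun r => ENNReal.ofReal |b - a| * α (a + (b - a) * r), by fun_prop, ?_, fun s t hst => ?_⟩
  · rcases eq_or_ne (b - a) 0 with h | h
    · simp [h]
    simp only [mul_pow, sq (ENNReal.ofReal _), mul_assoc]
    rw [lintegral_const_mul' _ _ ENNReal.ofReal_ne_top,
      ← Curves_cov a h measurableSet_Icc fun r => α r ^ 2]
    refine ENNReal.mul_lt_top ENNReal.ofReal_lt_top ((lintegral_mono_set ?_).trans_lt h2)
    rintro _ ⟨r, hr, rfl⟩
    exact Curves_mem ha hb hr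
  · change edist (γ.ext _) (γ.ext _) ≤ _
    rcases eq_or_ne (b - a) 0 with h | h
    · simp [h]
    rw [← Curves_cov a h measurableSet_Icc, ← uIcc_of_le hst]
    exact (h4 _ (Curves_mem ha hb s.2) _ (Curves_mem ha hb t.2)).trans (lintegral_mono_set
      (intermediate_value_uIcc (f := fun r => a + (b - a) * r) (by fun_prop)))

theorem isClosed_geodesic : IsClosed {γ : UCurve X | IsCSGeodesic γ} := by
  simp only [IsCSGeodesic, ofPred_forall]
  exact isClosed_iInter fun s => isClosed_iInter fun t =>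
    isClosed_eq ((Curves_cont s).dist (Curves_cont t)) (continuous_const.mul continuous_len)

theorem geo_dist_ext {γ : UCurve X} (hγ : IsCSGeodesic γ) {s t : ℝ} (hs : s ∈ Icc (0 : ℝ) 1)
    (ht : t ∈ Icc (0 : ℝ) 1) : dist (γ.ext s) (γ.ext t) = |s - t| * len γ := by
  rw [ext_coe γ ⟨s, hs⟩, ext_coe γ ⟨t, ht⟩]
  exact hγ _ _

theorem geo_upperSpeed_le {γ : UCurve X} (hγ : IsCSGeodesic γ) (t : ℝ) :
    upperSpeed γ t ≤ ENNReal.ofReal (len γ) := by
  refine limsup_le_of_le (by isBoundedDefault) (Eventually.of_forall fun s =>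
    ENNReal.ofReal_le_ofReal (div_le_of_le_mul₀ (abs_nonneg _) dist_nonneg ?_))
  rw [mul_comm]
  exact (hγ _ _).trans_le (mul_le_mul_of_nonneg_right (abs_projIcc_sub_projIcc _) dist_nonneg)

theorem geo_hasL2Speed {γ : UCurve X} (hγ : IsCSGeodesic γ) : HasL2Speed γ := by
  refine ⟨fun _ => ENNReal.ofReal (len γ), measurable_const, ?_, fun s t hst => ?_⟩
  · simp
  · rw [setLIntegral_const, Real.volume_Icc, edist_dist, hγ, abs_sub_comm,
      abs_of_nonneg (sub_nonneg.2 hst), mul_comm, ENNReal.ofReal_mul dist_nonneg]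
    exact le_rfl

theorem geo_restr {γ : UCurve X} (hγ : IsCSGeodesic γ) {a b : ℝ} (ha : a ∈ Icc (0 : ℝ) 1)
    (hb : b ∈ Icc (0 : ℝ) 1) : IsCSGeodesic (restr a b γ) ∧ len (restr a b γ) = |b - a| * len γ := by
  have h1 : ∀ s t : unitInterval, dist ((restr a b γ).toMap s) ((restr a b γ).toMap t) =
      |(s : ℝ) - t| * (|b - a| * len γ) := fun s t => by
    refine (geo_dist_ext hγ (Curves_mem ha hb s.2) (Curves_mem ha hb t.2)).trans ?_
    rw [add_sub_add_left_eq_sub, ← mul_sub, abs_mul]
    ring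
  have h2 : len (restr a b γ) = |b - a| * len γ := (h1 0 1).trans (by simp)
  exact ⟨fun s t => (h1 s t).trans (congrArg _ h2.symm), h2⟩

theorem timeMarginal_eq_marg (P : Measure (UCurve X)) (t : unitInterval) :
    timeMarginal P t = marg P (t : ℝ) := by
  simp only [timeMarginal, marg, ext_coe]

theorem marg_map_restr (P : Measure (UCurve X)) (a b : ℝ) {t : ℝ} (ht : t ∈ Icc (0 : ℝ) 1) :
    marg (P.map (restr a b)) t = marg P (a + (b - a) * t) := by
  rw [marg, marg, Measure.map_map (continuous_ext_left t).measurable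
    (continuous_restr a b).measurable]
  exact congrArg (Measure.map · P) (funext fun γ => restr_ext a b γ ht)

theorem marg_projIcc (P : Measure (UCurve X)) (t : ℝ) :
    marg P t = marg P (projIcc (0 : ℝ) 1 zero_le_one t : ℝ) := by
  exact timeMarginal_eq_marg P _

theorem Curves_meas : Measurable fun γ : UCurve X => (γ.toMap 0, γ.toMap 1) :=
  (Curves_cont 0).measurable.prodMk (Curves_cont 1).measurable

theorem isCouplingOf_endpointLaw (P : Measure (UCurve X)) :
    IsCouplingOf (endpointLaw P) (marg P 0) (marg P 1) := by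
  exact ⟨(Measure.map_map measurable_fst Curves_meas).trans (timeMarginal_eq_marg P 0),
    (Measure.map_map measurable_snd Curves_meas).trans (timeMarginal_eq_marg P 1)⟩

theorem integral_endpointLaw_sq (P : Measure (UCurve X)) :
    ∫ p, dist p.1 p.2 ^ 2 ∂(endpointLaw P) = ∫ γ, len γ ^ 2 ∂P := by
  exact integral_map Curves_meas.aemeasurable (continuous_dist.pow 2).aestronglyMeasurable

theorem isPot_endpointLaw_iff {φ : X → ℝ} (hφ : Continuous φ) (P : Measure (UCurve X)) :
    IsPot φ (endpointLaw P) ↔ ∀ᵐ γ ∂P, ∀ x' : X,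
      φ x' - φ (γ.toMap 0) ≤ cst x' (γ.toMap 1) - cst (γ.toMap 0) (γ.toMap 1) := by
  refine ae_map_iff Curves_meas.aemeasurable (IsClosed.measurableSet ?_)
  simp only [ofPred_forall, cst]
  exact isClosed_iInter fun x => isClosed_le (by fun_prop) (by fun_prop)

end Crest.Agent.R242
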