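import Crest.Agent.R242.TestProd

/-! Row 242: compactly supported test functions equal to one on a ball. -/

set_option autoImplicit false
set_option linter.unusedSectionVars false

open MeasureTheory Filter Set Topology
open scoped ENNReal NNReal
open Crest.GeometryTopology.SyntheticRicci

namespace Crest.Agent.R242

variable {X : Type*} [MetricSpace X] [ProperSpace X] [MeasurableSpace X] [BorelSpace X]
  {m : Measure X} [IsLocallyFiniteMeasure m] [m.IsOpenPosMeasure]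

/-- Equi-Lipschitz functions converging in `L²` converge uniformly on balls. -/
theorem unif_of_L2Conv {u : ℕ → X → ℝ} {f : X → ℝ} {K : ℝ≥0} (hu : ∀ n, LipschitzWith K (u n))
    (hf : LipschitzWith K f) (hu2 : ∀ n, MemLp (u n) 2 m) (hf2 : MemLp f 2 m)
    (hc : L2Conv m u f) (o : X) (R : ℝ) {η : ℝ} (hη : 0 < η) :
    ∀ᶠ n in atTop, ∀ x, dist x o ≤ R → |u n x - f x| ≤ η := by
  obtain ⟨r, hr, hKr⟩ : ∃ r : ℝ, 0 < r ∧ 4 * (K * r) ≤ η / 2 := by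
    refine ⟨η / (8 * (K + 1)), by positivity, ?_⟩
    rw [← mul_div_assoc, ← mul_div_assoc, div_le_div_iff₀ (by positivity) two_pos]
    nlinarith [K.coe_nonneg]
  obtain ⟨t, -, ht, hcov⟩ := finite_cover_balls_of_compact (isCompact_closedBall o R) hr
  have h1 : ∀ c ∈ t, ∀ᶠ n in atTop,
      ∫ x, (u n x - f x) ^ 2 ∂m < (η / 2) ^ 2 * m.real (Metric.ball c r) := fun c _ =>
    hc.eventually_lt_const (mul_pos (by positivity)
      (ENNReal.toReal_pos (Metric.measure_ball_pos m c hr).ne' measure_ball_lt_top.ne))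
  filter_upwards [(eventually_all_finite ht).2 h1] with n hn x hx
  obtain ⟨c, hct, hxc⟩ := mem_iUnion₂.1 (hcov (Metric.mem_closedBall.2 hx))
  by_contra hlt
  have hi : Integrable (fun x => (u n x - f x) ^ 2) m := ((hu2 n).sub hf2).integrable_sq
  refine (hn c hct).not_ge ((setIntegral_ge_of_const_le_real Metric.isOpen_ball.measurableSet
    measure_ball_lt_top.ne (fun y hy => ?_) hi.integrableOn).trans
    (setIntegral_le_integral hi (ae_of_all _ fun _ => sq_nonneg _)))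
  have hd : dist x y ≤ 2 * r := by
    have := dist_triangle_right x y c
    have := Metric.mem_ball.1 hxc
    have := Metric.mem_ball.1 hy
    linarith
  have hd' : (K : ℝ) * dist x y ≤ K * (2 * r) := mul_le_mul_of_nonneg_left hd K.coe_nonneg
  have a1 := abs_le.1 ((hu n).dist_le_mul x y)
  have a2 := abs_le.1 (hf.dist_le_mul x y)
  rw [← sq_abs (u n y - f y)]
  refine pow_le_pow_left₀ (by positivity) ?_ 2
  rcases lt_abs.1 (not_le.1 hlt) with h | h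
  · exact le_abs.2 (Or.inl (by linarith [a1.2, a2.1]))
  · exact le_abs.2 (Or.inr (by linarith [a1.1, a2.2]))

theorem Cutoff_deriv {g : ℝ → ℝ} (hg : Differentiable ℝ g) {c d : ℝ}
    (h1 : ∀ z, z ≤ 1 / 3 → g z = c) (h2 : ∀ z, 2 / 3 ≤ z → g z = d) :
    (∀ z, z ≤ 1 / 3 → deriv g z = 0) ∧ ∀ z, 2 / 3 ≤ z → deriv g z = 0 :=
  ⟨fun z hz => (uniqueDiffOn_Iic (1 / 3 : ℝ) z hz).eq_deriv _ (hg z).hasDerivAt.hasDerivWithinAt
      ((hasDerivWithinAt_const z _ c).congr h1 (h1 z hz)),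
    fun z hz => (uniqueDiffOn_Ici (2 / 3 : ℝ) z hz).eq_deriv _ (hg z).hasDerivAt.hasDerivWithinAt
      ((hasDerivWithinAt_const z _ d).congr h2 (h2 z hz))⟩

theorem Cutoff_bound {g : ℝ → ℝ} (hg : Continuous g) {c d : ℝ}
    (h1 : ∀ z, z ≤ 1 / 3 → g z = c) (h2 : ∀ z, 2 / 3 ≤ z → g z = d) :
    ∃ K : ℝ≥0, ∀ z, |g z| ≤ K := by
  obtain ⟨C, hC⟩ := (isCompact_Icc (a := (1 / 3 : ℝ)) (b := 2 / 3)).exists_bound_of_continuousOn
    hg.continuousOn
  refine ⟨C.toNNReal, fun z => le_trans ?_ (Real.le_coe_toNNReal C)⟩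
  rcases le_total z (1 / 3) with a | a
  · rw [h1 z a, ← h1 _ le_rfl]
    exact hC _ ⟨le_rfl, by norm_num⟩
  rcases le_total z (2 / 3) with b | b
  · exact hC _ ⟨a, b⟩
  · rw [h2 z b, ← h2 _ le_rfl]
    exact hC _ ⟨by norm_num, le_rfl⟩

theorem exists_profile : ∃ (Φ Φ₁ Φ₂ Φ₃ : ℝ → ℝ) (K : ℝ≥0), (∀ z, HasDerivAt Φ (Φ₁ z) z) ∧
    (∀ z, HasDerivAt Φ₁ (Φ₂ z) z) ∧ (∀ z, HasDerivAt Φ₂ (Φ₃ z) z) ∧ Continuous Φ₃ ∧
    (∀ z, |Φ z| ≤ K ∧ |Φ₁ z| ≤ K ∧ |Φ₂ z| ≤ K ∧ |Φ₃ z| ≤ K) ∧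
    (∀ z, z ≤ 1 / 3 → Φ z = 0 ∧ Φ₁ z = 0 ∧ Φ₂ z = 0) ∧ ∀ z, 2 / 3 ≤ z → Φ z = 1 := by
  obtain ⟨Φ, h0, l0, r0⟩ : ∃ Φ : ℝ → ℝ, ContDiff ℝ ((⊤ : ℕ∞) : WithTop ℕ∞) Φ ∧
      (∀ z, z ≤ 1 / 3 → Φ z = 0) ∧ ∀ z, 2 / 3 ≤ z → Φ z = 1 :=
    ⟨fun z => Real.smoothTransition (3 * z - 1), Real.smoothTransition.contDiff.comp (by fun_prop),
      fun z hz => Real.smoothTransition.zero_of_nonpos (by linarith),
      fun z hz => Real.smoothTransition.one_of_one_le (by linarith)⟩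
  obtain ⟨d0, h1⟩ := contDiff_infty_iff_deriv.1 h0
  obtain ⟨d1, h2⟩ := contDiff_infty_iff_deriv.1 h1
  obtain ⟨d2, h3⟩ := contDiff_infty_iff_deriv.1 h2
  obtain ⟨l1, r1⟩ := Cutoff_deriv d0 l0 r0
  obtain ⟨l2, r2⟩ := Cutoff_deriv d1 l1 r1
  obtain ⟨l3, r3⟩ := Cutoff_deriv d2 l2 r2
  obtain ⟨K0, b0⟩ := Cutoff_bound h0.continuous l0 r0
  obtain ⟨K1, b1⟩ := Cutoff_bound h1.continuous l1 r1
  obtain ⟨K2, b2⟩ := Cutoff_bound h2.continuous l2 r2
  obtain ⟨K3, b3⟩ := Cutoff_bound h3.continuous l3 r3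
  refine ⟨Φ, deriv Φ, deriv (deriv Φ), deriv (deriv (deriv Φ)), K0 + K1 + K2 + K3,
    fun z => (d0 z).hasDerivAt, fun z => (d1 z).hasDerivAt, fun z => (d2 z).hasDerivAt,
    h3.continuous, fun z => ?_, fun z hz => ⟨l0 z hz, l1 z hz, l2 z hz⟩, r0⟩
  have := K0.coe_nonneg
  have := K1.coe_nonneg
  have := K2.coe_nonneg
  have := K3.coe_nonneg
  push_cast
  exact ⟨by linarith [b0 z], by linarith [b1 z], by linarith [b2 z], by linarith [b3 z]⟩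

theorem Cutoff_lip {Φ Φ₁ : ℝ → ℝ} {K : ℝ≥0} (h : ∀ z, HasDerivAt Φ (Φ₁ z) z)
    (hK : ∀ z, |Φ₁ z| ≤ K) : LipschitzWith K Φ :=
  lipschitzWith_of_nnnorm_deriv_le (fun z => (h z).differentiableAt) fun z => by
    rw [(h z).deriv]
    exact hK z

theorem Cutoff_lip_mul {a b : X → ℝ} {La Lb A B : ℝ≥0} (ha : LipschitzWith La a)
    (hb : LipschitzWith Lb b) (hA : ∀ x, |a x| ≤ A) (hB : ∀ x, |b x| ≤ B) :
    LipschitzWith (A * Lb + B * La) fun x => a x * b x := by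
  refine LipschitzWith.of_dist_le_mul fun x y => ?_
  have h1 : |a x * (b x - b y)| ≤ A * (Lb * dist x y) := by
    rw [abs_mul]
    exact mul_le_mul (hA x) (hb.dist_le_mul x y) (abs_nonneg _) A.coe_nonneg
  have h2 : |b y * (a x - a y)| ≤ B * (La * dist x y) := by
    rw [abs_mul]
    exact mul_le_mul (hB y) (ha.dist_le_mul x y) (abs_nonneg _) B.coe_nonneg
  have h3 := abs_add_le (a x * (b x - b y)) (b y * (a x - a y))
  rw [Real.dist_eq, show a x * b x - a y * b y = a x * (b x - b y) + b y * (a x - a y) by ring]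
  push_cast
  linarith

/-- The chain rule for the Laplacian. -/
theorem Cutoff_lap_comp (hH : IsInfHilbertian m) {u Lu : X → ℝ} {L K : ℝ≥0}
    (hu : IsWeakLaplacian m u Lu) (hL : LipschitzWith L u) (hLu : IsSobolev m Lu)
    (hΓ : IsSobolev m (gradPairing m u u)) {Φ Φ₁ Φ₂ Φ₃ : ℝ → ℝ}
    (d0 : ∀ z, HasDerivAt Φ (Φ₁ z) z) (d1 : ∀ z, HasDerivAt Φ₁ (Φ₂ z) z)
    (d2 : ∀ z, HasDerivAt Φ₂ (Φ₃ z) z) (hK : ∀ z, |Φ₁ z| ≤ K ∧ |Φ₂ z| ≤ K ∧ |Φ₃ z| ≤ K)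
    (z0 : Φ 0 = 0) (z1 : Φ₁ 0 = 0) :
    ∃ Lw : X → ℝ, IsWeakLaplacian m (fun x => Φ (u x)) Lw ∧ IsSobolev m Lw := by
  have l0 := Cutoff_lip d0 fun z => (hK z).1
  have l1 := Cutoff_lip d1 fun z => (hK z).2.1
  have l2 := Cutoff_lip d2 fun z => (hK z).2.2
  have s1 := sl_of_lipschitz (m := m) (l1.comp hL)
  have s2 := sl_of_lipschitz (m := m) (l2.comp hL)
  have hw : IsSobolev m fun x => Φ (u x) := sob_comp hu.1 l0 z0 l1.continuous.measurable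
    (fun z => (hK z).1) countable_empty fun z _ => d0 z
  have hh : IsSobolev m fun x => Φ₁ (u x) := sob_comp hu.1 l1 z1 l2.continuous.measurable
    (fun z => (hK z).2.1) countable_empty fun z _ => d1 z
  have hLw : IsSobolev m fun x => Φ₁ (u x) * Lu x + Φ₂ (u x) * gradPairing m u u x :=
    sob_add (sob_mul_of_bdd s1.1 (ae_of_all _ fun x => (hK (u x)).1) s1.2 hLu)
      (sob_mul_of_bdd s2.1 (ae_of_all _ fun x => (hK (u x)).2.1) s2.2 hΓ)
  refine ⟨_, ⟨hw, hLw.1, fun v hv => ?_⟩, hLw⟩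
  have e1 : ∫ x, gradPairing m (fun x => Φ (u x)) v x ∂m =
      ∫ x, Φ₁ (u x) * gradPairing m u v x ∂m := by
    refine integral_congr_ae ?_
    filter_upwards [gamma_comm hw.2.1 hv.2.1, gamma_comm hv.2.1 hu.1.2.1,
      gamma_comp_right hH hu.1.2.1 hv.2.1 l0 l1.continuous.measurable (fun z => (hK z).1)
        countable_empty fun z _ => d0 z] with x a b c
    rw [a, c, b]
  rw [e1, lap_ibp hH hu (sl_of_lipschitz hL).2 hh (ae_of_all _ fun x => (hK (u x)).1) hv]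
  congr 1
  refine integral_congr_ae ?_
  filter_upwards [gamma_comm hh.2.1 hu.1.2.1,
    gamma_comp_right hH hu.1.2.1 hu.1.2.1 l1 l2.continuous.measurable (fun z => (hK z).2.1)
      countable_empty fun z _ => d1 z] with x a b
  rw [a, b]

/-- Multiplication by a cut-off which is `0` or `1` where `w ≠ 0`. -/
theorem Cutoff_lap_cut (hH : IsInfHilbertian m) {w Lw θ : X → ℝ} {L : ℝ≥0}
    (hw : IsWeakLaplacian m w Lw) (hLw : IsSobolev m Lw) (hθ : LipschitzWith L θ)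
    (hB : ∀ x, |θ x| ≤ 1) (h : ∀ x, θ x = 0 ∨ θ x = 1 ∨ w x = 0) :
    IsWeakLaplacian m (fun x => θ x * w x) (fun x => θ x * Lw x) ∧
      IsSobolev m fun x => θ x * Lw x := by
  obtain ⟨s1, s2⟩ := sl_of_lipschitz (m := m) hθ
  have hB' : ∀ᵐ x ∂m, |θ x| ≤ 1 := ae_of_all _ hB
  have hχ := sob_mul_of_bdd s1 hB' s2 hw.1
  have hL := sob_mul_of_bdd s1 hB' s2 hLw
  refine ⟨⟨hχ, hL.1, fun v hv => ?_⟩, hL⟩
  have e1 : ∫ x, gradPairing m (fun x => θ x * w x) v x ∂m =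
      ∫ x, gradPairing m w (fun x => θ x * v x) x ∂m := by
    refine integral_congr_ae ?_
    filter_upwards [gamma_comm hχ.2.1 hv.2.1, gamma_comm hv.2.1 hw.1.2.1,
      (gamma_mul_right_of_bdd hH s1 hB' s2 hw.1.2.1 hv.2.1).2,
      (gamma_mul_right_of_bdd hH s1 hB' s2 hv.2.1 hw.1.2.1).2,
      gamma_eq_zero_on_level hH s1 hv.2.1 0, gamma_eq_zero_on_level hH s1 hv.2.1 1,
      gamma_eq_zero_on_level hH s1 hw.1.2.1 0, gamma_eq_zero_on_level hH s1 hw.1.2.1 1,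
      gamma_eq_zero_on_level hH hw.1.2.1 s1 0] with x a b c d e0 e1 f0 f1 g
    rw [a, c, d, b]
    rcases h x with h | h | h
    · rw [(e0 h).2, (f0 h).2, mul_zero, mul_zero]
    · rw [(e1 h).2, (f1 h).2, mul_zero, mul_zero]
    · rw [(g h).1, h, mul_zero, zero_mul]
  rw [e1, hw.2.2 _ (sob_mul_of_bdd s1 hB' s2 hv)]
  congr 1
  exact integral_congr_ae (ae_of_all _ fun x => by ring)

theorem exists_test_cutoff {κ lam₀ : ℝ} (hG : Good m κ) (hE : GradEst m κ lam₀) (o : X) (R : ℝ) :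
    ∃ χ : X → ℝ, IsTestFn m χ ∧ HasCompactSupport χ ∧ ∀ x, dist x o ≤ R → χ x = 1 := by
  have hH := hG.hilb
  have h0 := hE.pos hG
  obtain ⟨ψ, p1, p2, p3, p4, p5⟩ := exists_cutoff o R (S := 1) one_pos
  obtain ⟨θ, t1, t2, t3, t4, t5⟩ := exists_cutoff o (R + 2) (S := 1) one_pos
  obtain ⟨Φ, Φ₁, Φ₂, Φ₃, K, d0, d1, d2, -, hK, l0, r0⟩ := exists_profile
  have hψ := lipS_of_lipschitz (m := m) p1 p2
  have hl : ∀ n : ℕ, 0 < lam₀ + n := fun n => by positivity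
  have key : ∀ n : ℕ, ∃ u : X → ℝ, IsRes m 0 (lam₀ + n) ψ u ∧
      LipschitzWith (2 * ((1 : ℝ≥0)⁻¹ : ℝ≥0) : ℝ).toNNReal u := fun n => by
    obtain ⟨u, hu⟩ := exists_res hH isWt_zero (hl n) hψ.1.1
    obtain ⟨g, g1, -, g3⟩ := exists_bdd_lip_rep hG
      (res_lipS hG hE (le_add_of_nonneg_right (Nat.cast_nonneg n)) hψ hu)
      (hu.abs_le hH isWt_zero (hl n) hψ.1.1 (c := 1)
        (ae_of_all _ fun x => abs_le.2 ⟨by linarith [(p3 x).1], (p3 x).2⟩))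
    exact ⟨g, hu.congr EventuallyEq.rfl g3, g1⟩
  choose u hu hu' using key
  have hc : L2Conv m u ψ := res_L2Conv hH isWt_zero hl
    (tendsto_atTop_add_const_left _ _ tendsto_natCast_atTop_atTop) (fun _ => hψ.1.1) hψ.1.1 hu
    (L2Conv.const ψ)
  obtain ⟨n, hn⟩ := (unif_of_L2Conv
    (K := (2 * ((1 : ℝ≥0)⁻¹ : ℝ≥0) : ℝ).toNNReal + (1 : ℝ≥0)⁻¹)
    (fun n => (hu' n).weaken le_self_add) (p1.weaken le_add_self) (fun n => (hu n).1.1) hψ.1.1 hc o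
    (R + 4) (η := 1 / 3) (by norm_num)).exists
  have hlap := (hu n).lap hψ.1.1
  obtain ⟨Lw, w1, w2⟩ := Cutoff_lap_comp hH hlap (hu' n) (sob_const_mul (sob_sub (hu n).1 hψ.1) _)
    (bochner_weak hG hE hlap (sl_of_lipschitz (hu' n)).2).1 d0 d1 d2 (fun z => (hK z).2)
    (l0 0 (by norm_num)).1 (l0 0 (by norm_num)).2.1
  have hθ : ∀ x, |θ x| ≤ 1 := fun x => abs_le.2 ⟨by linarith [(t3 x).1], (t3 x).2⟩
  obtain ⟨c1, c2⟩ := Cutoff_lap_cut hH w1 w2 t1 hθ fun x => by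
    rcases le_total (dist x o) (R + 2) with a | a
    · exact Or.inr (Or.inl (t4 x a))
    rcases le_total (dist x o) (R + 4) with b | b
    · have h1 := (abs_le.1 (hn x b)).2
      rw [p5 x (by push_cast; linarith)] at h1
      exact Or.inr (Or.inr (l0 _ (by linarith)).1)
    · exact Or.inl (t5 x (by push_cast; linarith))
  refine ⟨fun x => θ x * Φ (u n x), isTestFn_of_lap (B := 1 * K) (fun x => ?_)
    (Cutoff_lip_mul (A := 1) t1 ((Cutoff_lip d0 fun z => (hK z).2.1).comp (hu' n)) hθ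
      fun x => (hK (u n x)).1) c1 c2, t2.mul_right, fun x hx => ?_⟩
  · rw [abs_mul]
    exact mul_le_mul (hθ x) (hK _).1 (abs_nonneg _) zero_le_one
  · have h1 := (abs_le.1 (hn x (by linarith))).1
    rw [p4 x hx] at h1
    show θ x * Φ (u n x) = 1
    rw [t4 x (by linarith), r0 _ (by linarith), mul_one]

end Crest.Agent.R242
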