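import Mathlib
import Crest.Prelude.Def_SyntheticRicci

/-!
Row 242 (weak Hessian bounds along geodesics of RCD spaces): definitions.

Overview of the proof (no heat semigroup is used, only resolvents).
* A: optimal transport; `CD` gives optimal geodesic plans of bounded compression (Rajala) that
  also satisfy the entropy inequality at the times `2^{-k}`.
* B: calculus of minimal weak upper gradients and of the pairing `Γ`.
* C: the resolvent `IsRes m V lam f u` of the Dirichlet form with weight `e^V`.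
* D: first-order differentiation along plans, `W₂`-contraction of one resolvent step, gradient
  estimate.
* E: Bochner inequality, regularisation, test functions, extension of the Hessian bound.
* F: gradient estimate for the weight `V = F/ε`, Kuwada's argument with the Hopf-Lax formula.
* G: concavity of `F` along plans, midpoint inequality along every geodesic.
-/

set_option autoImplicit false

open MeasureTheory Filter Set Topology
open scoped ENNReal NNReal
open Crest.GeometryTopology.SyntheticRicci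

namespace Crest.Agent.R242

section Curves

variable {X : Type*} [MetricSpace X]

theorem toMap_injective : Function.Injective (UCurve.toMap : UCurve X → C(unitInterval, X)) := by
  rintro ⟨a⟩ ⟨b⟩ h
  cases h
  rfl

theorem isEmbedding_toMap : IsEmbedding (UCurve.toMap : UCurve X → C(unitInterval, X)) :=
  ⟨⟨rfl⟩, toMap_injective⟩

/-- The sup metric on curves; its topology is the given one. -/
noncomputable instance instMetricSpaceUCurve : MetricSpace (UCurve X) :=
  isEmbedding_toMap.comapMetricSpace _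

theorem isometry_toMap : Isometry (UCurve.toMap : UCurve X → C(unitInterval, X)) :=
  fun _ _ => rfl

theorem surjective_toMap : Function.Surjective (UCurve.toMap : UCurve X → C(unitInterval, X)) :=
  fun f => ⟨⟨f⟩, rfl⟩

instance instCompleteSpaceUCurve [CompleteSpace X] : CompleteSpace (UCurve X) :=
  (completeSpace_congr (e := Equiv.ofBijective _ ⟨toMap_injective, surjective_toMap⟩)
    isometry_toMap.isUniformEmbedding).2 inferInstance

instance instSecondCountableUCurve [SecondCountableTopology X] :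
    SecondCountableTopology (UCurve X) :=
  isEmbedding_toMap.secondCountableTopology

/-- The piece of `γ` between the times `a` and `b`, reparametrised linearly on `[0,1]`
(`a = 1`, `b = 0` is time reversal). -/
noncomputable def restr (a b : ℝ) (γ : UCurve X) : UCurve X :=
  ⟨⟨fun t => γ.ext (a + (b - a) * (t : ℝ)),
    γ.toMap.continuous.comp (continuous_projIcc.comp (by fun_prop))⟩⟩

/-- Distance between the end points. -/
noncomputable def len (γ : UCurve X) : ℝ := dist (γ.toMap 0) (γ.toMap 1)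

/-- The cost `d²/2`. -/
noncomputable def cst (x y : X) : ℝ := dist x y ^ 2 / 2

/-- Ascending slope. -/
noncomputable def ascSlope (u : X → ℝ) (x : X) : ℝ≥0∞ :=
  Filter.limsup (fun y => ENNReal.ofReal ((u y - u x) / dist y x)) (𝓝[≠] x)

/-- Lipschitz on every bounded set. -/
def LipBdd (u : X → ℝ) : Prop :=
  ∀ (o : X) (R : ℝ), ∃ L : ℝ≥0, LipschitzOnWith L u (Metric.closedBall o R)

/-- `φ` is an infimum of functions `cst · y + const` with `y` in a closed ball. -/
def IsCConc (φ : X → ℝ) (o : X) (R : ℝ) : Prop :=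
  ∀ (x : X) (η : ℝ), 0 < η → ∃ y ∈ Metric.closedBall o R, ∀ x' : X,
    φ x' - φ x ≤ cst x' y - cst x y + η

/-- Hopf-Lax formula; time `0` is the identity. -/
noncomputable def hopfLax (ψ : X → ℝ) (s : ℝ) (x : X) : ℝ :=
  if s ≤ 0 then ψ x else ⨅ y : X, (ψ y + cst x y / s)

end Curves

section Transport

variable {X : Type*} [MetricSpace X] [MeasurableSpace X]

/-- The law at the real time `t` (clamped). -/
noncomputable def marg (P : Measure (UCurve X)) (t : ℝ) : Measure X :=
  Measure.map (fun γ : UCurve X => γ.ext t) P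

/-- Probability measure with density at most `M`, carried by a closed ball. -/
def Bdd (m μ : Measure X) (M : ℝ≥0) (o : X) (R : ℝ) : Prop :=
  IsProbabilityMeasure μ ∧ μ ≤ (M : ℝ≥0∞) • m ∧ μ (Metric.closedBall o R)ᶜ = 0

/-- Optimal geodesic plan. -/
def IsOptPlan (P : Measure (UCurve X)) (μ₀ μ₁ : Measure X) : Prop :=
  IsProbabilityMeasure P ∧ (∀ᵐ γ ∂P, IsCSGeodesic γ) ∧ IsOptCouplingOf (endpointLaw P) μ₀ μ₁

/-- Geodesic plan with compression at most `C` whose curves stay in a closed ball. -/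
def IsGP (m : Measure X) (P : Measure (UCurve X)) (C : ℝ≥0) (o : X) (R : ℝ) : Prop :=
  IsProbabilityMeasure P ∧ (∀ᵐ γ ∂P, IsCSGeodesic γ) ∧
    (∀ᵐ γ ∂P, ∀ t : unitInterval, γ.toMap t ∈ Metric.closedBall o R) ∧
    ∀ t : ℝ, marg P t ≤ (C : ℝ≥0∞) • m

/-- Every optimal coupling moves mass by at most `D`. -/
def LenLe (μ₀ μ₁ : Measure X) (D : ℝ) : Prop :=
  ∀ q : Measure (X × X), IsOptCouplingOf q μ₀ μ₁ → ∀ᵐ p ∂q, dist p.1 p.2 ≤ D

/-- Squared Wasserstein distance (meaningful for finite second moments). -/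
noncomputable def Wsq (μ ν : Measure X) : ℝ :=
  (⨅ (q : Measure (X × X)) (_ : IsCouplingOf q μ ν), quadCost q).toReal

/-- Relative entropy (meaningful when the logarithm of the density is integrable). -/
noncomputable def Ent (m μ : Measure X) : ℝ := ∫ x, Real.log (μ.rnDeriv m x).toReal ∂μ

/-- The measure with density `ρ`. -/
noncomputable def dm (m : Measure X) (ρ : X → ℝ) : Measure X :=
  m.withDensity fun x => ENNReal.ofReal (ρ x)

/-- Kantorovich potential for the coupling `q`. -/
def IsPot (φ : X → ℝ) (q : Measure (X × X)) : Prop :=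
  ∀ᵐ p ∂q, ∀ x' : X, φ x' - φ p.1 ≤ cst x' p.2 - cst p.1 p.2

/-- Probability measure with finite second moment. -/
def IsP2 (μ : Measure X) : Prop := IsProbabilityMeasure μ ∧ HasFiniteSecondMoment μ

/-- Bounded probability density with finite second moment and integrable square root. -/
structure NiceD (m : Measure X) (ρ : X → ℝ) : Prop where
  meas : Measurable ρ
  nonneg : ∀ x, 0 ≤ ρ x
  bdd : ∃ C : ℝ, ∀ x, ρ x ≤ C
  mass : ∫ x, ρ x ∂m = 1
  mom : ∀ o : X, Integrable (fun x => (1 + dist x o ^ 2) * ρ x) m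
  sqrt : Integrable (fun x => √(ρ x)) m

/-- `z log z` continued linearly beyond `C`. -/
noncomputable def UC (C z : ℝ) : ℝ :=
  if z ≤ C then z * Real.log z else C * Real.log C + (Real.log C + 1) * (z - C)

/-- The entropy functional with linear growth beyond the density `C`. -/
noncomputable def Ufun (m : Measure X) (C : ℝ) (ν : Measure X) : ℝ :=
  ∫ x, UC C (ν.rnDeriv m x).toReal ∂m + (Real.log C + 1) * (ν.singularPart m).real Set.univ

/-- The consequences of `RCD(K,N)` that the proof uses. -/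
structure Good (m : Measure X) (κ : ℝ) : Prop where
  nonneg : 0 ≤ κ
  hilb : IsInfHilbertian m
  opt : ∀ μ ν : Measure X, IsP2 μ → IsP2 ν → μ ≪ m → ν ≪ m → ∃ q, IsOptCouplingOf q μ ν
  mid : ∀ (μ₀ μ₁ : Measure X) (M : ℝ≥0) (o : X) (R : ℝ), Bdd m μ₀ M o R → Bdd m μ₁ M o R →
    ∃ P : Measure (UCurve X), IsOptPlan P μ₀ μ₁ ∧
      (∀ D : ℝ, (∀ᵐ γ ∂P, len γ ≤ D) → ENNReal.ofReal (Real.exp (-(κ * D ^ 2))) ≤
        (M : ℝ≥0∞) * m {x | (marg P (1 / 2)).rnDeriv m x ≠ 0}) ∧
      marg P (1 / 2) ≪ m ∧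
      Integrable (fun x => Real.log ((marg P (1 / 2)).rnDeriv m x).toReal) (marg P (1 / 2)) ∧
      Ent m (marg P (1 / 2)) ≤ Ent m μ₀ / 2 + Ent m μ₁ / 2 + κ * Wsq μ₀ μ₁
  growth : ∃ a : ℝ, 0 < a ∧ ∀ o : X, Integrable (fun x => Real.exp (-(a * dist x o))) m

end Transport

section Calculus

variable {X : Type*} [MetricSpace X] [MeasurableSpace X]

/-- Sobolev function whose minimal weak upper gradient is at most `L`. -/
def LipS (m : Measure X) (f : X → ℝ) (L : ℝ) : Prop :=
  IsSobolev m f ∧ ∀ᵐ x ∂m, minWeakGrad m f x ≤ L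

/-- `u = lam (lam - L_V)⁻¹ f` for the Dirichlet form `∫ e^V Γ(u,v)` on `L²(e^V m)`. -/
def IsRes (m : Measure X) (V : X → ℝ) (lam : ℝ) (f u : X → ℝ) : Prop :=
  IsSobolev m u ∧ ∀ v : X → ℝ, IsSobolev m v →
    ∫ x, Real.exp (V x) * gradPairing m u v x ∂m =
      lam * ∫ x, Real.exp (V x) * ((f x - u x) * v x) ∂m

/-- Admissible weight. -/
def IsWt (V : X → ℝ) : Prop := Measurable V ∧ ∃ B : ℝ, ∀ x, |V x| ≤ B

/-- Convergence in `L²(m)`. -/
def L2Conv (m : Measure X) (u : ℕ → X → ℝ) (f : X → ℝ) : Prop :=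
  Tendsto (fun n => ∫ x, (u n x - f x) ^ 2 ∂m) atTop (𝓝 0)

/-- Convergence in `W^{1,2}`. -/
def W12Conv (m : Measure X) (u : ℕ → X → ℝ) (f : X → ℝ) : Prop :=
  L2Conv m u f ∧
    Tendsto (fun n => ∫ x, minWeakGrad m (fun y => u n y - f y) x ^ 2 ∂m) atTop (𝓝 0)

/-- `ρ'` is the resolvent of the density `ρ`, with the decay needed to test the equation against
functions of quadratic growth. -/
structure ResPair (m : Measure X) (lam : ℝ) (ρ ρ' : X → ℝ) : Prop where
  nice : NiceD m ρ
  nice' : NiceD m ρ'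
  sob : IsSobolevLoc m ρ'
  int : ∀ o : X, Integrable (fun x => (1 + dist x o) * minWeakGrad m ρ' x) m
  eq : ∀ (φ : X → ℝ) (o : X) (A : ℝ), LipBdd φ → (∀ x, |φ x| ≤ A * (1 + dist x o ^ 2)) →
    (∀ᵐ x ∂m, minWeakGrad m φ x ≤ A * (1 + dist x o)) →
    ∫ x, gradPairing m φ ρ' x ∂m = lam * ∫ x, (ρ x - ρ' x) * φ x ∂m

/-- The gradient estimate for one step of the unweighted resolvent. -/
def GradEst (m : Measure X) (κ lam₀ : ℝ) : Prop :=
  32 * κ + 1 ≤ lam₀ ∧ ∀ lam : ℝ, lam₀ ≤ lam → ∀ (f u w : X → ℝ) (L : ℝ), LipS m f L →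
    IsRes m 0 lam f u → IsRes m 0 lam (gradPairing m f f) w →
    ∀ᵐ x ∂m, gradPairing m u u x ≤ lam / (lam - 16 * κ) * w x

end Calculus

/-- Generates the equation lemmas once, in this file (kernel checker collisions). -/
theorem anchor : True := by
  have := @restr.eq_1.{0}
  have := @restr.eq_def.{0}
  have := @restr.eq_unfold.{0}
  have := @restr.congr_simp.{0}
  have := @len.eq_1.{0}
  have := @len.eq_def.{0}
  have := @len.eq_unfold.{0}
  have := @len.congr_simp.{0}
  have := @cst.eq_1.{0}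
  have := @cst.eq_def.{0}
  have := @cst.eq_unfold.{0}
  have := @cst.congr_simp.{0}
  have := @ascSlope.eq_1.{0}
  have := @ascSlope.eq_def.{0}
  have := @ascSlope.eq_unfold.{0}
  have := @ascSlope.congr_simp.{0}
  have := @LipBdd.eq_1.{0}
  have := @LipBdd.eq_def.{0}
  have := @LipBdd.eq_unfold.{0}
  have := @LipBdd.congr_simp.{0}
  have := @IsCConc.eq_1.{0}
  have := @IsCConc.eq_def.{0}
  have := @IsCConc.eq_unfold.{0}
  have := @IsCConc.congr_simp.{0}
  have := @hopfLax.eq_1.{0}
  have := @hopfLax.eq_def.{0}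
  have := @hopfLax.eq_unfold.{0}
  have := @hopfLax.congr_simp.{0}
  have := @marg.eq_1.{0}
  have := @marg.eq_def.{0}
  have := @marg.eq_unfold.{0}
  have := @marg.congr_simp.{0}
  have := @Bdd.eq_1.{0}
  have := @Bdd.eq_def.{0}
  have := @Bdd.eq_unfold.{0}
  have := @Bdd.congr_simp.{0}
  have := @IsOptPlan.eq_1.{0}
  have := @IsOptPlan.eq_def.{0}
  have := @IsOptPlan.eq_unfold.{0}
  have := @IsOptPlan.congr_simp.{0}
  have := @IsGP.eq_1.{0}
  have := @IsGP.eq_def.{0}
  have := @IsGP.eq_unfold.{0}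
  have := @IsGP.congr_simp.{0}
  have := @LenLe.eq_1.{0}
  have := @LenLe.eq_def.{0}
  have := @LenLe.eq_unfold.{0}
  have := @LenLe.congr_simp.{0}
  have := @Wsq.eq_1.{0}
  have := @Wsq.eq_def.{0}
  have := @Wsq.eq_unfold.{0}
  have := @Wsq.congr_simp.{0}
  have := @Ent.eq_1.{0}
  have := @Ent.eq_def.{0}
  have := @Ent.eq_unfold.{0}
  have := @Ent.congr_simp.{0}
  have := @dm.eq_1.{0}
  have := @dm.eq_def.{0}
  have := @dm.eq_unfold.{0}
  have := @dm.congr_simp.{0}
  have := @IsPot.eq_1.{0}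
  have := @IsPot.eq_def.{0}
  have := @IsPot.eq_unfold.{0}
  have := @IsPot.congr_simp.{0}
  have := @IsP2.eq_1.{0}
  have := @IsP2.eq_def.{0}
  have := @IsP2.eq_unfold.{0}
  have := @IsP2.congr_simp.{0}
  have := @UC.eq_1
  have := @UC.eq_def
  have := @UC.eq_unfold
  have := @UC.congr_simp
  have := @Ufun.eq_1.{0}
  have := @Ufun.eq_def.{0}
  have := @Ufun.eq_unfold.{0}
  have := @Ufun.congr_simp.{0}
  have := @LipS.eq_1.{0}
  have := @LipS.eq_def.{0}
  have := @LipS.eq_unfold.{0}
  have := @LipS.congr_simp.{0}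
  have := @IsRes.eq_1.{0}
  have := @IsRes.eq_def.{0}
  have := @IsRes.eq_unfold.{0}
  have := @IsRes.congr_simp.{0}
  have := @IsWt.eq_1.{0}
  have := @IsWt.eq_def.{0}
  have := @IsWt.eq_unfold.{0}
  have := @IsWt.congr_simp.{0}
  have := @L2Conv.eq_1.{0}
  have := @L2Conv.eq_def.{0}
  have := @L2Conv.eq_unfold.{0}
  have := @L2Conv.congr_simp.{0}
  have := @W12Conv.eq_1.{0}
  have := @W12Conv.eq_def.{0}
  have := @W12Conv.eq_unfold.{0}
  have := @W12Conv.congr_simp.{0}
  have := @GradEst.eq_1.{0}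
  have := @GradEst.eq_def.{0}
  have := @GradEst.eq_unfold.{0}
  have := @GradEst.congr_simp.{0}
  have := @UCurve.ext.eq_1.{0}
  have := @UCurve.ext.eq_def.{0}
  have := @UCurve.ext.eq_unfold.{0}
  have := @UCurve.ext.congr_simp.{0}
  have := @IsCSGeodesic.eq_1.{0}
  have := @IsCSGeodesic.eq_def.{0}
  have := @IsCSGeodesic.eq_unfold.{0}
  have := @IsCSGeodesic.congr_simp.{0}
  have := @upperSpeed.eq_1.{0}
  have := @upperSpeed.eq_def.{0}
  have := @upperSpeed.eq_unfold.{0}
  have := @upperSpeed.congr_simp.{0}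
  have := @HasL2Speed.eq_1.{0}
  have := @HasL2Speed.eq_def.{0}
  have := @HasL2Speed.eq_unfold.{0}
  have := @HasL2Speed.congr_simp.{0}
  have := @timeMarginal.eq_1.{0}
  have := @timeMarginal.eq_def.{0}
  have := @timeMarginal.eq_unfold.{0}
  have := @timeMarginal.congr_simp.{0}
  have := @IsTestPlan2.eq_1.{0}
  have := @IsTestPlan2.eq_def.{0}
  have := @IsTestPlan2.eq_unfold.{0}
  have := @IsTestPlan2.congr_simp.{0}
  have := @HasBoundedTracks.eq_1.{0}
  have := @HasBoundedTracks.eq_def.{0}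
  have := @HasBoundedTracks.eq_unfold.{0}
  have := @HasBoundedTracks.congr_simp.{0}
  have := @IsL2OnBalls.eq_1.{0}
  have := @IsL2OnBalls.eq_def.{0}
  have := @IsL2OnBalls.eq_unfold.{0}
  have := @IsL2OnBalls.congr_simp.{0}
  have := @IsWUGLoc.eq_1.{0}
  have := @IsWUGLoc.eq_def.{0}
  have := @IsWUGLoc.eq_unfold.{0}
  have := @IsWUGLoc.congr_simp.{0}
  have := @IsMinWUGLoc.eq_1.{0}
  have := @IsMinWUGLoc.eq_def.{0}
  have := @IsMinWUGLoc.eq_unfold.{0}
  have := @IsMinWUGLoc.congr_simp.{0}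
  have := @minWeakGrad.eq_1.{0}
  have := @minWeakGrad.eq_def.{0}
  have := @minWeakGrad.eq_unfold.{0}
  have := @minWeakGrad.congr_simp.{0}
  have := @IsSobolevLoc.eq_1.{0}
  have := @IsSobolevLoc.eq_def.{0}
  have := @IsSobolevLoc.eq_unfold.{0}
  have := @IsSobolevLoc.congr_simp.{0}
  have := @IsSobolev.eq_1.{0}
  have := @IsSobolev.eq_def.{0}
  have := @IsSobolev.eq_unfold.{0}
  have := @IsSobolev.congr_simp.{0}
  have := @gradPairing.eq_1.{0}
  have := @gradPairing.eq_def.{0}
  have := @gradPairing.eq_unfold.{0}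
  have := @gradPairing.congr_simp.{0}
  have := @IsWeakLaplacian.eq_1.{0}
  have := @IsWeakLaplacian.eq_def.{0}
  have := @IsWeakLaplacian.eq_unfold.{0}
  have := @IsWeakLaplacian.congr_simp.{0}
  have := @weakLaplacian.eq_1.{0}
  have := @weakLaplacian.eq_def.{0}
  have := @weakLaplacian.eq_unfold.{0}
  have := @weakLaplacian.congr_simp.{0}
  have := @IsTestFn.eq_1.{0}
  have := @IsTestFn.eq_def.{0}
  have := @IsTestFn.eq_unfold.{0}
  have := @IsTestFn.congr_simp.{0}
  have := @weakHess.eq_1.{0}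
  have := @weakHess.eq_def.{0}
  have := @weakHess.eq_unfold.{0}
  have := @weakHess.congr_simp.{0}
  have := @HasWeakHessLe.eq_1.{0}
  have := @HasWeakHessLe.eq_def.{0}
  have := @HasWeakHessLe.eq_unfold.{0}
  have := @HasWeakHessLe.congr_simp.{0}
  have := @IsInfHilbertian.eq_1.{0}
  have := @IsInfHilbertian.eq_def.{0}
  have := @IsInfHilbertian.eq_unfold.{0}
  have := @IsInfHilbertian.congr_simp.{0}
  have := @HasFiniteSecondMoment.eq_1.{0}
  have := @HasFiniteSecondMoment.eq_def.{0}
  have := @HasFiniteSecondMoment.eq_unfold.{0}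
  have := @HasFiniteSecondMoment.congr_simp.{0}
  have := @IsCouplingOf.eq_1.{0}
  have := @IsCouplingOf.eq_def.{0}
  have := @IsCouplingOf.eq_unfold.{0}
  have := @IsCouplingOf.congr_simp.{0}
  have := @quadCost.eq_1.{0}
  have := @quadCost.eq_def.{0}
  have := @quadCost.eq_unfold.{0}
  have := @quadCost.congr_simp.{0}
  have := @IsOptCouplingOf.eq_1.{0}
  have := @IsOptCouplingOf.eq_def.{0}
  have := @IsOptCouplingOf.eq_unfold.{0}
  have := @IsOptCouplingOf.congr_simp.{0}
  have := @endpointLaw.eq_1.{0}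
  have := @endpointLaw.eq_def.{0}
  have := @endpointLaw.eq_unfold.{0}
  have := @endpointLaw.congr_simp.{0}
  have := @renyiPower.eq_1.{0}
  have := @renyiPower.eq_def.{0}
  have := @renyiPower.eq_unfold.{0}
  have := @renyiPower.congr_simp.{0}
  have := @IsCD.eq_1.{0}
  have := @IsCD.eq_def.{0}
  have := @IsCD.eq_unfold.{0}
  have := @IsCD.congr_simp.{0}
  have := @IsRCD.eq_1.{0}
  have := @IsRCD.eq_def.{0}
  have := @IsRCD.eq_unfold.{0}
  have := @IsRCD.congr_simp.{0}
  have := @IsFiniteOnBalls.eq_1.{0}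
  have := @IsFiniteOnBalls.eq_def.{0}
  have := @IsFiniteOnBalls.eq_unfold.{0}
  have := @IsFiniteOnBalls.congr_simp.{0}
  have := @SecondDerivAlongLe.eq_1.{0}
  have := @SecondDerivAlongLe.eq_def.{0}
  have := @SecondDerivAlongLe.eq_unfold.{0}
  have := @SecondDerivAlongLe.congr_simp.{0}
  have := @distortSigma.eq_1
  have := @distortSigma.eq_def
  have := @distortSigma.eq_unfold
  have := @distortSigma.congr_simp
  have := @distortTau.eq_1
  have := @distortTau.eq_def
  have := @distortTau.eq_unfold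
  have := @distortTau.congr_simp
  trivial

end Crest.Agent.R242
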