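import Crest.Agent.R242.RegLip

/-! Row 242: density of Lipschitz functions. -/

set_option autoImplicit false
set_option linter.unusedSectionVars false

open MeasureTheory Filter Set Topology
open scoped ENNReal NNReal
open Crest.GeometryTopology.SyntheticRicci

namespace Crest.Agent.R242

variable {X : Type*} [MetricSpace X] [ProperSpace X] [MeasurableSpace X] [BorelSpace X]
  {m : Measure X} [IsLocallyFiniteMeasure m] [m.IsOpenPosMeasure]

/-- squared `W^{1,2}` distance -/
noncomputable def DensLip_E (m : Measure X) (a b : X → ℝ) : ℝ :=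
  ∫ x, (a x - b x) ^ 2 ∂m + ∫ x, minWeakGrad m (fun y => a y - b y) x ^ 2 ∂m

theorem DensLip_sq {u v w : X → ℝ} (hu : MemLp u 2 m) (hv : MemLp v 2 m) (hw : MemLp w 2 m)
    (h : ∀ᵐ x ∂m, |u x| ≤ |v x| + |w x|) :
    ∫ x, u x ^ 2 ∂m ≤ 2 * ∫ x, v x ^ 2 ∂m + 2 * ∫ x, w x ^ 2 ∂m := by
  rw [← integral_const_mul, ← integral_const_mul,
    ← integral_add (hv.integrable_sq.const_mul 2) (hw.integrable_sq.const_mul 2)]
  refine integral_mono_ae hu.integrable_sq
    ((hv.integrable_sq.const_mul 2).add (hw.integrable_sq.const_mul 2)) ?_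
  filter_upwards [h] with x hx
  have := pow_le_pow_left₀ (abs_nonneg _) hx 2
  nlinarith [sq_abs (u x), sq_abs (v x), sq_abs (w x), sq_nonneg (|v x| - |w x|)]

theorem DensLip_tri {a b c : X → ℝ} (ha : IsSobolev m a) (hb : IsSobolev m b)
    (hc : IsSobolev m c) : DensLip_E m a c ≤ 2 * DensLip_E m a b + 2 * DensLip_E m b c := by
  have hab := sob_sub ha hb
  have hbc := sob_sub hb hc
  have hac := sob_sub ha hc
  have h1 := DensLip_sq hac.1 hab.1 hbc.1 (Eventually.of_forall fun x => abs_sub_le _ _ _)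
  have h2 := DensLip_sq hac.2.2 hab.2.2 hbc.2.2 (by
    have := (sl_add hab.2.1 hbc.2.1).2
    simp only [sub_add_sub_cancel] at this
    filter_upwards [this, sl_D_nonneg hac.2.1] with x hx h0
    rw [abs_of_nonneg h0]
    exact hx.trans (add_le_add (le_abs_self _) (le_abs_self _)))
  simp only [DensLip_E]
  linarith

theorem DensLip_pick {u : ℕ → X → ℝ} {f : X → ℝ} (h : W12Conv m u f) {η : ℝ} (hη : 0 < η) :
    ∃ n, DensLip_E m (u n) f ≤ η := by
  have := Tendsto.add h.1 h.2
  rw [add_zero] at this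
  exact (this.eventually (ge_mem_nhds hη)).exists

theorem DensLip_clamp {h : X → ℝ} (hh : IsSobolev m h) (h0 : ∀ᵐ x ∂m, 0 ≤ h x) :
    W12Conv m (fun n y => max 0 (min (n : ℝ) (h y))) h := by
  have hc := fun n : ℕ => sob_clamp hh (a := 0) (b := n) le_rfl (Nat.cast_nonneg n)
  have hs := fun n => sob_sub (hc n).1 hh
  have he : ∀ x, 0 ≤ h x → ∀ᶠ n : ℕ in atTop, max 0 (min (n : ℝ) (h x)) - h x = 0 := fun x hx => by
    filter_upwards [tendsto_natCast_atTop_atTop.eventually_ge_atTop (h x)] with n hn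
    rw [min_eq_right hn, max_eq_right hx, sub_self]
  constructor
  · have := tendsto_integral_of_dominated_convergence (μ := m)
      (F := fun (n : ℕ) x => (max 0 (min (n : ℝ) (h x)) - h x) ^ 2) (f := fun _ => (0 : ℝ))
      (fun x => h x ^ 2) (fun n => (hs n).1.integrable_sq.aestronglyMeasurable)
      hh.1.integrable_sq (fun n => ?_) ?_
    · simpa only [integral_zero, L2Conv] using this
    · filter_upwards [h0] with x hx
      rw [Real.norm_eq_abs, abs_of_nonneg (sq_nonneg _)]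
      have h1 : max 0 (min (n : ℝ) (h x)) ≤ h x := max_le hx (min_le_right _ _)
      exact sq_le_sq' (by linarith [le_max_left 0 (min (n : ℝ) (h x))]) (by linarith)
    · filter_upwards [h0] with x hx
      refine tendsto_const_nhds.congr' ?_
      filter_upwards [he x hx] with n hn
      rw [hn, zero_pow two_ne_zero]
  · have := tendsto_integral_of_dominated_convergence (μ := m)
      (F := fun (n : ℕ) x => minWeakGrad m (fun y => max 0 (min (n : ℝ) (h y)) - h y) x ^ 2)
      (f := fun _ => (0 : ℝ)) (fun x => 4 * minWeakGrad m h x ^ 2)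
      (fun n => (hs n).2.2.integrable_sq.aestronglyMeasurable)
      (hh.2.2.integrable_sq.const_mul 4) (fun n => ?_) ?_
    · simpa only [integral_zero] using this
    · filter_upwards [(sl_sub (hc n).1.2.1 hh.2.1).2, (hc n).2, sl_D_nonneg (hs n).2.1]
        with x h1 h2 h3
      rw [Real.norm_eq_abs, abs_of_nonneg (sq_nonneg _)]
      nlinarith
    · filter_upwards [h0, ae_all_iff.2 fun n =>
        D_eq_zero_on_countable (hs n).2.1 (countable_singleton 0)] with x hx h1
      refine tendsto_const_nhds.congr' ?_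
      filter_upwards [he x hx] with n hn
      rw [h1 n hn, zero_pow two_ne_zero]

theorem DensLip_eps {κ lam₀ : ℝ} (hG : Good m κ) (hE : GradEst m κ lam₀) {h : X → ℝ}
    (hh : IsSobolev m h) (h0 : ∀ᵐ x ∂m, 0 ≤ h x) {η : ℝ} (hη : 0 < η) :
    ∃ g : X → ℝ, ((∃ K : ℝ≥0, LipschitzWith K g) ∧ HasCompactSupport g ∧ ∀ x, 0 ≤ g x) ∧
      DensLip_E m g h ≤ η := by
  have hη' : 0 < η / 10 := by positivity
  obtain ⟨N, hN⟩ := DensLip_pick (DensLip_clamp hh h0) hη'
  have hc := (sob_clamp hh (a := 0) (b := N) le_rfl (Nat.cast_nonneg N)).1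
  have hl : ∀ n : ℕ, lam₀ ≤ lam₀ + n := fun n => le_add_of_nonneg_right (Nat.cast_nonneg n)
  have hl0 : ∀ n : ℕ, 0 < lam₀ + n := fun n => by linarith [hl n, hE.1, hG.nonneg]
  choose u hu using fun n : ℕ => exists_res hG.hilb isWt_zero (hl0 n) hc.1
  obtain ⟨k, hk⟩ := DensLip_pick (res_W12Conv hG.hilb isWt_zero hl0
    (tendsto_atTop_add_const_left _ _ tendsto_natCast_atTop_atTop) hc hu) hη'
  have hL := reg_lip hG hE (hl k) hc.1 (B := N) (Eventually.of_forall fun x => by
    rw [abs_of_nonneg (le_max_left _ _)]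
    exact max_le (Nat.cast_nonneg N) (min_le_left _ _)) (hu k)
  have hp := (hu k).nonneg hG.hilb isWt_zero (hl0 k) hc.1
    (Eventually.of_forall fun x => le_max_left _ _)
  obtain ⟨g, hg, hg'⟩ := densLipS hG hL
  obtain ⟨j, hj⟩ := DensLip_pick hg' hη'
  refine ⟨g j, ⟨(hg j).1, (hg j).2.1, (hg j).2.2.2 hp⟩, ?_⟩
  have t1 := DensLip_tri (hg j).2.2.1.1 hL.1 hh
  have t2 := DensLip_tri hL.1 hc hh
  linarith

theorem densLip {κ lam₀ : ℝ} (hG : Good m κ) (hE : GradEst m κ lam₀) {h : X → ℝ}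
    (hh : IsSobolev m h) (h0 : ∀ᵐ x ∂m, 0 ≤ h x) :
    ∃ g : ℕ → X → ℝ, (∀ n, (∃ K : ℝ≥0, LipschitzWith K (g n)) ∧ HasCompactSupport (g n) ∧
      ∀ x, 0 ≤ g n x) ∧ W12Conv m g h := by
  choose g hg hg' using fun n : ℕ => DensLip_eps hG hE hh h0 (Nat.one_div_pos_of_nat (n := n))
  have n1 : ∀ n, 0 ≤ ∫ x, (g n x - h x) ^ 2 ∂m := fun n => integral_nonneg fun x => sq_nonneg _
  have n2 : ∀ n, 0 ≤ ∫ x, minWeakGrad m (fun y => g n y - h y) x ^ 2 ∂m := fun n =>
    integral_nonneg fun x => sq_nonneg _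
  exact ⟨g, hg, squeeze_zero n1 (fun n => (le_add_of_nonneg_right (n2 n)).trans (hg' n))
    tendsto_one_div_add_atTop_nhds_zero_nat, squeeze_zero n2
    (fun n => (le_add_of_nonneg_left (n1 n)).trans (hg' n)) tendsto_one_div_add_atTop_nhds_zero_nat⟩

end Crest.Agent.R242
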