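import Crest.Agent.R242.OTBasic

/-! Row 242: consequences of the existence of a potential. -/

set_option autoImplicit false
set_option linter.unusedSectionVars false

open MeasureTheory Filter Set Topology
open scoped ENNReal NNReal
open Crest.GeometryTopology.SyntheticRicci

namespace Crest.Agent.R242

variable {X : Type*} [MetricSpace X] [ProperSpace X] [MeasurableSpace X] [BorelSpace X]
  {m : Measure X} [IsLocallyFiniteMeasure m] [m.IsOpenPosMeasure]

theorem Duality.int_fst {q : Measure (X × X)} {μ ν : Measure X} (hq : IsCouplingOf q μ ν)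
    {f : X → ℝ} (hf : Integrable f μ) :
    Integrable (fun p : X × X => f p.1) q ∧ ∫ p, f p.1 ∂q = ∫ x, f x ∂μ := by
  have h1 : Measure.map Prod.fst q = μ := hq.1
  subst h1
  exact ⟨(integrable_map_measure hf.aestronglyMeasurable measurable_fst.aemeasurable).1 hf,
    (integral_map measurable_fst.aemeasurable hf.aestronglyMeasurable).symm⟩

theorem Duality.int_snd {q : Measure (X × X)} {μ ν : Measure X} (hq : IsCouplingOf q μ ν)
    {f : X → ℝ} (hf : Integrable f ν) :
    Integrable (fun p : X × X => f p.2) q ∧ ∫ p, f p.2 ∂q = ∫ x, f x ∂ν := by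
  have h1 : Measure.map Prod.snd q = ν := hq.2
  subst h1
  exact ⟨(integrable_map_measure hf.aestronglyMeasurable measurable_snd.aemeasurable).1 hf,
    (integral_map measurable_snd.aemeasurable hf.aestronglyMeasurable).symm⟩

theorem Duality.int_cst {q : Measure (X × X)} {μ ν : Measure X} (hμ : IsP2 μ) (hν : IsP2 ν)
    (hq : IsCouplingOf q μ ν) : Integrable (fun p : X × X => cst p.1 p.2) q ∧
      ∫ p, cst p.1 p.2 ∂q = (∫ p, dist p.1 p.2 ^ 2 ∂q) / 2 :=
  ⟨(integrable_sq_of_coupling hμ hν hq).div_const 2, integral_div 2 _⟩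

/-- The `c`-transform of a potential. -/
theorem Duality.ctrans {q : Measure (X × X)} {μ ν : Measure X} (hμ : IsP2 μ) (hν : IsP2 ν)
    (hq : IsCouplingOf q μ ν) {φ : X → ℝ} (hφ : Continuous φ) (hp : IsPot φ q)
    (hi : Integrable φ μ) : ∃ χ : X → ℝ, Integrable χ ν ∧
      (∀ᵐ y ∂ν, ∀ x', φ x' + χ y ≤ cst x' y) ∧
      ∫ y, χ y ∂ν = (∫ p, dist p.1 p.2 ^ 2 ∂q) / 2 - ∫ x, φ x ∂μ := by
  have := hμ.1
  have : Nonempty X := nonempty_of_isProbabilityMeasure μ
  let x : ℕ → X := TopologicalSpace.denseSeq X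
  have hx : DenseRange x := TopologicalSpace.denseRange_denseSeq X
  let g : ℕ → X → ℝ := fun n y => cst (x n) y - φ (x n)
  have hg : ∀ n, Measurable (g n) := fun n => by
    have : Continuous (g n) := by
      show Continuous fun y => dist (x n) y ^ 2 / 2 - φ (x n)
      fun_prop
    exact this.measurable
  let χ : X → ℝ := fun y => ⨅ n, g n y
  have hχ : Measurable χ := Measurable.iInf hg
  have hB : MeasurableSet {y | BddBelow (range fun n => g n y)} := measurableSet_bddBelow_range hg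
  have hle : ∀ y, BddBelow (range fun n => g n y) → ∀ x', φ x' + χ y ≤ cst x' y := by
    intro y hy x'
    refine hx.induction_on (p := fun x' => φ x' + χ y ≤ cst x' y) x' ?_ fun n => ?_
    · refine isClosed_le (by fun_prop) ?_
      show Continuous fun x' => dist x' y ^ 2 / 2
      fun_prop
    · have : χ y ≤ cst (x n) y - φ (x n) := ciInf_le hy n
      linarith
  have hpB : ∀ᵐ p ∂q, BddBelow (range fun n => g n p.2) ∧ χ p.2 = cst p.1 p.2 - φ p.1 := by
    filter_upwards [hp] with p hp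
    have h1 : ∀ n, cst p.1 p.2 - φ p.1 ≤ g n p.2 := fun n => by
      have := hp (x n)
      show _ ≤ cst (x n) p.2 - φ (x n)
      linarith
    have hb : BddBelow (range fun n => g n p.2) := ⟨_, by rintro _ ⟨n, rfl⟩; exact h1 n⟩
    refine ⟨hb, le_antisymm ?_ (le_ciInf h1)⟩
    have := hle p.2 hb p.1
    linarith
  have hν' : Measure.map Prod.snd q = ν := hq.2
  have hI : Integrable (fun p : X × X => cst p.1 p.2 - φ p.1) q :=
    (Duality.int_cst hμ hν hq).1.sub (Duality.int_fst hq hi).1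
  have hae : (fun p : X × X => cst p.1 p.2 - φ p.1) =ᵐ[q] fun p => χ p.2 :=
    hpB.mono fun p hp => hp.2.symm
  have hχI : Integrable χ ν := by
    rw [← hν']
    exact (integrable_map_measure hχ.aestronglyMeasurable measurable_snd.aemeasurable).2
      (hI.congr hae)
  refine ⟨χ, hχI, ?_, ?_⟩
  · have : ∀ᵐ y ∂ν, BddBelow (range fun n => g n y) := by
      rw [← hν']
      exact (ae_map_iff measurable_snd.aemeasurable hB).2 (hpB.mono fun p hp => hp.1)
    exact this.mono hle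
  · rw [← (Duality.int_snd hq hχI).2, ← integral_congr_ae hae,
      integral_sub (Duality.int_cst hμ hν hq).1 (Duality.int_fst hq hi).1,
      (Duality.int_cst hμ hν hq).2, (Duality.int_fst hq hi).2]

theorem Duality.ae_snd {q : Measure (X × X)} {μ ν : Measure X} (hq : IsCouplingOf q μ ν)
    {P : X → Prop} (h : ∀ᵐ y ∂ν, P y) : ∀ᵐ p ∂q, P p.2 := by
  have h1 : Measure.map Prod.snd q = ν := hq.2
  subst h1
  exact ae_of_ae_map measurable_snd.aemeasurable h

/-- Weak duality. -/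
theorem pot_lower {q q' : Measure (X × X)} {μ μ' ν : Measure X} (hμ : IsP2 μ) (hμ' : IsP2 μ')
    (hν : IsP2 ν) (hq : IsCouplingOf q μ ν) (hq' : IsCouplingOf q' μ' ν) {φ : X → ℝ}
    (hφ : Continuous φ) (hp : IsPot φ q) (hi : Integrable φ μ) (hi' : Integrable φ μ') :
    (∫ p, dist p.1 p.2 ^ 2 ∂q) / 2 + ∫ x, φ x ∂μ' - ∫ x, φ x ∂μ ≤
      (∫ p, dist p.1 p.2 ^ 2 ∂q') / 2 := by
  obtain ⟨χ, h1, h2, h3⟩ := Duality.ctrans hμ hν hq hφ hp hi
  have h4 : ∫ p, (φ p.1 + χ p.2) ∂q' ≤ ∫ p, cst p.1 p.2 ∂q' :=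
    integral_mono_ae ((Duality.int_fst hq' hi').1.add (Duality.int_snd hq' h1).1)
      (Duality.int_cst hμ' hν hq').1 ((Duality.ae_snd hq' h2).mono fun p hp => hp p.1)
  rw [integral_add (Duality.int_fst hq' hi').1 (Duality.int_snd hq' h1).1,
    (Duality.int_fst hq' hi').2, (Duality.int_snd hq' h1).2, (Duality.int_cst hμ' hν hq').2] at h4
  linarith

theorem pot_lower_Wsq {q : Measure (X × X)} {μ μ' ν : Measure X} (hμ : IsP2 μ) (hμ' : IsP2 μ')
    (hν : IsP2 ν) (hq : IsCouplingOf q μ ν) {φ : X → ℝ}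
    (hφ : Continuous φ) (hp : IsPot φ q) (hi : Integrable φ μ) (hi' : Integrable φ μ') :
    Wsq μ ν / 2 + ∫ x, φ x ∂μ' - ∫ x, φ x ∂μ ≤ Wsq μ' ν / 2 := by
  refine le_of_forall_pos_le_add fun η hη => ?_
  obtain ⟨q', hq', h⟩ := exists_coupling_lt hμ' hν hη
  have h1 := pot_lower hμ hμ' hν hq hq' hφ hp hi hi'
  have h2 := Wsq_le_of_coupling hμ hν hq
  linarith

theorem isOpt_of_pot {q : Measure (X × X)} {μ ν : Measure X} (hμ : IsP2 μ) (hν : IsP2 ν)
    (hq : IsCouplingOf q μ ν) {φ : X → ℝ} (hφ : Continuous φ) (hp : IsPot φ q)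
    (hi : Integrable φ μ) : IsOptCouplingOf q μ ν := by
  refine isOpt_of_le hμ hν hq (le_of_forall_pos_le_add fun η hη => ?_)
  obtain ⟨q', hq', h⟩ := exists_coupling_lt hμ hν hη
  have h1 := pot_lower hμ hμ hν hq hq' hφ hp hi hi
  linarith

/-- A potential for one coupling is a potential for every optimal coupling. -/
theorem pot_transfer {q q' : Measure (X × X)} {μ ν : Measure X} (hμ : IsP2 μ) (hν : IsP2 ν)
    (hq : IsCouplingOf q μ ν) (hq' : IsOptCouplingOf q' μ ν) {φ : X → ℝ} (hφ : Continuous φ)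
    (hp : IsPot φ q) (hi : Integrable φ μ) : IsPot φ q' := by
  obtain ⟨χ, h1, h2, h3⟩ := Duality.ctrans hμ hν hq hφ hp hi
  have hc := Duality.int_cst hμ hν hq'.1
  have hf := Duality.int_fst hq'.1 hi
  have hs := Duality.int_snd hq'.1 h1
  have hae := Duality.ae_snd hq'.1 h2
  have hI : Integrable (fun p : X × X => cst p.1 p.2 - (φ p.1 + χ p.2)) q' :=
    hc.1.sub (hf.1.add hs.1)
  have h0 : 0 ≤ᵐ[q'] fun p : X × X => cst p.1 p.2 - (φ p.1 + χ p.2) :=
    hae.mono fun p hp => sub_nonneg.2 (hp p.1)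
  have h4 : ∫ p, (cst p.1 p.2 - (φ p.1 + χ p.2)) ∂q' = 0 := by
    refine le_antisymm ?_ (integral_nonneg_of_ae h0)
    have hJ : Integrable (fun p : X × X => φ p.1 + χ p.2) q' := hf.1.add hs.1
    rw [integral_sub hc.1 hJ, integral_add hf.1 hs.1, hc.2, hf.2, hs.2, h3,
      ← Wsq_eq_of_opt hμ hν hq']
    have := Wsq_le_of_coupling hμ hν hq
    linarith
  have h5 := (integral_eq_zero_iff_of_nonneg_ae h0 hI).1 h4
  filter_upwards [hae, h5] with p hp1 hp2 x'
  have h6 := hp1 x'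
  have h7 : cst p.1 p.2 - (φ p.1 + χ p.2) = 0 := hp2
  linarith

/-- An admissible pair attaining the optimal value gives a potential. -/
theorem isPot_of_dual {q : Measure (X × X)} {μ ν : Measure X} (hμ : IsP2 μ) (hν : IsP2 ν)
    (hq : IsOptCouplingOf q μ ν) {ψ χ : X → ℝ} (hψ : Integrable ψ μ) (hχ : Integrable χ ν)
    (hle : ∀ x y, χ y - ψ x ≤ cst x y) (h : Wsq μ ν / 2 ≤ ∫ y, χ y ∂ν - ∫ x, ψ x ∂μ) :
    ∀ᵐ p ∂q, χ p.2 - ψ p.1 = cst p.1 p.2 := by
  have hc := Duality.int_cst hμ hν hq.1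
  have hf := Duality.int_fst hq.1 hψ
  have hs := Duality.int_snd hq.1 hχ
  have hI : Integrable (fun p : X × X => cst p.1 p.2 - (χ p.2 - ψ p.1)) q :=
    hc.1.sub (hs.1.sub hf.1)
  have h0 : 0 ≤ᵐ[q] fun p : X × X => cst p.1 p.2 - (χ p.2 - ψ p.1) :=
    Eventually.of_forall fun p => sub_nonneg.2 (hle p.1 p.2)
  have h4 : ∫ p, (cst p.1 p.2 - (χ p.2 - ψ p.1)) ∂q = 0 := by
    refine le_antisymm ?_ (integral_nonneg_of_ae h0)
    have hJ : Integrable (fun p : X × X => χ p.2 - ψ p.1) q := hs.1.sub hf.1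
    rw [integral_sub hc.1 hJ, integral_sub hs.1 hf.1, hc.2, hf.2, hs.2,
      ← Wsq_eq_of_opt hμ hν hq]
    linarith
  have h5 := (integral_eq_zero_iff_of_nonneg_ae h0 hI).1 h4
  filter_upwards [h5] with p hp2
  have h7 : cst p.1 p.2 - (χ p.2 - ψ p.1) = 0 := hp2
  linarith

end Crest.Agent.R242
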