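import Crest.Agent.R242.OTBasic

/-! Row 242: existence of Kantorovich potentials. -/

set_option autoImplicit false
set_option linter.unusedSectionVars false

open MeasureTheory Filter Set Topology
open scoped ENNReal NNReal
open Crest.GeometryTopology.SyntheticRicci

namespace Crest.Agent.R242

variable {X : Type*} [MetricSpace X] [ProperSpace X] [MeasurableSpace X] [BorelSpace X]
  {m : Measure X} [IsLocallyFiniteMeasure m] [m.IsOpenPosMeasure]

/-- Exchange of mass between the pieces `Q i` of an optimal coupling. -/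
theorem Pot_swap {q : Measure (X × X)} {μ ν : Measure X} [IsFiniteMeasure q]
    (hq : IsOptCouplingOf q μ ν) (hfin : quadCost q ≠ ⊤) {ι : Type} [Fintype ι] (σ : Equiv.Perm ι)
    (Q : ι → Measure (X × X)) [∀ i, IsProbabilityMeasure (Q i)] {α : ℝ≥0∞} (h0 : α ≠ 0)
    (h1 : α ≠ ⊤) (hle : α • ∑ i, Q i ≤ q) :
    ∑ i, quadCost (Q i) ≤ ∑ i, ∫⁻ z, edist z.1.1 z.2.2 ^ 2 ∂((Q (σ i)).prod (Q i)) := by
  have := isFiniteMeasure_of_le q hle
  have hr := Measure.sub_add_cancel_of_le hle
  obtain ⟨r, hr⟩ : ∃ r : Measure (X × X), r + α • ∑ i, Q i = q := ⟨_, hr⟩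
  have hg : Measurable fun z : (X × X) × (X × X) => (z.1.1, z.2.2) := by fun_prop
  let Q' : ι → Measure (X × X) := fun i => ((Q (σ i)).prod (Q i)).map fun z => (z.1.1, z.2.2)
  have e1 : ∀ i, (Q' i).map Prod.fst = (Q (σ i)).map Prod.fst := fun i => by
    conv_rhs => rw [← Measure.fst_prod (μ := Q (σ i)) (ν := Q i), Measure.fst]
    rw [Measure.map_map measurable_fst hg, Measure.map_map measurable_fst measurable_fst]
    rfl
  have e2 : ∀ i, (Q' i).map Prod.snd = (Q i).map Prod.snd := fun i => by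
    conv_rhs => rw [← Measure.snd_prod (μ := Q (σ i)) (ν := Q i), Measure.snd]
    rw [Measure.map_map measurable_snd hg, Measure.map_map measurable_snd measurable_snd]
    rfl
  have hc : IsCouplingOf (r + α • ∑ i, Q' i) μ ν := by
    constructor
    · rw [← hq.1.1, ← hr, Measure.map_add _ _ measurable_fst, Measure.map_add _ _ measurable_fst,
        Measure.map_smul, Measure.map_smul, Measure.map_finset_sum' measurable_fst.aemeasurable,
        Measure.map_finset_sum' measurable_fst.aemeasurable]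
      simp only [e1]
      rw [Equiv.sum_comp σ fun i => (Q i).map Prod.fst]
    · rw [← hq.1.2, ← hr, Measure.map_add _ _ measurable_snd, Measure.map_add _ _ measurable_snd,
        Measure.map_smul, Measure.map_smul, Measure.map_finset_sum' measurable_snd.aemeasurable,
        Measure.map_finset_sum' measurable_snd.aemeasurable]
      simp only [e2]
  have h := hq.2 _ hc
  rw [← hr] at h hfin
  simp only [quadCost, lintegral_add_measure, lintegral_smul_measure, lintegral_finsetSum_measure,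
    smul_eq_mul] at h hfin ⊢
  rw [ENNReal.add_le_add_iff_left (ENNReal.add_ne_top.1 hfin).1,
    ENNReal.mul_le_mul_iff_right h0 h1] at h
  refine h.trans_eq (Finset.sum_congr rfl fun i _ => ?_)
  exact lintegral_map (by fun_prop) hg

/-- Cyclical monotonicity of the support. -/
theorem Pot_cyc {q : Measure (X × X)} {μ ν : Measure X} [IsFiniteMeasure q]
    (hq : IsOptCouplingOf q μ ν) (hfin : quadCost q ≠ ⊤) {ι : Type} [Fintype ι] [Nonempty ι]
    (σ : Equiv.Perm ι) (p : ι → X × X) (hp : ∀ i, p i ∈ q.support) :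
    ∑ i, dist (p i).1 (p i).2 ^ 2 ≤ ∑ i, dist (p (σ i)).1 (p i).2 ^ 2 := by
  refine le_of_forall_pos_le_add fun ε hε => ?_
  have hN : (0 : ℝ) < Fintype.card ι := by exact_mod_cast Fintype.card_pos
  obtain ⟨η, hη, hη'⟩ : ∃ η : ℝ, 0 < η ∧ Fintype.card ι * η = ε / 2 :=
    ⟨ε / 2 / Fintype.card ι, by positivity, by field_simp⟩
  have h1 : ∀ i, ∃ U V : Set (X × X), IsOpen U ∧ p (σ i) ∈ U ∧ IsOpen V ∧ p i ∈ V ∧
      U ×ˢ V ⊆ {z | dist z.1.1 z.2.2 ^ 2 < dist (p (σ i)).1 (p i).2 ^ 2 + η} := fun i =>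
    mem_nhds_prod_iff'.1 ((isOpen_lt (by fun_prop) continuous_const).mem_nhds (by simpa using hη))
  choose U V hU hpU hV hpV hUV using h1
  let B : ι → Set (X × X) := fun i =>
    {z | dist (p i).1 (p i).2 ^ 2 - η < dist z.1 z.2 ^ 2} ∩ (V i ∩ U (σ.symm i))
  have hB : ∀ i, IsOpen (B i) := fun i =>
    (isOpen_lt continuous_const (by fun_prop)).inter ((hV i).inter (hU _))
  have hpB : ∀ i, p i ∈ B i := fun i =>
    ⟨by simpa using hη, hpV i, by simpa using hpU (σ.symm i)⟩
  have hq0 : ∀ i, q (B i) ≠ 0 := fun i =>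
    ((Measure.mem_support_iff_forall _).1 (hp i) _ ((hB i).mem_nhds (hpB i))).ne'
  obtain ⟨i₀, hi₀⟩ := Finite.exists_min fun i => q (B i)
  have := fun i => ProbabilityTheory.cond_isProbabilityMeasure (μ := q) (hq0 i)
  have hN0 : (Fintype.card ι : ℝ≥0∞) ≠ 0 := by exact_mod_cast Fintype.card_ne_zero
  have key := Pot_swap hq hfin σ (fun i => ProbabilityTheory.cond q (B i))
    (α := (Fintype.card ι : ℝ≥0∞)⁻¹ * q (B i₀))
    (mul_ne_zero (ENNReal.inv_ne_zero.2 (ENNReal.natCast_ne_top _)) (hq0 i₀))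
    (ENNReal.mul_ne_top (ENNReal.inv_ne_top.2 hN0) (measure_ne_top _ _))
    (Measure.le_iff.2 fun s hs => by
      rw [Measure.smul_apply, Measure.finsetSum_apply, smul_eq_mul, mul_assoc, Finset.mul_sum]
      have e : ∀ i, q (B i₀) * ProbabilityTheory.cond q (B i) s ≤ q s := fun i => by
        rw [ProbabilityTheory.cond_apply (hB i).measurableSet]
        calc _ ≤ q (B i) * ((q (B i))⁻¹ * q s) :=
              mul_le_mul' (hi₀ i) (mul_le_mul_right (measure_mono inter_subset_right) _)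
          _ = _ := by
              rw [← mul_assoc, ENNReal.mul_inv_cancel (hq0 i) (measure_ne_top _ _), one_mul]
      calc _ ≤ (Fintype.card ι : ℝ≥0∞)⁻¹ * ∑ _i : ι, q s :=
            mul_le_mul_right (Finset.sum_le_sum fun i _ => e i) _
        _ = _ := by
            rw [Finset.sum_const, Finset.card_univ, nsmul_eq_mul, ← mul_assoc,
              ENNReal.inv_mul_cancel hN0 (ENNReal.natCast_ne_top _), one_mul])
  have hed : ∀ x y : X, edist x y ^ 2 = ENNReal.ofReal (dist x y ^ 2) := fun x y => by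
    rw [edist_dist, ENNReal.ofReal_pow dist_nonneg]
  have hae := fun i => ProbabilityTheory.ae_cond_mem (μ := q) (hB i).measurableSet
  have l1 : ∀ i, ENNReal.ofReal (dist (p i).1 (p i).2 ^ 2 - η) ≤
      quadCost (ProbabilityTheory.cond q (B i)) := fun i => by
    refine le_trans (by simp) (lintegral_mono_ae
      (f := fun _ => ENNReal.ofReal (dist (p i).1 (p i).2 ^ 2 - η)) ?_)
    filter_upwards [hae i] with z hz
    rw [hed]
    exact ENNReal.ofReal_le_ofReal hz.1.le
  have l2 : ∀ i, ∫⁻ z, edist z.1.1 z.2.2 ^ 2 ∂((ProbabilityTheory.cond q (B (σ i))).prod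
      (ProbabilityTheory.cond q (B i))) ≤
      ENNReal.ofReal (dist (p (σ i)).1 (p i).2 ^ 2 + η) := fun i => by
    refine (lintegral_mono_ae
      (g := fun _ => ENNReal.ofReal (dist (p (σ i)).1 (p i).2 ^ 2 + η)) ?_).trans (by simp)
    filter_upwards [Measure.quasiMeasurePreserving_fst.ae (hae (σ i)),
      Measure.quasiMeasurePreserving_snd.ae (hae i)] with z hz hz'
    rw [hed]
    exact ENNReal.ofReal_le_ofReal
      (le_of_lt (hUV i (mk_mem_prod (by simpa using hz.2.2) hz'.2.1)))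
  have l3 := ((Finset.le_sum_of_subadditive ENNReal.ofReal ENNReal.ofReal_zero.le
    (fun _ _ => ENNReal.ofReal_add_le) _ _).trans (Finset.sum_le_sum fun i _ => l1 i)).trans
    (key.trans (Finset.sum_le_sum fun i _ => l2 i))
  rw [← ENNReal.ofReal_sum_of_nonneg fun i _ => by positivity,
    ENNReal.ofReal_le_ofReal_iff (by positivity), Finset.sum_sub_distrib, Finset.sum_add_distrib,
    Finset.sum_const, Finset.card_univ, nsmul_eq_mul, hη'] at l3
  linarith

/-- Rockafellar's chains. -/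
def Pot_Ch (S : Set (X × X)) (p₀ : X × X) (y : X) (c : ℝ) : Prop :=
  ∃ (n : ℕ) (p : ℕ → X × X), p 0 = p₀ ∧ (∀ i ≤ n, p i ∈ S) ∧ (p n).2 = y ∧
    c = ∑ i ∈ Finset.range n, cst (p (i + 1)).1 (p i).2 -
      ∑ i ∈ Finset.range (n + 1), cst (p i).1 (p i).2

theorem Pot_Ch.step {S : Set (X × X)} {p₀ : X × X} {y : X} {c : ℝ} (h : Pot_Ch S p₀ y c)
    {z : X × X} (hz : z ∈ S) : Pot_Ch S p₀ z.2 (c + cst z.1 y - cst z.1 z.2) := by
  obtain ⟨n, p, h0, hS, rfl, rfl⟩ := h
  have e : ∀ i, i ≤ n → Function.update p (n + 1) z i = p i := fun i hi =>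
    Function.update_of_ne (by omega) _ _
  refine ⟨n + 1, Function.update p (n + 1) z, (e 0 n.zero_le).trans h0, fun i hi => ?_, by simp, ?_⟩
  · rcases hi.eq_or_lt with rfl | hi
    · simpa using hz
    · rw [e i (by omega)]
      exact hS i (by omega)
  · have e1 : ∑ i ∈ Finset.range n, cst (Function.update p (n + 1) z (i + 1)).1
        (Function.update p (n + 1) z i).2 = ∑ i ∈ Finset.range n, cst (p (i + 1)).1 (p i).2 :=
      Finset.sum_congr rfl fun i hi => by
        rw [e i (Finset.mem_range.1 hi).le, e (i + 1) (Finset.mem_range.1 hi)]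
    have e2 : ∑ i ∈ Finset.range (n + 1), cst (Function.update p (n + 1) z i).1
        (Function.update p (n + 1) z i).2 = ∑ i ∈ Finset.range (n + 1), cst (p i).1 (p i).2 :=
      Finset.sum_congr rfl fun i hi => by rw [e i (Nat.lt_succ_iff.1 (Finset.mem_range.1 hi))]
    rw [Finset.sum_range_succ _ (n + 1), e2, Finset.sum_range_succ
      (fun i => cst (Function.update p (n + 1) z (i + 1)).1 (Function.update p (n + 1) z i).2), e1,
      Function.update_self, e n le_rfl]
    ring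

theorem Pot_Ch.nonneg {q : Measure (X × X)} {μ ν : Measure X} [IsFiniteMeasure q]
    (hq : IsOptCouplingOf q μ ν) (hfin : quadCost q ≠ ⊤) {S : Set (X × X)} (hS : S ⊆ q.support)
    {p₀ : X × X} {y : X} {c : ℝ} (h : Pot_Ch S p₀ y c) : 0 ≤ cst p₀.1 y + c := by
  obtain ⟨n, p, rfl, hp, rfl, rfl⟩ := h
  have key := Pot_cyc hq hfin (finRotate (n + 1)) (fun i => p i)
    fun i => hS (hp i (Nat.lt_succ_iff.1 i.2))
  rw [Fin.sum_univ_castSucc fun i : Fin (n + 1) => dist (p (finRotate (n + 1) i)).1 (p i).2 ^ 2,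
    finRotate_last] at key
  simp only [coe_finRotate_of_ne_last (Fin.castSucc_lt_last _).ne, Fin.val_castSucc, Fin.val_zero,
    Fin.val_last] at key
  rw [Fin.sum_univ_eq_sum_range (fun i => dist (p i).1 (p i).2 ^ 2),
    Fin.sum_univ_eq_sum_range (fun i => dist (p (i + 1)).1 (p i).2 ^ 2)] at key
  simp only [cst, ← Finset.sum_div]
  linarith

theorem exists_pot {q : Measure (X × X)} {μ ν : Measure X} (hμ : IsP2 μ)
    [IsProbabilityMeasure ν] {o : X} {R : ℝ} (hν : ν (Metric.closedBall o R)ᶜ = 0)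
    (hq : IsOptCouplingOf q μ ν) : ∃ φ : X → ℝ, IsCConc φ o R ∧ IsPot φ q := by
  have := hμ.1
  have := IsCouplingOf.isProb hq.1
  have hνb : ∀ᵐ y ∂ν, y ∈ Metric.closedBall o R := hν
  have hν2 : IsP2 ν := by
    refine ⟨inferInstance, o, (lintegral_mono_ae (g := fun _ => ENNReal.ofReal R ^ 2) ?_).trans_lt
      (by simp)⟩
    filter_upwards [hνb] with y hy
    rw [edist_dist]
    gcongr
    exact hy
  have hfin : quadCost q ≠ ⊤ := by
    rw [quadCost_eq (integrable_sq_of_coupling hμ hν2 hq.1)]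
    exact ENNReal.ofReal_ne_top
  let S : Set (X × X) := {z | z ∈ q.support ∧ z.2 ∈ Metric.closedBall o R}
  have hS : ∀ᵐ z ∂q, z ∈ S := by
    rw [← hq.1.2] at hνb
    filter_upwards [q.support_mem_ae, ae_of_ae_map measurable_snd.aemeasurable hνb] with z h1 h2
    exact ⟨h1, h2⟩
  obtain ⟨p₀, hp₀⟩ := hS.exists
  let T : X → Set ℝ := fun x => {t | ∃ y c, Pot_Ch S p₀ y c ∧ t = cst x y + c}
  have hb : ∀ {y c}, Pot_Ch S p₀ y c → y ∈ Metric.closedBall o R := by
    rintro y c ⟨n, p, -, hp, rfl, -⟩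
    exact (hp n le_rfl).2
  have hne : ∀ x, (T x).Nonempty := fun x =>
    ⟨_, p₀.2, _, ⟨0, fun _ => p₀, rfl, fun _ _ => hp₀, rfl, rfl⟩, rfl⟩
  have hbd : ∀ x, BddBelow (T x) := fun x => ⟨-((dist p₀.1 o + R) ^ 2 / 2), by
    rintro _ ⟨y, c, h, rfl⟩
    have e1 := h.nonneg hq hfin fun z hz => hz.1
    have e2 : dist p₀.1 y ≤ dist p₀.1 o + R :=
      (dist_triangle_right _ _ o).trans (add_le_add_right (hb h) _)
    have e3 := pow_le_pow_left₀ dist_nonneg e2 2
    simp only [cst] at e1 ⊢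
    linarith [sq_nonneg (dist x y)]⟩
  refine ⟨fun x => sInf (T x), fun x η hη => ?_, ?_⟩
  · obtain ⟨_, ⟨y, c, h, rfl⟩, ht⟩ := Real.lt_sInf_add_pos (hne x) hη
    refine ⟨y, hb h, fun x' => ?_⟩
    have := csInf_le (hbd x') ⟨y, c, h, rfl⟩
    linarith
  · filter_upwards [hS] with z hz x'
    have : sInf (T x') - (cst x' z.2 - cst z.1 z.2) ≤ sInf (T z.1) := by
      refine le_csInf (hne _) ?_
      rintro _ ⟨y, c, h, rfl⟩
      have := csInf_le (hbd x') ⟨_, _, h.step hz, rfl⟩
      linarith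
    linarith

end Crest.Agent.R242
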