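import Crest.Agent.R242.EntDeriv
import Crest.Agent.R242.Potential

/-! Row 242: the evolution variational inequality for one resolvent step. -/

set_option autoImplicit false
set_option linter.unusedSectionVars false

open MeasureTheory Filter Set Topology
open scoped ENNReal NNReal
open Crest.GeometryTopology.SyntheticRicci

namespace Crest.Agent.R242

variable {X : Type*} [MetricSpace X] [ProperSpace X] [MeasurableSpace X] [BorelSpace X]
  {m : Measure X} [IsLocallyFiniteMeasure m] [m.IsOpenPosMeasure]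

theorem exists_theta {κ : ℝ} (hG : Good m κ) (o : X) : ∃ θ : X → ℝ, NiceD m θ ∧
    IsSobolevLoc m θ ∧ Integrable (fun x => (1 + dist x o) * minWeakGrad m θ x) m ∧
    ∀ r : ℝ, ∃ δ : ℝ, 0 < δ ∧ ∀ x, dist x o ≤ r → δ ≤ θ x := by
  obtain ⟨a, ha, hi⟩ := hG.growth
  have hi := hi o
  have : Nonempty X := ⟨o⟩
  have hd : ∀ x, 0 ≤ dist x o := fun _ => dist_nonneg
  have hb : ∀ {g : X → ℝ} (C : ℝ), Continuous g → (∀ x, 0 ≤ g x) →
      (∀ x, g x ≤ C * Real.exp (-(a * dist x o))) → Integrable g m := fun C h1 h2 h3 =>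
    (hi.const_mul C).mono' h1.aestronglyMeasurable
      (.of_forall fun x => (Real.norm_of_nonneg (h2 x)).trans_le (h3 x))
  have h1 : Integrable (fun x => Real.exp (-((2 * a + 1) * dist x o))) m :=
    hb 1 (by fun_prop) (fun x => by positivity) fun x => by
      rw [one_mul]
      exact Real.exp_le_exp.2 (by nlinarith [hd x])
  have hZ := integral_exp_pos h1
  set Z := ∫ x, Real.exp (-((2 * a + 1) * dist x o)) ∂m with hZ'
  set θ : X → ℝ := fun x => Z⁻¹ * Real.exp (-((2 * a + 1) * dist x o)) with hθ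
  have c0 : Continuous θ := by fun_prop
  have p0 : ∀ x, 0 < θ x := fun x => by positivity
  have b0 : ∀ x, θ x ≤ Z⁻¹ := fun x => mul_le_of_le_one_right (by positivity)
    (Real.exp_le_one_iff.2 (by nlinarith [hd x]))
  have hN : NiceD m θ := by
    refine ⟨c0.measurable, fun x => (p0 x).le, ⟨_, b0⟩, ?_, fun o' => hb
      ((5 + 2 * dist o' o ^ 2) * Z⁻¹) (by fun_prop) (fun x => by positivity) fun x => ?_,
      hb (√Z⁻¹) (by fun_prop) (fun x => by positivity) fun x => ?_⟩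
    · rw [hθ, integral_const_mul, inv_mul_cancel₀ hZ.ne']
    · have e1 := Real.quadratic_le_exp_of_nonneg (hd x)
      have e2 := Real.one_le_exp (hd x)
      have e3 : 1 + dist x o' ^ 2 ≤ (5 + 2 * dist o' o ^ 2) * Real.exp (dist x o) := by
        nlinarith [OTBasic_sq x o' o, hd x, sq_nonneg (dist o' o)]
      calc _ ≤ (5 + 2 * dist o' o ^ 2) * Real.exp (dist x o) * θ x :=
            mul_le_mul_of_nonneg_right e3 (p0 x).le
        _ = (5 + 2 * dist o' o ^ 2) * Z⁻¹ *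
            Real.exp (dist x o + -((2 * a + 1) * dist x o)) := by rw [Real.exp_add]; ring
        _ ≤ _ := by
            gcongr
            nlinarith [hd x]
    · rw [Real.sqrt_mul (by positivity), ← Real.exp_half]
      gcongr
      nlinarith [hd x]
  have hk : ∀ x y, θ y - θ x ≤ θ y * ((2 * a + 1) * dist y x) := fun x y => by
    have e1 := Real.add_one_le_exp ((2 * a + 1) * (dist y o - dist x o))
    have e2 : θ x = θ y * Real.exp ((2 * a + 1) * (dist y o - dist x o)) := by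
      rw [hθ, mul_assoc, ← Real.exp_add]
      ring_nf
    have e3 : dist x o - dist y o ≤ dist y x := by linarith [dist_triangle_left x o y]
    rw [e2]
    nlinarith [mul_le_mul_of_nonneg_left e1 (p0 y).le, mul_le_mul_of_nonneg_left e3
      (mul_nonneg (p0 y).le (by positivity : 0 ≤ 2 * a + 1))]
  obtain ⟨hs, hD⟩ := (lipBdd_of_lipschitz (u := θ) (.of_le_add_mul' (Z⁻¹ * (2 * a + 1))
    fun x y => by
      linarith [hk y x, mul_le_mul_of_nonneg_right (b0 x)
        (by positivity : 0 ≤ (2 * a + 1) * dist x y)])).sl (m := m)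
  refine ⟨θ, hN, hs, ((hN.mom o).const_mul (4 * (2 * a + 1))).mono'
    ((by fun_prop : Continuous fun x => 1 + dist x o).aestronglyMeasurable.mul (sl_D_meas hs)) ?_,
    fun r => ⟨Z⁻¹ * Real.exp (-((2 * a + 1) * r)), by positivity, fun x hx => by
      simp only [hθ]
      gcongr⟩⟩
  filter_upwards [hD, sl_D_nonneg hs] with x h2 h3
  have h4 : minWeakGrad m θ x ≤ 2 * θ x * (2 * a + 1) := by
    refine (ENNReal.ofReal_le_ofReal_iff (by have := p0 x; positivity)).1
      (h2.trans (LipSob_ascSlope_le ?_))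
    filter_upwards [c0.continuousAt.eventually_le_const (by linarith [p0 x] : θ x < 2 * θ x)]
      with y hy
    exact (hk x y).trans ((mul_le_mul_of_nonneg_right hy (by positivity)).trans_eq (by ring))
  rw [Real.norm_of_nonneg (by positivity)]
  calc _ ≤ 2 * (1 + dist x o ^ 2) * (2 * θ x * (2 * a + 1)) :=
        mul_le_mul (by nlinarith [sq_nonneg (dist x o - 1)]) h4 h3 (by positivity)
    _ = _ := by ring

theorem EVI_int {φ η : X → ℝ} {o : X} {R : ℝ} (hφ : IsCConc φ o R) (hη : NiceD m η) :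
    Integrable (fun x => η x * φ x) m := by
  obtain ⟨A, hA, -⟩ := hφ.growth (m := m)
  refine ((hη.mom o).const_mul A).mono' (hη.meas.mul
    hφ.lipBdd.continuous.measurable).aestronglyMeasurable (.of_forall fun x => ?_)
  rw [norm_mul, Real.norm_of_nonneg (hη.nonneg x), mul_comm, ← mul_assoc]
  exact mul_le_mul_of_nonneg_right (hA x) (hη.nonneg x)

theorem EVI_gam (hH : IsInfHilbertian m) {φ η : X → ℝ} {o : X} {R : ℝ} (hφ : IsCConc φ o R)
    (hη : IsSobolevLoc m η) (hD : Integrable (fun x => (1 + dist x o) * minWeakGrad m η x) m) :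
    Integrable (gradPairing m φ η) m ∧ ∫ x, gradPairing m φ η x ∂m ≤
      ∫ x, max 1 R * ((1 + dist x o) * minWeakGrad m η x) ∂m := by
  have hs := (hφ.lipBdd.sl (m := m)).1
  have h1 : ∀ᵐ x ∂m, |gradPairing m φ η x| ≤ max 1 R * ((1 + dist x o) * minWeakGrad m η x) := by
    filter_upwards [abs_gamma_le hH hs hη, hφ.D_le, sl_D_nonneg hη] with x h1 h2 h3
    rw [← mul_assoc]
    refine h1.trans (mul_le_mul_of_nonneg_right (h2.trans ?_) h3)
    nlinarith [le_max_left 1 R, le_max_right 1 R, dist_nonneg (x := x) (y := o)]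
  have h2 := (hD.const_mul _).mono' (gamma_meas hs hη) h1
  exact ⟨h2, integral_mono_ae h2 (hD.const_mul _) (h1.mono fun x hx => (le_abs_self _).trans hx)⟩

theorem EVI_step {κ : ℝ} (hG : Good m κ) {lam : ℝ} (hl : 0 < lam) {ρ ρ' σ : X → ℝ}
    (h : ResPair m lam ρ ρ') (hσ : NiceD m σ) {o : X} {R : ℝ}
    (hR : ∀ x, R < dist x o → σ x = 0) {θ : X → ℝ} (hθ : NiceD m θ) (t1 : IsSobolevLoc m θ)
    (t2 : Integrable (fun x => (1 + dist x o) * minWeakGrad m θ x) m)
    (t3 : ∀ r : ℝ, ∃ δ : ℝ, 0 < δ ∧ ∀ x, dist x o ≤ r → δ ≤ θ x) {δ : ℝ} (d0 : 0 < δ)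
    (d1 : δ ≤ 1) :
    Wsq (dm m fun x => δ * θ x + (1 - δ) * ρ' x) (dm m σ) / 2 -
      (Ent m (dm m σ) - Ent m (dm m fun x => δ * θ x + (1 - δ) * ρ' x) +
        4 * κ * Wsq (dm m fun x => δ * θ x + (1 - δ) * ρ' x) (dm m σ) +
        δ * ∫ x, max 1 R * ((1 + dist x o) * minWeakGrad m θ x) ∂m) / lam ≤
      Wsq (dm m fun x => δ * θ x + (1 - δ) * ρ x) (dm m σ) / 2 := by
  have n1 := hθ.mix h.nice d0.le d1
  have n2 := hθ.mix h.nice' d0.le d1
  obtain ⟨q, hq⟩ := hG.opt _ _ n2.isP2 hσ.isP2 (dm_ac _) (dm_ac _)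
  obtain ⟨C, hC⟩ := hσ.bdd
  have := hσ.OTBasic_prob
  obtain ⟨φ, hφ, hp⟩ := exists_pot n2.isP2
    (hσ.bdd_dm (fun x => (hC x).trans (Real.le_coe_toNNReal C)) hR).2.2 hq
  have h1 := pot_lower_Wsq n2.isP2 n1.isP2 hσ.isP2 hq.1 hφ.lipBdd.continuous hp
    ((integrable_dm_iff n2.meas n2.nonneg φ).2 (EVI_int hφ n2))
    ((integrable_dm_iff n1.meas n1.nonneg φ).2 (EVI_int hφ n1))
  obtain ⟨A, hA, hA'⟩ := hφ.growth (m := m)
  have h2 := h.eq φ o A hφ.lipBdd hA hA'
  have h3 : ∫ x, φ x ∂(dm m fun x => δ * θ x + (1 - δ) * ρ x) -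
      ∫ x, φ x ∂(dm m fun x => δ * θ x + (1 - δ) * ρ' x) =
        (1 - δ) * ∫ x, (ρ x - ρ' x) * φ x ∂m := by
    rw [integral_dm n1.meas n1.nonneg, integral_dm n2.meas n2.nonneg,
      ← integral_sub (EVI_int hφ n1) (EVI_int hφ n2), ← integral_const_mul]
    exact integral_congr_ae (.of_forall fun x => by ring)
  obtain ⟨s1, s2⟩ := sl_const_mul t1 δ
  obtain ⟨s3, s4⟩ := sl_const_mul h.sob (1 - δ)
  obtain ⟨s5, s6⟩ := sl_add s1 s3
  have hs := (hφ.lipBdd.sl (m := m)).1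
  have h4 := ent_deriv hG n2 s5 (((t2.const_mul |δ|).add ((h.int o).const_mul |1 - δ|)).mono'
    ((by fun_prop : Continuous fun x => 1 + dist x o).aestronglyMeasurable.mul (sl_D_meas s5)) (by
      filter_upwards [s2, s4, s6, sl_D_nonneg s5] with x e2 e4 e6 e0
      rw [e2, e4] at e6
      rw [Real.norm_of_nonneg (by positivity), Pi.add_apply]
      linarith [mul_le_mul_of_nonneg_left e6 (by positivity : 0 ≤ 1 + dist x o)]))
    (fun r => (t3 r).elim fun c hc => ⟨δ * c, mul_pos d0 hc.1, fun x hx => le_add_of_le_of_nonneg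
      (mul_le_mul_of_nonneg_left (hc.2 x hx) d0.le)
      (mul_nonneg (by linarith) (h.nice'.nonneg x))⟩) hσ hR hφ hq hp
  obtain ⟨g1, g2⟩ := EVI_gam hG.hilb hφ t1 t2
  have h5 : ∫ x, gradPairing m φ (fun x => δ * θ x + (1 - δ) * ρ' x) x ∂m =
      δ * ∫ x, gradPairing m φ θ x ∂m + (1 - δ) * ∫ x, gradPairing m φ ρ' x ∂m := by
    rw [← integral_const_mul, ← integral_const_mul, ← integral_add (g1.const_mul _)
      ((EVI_gam hG.hilb hφ h.sob (h.int o)).1.const_mul _)]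
    refine integral_congr_ae ?_
    filter_upwards [gamma_add_right hG.hilb s1 s3 hs, gamma_const_mul_right hG.hilb t1 hs δ,
      gamma_const_mul_right hG.hilb h.sob hs (1 - δ)] with x e1 e2 e3
    rw [e1, e2, e3]
  rw [h5, h2] at h4
  rw [add_sub_assoc, h3] at h1
  refine le_trans ?_ h1
  rw [sub_eq_add_neg, add_le_add_iff_left, neg_le, le_div_iff₀ hl]
  linarith [mul_le_mul_of_nonneg_left g2 d0.le]

theorem evi_bdd {κ : ℝ} (hG : Good m κ) {lam : ℝ} (hl : 0 < lam) {ρ ρ' σ : X → ℝ}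
    (h : ResPair m lam ρ ρ') (hσ : NiceD m σ) {o : X} {R : ℝ}
    (hR : ∀ x, R < dist x o → σ x = 0) :
    (1 / 2 - 4 * κ / lam) * Wsq (dm m ρ') (dm m σ) - (Ent m (dm m σ) - Ent m (dm m ρ')) / lam ≤
      Wsq (dm m ρ) (dm m σ) / 2 := by
  obtain ⟨θ, hθ, t1, t2, t3⟩ := exists_theta hG o
  have d0 : ∀ n : ℕ, 0 < 1 / ((n : ℝ) + 1) := fun n => by positivity
  have d1 : ∀ n : ℕ, 1 / ((n : ℝ) + 1) ≤ 1 := fun n =>
    div_le_one_of_le₀ (by linarith [n.cast_nonneg (α := ℝ)]) (by positivity)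
  have dl := tendsto_one_div_add_atTop_nhds_zero_nat (𝕜 := ℝ)
  have key : ∀ η : X → ℝ, NiceD m η → Tendsto (fun n : ℕ => Ent m (dm m fun x =>
      1 / ((n : ℝ) + 1) * θ x + (1 - 1 / ((n : ℝ) + 1)) * η x)) atTop (𝓝 (Ent m (dm m η))) ∧
      Tendsto (fun n : ℕ => Wsq (dm m fun x => 1 / ((n : ℝ) + 1) * θ x +
        (1 - 1 / ((n : ℝ) + 1)) * η x) (dm m σ)) atTop (𝓝 (Wsq (dm m η) (dm m σ))) := fun η hη => by
    have hn := fun n => hθ.mix hη (d0 n).le (d1 n)
    obtain ⟨h1, h2⟩ := tendsto_ent hn hη (hθ.mix hη (t := 1 / 2) (by norm_num) (by norm_num))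
      (c := 2) (fun n x => by
        nlinarith [mul_le_of_le_one_left (hθ.nonneg x) (d1 n), mul_nonneg (d0 n).le (hη.nonneg x)])
      (.of_forall fun x => by
        simpa using (dl.mul_const (θ x)).add ((dl.const_sub 1).mul_const (η x)))
    refine ⟨h1, tendsto_Wsq (fun n => (hn n).isP2) (fun _ => hσ.isP2) hη.isP2 hσ.isP2
      (squeeze_zero (fun n => Wsq_nonneg _ _) (fun n => Wsq_dm_le (hn n) hη o) ?_) ?_⟩
    · simpa using (h2 o).const_mul 2
    · simp [Wsq_self hσ.isP2]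
  obtain ⟨k1, k2⟩ := key ρ' h.nice'
  have h1 := le_of_tendsto_of_tendsto' ((k2.div_const 2).sub ((((k1.const_sub _).add
    (k2.const_mul _)).add (dl.mul_const _)).div_const lam)) ((key ρ h.nice).2.div_const 2)
    fun n => EVI_step hG hl h hσ hR hθ t1 t2 t3 (d0 n) (d1 n)
  refine le_of_eq_of_le ?_ h1
  ring

end Crest.Agent.R242
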