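import Crest.Agent.R242.WTriangle
import Crest.Agent.R242.EntBasic
import Crest.Agent.R242.ADyad

/-! Row 242: optimal geodesic plans of bounded compression. -/

set_option autoImplicit false
set_option linter.unusedSectionVars false

open MeasureTheory Filter Set Topology
open scoped ENNReal NNReal
open Crest.GeometryTopology.SyntheticRicci

namespace Crest.Agent.R242

variable {X : Type*} [MetricSpace X] [ProperSpace X] [MeasurableSpace X] [BorelSpace X]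
  {m : Measure X} [IsLocallyFiniteMeasure m] [m.IsOpenPosMeasure]

theorem exists_goodPlan {κ : ℝ} (hG : Good m κ) (R : ℝ) : ∃ c : ℝ≥0, ∀ (o : X) (M : ℝ≥0)
    (μ₀ μ₁ : Measure X), Bdd m μ₀ M o R → Bdd m μ₁ M o R →
    ∃ P : Measure (UCurve X), IsOptPlan P μ₀ μ₁ ∧ IsGP m P (c * M) o (2 * R) ∧
      ∀ k : ℕ, Ent m (marg P ((1 / 2) ^ k)) ≤ (1 - (1 / 2) ^ k) * Ent m μ₀ +
        (1 / 2) ^ k * Ent m μ₁ + 4 * κ * (1 / 2) ^ k * Wsq μ₀ μ₁ := by
  refine ⟨(Real.exp (2 * κ * (2 * R) ^ 2 + 2 * 1)).toNNReal, fun o M μ ν hμ hν => ?_⟩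
  set C : ℝ≥0 := (Real.exp (2 * κ * (2 * R) ^ 2 + 2 * 1)).toNNReal * M with hCdef
  have hC : (M : ℝ) * Real.exp (2 * κ * (2 * R) ^ 2 + 2 * 1) ≤ C := by
    rw [hCdef, NNReal.coe_mul, Real.coe_toNNReal _ (Real.exp_pos _).le, mul_comm]
  have hD : LenLe μ ν (2 * R) := lenLe_of_support hμ.2.2 hν.2.2
  choose P hP hb he using fun j => dyadic_plan hG o j R (2 * R) 1 M C μ ν one_pos hμ hν hD hC
  obtain ⟨Q, φ, hφ, hQ, hw⟩ := exists_optPlan_lim P hμ.pk hν.pk hP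
  haveI := hQ.1
  have htr : ∀ᵐ γ ∂Q, ∀ t : ℝ, dist (γ.ext t) o ≤ 2 * R :=
    (hQ.pk hμ.2.2 hν.2.2).ae.mono fun γ h => h.2
  have hev : ∀ i k : ℕ, k ≤ 2 ^ i →
      ∀ᶠ n in atTop, marg (P (φ n)) ((k : ℝ) / 2 ^ i) ≤ (C : ℝ≥0∞) • m := by
    intro i k hk
    filter_upwards [eventually_ge_atTop i] with n hn
    have hin : i ≤ φ n := hn.trans (hφ.id_le n)
    obtain ⟨l, hl⟩ := Nat.exists_eq_add_of_le hin
    have h := hb (φ n) (k * 2 ^ l) (by rw [hl, pow_add]; exact Nat.mul_le_mul_right _ hk)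
    have e : ((k * 2 ^ l : ℕ) : ℝ) / 2 ^ φ n = (k : ℝ) / 2 ^ i := by
      rw [hl, pow_add]; push_cast; field_simp
    rwa [e] at h
  have hall : ∀ t : ℝ, marg Q t ≤ (C : ℝ≥0∞) • m := by
    refine marg_le_of_dyadic htr fun i k hk => ?_
    haveI : ((C : ℝ≥0∞) • m).OuterRegular := Measure.OuterRegular.smul m ENNReal.coe_ne_top
    exact (hw _).le_of_eventually (fun n => ((hP _).pk_marg hμ.2.2 hν.2.2 _).1)
      (hQ.pk_marg hμ.2.2 hν.2.2 _).1 (hev i k hk)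
  refine ⟨Q, hQ, ⟨hQ.1, hQ.2.1, ?_, hall⟩, fun k => ?_⟩
  · filter_upwards [htr] with γ h t
    simpa [ext_coe] using h t
  · have e : ((1 : ℕ) : ℝ) / 2 ^ k = (1 / 2) ^ k := by simp
    refine ent_lsc (M := C) (o := o) (R := 2 * R) ?_
      ⟨(hQ.pk_marg hμ.2.2 hν.2.2 _).1, hall _, (hQ.pk_marg hμ.2.2 hν.2.2 _).2⟩ (hw _) ?_
    · filter_upwards [hev k 1 Nat.one_le_two_pow] with n hn
      rw [e] at hn
      exact ⟨((hP _).pk_marg hμ.2.2 hν.2.2 _).1, hn, ((hP _).pk_marg hμ.2.2 hν.2.2 _).2⟩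
    · filter_upwards [eventually_ge_atTop k] with n hn
      exact he (φ n) k (hn.trans (hφ.id_le n))

end Crest.Agent.R242
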