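import Crest.Agent.R242.FirstDiff
import Crest.Agent.R242.GoodPlan
import Crest.Agent.R242.Duality

/-! Row 242: derivative of the entropy, bounded supports. -/

set_option autoImplicit false
set_option linter.unusedSectionVars false

open MeasureTheory Filter Set Topology
open scoped ENNReal NNReal
open Crest.GeometryTopology.SyntheticRicci

namespace Crest.Agent.R242

variable {X : Type*} [MetricSpace X] [ProperSpace X] [MeasurableSpace X] [BorelSpace X]
  {m : Measure X} [IsLocallyFiniteMeasure m] [m.IsOpenPosMeasure]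

theorem EntCore_int {u : X → ℝ} (hu : IsL2OnBalls m u) (o : X) (R : ℝ) :
    IntegrableOn u (Metric.closedBall o R) m := by
  have hf : IsFiniteMeasure (m.restrict (Metric.ball o (R + 1))) :=
    isFiniteMeasure_restrict.2 (Metric.isBounded_ball.measure_lt_top).ne
  have h : IntegrableOn u (Metric.ball o (R + 1)) m := (hu o (R + 1)).integrable one_le_two
  exact h.mono_set (Metric.closedBall_subset_ball (lt_add_one R))

/-- The potential does not increase along the geodesics of the plan. -/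
theorem EntCore_sub {P : Measure (UCurve X)} (hg : ∀ᵐ γ ∂P, IsCSGeodesic γ) {φ : X → ℝ}
    (hφ : Continuous φ) (hp : IsPot φ (endpointLaw P)) {a : ℝ} (h0 : ∀ᵐ x ∂(marg P 0), φ x ≤ a)
    {t : ℝ} (ht : t ∈ Icc (0 : ℝ) 1) : ∀ᵐ x ∂(marg P t), φ x ≤ a := by
  have h1 : ∀ᵐ γ ∂P, φ (γ.ext 0) ≤ a := ae_of_ae_map (TestPlan_meas 0).aemeasurable h0
  refine (ae_map_iff (TestPlan_meas t).aemeasurable
    (isClosed_le hφ continuous_const).measurableSet).2 ?_
  filter_upwards [hg, h1, (isPot_endpointLaw_iff hφ P).1 hp] with γ h2 h3 h4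
  have h5 := h4 (γ.ext t)
  have h6 := geo_dist_ext h2 ht ⟨zero_le_one, le_rfl⟩
  rw [ext_one] at h6
  rw [ext_zero] at h3
  have h7 : 0 ≤ len γ := dist_nonneg
  have h8 : |t - 1| ≤ 1 := abs_le.2 ⟨by linarith [ht.1], by linarith [ht.2]⟩
  have h9 : dist (γ.ext t) (γ.toMap 1) ≤ dist (γ.toMap 0) (γ.toMap 1) := by
    rw [h6]
    exact mul_le_of_le_one_left h7 h8
  have h10 := pow_le_pow_left₀ dist_nonneg h9 2
  unfold cst at h5
  linarith

theorem ent_core {κ : ℝ} (hG : Good m κ) {ρ u φ : X → ℝ} {a : ℝ} {μ₁ : Measure X} {M : ℝ≥0}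
    {o : X} {R : ℝ} (hρ : Measurable ρ) (hu : IsSobolevLoc m u) (hφ : LipBdd φ)
    (h1 : ∀ x, φ x ≤ a → ρ x = Real.exp (u x)) (h2 : ∀ x, a < φ x → ρ x = 0)
    (h₀ : Bdd m (dm m ρ) M o R) (h₁ : Bdd m μ₁ M o R) {q : Measure (X × X)}
    (hq : IsCouplingOf q (dm m ρ) μ₁) (hp : IsPot φ q) :
    -∫ x, gradPairing m φ u x ∂(dm m ρ) ≤
      Ent m μ₁ - Ent m (dm m ρ) + 4 * κ * Wsq (dm m ρ) μ₁ := by
  have hρ0 : ∀ x, 0 ≤ ρ x := fun x => by
    rcases le_or_gt (φ x) a with h | h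
    · rw [h1 x h]
      exact (Real.exp_pos _).le
    · rw [h2 x h]
  have hφc := hφ.continuous
  obtain ⟨c, hc⟩ := exists_goodPlan hG R
  obtain ⟨P, hP, hGP, hE⟩ := hc o M _ _ h₀ h₁
  have hi : Integrable φ (dm m ρ) :=
    h₀.integrable (hφc.continuousOn.integrableOn_compact (isCompact_closedBall o R))
  have hp' := pot_transfer h₀.isP2 h₁.isP2 hq hP.2.2 hφc hp hi
  have hm0 := hP.marg_eq.1
  have ha0 : ∀ᵐ x ∂(dm m ρ), φ x ≤ a := by
    refine (ae_withDensity_iff hρ.ennreal_ofReal).2 (Eventually.of_forall fun x hx => ?_)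
    by_contra h
    rw [h2 x (not_le.1 h), ENNReal.ofReal_zero] at hx
    exact hx rfl
  have hprob := h₀.1
  have hρi : Integrable ρ m := by
    simpa using (integrable_dm_iff hρ hρ0 fun _ => (1 : ℝ)).1 (integrable_const 1)
  have hρ1 : ∫ x, ρ x ∂m ≤ 1 := by
    have h := integral_dm (m := m) hρ hρ0 fun _ => (1 : ℝ)
    simp only [integral_const, probReal_univ, smul_eq_mul, mul_one] at h
    exact h.ge
  have hlog : ∀ {μ : Measure X}, (∀ᵐ x ∂μ, φ x ≤ a) → (fun x => Real.log (ρ x)) =ᵐ[μ] u :=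
    fun h => h.mono fun x hx => by simp only [h1 x hx, Real.log_exp]
  have hE0 : Ent m (dm m ρ) = ∫ x, u x ∂(marg P 0) := by
    rw [hm0]
    exact integral_congr_ae ((log_rnDeriv_dm hρ hρ0).trans (hlog ha0))
  have hEt : ∀ t ∈ Icc (0 : ℝ) 1, ∫ x, u x ∂(marg P t) ≤ Ent m (marg P t) := fun t ht => by
    have hat := EntCore_sub hP.2.1 hφc hp' (hm0 ▸ ha0) ht
    have hui : Integrable u (marg P t) := (hGP.bdd t).integrable (EntCore_int hu.1 o _)
    rw [← integral_congr_ae (hlog hat)]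
    refine gibbs (hGP.bdd t) hρi hρ0 hρ1 (hat.mono fun x hx => ?_) (hui.congr (hlog hat).symm)
    rw [h1 x hx]
    exact Real.exp_pos _
  have hd := (first_diff hG.hilb hGP hφ hp' hu).Ioi_of_Ici
  rw [hasDerivWithinAt_iff_tendsto_slope' self_notMem_Ioi, hm0] at hd
  have ht : Tendsto (fun k : ℕ => (1 / 2 : ℝ) ^ k) atTop (𝓝[>] 0) :=
    tendsto_nhdsWithin_iff.2 ⟨tendsto_pow_atTop_nhds_zero_of_lt_one (by norm_num) (by norm_num),
      Eventually.of_forall fun k => show (0 : ℝ) < (1 / 2) ^ k by positivity⟩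
  refine le_of_tendsto' (hd.comp ht) fun k => ?_
  have hk : (0 : ℝ) < (1 / 2) ^ k := by positivity
  have h3 := (hEt _ ⟨hk.le, pow_le_one₀ (by norm_num) (by norm_num)⟩).trans (hE k)
  simp only [Function.comp, slope_def_field, sub_zero]
  rw [div_le_iff₀ hk, ← hE0]
  linarith

end Crest.Agent.R242
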