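import Crest.Agent.R242.Gamma

/-! Row 242: locality, chain rule and Leibniz rule for the gradient pairing. -/

set_option autoImplicit false
set_option linter.unusedSectionVars false

open MeasureTheory Filter Set Topology
open scoped ENNReal NNReal
open Crest.GeometryTopology.SyntheticRicci

namespace Crest.Agent.R242

variable {X : Type*} [MetricSpace X] [ProperSpace X] [MeasurableSpace X] [BorelSpace X]
  {m : Measure X} [IsLocallyFiniteMeasure m] [m.IsOpenPosMeasure]

theorem GammaCalc_real1 {A B M t : ℝ} (h : ∀ c : ℚ, |A - c * B| ≤ M * |t - c|) : A = t * B := by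
  have h1 : |A - t * B| ≤ M * |t - t| :=
    Rat.denseRange_cast.induction_on (p := fun c : ℝ => |A - c * B| ≤ M * |t - c|) t
      (isClosed_le (by fun_prop) (by fun_prop)) h
  rw [sub_self, abs_zero, mul_zero] at h1
  exact sub_eq_zero.1 (abs_nonpos_iff.1 h1)

theorem GammaCalc_real2 {A B C M U V s t : ℝ}
    (h : ∀ a b : ℚ, |A - a * B - b * C| ≤ M * (|s - a| * U + |t - b| * V)) :
    A = s * B + t * C := by
  have h0 : ∀ a : ℚ, |A - a * B - t * C| ≤ M * (|s - a| * U + |t - t| * V) := fun a =>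
    Rat.denseRange_cast.induction_on
      (p := fun b : ℝ => |A - a * B - b * C| ≤ M * (|s - a| * U + |t - b| * V)) t
      (isClosed_le (by fun_prop) (by fun_prop)) (h a)
  have h1 : |A - s * B - t * C| ≤ M * (|s - s| * U + |t - t| * V) :=
    Rat.denseRange_cast.induction_on
      (p := fun a : ℝ => |A - a * B - t * C| ≤ M * (|s - a| * U + |t - t| * V)) s
      (isClosed_le (by fun_prop) (by fun_prop)) h0
  simp only [sub_self, abs_zero, zero_mul, add_zero, mul_zero] at h1
  have := abs_nonpos_iff.1 h1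
  linarith

theorem GammaCalc_l2_add {f g : X → ℝ} (hf : IsL2OnBalls m f) (hg : IsL2OnBalls m g) :
    IsL2OnBalls m fun y => f y + g y := fun o R => (hf o R).add (hg o R)

theorem GammaCalc_l2_mul {f : X → ℝ} (hf : IsL2OnBalls m f) (c : ℝ) :
    IsL2OnBalls m fun y => c * f y := fun o R => (hf o R).const_mul c

theorem GammaCalc_l2_abs {f : X → ℝ} (hf : IsL2OnBalls m f) :
    IsL2OnBalls m fun y => |f y| := fun o R => (hf o R).abs

theorem GammaCalc_abs_meas {f : X → ℝ} (hf : IsSobolevLoc m f) :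
    AEStronglyMeasurable (fun y => |f y|) m := isL2OnBalls_aemeasurable (GammaCalc_l2_abs hf.1)

theorem gamma_locality (hH : IsInfHilbertian m) {f f' g : X → ℝ} (hf : IsSobolevLoc m f)
    (hf' : IsSobolevLoc m f') (hg : IsSobolevLoc m g) :
    ∀ᵐ x ∂m, f x = f' x → gradPairing m f g x = gradPairing m f' g x := by
  have hs := (sl_sub hf hf').1
  filter_upwards [gamma_sub_left hH hf hf' hg, abs_gamma_le hH hs hg,
    D_eq_zero_on_countable hs (countable_singleton (0 : ℝ))] with x h1 h2 h3 hx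
  rw [h3 (by simp [hx]), zero_mul, h1] at h2
  exact sub_eq_zero.1 (abs_nonpos_iff.1 h2)

theorem gamma_locality_right (hH : IsInfHilbertian m) {f f' g : X → ℝ} (hf : IsSobolevLoc m f)
    (hf' : IsSobolevLoc m f') (hg : IsSobolevLoc m g) :
    ∀ᵐ x ∂m, f x = f' x → gradPairing m g f x = gradPairing m g f' x := by
  filter_upwards [gamma_locality hH hf hf' hg, gamma_comm hf hg, gamma_comm hf' hg]
    with x h1 h2 h3 hx
  rw [← h2, ← h3, h1 hx]

theorem gamma_eq_zero_on_level (hH : IsInfHilbertian m) {f g : X → ℝ} (hf : IsSobolevLoc m f)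
    (hg : IsSobolevLoc m g) (c : ℝ) :
    ∀ᵐ x ∂m, f x = c → gradPairing m f g x = 0 ∧ gradPairing m g f x = 0 := by
  filter_upwards [abs_gamma_le hH hf hg, gamma_comm hf hg,
    D_eq_zero_on_countable hf (countable_singleton c)] with x h1 h2 h3 hx
  rw [h3 hx, zero_mul] at h1
  have := abs_nonpos_iff.1 h1
  exact ⟨this, h2 ▸ this⟩

theorem gamma_comp_right (hH : IsInfHilbertian m) {f g : X → ℝ} (hf : IsSobolevLoc m f)
    (hg : IsSobolevLoc m g) {Φ Φ' : ℝ → ℝ} {K : ℝ≥0}
    (hΦ : LipschitzWith K Φ) (hm : Measurable Φ') (hK : ∀ z, |Φ' z| ≤ K) {S : Set ℝ}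
    (hS : S.Countable) (hd : ∀ z, z ∉ S → HasDerivAt Φ (Φ' z) z) :
    ∀ᵐ x ∂m, gradPairing m g (fun y => Φ (f y)) x = Φ' (f x) * gradPairing m g f x := by
  have h0 := (sl_comp hf hΦ hm hK hS hd).1
  have key : ∀ c : ℚ, ∀ᵐ x ∂m,
      |gradPairing m g (fun y => Φ (f y)) x - c * gradPairing m g f x| ≤
        minWeakGrad m g x * minWeakGrad m f x * |Φ' (f x) - c| := by
    intro c
    have hL : LipschitzWith (K + ‖(c : ℝ)‖₊) fun z : ℝ => Φ z - c * z := by
      refine hΦ.sub (LipschitzWith.of_dist_le_mul fun a b => ?_)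
      rw [Real.dist_eq, Real.dist_eq, ← mul_sub, abs_mul]
      rfl
    obtain ⟨s1, s2⟩ := sl_comp hf (Φ := fun z => Φ z - c * z) (Φ' := fun z => Φ' z - c) hL
      (hm.sub measurable_const)
      (fun z => (abs_sub _ _).trans (by
        push_cast
        exact add_le_add (hK z) le_rfl)) hS
      (fun z hz => ((hd z hz).fun_sub ((hasDerivAt_id' z).const_mul (c : ℝ))).congr_deriv
        (by rw [mul_one]))
    filter_upwards [gamma_sub_right hH h0 (sl_const_mul hf c).1 hg, gamma_const_mul_right hH hf hg c,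
      abs_gamma_le hH hg s1, s2, sl_D_nonneg hg] with x h1 h2 h3 h4 h5
    rw [h1, h2] at h3
    refine h3.trans ((mul_le_mul_of_nonneg_left h4 h5).trans (le_of_eq ?_))
    ring
  filter_upwards [ae_all_iff.2 key] with x hx
  exact GammaCalc_real1 hx

theorem gamma_mul_right (hH : IsInfHilbertian m) {f g h : X → ℝ} (hf : IsSobolevLoc m f)
    (hg : IsSobolevLoc m g) (hh : IsSobolevLoc m h) (hfg : IsL2OnBalls m (fun y => f y * g y))
    (hD : IsL2OnBalls m (fun y => |f y| * minWeakGrad m g y + |g y| * minWeakGrad m f y)) :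
    ∀ᵐ x ∂m, gradPairing m h (fun y => f y * g y) x =
      f x * gradPairing m h g x + g x * gradPairing m h f x := by
  have h0 := (sl_mul hf hg hfg hD).1
  have key : ∀ a b : ℚ, ∀ᵐ x ∂m,
      |gradPairing m h (fun y => f y * g y) x - a * gradPairing m h g x - b * gradPairing m h f x| ≤
        minWeakGrad m h x * (|f x - a| * minWeakGrad m g x + |g x - b| * minWeakGrad m f x) := by
    intro a b
    have sf : IsSobolevLoc m fun y => f y + -(a : ℝ) := (sl_add hf (sl_const _).1).1
    have sg : IsSobolevLoc m fun y => g y + -(b : ℝ) := (sl_add hg (sl_const _).1).1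
    have sl : IsSobolevLoc m fun y => (a : ℝ) * g y + b * f y :=
      (sl_add (sl_const_mul hg a).1 (sl_const_mul hf b).1).1
    have sd : IsSobolevLoc m fun y => f y * g y - ((a : ℝ) * g y + b * f y) := (sl_sub h0 sl).1
    have sc := sl_const (m := m) ((a : ℝ) * b)
    have e : (fun y => (f y + -(a : ℝ)) * (g y + -(b : ℝ))) =
        fun y => (f y * g y - ((a : ℝ) * g y + b * f y)) + a * b := funext fun y => by ring
    have l1 : IsL2OnBalls m fun y => (f y + -(a : ℝ)) * (g y + -(b : ℝ)) := by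
      rw [e]; exact GammaCalc_l2_add sd.1 sc.1.1
    have l2 : IsL2OnBalls m fun y => |f y + -(a : ℝ)| * minWeakGrad m (fun y => g y + -(b : ℝ)) y +
        |g y + -(b : ℝ)| * minWeakGrad m (fun y => f y + -(a : ℝ)) y := by
      refine isL2OnBalls_of_le (((GammaCalc_abs_meas sf).mul (sl_D_meas sg)).add
        ((GammaCalc_abs_meas sg).mul (sl_D_meas sf)))
        (GammaCalc_l2_add hD (GammaCalc_l2_add (GammaCalc_l2_mul (sl_D_l2 hg) |(a : ℝ)|)
          (GammaCalc_l2_mul (sl_D_l2 hf) |(b : ℝ)|))) ?_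
      filter_upwards [D_add_const hf (-(a : ℝ)), D_add_const hg (-(b : ℝ)), sl_D_nonneg hf,
        sl_D_nonneg hg] with x h1 h2 h3 h4
      rw [h1, h2, abs_of_nonneg (by positivity)]
      have i1 : |f x + -(a : ℝ)| ≤ |f x| + |(a : ℝ)| := by
        simpa using abs_add_le (f x) (-(a : ℝ))
      have i2 : |g x + -(b : ℝ)| ≤ |g x| + |(b : ℝ)| := by
        simpa using abs_add_le (g x) (-(b : ℝ))
      nlinarith [mul_le_mul_of_nonneg_right i1 h4, mul_le_mul_of_nonneg_right i2 h3]
    obtain ⟨s1, s2⟩ := sl_mul sf sg l1 l2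
    have s3 := abs_gamma_le hH hh s1
    rw [e] at s3
    rw [show minWeakGrad m (fun y => (f y + -(a : ℝ)) * (g y + -(b : ℝ))) = minWeakGrad m
      (fun y => (f y * g y - ((a : ℝ) * g y + b * f y)) + a * b) from by rw [e]] at s2
    filter_upwards [s2, s3, gamma_add_right hH sd sc.1 hh, gamma_sub_right hH h0 sl hh,
      gamma_add_right hH (sl_const_mul hg a).1 (sl_const_mul hf b).1 hh,
      gamma_const_mul_right hH hg hh a, gamma_const_mul_right hH hf hh b,
      abs_gamma_le hH hh sc.1, sc.2, D_add_const hf (-(a : ℝ)), D_add_const hg (-(b : ℝ)),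
      sl_D_nonneg hh] with x h1 h2 h3 h4 h5 h6 h7 h8 h9 h10 h11 h12
    rw [h9, mul_zero] at h8
    rw [h3, h4, h5, h6, h7, abs_nonpos_iff.1 h8, add_zero, ← sub_sub] at h2
    rw [h10, h11, ← sub_eq_add_neg, ← sub_eq_add_neg] at h1
    exact h2.trans (mul_le_mul_of_nonneg_left h1 h12)
  filter_upwards [ae_all_iff.2 fun a => ae_all_iff.2 (key a)] with x hx
  exact GammaCalc_real2 hx

/-- Leibniz rule when the first factor is bounded with bounded gradient. -/
theorem gamma_mul_right_of_bdd (hH : IsInfHilbertian m) {a f h : X → ℝ} (ha : IsSobolevLoc m a)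
    {B L : ℝ} (hB : ∀ᵐ x ∂m, |a x| ≤ B) (hL : ∀ᵐ x ∂m, minWeakGrad m a x ≤ L)
    (hf : IsSobolevLoc m f) (hh : IsSobolevLoc m h) :
    IsSobolevLoc m (fun y => a y * f y) ∧ ∀ᵐ x ∂m, gradPairing m h (fun y => a y * f y) x =
      a x * gradPairing m h f x + f x * gradPairing m h a x := by
  have h1 : IsL2OnBalls m fun y => a y * f y := by
    refine isL2OnBalls_of_le
      ((isL2OnBalls_aemeasurable ha.1).mul (isL2OnBalls_aemeasurable hf.1))
      (GammaCalc_l2_mul (GammaCalc_l2_abs hf.1) B) ?_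
    filter_upwards [hB] with x hx
    rw [abs_mul]
    exact mul_le_mul_of_nonneg_right hx (abs_nonneg _)
  have h2 : IsL2OnBalls m fun y => |a y| * minWeakGrad m f y + |f y| * minWeakGrad m a y := by
    refine isL2OnBalls_of_le (((GammaCalc_abs_meas ha).mul (sl_D_meas hf)).add
        ((GammaCalc_abs_meas hf).mul (sl_D_meas ha)))
      (GammaCalc_l2_add (GammaCalc_l2_mul (sl_D_l2 hf) B)
        (GammaCalc_l2_mul (GammaCalc_l2_abs hf.1) L)) ?_
    filter_upwards [hB, hL, sl_D_nonneg ha, sl_D_nonneg hf] with x i1 i2 i3 i4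
    rw [abs_of_nonneg (by positivity)]
    nlinarith [mul_le_mul_of_nonneg_right i1 i4, mul_le_mul_of_nonneg_left i2 (abs_nonneg (f x))]
  exact ⟨(sl_mul ha hf h1 h2).1, gamma_mul_right hH ha hf hh h1 h2⟩

theorem GammaCalc_clamp_lip {c : ℝ} (hc : 0 < c) :
    LipschitzWith ⟨Real.exp c, (Real.exp_pos c).le⟩
      fun z : ℝ => Real.exp (max (-c) (min c z)) := by
  have hexp : LipschitzOnWith ⟨Real.exp c, (Real.exp_pos c).le⟩ Real.exp (Iic c) := by
    refine (convex_Iic c).lipschitzOnWith_of_nnnorm_hasDerivWithin_le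
      (f' := Real.exp) (fun z _ => (Real.hasDerivAt_exp z).hasDerivWithinAt) fun z hz => ?_
    rw [← NNReal.coe_le_coe, coe_nnnorm, Real.norm_eq_abs, abs_of_pos (Real.exp_pos z)]
    exact Real.exp_le_exp.2 hz
  have hcl : LipschitzWith 1 fun z : ℝ => max (-c) (min c z) :=
    (LipschitzWith.id.const_min c).const_max (-c)
  have hmem : ∀ z : ℝ, max (-c) (min c z) ∈ Iic c := fun z =>
    mem_Iic.2 (max_le (show -c ≤ c by linarith) (min_le_left _ _))
  refine LipschitzWith.of_dist_le_mul fun a b => ?_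
  refine (hexp.dist_le_mul _ (hmem a) _ (hmem b)).trans ?_
  refine mul_le_mul_of_nonneg_left ?_ (NNReal.coe_nonneg _)
  simpa using hcl.dist_le_mul a b

theorem GammaCalc_clamp_deriv {c : ℝ} (hc : 0 < c) {z : ℝ} (hz : z ∉ ({-c, c} : Set ℝ)) :
    HasDerivAt (fun z : ℝ => Real.exp (max (-c) (min c z)))
      (if z ∈ Ioo (-c) c then Real.exp z else 0) z := by
  simp only [mem_insert_iff, mem_singleton_iff, not_or] at hz
  by_cases h : z ∈ Ioo (-c) c
  · rw [if_pos h]
    refine (Real.hasDerivAt_exp z).congr_of_eventuallyEq ?_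
    filter_upwards [isOpen_Ioo.mem_nhds h] with w hw
    rw [min_eq_right hw.2.le, max_eq_right hw.1.le]
  · rw [if_neg h]
    rcases lt_or_gt_of_ne hz.1 with h1 | h1
    · refine (hasDerivAt_const z (Real.exp (-c))).congr_of_eventuallyEq ?_
      filter_upwards [isOpen_Iio.mem_nhds h1] with w hw
      rw [max_eq_left ((min_le_right _ _).trans (le_of_lt hw))]
    · have h2 : c < z := by
        rcases lt_or_gt_of_ne hz.2 with h2 | h2
        · exact absurd ⟨h1, h2⟩ h
        · exact h2
      refine (hasDerivAt_const z (Real.exp c)).congr_of_eventuallyEq ?_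
      filter_upwards [isOpen_Ioi.mem_nhds h2] with w hw
      rw [min_eq_left (le_of_lt hw), max_eq_right (by linarith)]

/-- The exponential of a bounded Lipschitz function. -/
theorem exp_lip (hH : IsInfHilbertian m) {V : X → ℝ} {L : ℝ≥0} (hV : LipschitzWith L V) {B : ℝ}
    (hB : ∀ x, |V x| ≤ B) : (∃ L' : ℝ≥0, LipschitzWith L' (fun y => Real.exp (V y))) ∧
      ∀ h : X → ℝ, IsSobolevLoc m h → ∀ᵐ x ∂m,
        gradPairing m h (fun y => Real.exp (V y)) x = Real.exp (V x) * gradPairing m h V x := by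
  set c : ℝ := |B| + 1 with hcd
  have hc : 0 < c := by positivity
  have hlip := GammaCalc_clamp_lip hc
  have hin : ∀ x, V x ∈ Ioo (-c) c := fun x => by
    have h1 := abs_le.1 ((hB x).trans (le_abs_self B))
    constructor <;> linarith [h1.1, h1.2]
  have e : (fun y => Real.exp (V y)) = fun y => Real.exp (max (-c) (min c (V y))) :=
    funext fun y => by rw [min_eq_right (hin y).2.le, max_eq_right (hin y).1.le]
  refine ⟨⟨_, by rw [e]; exact hlip.comp hV⟩, fun h hh => ?_⟩
  have hs := (sl_of_lipschitz (m := m) hV).1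
  have key := gamma_comp_right hH hs hh hlip
    (Φ' := fun z => if z ∈ Ioo (-c) c then Real.exp z else 0)
    (Measurable.ite measurableSet_Ioo Real.measurable_exp measurable_const)
    (fun z => by
      split_ifs with hz
      · rw [abs_of_pos (Real.exp_pos z)]
        exact Real.exp_le_exp.2 hz.2.le
      · rw [abs_zero]; exact NNReal.coe_nonneg _)
    (S := {-c, c}) (Set.toFinite _).countable fun z hz => GammaCalc_clamp_deriv hc hz
  rw [← e] at key
  filter_upwards [key] with x hx
  rw [hx, if_pos (hin x)]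

end Crest.Agent.R242
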