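import Crest.Agent.R242.EntCore
import Crest.Agent.R242.CConc
import Crest.Agent.R242.GammaCalc

/-! Row 242: derivative of the entropy at a positive density. -/

set_option autoImplicit false
set_option linter.unusedSectionVars false

open MeasureTheory Filter Set Topology
open scoped ENNReal NNReal
open Crest.GeometryTopology.SyntheticRicci

namespace Crest.Agent.R242

variable {X : Type*} [MetricSpace X] [ProperSpace X] [MeasurableSpace X] [BorelSpace X]
  {m : Measure X} [IsLocallyFiniteMeasure m] [m.IsOpenPosMeasure]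

theorem EntDeriv_log_lip {δ : ℝ} (hδ : 0 < δ) (b : ℝ) :
    LipschitzWith ⟨δ⁻¹, (inv_pos.2 hδ).le⟩ fun z : ℝ => Real.log (max z δ) + b := by
  refine LipschitzWith.of_le_add_mul _ fun z w => ?_
  have h1 : δ ≤ max z δ := le_max_right _ _
  have h2 : δ ≤ max w δ := le_max_right _ _
  have h3 : max z δ - max w δ ≤ dist z w := by
    rw [Real.dist_eq]
    exact (le_abs_self _).trans (abs_max_sub_max_le_abs z w δ)
  have h4 := Real.log_le_sub_one_of_pos (div_pos (hδ.trans_le h1) (hδ.trans_le h2))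
  rw [Real.log_div (hδ.trans_le h1).ne' (hδ.trans_le h2).ne'] at h4
  have h5 : max z δ / max w δ - 1 = (max z δ - max w δ) * (max w δ)⁻¹ := by
    have := (hδ.trans_le h2).ne'
    field_simp
  have h6 : (max w δ)⁻¹ ≤ δ⁻¹ := inv_anti₀ hδ h2
  have h7 : (max z δ - max w δ) * (max w δ)⁻¹ ≤ dist z w * δ⁻¹ :=
    mul_le_mul h3 h6 (inv_pos.2 (hδ.trans_le h2)).le dist_nonneg
  change Real.log (max z δ) + b ≤ Real.log (max w δ) + b + δ⁻¹ * dist z w
  linarith

theorem EntDeriv_log_deriv {δ : ℝ} (hδ : 0 < δ) (b : ℝ) {z : ℝ} (hz : z ∉ ({δ} : Set ℝ)) :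
    HasDerivAt (fun z : ℝ => Real.log (max z δ) + b) (if δ < z then z⁻¹ else 0) z := by
  have hz' : z ≠ δ := hz
  split_ifs with h
  · have h1 : HasDerivAt (fun z : ℝ => Real.log z + b) z⁻¹ z :=
      (Real.hasDerivAt_log (hδ.trans h).ne').add_const b
    refine h1.congr_of_eventuallyEq ?_
    filter_upwards [Ioi_mem_nhds h] with w hw
    rw [max_eq_left (le_of_lt hw)]
  · have h' : z < δ := lt_of_le_of_ne (not_lt.1 h) hz'
    refine (hasDerivAt_const z (Real.log δ + b)).congr_of_eventuallyEq ?_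
    filter_upwards [Iio_mem_nhds h'] with w hw
    rw [max_eq_right (le_of_lt hw)]

/-- Entropy of a measure dominated by a multiple of a density. -/
theorem EntDeriv_ent_le {ν : Measure X} {M : ℝ≥0} {o : X} {R : ℝ} (h : Bdd m ν M o R)
    {σ : X → ℝ} (h0 : ∀ x, 0 ≤ σ x) {t : ℝ} (ht : 0 < t)
    (hle : ν ≤ dm m fun x => t * σ x) (hi : Integrable (fun x => Real.log (σ x)) ν) :
    Ent m ν ≤ ∫ x, Real.log (σ x) ∂ν + Real.log t := by
  obtain ⟨τ, hτ, rfl, -, -⟩ := h.exists_niceD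
  have h1 : ∀ᵐ x ∂m, ENNReal.ofReal (τ x) ≤ ENNReal.ofReal (t * σ x) := by
    refine ae_le_of_forall_setLIntegral_le_of_sigmaFinite hτ.meas.ennreal_ofReal
      fun s hs _ => ?_
    have := hle s
    unfold dm at this
    rwa [withDensity_apply _ hs, withDensity_apply _ hs] at this
  have hi' := (integrable_dm_iff hτ.meas hτ.nonneg _).1 hi
  have hi2 : Integrable (fun x => Real.log t * τ x) m := hτ.integrable.const_mul _
  have h2 : ∀ᵐ x ∂m, τ x * Real.log (τ x) ≤ τ x * Real.log (σ x) + Real.log t * τ x := by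
    filter_upwards [h1] with x hx
    rcases (hτ.nonneg x).eq_or_lt with h3 | h3
    · rw [← h3]; simp
    · have h4 : τ x ≤ t * σ x :=
        (ENNReal.ofReal_le_ofReal_iff (mul_nonneg ht.le (h0 x))).1 hx
      have h5 : 0 < σ x := (mul_pos_iff_of_pos_left ht).1 (h3.trans_le h4)
      have h6 := Real.log_le_log h3 h4
      rw [Real.log_mul ht.ne' h5.ne'] at h6
      nlinarith
  have h7 := integral_mono_ae hτ.integrable_ent (hi'.add hi2) h2
  have h8 : ∫ x, (τ x * Real.log (σ x) + Real.log t * τ x) ∂m =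
      ∫ x, τ x * Real.log (σ x) ∂m + Real.log t := by
    rw [integral_add hi' hi2, integral_const_mul, hτ.mass, mul_one]
  have h9 : ∫ x, τ x * Real.log (τ x) ∂m ≤
      ∫ x, (τ x * Real.log (σ x) + Real.log t * τ x) ∂m := h7
  rw [hτ.ent_eq, integral_dm hτ.meas hτ.nonneg, ← h8]
  exact h9

theorem EntDeriv_dm_indicator (ρ : X → ℝ) {S : Set X} (hS : MeasurableSet S) :
    dm m (S.indicator ρ) = (dm m ρ).restrict S := by
  unfold dm
  rw [restrict_withDensity hS, ← withDensity_indicator hS]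
  congr 1
  funext x
  by_cases hx : x ∈ S <;> simp [hx]

/-- The inequality on one sublevel set of the potential. -/
theorem EntDeriv_step {κ : ℝ} (hG : Good m κ) {ρ σ φ : X → ℝ} {o : X} {R : ℝ} (hρ : NiceD m ρ)
    (hs : IsSobolevLoc m ρ)
    (hlow : ∀ r : ℝ, ∃ δ : ℝ, 0 < δ ∧ ∀ x, dist x o ≤ r → δ ≤ ρ x) (hσ : NiceD m σ)
    (hR : ∀ x, R < dist x o → σ x = 0) (hφ : IsCConc φ o R) {q : Measure (X × X)}
    (hq : IsOptCouplingOf q (dm m ρ) (dm m σ)) (hp : IsPot φ q) (a : ℝ) {S : Set X}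
    (hSa : S = {x | φ x ≤ a}) (hc0 : dm m ρ S ≠ 0) :
    -∫ x in S, gradPairing m φ ρ x ∂m ≤
      ∫ p in Prod.fst ⁻¹' S, Real.log (σ p.2) ∂q - ∫ x in S, ρ x * Real.log (ρ x) ∂m +
        4 * κ * Wsq (dm m ρ) (dm m σ) := by
  have := hρ.OTBasic_prob
  have := hσ.OTBasic_prob
  have hqc : IsCouplingOf q (dm m ρ) (dm m σ) := hq.1
  have := IsCouplingOf.isProb hqc
  have hS : MeasurableSet S := by
    rw [hSa]; exact measurableSet_le hφ.lipBdd.continuous.measurable measurable_const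
  have hR0 := hφ.nonneg
  obtain ⟨r, hRr, hr⟩ : ∃ r : ℝ, R ≤ r ∧ ∀ x ∈ S, dist x o ≤ r := by
    refine ⟨2 * R + 2 + |a - φ o|, by linarith [abs_nonneg (a - φ o)], fun x hx => ?_⟩
    rw [hSa] at hx
    have h1 : φ x ≤ a := hx
    have h2 := hφ.lower x
    by_contra h3
    have h4 := not_le.1 h3
    have h5 := le_abs_self (a - φ o)
    have h6 := abs_nonneg (a - φ o)
    nlinarith
  obtain ⟨δ, hδ, hδρ⟩ := hlow r
  obtain ⟨c, hc⟩ : ∃ c : ℝ, c = (dm m ρ).real S := ⟨_, rfl⟩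
  have hcpos : 0 < c := by
    rw [hc]; exact ENNReal.toReal_pos hc0 (measure_ne_top _ _)
  have hci : 0 < c⁻¹ := inv_pos.2 hcpos
  have hcint : ∫ x in S, ρ x ∂m = c := by
    have h1 := integral_dm (m := m) hρ.meas hρ.nonneg (S.indicator fun _ => (1 : ℝ))
    rw [integral_indicator hS, setIntegral_const, smul_eq_mul, mul_one, ← hc] at h1
    rw [h1, ← integral_indicator hS]
    refine integral_congr_ae (Eventually.of_forall fun x => ?_)
    by_cases hx : x ∈ S <;> simp [hx]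
  obtain ⟨C, hC⟩ := hρ.bdd
  obtain ⟨C', hC'⟩ := hσ.bdd
  obtain ⟨M, hM⟩ : ∃ M : ℝ≥0, (M : ℝ) = c⁻¹ * (|C| + |C'|) :=
    ⟨⟨c⁻¹ * (|C| + |C'|), by positivity⟩, rfl⟩
  obtain ⟨ρ', hρ'⟩ : ∃ ρ' : X → ℝ, ρ' = S.indicator fun x => c⁻¹ * ρ x := ⟨_, rfl⟩
  have hin : ∀ x ∈ S, ρ' x = c⁻¹ * ρ x := fun x hx => by rw [hρ', indicator_of_mem hx]
  have hout : ∀ x, x ∉ S → ρ' x = 0 := fun x hx => by rw [hρ', indicator_of_notMem hx]
  have hρ'M : ∀ x, ρ' x ≤ M := fun x => by
    by_cases hx : x ∈ S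
    · rw [hin x hx, hM]
      exact mul_le_mul_of_nonneg_left
        (by linarith [hC x, le_abs_self C, abs_nonneg C']) hci.le
    · rw [hout x hx]; exact M.2
  have hρ'r : ∀ x, r < dist x o → ρ' x = 0 := fun x hx =>
    hout x fun h => absurd (hr x h) (not_le.2 hx)
  have hρ'm : Measurable ρ' := by
    rw [hρ']; exact (hρ.meas.const_mul _).indicator hS
  have hρ'n : NiceD m ρ' := by
    refine niceD_of_bdd_support hρ'm (fun x => ?_) hρ'M ?_ hρ'r
    · by_cases hx : x ∈ S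
      · rw [hin x hx]; exact mul_nonneg hci.le (hρ.nonneg x)
      · rw [hout x hx]
    · rw [hρ', integral_indicator hS, integral_const_mul, hcint, inv_mul_cancel₀ hcpos.ne']
  have h₀ : Bdd m (dm m ρ') M o r := hρ'n.bdd_dm hρ'M hρ'r
  have := hρ'n.OTBasic_prob
  obtain ⟨q', hq'⟩ : ∃ q' : Measure (X × X),
      q' = ENNReal.ofReal c⁻¹ • q.restrict (Prod.fst ⁻¹' S) := ⟨_, rfl⟩
  have hq'c : IsCouplingOf q' (dm m ρ') (q'.map Prod.snd) := by
    refine ⟨?_, rfl⟩
    rw [hq', hρ', EntDeriv_dm_indicator _ hS, WT_dm_smul _ hci.le, Measure.map_smul,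
      Measure.restrict_smul, ← hqc.1, Measure.restrict_map measurable_fst hS]
  have := IsCouplingOf.isProb hq'c
  have hνle : q'.map Prod.snd ≤ dm m fun x => c⁻¹ * σ x := by
    rw [hq', WT_dm_smul _ hci.le, Measure.map_smul, ← hqc.2]
    exact smul_le_smul_left _ (Measure.map_mono Measure.restrict_le_self measurable_snd)
  have h₁ : Bdd m (q'.map Prod.snd) M o r := by
    refine ⟨Measure.isProbabilityMeasure_map measurable_snd.aemeasurable,
      hνle.trans (dm_le fun x => ?_), ?_⟩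
    · rw [hM]
      exact mul_le_mul_of_nonneg_left
        (by linarith [hC' x, le_abs_self C', abs_nonneg C]) hci.le
    · refine le_antisymm ((hνle _).trans (le_of_eq ?_)) zero_le
      have h1 : Bdd m (dm m σ) C'.toNNReal o r :=
        hσ.bdd_dm (fun x => (hC' x).trans (Real.le_coe_toNNReal C'))
          fun x hx => hR x (hRr.trans_lt hx)
      rw [WT_dm_smul _ hci.le, Measure.smul_apply, h1.2.2, smul_zero]
  have hp' : IsPot φ q' := by
    unfold IsPot
    rw [hq']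
    exact Measure.ae_smul_measure (ae_restrict_of_ae hp) _
  have hδ2 : 0 < δ / 2 := half_pos hδ
  have hΦm : Measurable fun z : ℝ => if δ / 2 < z then z⁻¹ else 0 :=
    Measurable.ite measurableSet_Ioi measurable_inv measurable_const
  have hΦK : ∀ z : ℝ, |if δ / 2 < z then z⁻¹ else 0| ≤
      ((⟨(δ / 2)⁻¹, (inv_pos.2 hδ2).le⟩ : ℝ≥0) : ℝ) := fun z => by
    change _ ≤ (δ / 2)⁻¹
    split_ifs with h
    · rw [abs_of_pos (inv_pos.2 (hδ2.trans h))]
      exact inv_anti₀ hδ2 h.le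
    · rw [abs_zero]; exact (inv_pos.2 hδ2).le
  have hu := (sl_comp hs (EntDeriv_log_lip hδ2 (Real.log c⁻¹)) hΦm hΦK (countable_singleton _)
    fun z hz => EntDeriv_log_deriv hδ2 _ hz).1
  have hΓ := gamma_comp_right hG.hilb hs hφ.lipBdd.sl.1 (EntDeriv_log_lip hδ2 (Real.log c⁻¹))
    hΦm hΦK (countable_singleton _) fun z hz => EntDeriv_log_deriv hδ2 _ hz
  have hSδ : ∀ x ∈ S, δ / 2 < ρ x := fun x hx => (half_lt_self hδ).trans_le (hδρ x (hr x hx))
  have key := ent_core hG (a := a) hρ'm hu hφ.lipBdd (fun x hx => by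
      have hx' : x ∈ S := by rw [hSa]; exact hx
      rw [hin x hx', max_eq_left (hSδ x hx').le, Real.exp_add,
        Real.exp_log (hδ2.trans (hSδ x hx')), Real.exp_log hci, mul_comm])
    (fun x hx => hout x (by rw [hSa]; exact not_le.2 hx)) h₀ h₁ hq'c hp'
  have e1 : ∫ x, gradPairing m φ (fun y => Real.log (max (ρ y) (δ / 2)) + Real.log c⁻¹) x
      ∂(dm m ρ') = c⁻¹ * ∫ x in S, gradPairing m φ ρ x ∂m := by
    rw [integral_dm hρ'm hρ'n.nonneg, ← integral_const_mul, ← integral_indicator hS]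
    refine integral_congr_ae ?_
    filter_upwards [hΓ] with x hx
    by_cases hxS : x ∈ S
    · rw [indicator_of_mem hxS, hin x hxS, hx, if_pos (hSδ x hxS)]
      have := (hδ2.trans (hSδ x hxS)).ne'
      field_simp
    · rw [indicator_of_notMem hxS, hout x hxS, zero_mul]
  have e2 : Ent m (dm m ρ') = c⁻¹ * ∫ x in S, ρ x * Real.log (ρ x) ∂m + Real.log c⁻¹ := by
    have h1 : ∫ x, ρ' x * Real.log (ρ' x) ∂m = ∫ x in S,
        (c⁻¹ * (ρ x * Real.log (ρ x)) + c⁻¹ * Real.log c⁻¹ * ρ x) ∂m := by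
      rw [← integral_indicator hS]
      refine integral_congr_ae (Eventually.of_forall fun x => ?_)
      by_cases hxS : x ∈ S
      · dsimp only
        rw [indicator_of_mem hxS, hin x hxS,
          Real.log_mul hci.ne' (hδ2.trans (hSδ x hxS)).ne']
        ring
      · dsimp only
        rw [indicator_of_notMem hxS, hout x hxS, zero_mul]
    rw [hρ'n.ent_eq, h1, integral_add (hρ.integrable_ent.const_mul _).integrableOn
      (hρ.integrable.const_mul _).integrableOn, integral_const_mul, integral_const_mul, hcint]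
    field_simp
  have hlogσ : Integrable (fun x => Real.log (σ x)) (dm m σ) :=
    (integrable_dm_iff hσ.meas hσ.nonneg _).2 hσ.integrable_ent
  have hlogν : Integrable (fun x => Real.log (σ x)) (q'.map Prod.snd) := by
    refine Integrable.mono_measure ?_ hνle
    rw [WT_dm_smul _ hci.le]
    exact hlogσ.smul_measure ENNReal.ofReal_ne_top
  have e3 : Ent m (q'.map Prod.snd) ≤
      c⁻¹ * ∫ p in Prod.fst ⁻¹' S, Real.log (σ p.2) ∂q + Real.log c⁻¹ := by
    have h1 := EntDeriv_ent_le h₁ hσ.nonneg hci hνle hlogν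
    rw [← (Duality.int_snd hq'c hlogν).2] at h1
    refine h1.trans (le_of_eq ?_)
    rw [hq', integral_smul_measure, ENNReal.toReal_ofReal hci.le, smul_eq_mul]
  have e4 : Wsq (dm m ρ') (q'.map Prod.snd) ≤ c⁻¹ * Wsq (dm m ρ) (dm m σ) := by
    refine (Wsq_le_of_coupling h₀.isP2 h₁.isP2 hq'c).trans ?_
    rw [Wsq_eq_of_opt hρ.isP2 hσ.isP2 hq, hq', integral_smul_measure,
      ENNReal.toReal_ofReal hci.le, smul_eq_mul]
    exact mul_le_mul_of_nonneg_left (setIntegral_le_integral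
      (integrable_sq_of_coupling hρ.isP2 hσ.isP2 hqc)
      (Eventually.of_forall fun p => sq_nonneg _)) hci.le
  rw [e1, e2] at key
  have e5 := mul_le_mul_of_nonneg_left e4 (mul_nonneg (by norm_num : (0 : ℝ) ≤ 4) hG.nonneg)
  refine le_of_mul_le_mul_left ?_ hci
  nlinarith

theorem ent_deriv {κ : ℝ} (hG : Good m κ) {ρ σ φ : X → ℝ} {o : X} {R : ℝ} (hρ : NiceD m ρ)
    (hs : IsSobolevLoc m ρ) (hD : Integrable (fun x => (1 + dist x o) * minWeakGrad m ρ x) m)
    (hlow : ∀ r : ℝ, ∃ δ : ℝ, 0 < δ ∧ ∀ x, dist x o ≤ r → δ ≤ ρ x) (hσ : NiceD m σ)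
    (hR : ∀ x, R < dist x o → σ x = 0) (hφ : IsCConc φ o R) {q : Measure (X × X)}
    (hq : IsOptCouplingOf q (dm m ρ) (dm m σ)) (hp : IsPot φ q) :
    -∫ x, gradPairing m φ ρ x ∂m ≤
      Ent m (dm m σ) - Ent m (dm m ρ) + 4 * κ * Wsq (dm m ρ) (dm m σ) := by
  have := hρ.OTBasic_prob
  have hqc : IsCouplingOf q (dm m ρ) (dm m σ) := hq.1
  obtain ⟨S, hS⟩ : ∃ S : ℕ → Set X, S = fun n : ℕ => {x | φ x ≤ (n : ℝ)} := ⟨_, rfl⟩
  have hSm : ∀ n, MeasurableSet (S n) := fun n => by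
    rw [hS]; exact measurableSet_le hφ.lipBdd.continuous.measurable measurable_const
  have hmono : Monotone S := fun n k hnk x hx => by
    rw [hS] at hx ⊢
    have hx' : φ x ≤ (n : ℝ) := hx
    exact le_trans hx' (Nat.cast_le.2 hnk)
  have hU : ⋃ n, S n = univ := by
    refine eq_univ_of_forall fun x => ?_
    obtain ⟨n, hn⟩ := exists_nat_ge (φ x)
    exact mem_iUnion.2 ⟨n, by rw [hS]; exact hn⟩
  have hU' : ⋃ n, (Prod.fst ⁻¹' S n : Set (X × X)) = univ := by
    rw [← preimage_iUnion, hU, preimage_univ]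
  have hΓ : Integrable (gradPairing m φ ρ) m := by
    have hR0 := hφ.nonneg
    refine (hD.const_mul (1 + R)).mono' (gamma_meas hφ.lipBdd.sl.1 hs) ?_
    filter_upwards [abs_gamma_le hG.hilb hφ.lipBdd.sl.1 hs, hφ.D_le (m := m), sl_D_nonneg hs]
      with x h1 h2 h3
    have h4 : dist x o + R ≤ (1 + R) * (1 + dist x o) := by
      nlinarith [mul_nonneg hR0 (dist_nonneg (x := x) (y := o))]
    calc ‖gradPairing m φ ρ x‖ ≤ minWeakGrad m φ x * minWeakGrad m ρ x := h1
      _ ≤ (1 + R) * (1 + dist x o) * minWeakGrad m ρ x :=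
          mul_le_mul_of_nonneg_right (h2.trans h4) h3
      _ = _ := by ring
  have hlogσ : Integrable (fun x => Real.log (σ x)) (dm m σ) :=
    (integrable_dm_iff hσ.meas hσ.nonneg _).2 hσ.integrable_ent
  obtain ⟨hi, he⟩ := Duality.int_snd hqc hlogσ
  have t1 := tendsto_setIntegral_of_monotone (μ := m) hSm hmono hΓ.integrableOn
  have t2 := tendsto_setIntegral_of_monotone (μ := m) hSm hmono hρ.integrable_ent.integrableOn
  have t3 := tendsto_setIntegral_of_monotone (μ := q) (s := fun n => Prod.fst ⁻¹' S n)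
    (fun n => measurable_fst (hSm n)) (fun n k hnk => preimage_mono (hmono hnk)) hi.integrableOn
  rw [hU, Measure.restrict_univ] at t1 t2
  rw [hU', Measure.restrict_univ, he, integral_dm hσ.meas hσ.nonneg, ← hσ.ent_eq] at t3
  rw [← hρ.ent_eq] at t2
  have t4 := tendsto_measure_iUnion_atTop (μ := dm m ρ) hmono
  rw [hU, measure_univ] at t4
  refine le_of_tendsto_of_tendsto t1.neg ((t3.sub t2).add_const _) ?_
  filter_upwards [t4.eventually_ne one_ne_zero] with n hn
  exact EntDeriv_step hG hρ hs hlow hσ hR hφ hq hp n (by rw [hS]) hn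

end Crest.Agent.R242
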