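import Crest.Agent.R242.Structure

/-! Row 242: from integrated inequalities to a weak upper gradient. -/

set_option autoImplicit false
set_option linter.unusedSectionVars false

open MeasureTheory Filter Set Topology
open scoped ENNReal NNReal
open Crest.GeometryTopology.SyntheticRicci

namespace Crest.Agent.R242

variable {X : Type*} [MetricSpace X] [ProperSpace X] [MeasurableSpace X] [BorelSpace X]
  {m : Measure X} [IsLocallyFiniteMeasure m] [m.IsOpenPosMeasure]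

theorem LW_opt {x : ℝ} {a b : ℝ≥0∞} (ha : a ≠ ⊤) (hb : b ≠ ⊤)
    (h : ∀ l : ℚ, 0 < l → ENNReal.ofReal x ≤
      ENNReal.ofReal ((l : ℝ) / 2) * a ^ 2 + ENNReal.ofReal (1 / (2 * (l : ℝ))) * b ^ 2) :
    ENNReal.ofReal x ≤ a * b := by
  lift a to ℝ≥0 using ha
  lift b to ℝ≥0 using hb
  rw [← ENNReal.coe_mul, ENNReal.ofReal_le_coe, NNReal.coe_mul]
  have hA := a.coe_nonneg
  have hB := b.coe_nonneg
  have h1 : ∀ ε : ℝ, 0 < ε → x ≤ (a + ε) * (b + ε) := fun ε hε => by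
    obtain ⟨p, p1, p2⟩ := exists_rat_btwn (lt_add_of_pos_right (a : ℝ) hε)
    obtain ⟨q, q1, q2⟩ := exists_rat_btwn (lt_add_of_pos_right (b : ℝ) hε)
    have p0 : (0 : ℝ) < p := hA.trans_lt p1
    have q0 : (0 : ℝ) < q := hB.trans_lt q1
    have h2 := h (q / p) (div_pos (by exact_mod_cast q0) (by exact_mod_cast p0))
    rw [← ENNReal.ofReal_coe_nnreal (p := a), ← ENNReal.ofReal_coe_nnreal (p := b),
      ← ENNReal.ofReal_pow hA, ← ENNReal.ofReal_pow hB, Rat.cast_div,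
      ← ENNReal.ofReal_mul (by positivity), ← ENNReal.ofReal_mul (by positivity),
      ← ENNReal.ofReal_add (by positivity) (by positivity),
      ENNReal.ofReal_le_ofReal_iff (by positivity)] at h2
    have h3 : (q : ℝ) / p / 2 * a ^ 2 ≤ q / p / 2 * p ^ 2 := by gcongr
    have h4 : 1 / (2 * ((q : ℝ) / p)) * b ^ 2 ≤ 1 / (2 * ((q : ℝ) / p)) * q ^ 2 := by gcongr
    have h5 : (q : ℝ) / p / 2 * p ^ 2 + 1 / (2 * ((q : ℝ) / p)) * q ^ 2 = p * q := by
      field_simp
      ring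
    have h6 : (p : ℝ) * q ≤ (a + ε) * (b + ε) := by gcongr
    linarith
  have h2 : Tendsto (fun ε : ℝ => (a + ε) * (b + ε)) (𝓝[>] 0) (𝓝 ((a + 0) * (b + 0))) :=
    (Continuous.tendsto (by fun_prop) 0).mono_left nhdsWithin_le_nhds
  simpa using ge_of_tendsto h2 (eventually_mem_nhdsWithin.mono h1)

/-- One-dimensional lemma: optimising the weight interval by interval. -/
theorem le_lintegral_mul_of_weights (v : ℝ → ℝ) (a b : ℝ → ℝ≥0∞)
    (ha : AEMeasurable a (volume.restrict (Icc (0 : ℝ) 1)))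
    (hb : AEMeasurable b (volume.restrict (Icc (0 : ℝ) 1)))
    (ha2 : ∫⁻ r in Icc (0 : ℝ) 1, a r ^ 2 < ⊤) (hb2 : ∫⁻ r in Icc (0 : ℝ) 1, b r ^ 2 < ⊤)
    (h : ∀ s t l : ℚ, 0 ≤ s → s ≤ t → t ≤ 1 → 0 < l → ENNReal.ofReal |v t - v s| ≤
      ∫⁻ r in Icc (s : ℝ) (t : ℝ),
        (ENNReal.ofReal ((l : ℝ) / 2) * a r ^ 2 + ENNReal.ofReal (1 / (2 * (l : ℝ))) * b r ^ 2)) :
    ENNReal.ofReal |v 1 - v 0| ≤ ∫⁻ r in Icc (0 : ℝ) 1, a r * b r := by
  have h1 := fun l : {l : ℚ // 0 < l} => exists_ac_extension v (fun r =>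
      ENNReal.ofReal ((l.1 : ℝ) / 2) * a r ^ 2 + ENNReal.ofReal (1 / (2 * (l.1 : ℝ))) * b r ^ 2)
    (((ha.pow_const 2).const_mul _).add ((hb.pow_const 2).const_mul _)) (by
      rw [lintegral_add_left' ((ha.pow_const 2).const_mul _),
        lintegral_const_mul' _ _ ENNReal.ofReal_ne_top,
        lintegral_const_mul' _ _ ENNReal.ofReal_ne_top]
      exact ENNReal.add_lt_top.2 ⟨ENNReal.mul_lt_top ENNReal.ofReal_lt_top ha2,
        ENNReal.mul_lt_top ENNReal.ofReal_lt_top hb2⟩)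
    fun s t h0 h1 h2 => h s t l.1 h0 h1 h2 l.2
  choose w w1 w2 _ w4 using h1
  have hc : ∀ l, ContinuousOn (w l) (Ioo 0 1) := fun l =>
    (w1 l).continuousOn.mono (Ioo_subset_Icc_self.trans Icc_subset_uIcc)
  have he : ∀ l, EqOn (w l) (w ⟨1, one_pos⟩) (Ioo 0 1) := fun l => by
    refine EqOn.of_subset_closure (s := Ioo 0 1 ∩ range ((↑) : ℚ → ℝ)) ?_ (hc _) (hc _)
      inter_subset_left (Rat.denseRange_cast.open_subset_closure_inter isOpen_Ioo)
    rintro _ ⟨hq, q, rfl⟩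
    have q0 : 0 ≤ q := by exact_mod_cast hq.1.le
    have q1 : q ≤ 1 := by exact_mod_cast hq.2.le
    rw [w2 _ q q0 q1, w2 _ q q0 q1]
  have e0 := w2 ⟨1, one_pos⟩ 0 le_rfl zero_le_one
  have e1 := w2 ⟨1, one_pos⟩ 1 zero_le_one le_rfl
  rw [Rat.cast_zero] at e0
  rw [Rat.cast_one] at e1
  rw [← e0, ← e1]
  refine (ofReal_abs_sub_le_lintegral_deriv (w1 _)).trans (lintegral_mono_ae ?_)
  have g7 : ∀ᵐ t ∂(volume.restrict (Icc (0 : ℝ) 1)), t ∈ Ioo (0 : ℝ) 1 := by
    rw [← restrict_Ioo_eq_restrict_Icc]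
    exact ae_restrict_mem measurableSet_Ioo
  filter_upwards [ae_all_iff.2 w4, g7, ae_lt_top' (ha.pow_const 2) ha2.ne,
    ae_lt_top' (hb.pow_const 2) hb2.ne] with t k1 k2 k3 k4
  refine LW_opt (fun h => by simp [h] at k3) (fun h => by simp [h] at k4) fun l hl => ?_
  rw [← ((he ⟨l, hl⟩).eventuallyEq_of_mem (isOpen_Ioo.mem_nhds k2)).deriv_eq]
  exact k1 ⟨l, hl⟩

theorem LW_ae {Ω : Type*} [MeasurableSpace Ω] {P : Measure Ω} [IsFiniteMeasure P] {φ : Ω → ℝ}
    {Ψ : Ω → ℝ≥0∞} (hφ : Measurable φ) (hi : Integrable φ P)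
    (h : ∀ B, MeasurableSet B → ENNReal.ofReal |∫ x in B, φ x ∂P| ≤ ∫⁻ x in B, Ψ x ∂P) :
    ∀ᵐ x ∂P, ENNReal.ofReal |φ x| ≤ Ψ x := by
  refine ae_le_of_forall_setLIntegral_le_of_sigmaFinite hφ.abs.ennreal_ofReal fun A hA _ => ?_
  have hS : MeasurableSet {x | 0 ≤ φ x} := measurableSet_le measurable_const hφ
  rw [← lintegral_inter_add_sdiff _ A hS, ← lintegral_inter_add_sdiff Ψ A hS]
  refine add_le_add (le_trans ?_ (h _ (hA.inter hS))) (le_trans ?_ (h _ (hA.diff hS)))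
  · rw [← ofReal_integral_eq_lintegral_ofReal hi.abs.integrableOn
      (.of_forall fun _ => abs_nonneg _),
      setIntegral_congr_fun (hA.inter hS) fun x hx => abs_of_nonneg hx.2]
    exact ENNReal.ofReal_le_ofReal (le_abs_self _)
  · rw [← ofReal_integral_eq_lintegral_ofReal hi.abs.integrableOn
      (.of_forall fun _ => abs_nonneg _),
      setIntegral_congr_fun (hA.diff hS) fun x hx => abs_of_neg (not_le.1 hx.2), integral_neg]
    exact ENNReal.ofReal_le_ofReal (neg_le_abs _)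

theorem LW_int {u : X → ℝ} (hm : Measurable u) (hu : IsL2OnBalls m u) {P : Measure (UCurve X)}
    (hP : IsTestPlan2 m P) (hB : HasBoundedTracks P) (t : ℝ) :
    Integrable (fun γ : UCurve X => u (γ.ext t)) P := by
  obtain ⟨C, o, R, h, -⟩ := testPlan_bdd hP hB
  have : IsFiniteMeasure (m.restrict (Metric.ball o (R + 1))) :=
    isFiniteMeasure_restrict.2 Metric.isBounded_ball.measure_lt_top.ne
  exact (integrable_map_measure hm.aestronglyMeasurable (continuous_ext_left t).aemeasurable).1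
    ((h t).integrable (IntegrableOn.mono_set ((hu o (R + 1)).integrable one_le_two)
      (Metric.closedBall_subset_ball (lt_add_one R))))

theorem LW_meas {u G : X → ℝ} (hum : Measurable u) (hGm : Measurable G) (hu : IsL2OnBalls m u)
    (hG : IsL2OnBalls m G) (hG0 : ∀ᵐ x ∂m, 0 ≤ G x)
    (h : ∀ P : Measure (UCurve X), IsTestPlan2 m P → HasBoundedTracks P → ∀ l : ℝ, 0 < l →
      ENNReal.ofReal |∫ x, u x ∂(marg P 1) - ∫ x, u x ∂(marg P 0)| ≤
        ∫⁻ γ, (∫⁻ t in Icc (0 : ℝ) 1, (ENNReal.ofReal (l / 2) * ENNReal.ofReal (G (γ.ext t)) ^ 2 +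
          ENNReal.ofReal (1 / (2 * l)) * upperSpeed γ t ^ 2)) ∂P) :
    IsWUGLoc m u G := by
  have h1 : ∀ P : Measure (UCurve X), IsTestPlan2 m P → HasBoundedTracks P → ∀ s t l : ℝ,
      0 ≤ s → s < t → t ≤ 1 → 0 < l →
      ENNReal.ofReal |∫ γ, (u (γ.ext t) - u (γ.ext s)) ∂P| ≤ ∫⁻ γ, (∫⁻ r in Icc s t,
        (ENNReal.ofReal (l / 2) * ENNReal.ofReal (G (γ.ext r)) ^ 2 +
          ENNReal.ofReal (1 / (2 * l)) * upperSpeed γ r ^ 2)) ∂P := by
    intro P hP hB s t l hs hst ht hl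
    have hd : 0 < t - s := sub_pos.2 hst
    obtain ⟨a1, a2⟩ := testPlan_map_restr hP hB (a := s) (b := t) ⟨hs, hst.le.trans ht⟩
      ⟨hs.trans hst.le, ht⟩
    have a3 := h _ a1 a2 (l * (t - s)) (mul_pos hl hd)
    rw [marg_map_restr P s t ⟨zero_le_one, le_rfl⟩, marg_map_restr P s t ⟨le_rfl, zero_le_one⟩,
      mul_one, mul_zero, add_zero, add_sub_cancel, marg, marg,
      integral_map (continuous_ext_left t).aemeasurable hum.aestronglyMeasurable,
      integral_map (continuous_ext_left s).aemeasurable hum.aestronglyMeasurable,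
      ← integral_sub (LW_int hum hu hP hB t) (LW_int hum hu hP hB s)] at a3
    refine a3.trans ((lintegral_map_le _ _).trans (lintegral_mono fun γ => ?_))
    refine le_trans ?_ (St_change _ hst.le)
    rw [← restrict_Ioo_eq_restrict_Icc]
    refine setLIntegral_mono' measurableSet_Ioo fun r hr => ?_
    rw [restr_ext s t γ (Ioo_subset_Icc_self hr), mul_add, ← mul_assoc (ENNReal.ofReal |t - s|),
      ← mul_assoc (ENNReal.ofReal |t - s|), abs_of_pos hd, ← ENNReal.ofReal_mul hd.le, ← ENNReal.ofReal_mul hd.le]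
    refine add_le_add (le_of_eq ?_) ?_
    · congr 2
      ring
    · refine (mul_le_mul_right (pow_le_pow_left' (upperSpeed_restr_le s t γ hr) 2) _).trans_eq ?_
      rw [mul_pow, ← mul_assoc, abs_of_pos hd, ← ENNReal.ofReal_pow hd.le,
        ← ENNReal.ofReal_mul (by positivity)]
      congr 2
      field_simp
  refine ⟨hG, hG0, fun P hP hB => lintegral_mono_ae ?_⟩
  have := hP.1
  have h2 : ∀ᵐ γ ∂P, ∀ s t l : ℚ, 0 ≤ s → s ≤ t → t ≤ 1 → 0 < l →
      ENNReal.ofReal |u (γ.ext t) - u (γ.ext s)| ≤ ∫⁻ r in Icc (s : ℝ) (t : ℝ),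
        (ENNReal.ofReal ((l : ℝ) / 2) * ENNReal.ofReal (G (γ.ext r)) ^ 2 +
          ENNReal.ofReal (1 / (2 * (l : ℝ))) * upperSpeed γ r ^ 2) := by
    simp only [ae_all_iff]
    intro s t l hs hst ht hl
    rcases hst.eq_or_lt with rfl | hst
    · exact .of_forall fun γ => by simp
    refine LW_ae ((hum.comp (continuous_ext_left _).measurable).sub
      (hum.comp (continuous_ext_left _).measurable))
      ((LW_int hum hu hP hB _).sub (LW_int hum hu hP hB _)) fun B hBm => ?_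
    by_cases h0 : P B = 0
    · rw [setIntegral_measure_zero _ h0]
      simp
    obtain ⟨a1, a2⟩ := testPlan_cond hP hB hBm h0
    have a3 := h1 _ a1 a2 s t l (by exact_mod_cast hs) (by exact_mod_cast hst)
      (by exact_mod_cast ht) (by exact_mod_cast hl)
    rw [ProbabilityTheory.cond, lintegral_smul_measure, integral_smul_measure, smul_eq_mul,
      smul_eq_mul, abs_mul, abs_of_nonneg ENNReal.toReal_nonneg,
      ENNReal.ofReal_mul ENNReal.toReal_nonneg,
      ENNReal.ofReal_toReal (ENNReal.inv_ne_top.2 h0)] at a3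
    exact (ENNReal.mul_le_mul_iff_right (ENNReal.inv_ne_zero.2 (measure_ne_top _ _))
      (ENNReal.inv_ne_top.2 h0)).1 a3
  have m1 : Measurable fun p : UCurve X × ℝ => ENNReal.ofReal (G (p.1.ext p.2) ^ 2) :=
    ((hGm.comp continuous_ext.measurable).pow_const 2).ennreal_ofReal
  filter_upwards [h2, ae_lt_top m1.lintegral_prod_right' (testPlan_lintegral_lt_top hP hB hG).2.ne,
    ae_lt_top (measurable_upperSpeed.pow_const 2).lintegral_prod_right' hP.2.2.2.ne]
    with γ g1 g2 g3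
  rw [← ext_one, ← ext_zero]
  refine le_lintegral_mul_of_weights (fun r => u (γ.ext r)) (fun r => ENNReal.ofReal (G (γ.ext r)))
    (upperSpeed γ) ((hGm.comp continuous_ext.measurable).ennreal_ofReal.comp
      measurable_prodMk_left).aemeasurable
    (measurable_upperSpeed.comp measurable_prodMk_left).aemeasurable
    (lt_of_le_of_lt (lintegral_mono fun r => ?_) g2) g3 g1
  rcases le_total 0 (G (γ.ext r)) with h3 | h3
  · exact (ENNReal.ofReal_pow h3 2).ge
  · simp [ENNReal.ofReal_of_nonpos h3]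

theorem isWUGLoc_of_integrated {u G : X → ℝ} (hu : IsL2OnBalls m u) (hG : IsL2OnBalls m G)
    (hG0 : ∀ᵐ x ∂m, 0 ≤ G x)
    (h : ∀ P : Measure (UCurve X), IsTestPlan2 m P → HasBoundedTracks P → ∀ l : ℝ, 0 < l →
      ENNReal.ofReal |∫ x, u x ∂(marg P 1) - ∫ x, u x ∂(marg P 0)| ≤
        ∫⁻ γ, (∫⁻ t in Icc (0 : ℝ) 1, (ENNReal.ofReal (l / 2) * ENNReal.ofReal (G (γ.ext t)) ^ 2 +
          ENNReal.ofReal (1 / (2 * l)) * upperSpeed γ t ^ 2)) ∂P) :
    IsWUGLoc m u G := by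
  obtain ⟨u₀, hu₀, eu⟩ := (isL2OnBalls_aemeasurable hu).aemeasurable
  obtain ⟨G₀, hG₀, eG⟩ := (isL2OnBalls_aemeasurable hG).aemeasurable
  refine isWUGLoc_congr (LW_meas hu₀ hG₀ (fun o R => (hu o R).ae_eq (ae_restrict_of_ae eu))
    (fun o R => (hG o R).ae_eq (ae_restrict_of_ae eG)) ?_ fun P hP hB l hl => ?_) eu.symm eG.symm
  · filter_upwards [hG0, eG] with x h1 h2 using h2 ▸ h1
  · obtain ⟨C, o, R, h1, -⟩ := testPlan_bdd hP hB
    have hac : ∀ r, marg P r ≪ m := fun r => Measure.absolutelyContinuous_of_le_smul (h1 r).2.1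
    rw [← integral_congr_ae ((hac 1).ae_eq eu), ← integral_congr_ae ((hac 0).ae_eq eu)]
    refine (h P hP hB l hl).trans_eq (lintegral_congr_ae ?_)
    filter_upwards [testPlan_ae_ae_ext hP eG] with γ h0
    refine lintegral_congr_ae ?_
    filter_upwards [h0] with t ht
    rw [ht]

end Crest.Agent.R242
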