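import Crest.Agent.R242.Curves

/-! Row 242: absolutely continuous curves. -/

set_option autoImplicit false
set_option linter.unusedSectionVars false

open MeasureTheory Filter Set Topology
open scoped ENNReal NNReal
open Crest.GeometryTopology.SyntheticRicci

namespace Crest.Agent.R242

variable {X : Type*} [MetricSpace X] [ProperSpace X] [MeasurableSpace X] [BorelSpace X]
  {m : Measure X} [IsLocallyFiniteMeasure m] [m.IsOpenPosMeasure]

namespace OneDAux

/-- The primitive of an integrable density. -/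
theorem exists_prim (a : ℝ → ℝ≥0∞) (ha : AEMeasurable a (volume.restrict (Icc (0 : ℝ) 1)))
    (hfin : ∫⁻ r in Icc (0 : ℝ) 1, a r < ⊤) :
    ∃ A : ℝ → ℝ, AbsolutelyContinuousOnInterval A 0 1 ∧
      (∀ s t : ℝ, 0 ≤ s → s ≤ t → t ≤ 1 →
        0 ≤ A t - A s ∧ ∫⁻ r in Icc s t, a r = ENNReal.ofReal (A t - A s)) ∧
      ∀ᵐ t, t ∈ Icc (0 : ℝ) 1 → HasDerivAt A (a t).toReal t := by
  have hi : IntegrableOn (fun r => (a r).toReal) (Icc (0 : ℝ) 1) :=
    integrable_toReal_of_lintegral_ne_top ha hfin.ne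
  have hI : IntervalIntegrable (fun r => (a r).toReal) volume 0 1 :=
    (intervalIntegrable_iff_integrableOn_Icc_of_le zero_le_one).2 hi
  refine ⟨fun t => ∫ r in (0 : ℝ)..t, (a r).toReal,
    hI.absolutelyContinuousOnInterval_intervalIntegral left_mem_uIcc, fun s t hs hst ht => ?_, ?_⟩
  · have h1 : Icc s t ⊆ Icc 0 1 := Icc_subset_Icc hs ht
    have h2 : ∫⁻ r in Icc s t, a r < ⊤ := (lintegral_mono_set h1).trans_lt hfin
    have h3 : AEMeasurable a (volume.restrict (Icc s t)) :=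
      ha.mono_measure (Measure.restrict_mono h1 le_rfl)
    have h4 : ∀ r ∈ Icc (0 : ℝ) 1, IntervalIntegrable (fun r => (a r).toReal) volume 0 r :=
      fun r hr => hI.mono_set (uIcc_subset_uIcc_left (by rwa [uIcc_of_le zero_le_one]))
    rw [intervalIntegral.integral_interval_sub_left (h4 t ⟨hs.trans hst, ht⟩)
      (h4 s ⟨hs, hst.trans ht⟩), intervalIntegral.integral_of_le hst,
      ← integral_Icc_eq_integral_Ioc, integral_toReal h3 (ae_lt_top' h3 h2.ne)]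
    exact ⟨ENNReal.toReal_nonneg, (ENNReal.ofReal_toReal h2.ne).symm⟩
  · filter_upwards [hI.ae_hasDerivAt_integral] with t ht h
    exact ht (by rwa [uIcc_of_le zero_le_one]) 0 left_mem_uIcc

theorem ac_of_le {Y : Type*} [PseudoMetricSpace Y] {f : ℝ → Y} {A : ℝ → ℝ} (L : ℝ)
    (hA : AbsolutelyContinuousOnInterval A 0 1)
    (h : ∀ s ∈ Icc (0 : ℝ) 1, ∀ t ∈ Icc (0 : ℝ) 1, dist (f s) (f t) ≤ L * |A s - A t|) :
    AbsolutelyContinuousOnInterval f 0 1 := by
  have h1 := Tendsto.const_mul L hA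
  rw [mul_zero] at h1
  refine squeeze_zero' (Eventually.of_forall fun E => Finset.sum_nonneg fun _ _ => dist_nonneg)
    (eventually_inf_principal.2 (Eventually.of_forall fun E hE => ?_)) h1
  rw [Finset.mul_sum]
  refine Finset.sum_le_sum fun i hi => ?_
  have h2 := hE.1 i hi
  rw [uIcc_of_le zero_le_one] at h2
  exact h _ h2.1 _ h2.2

theorem abs_of_le {Y : Type*} [PseudoMetricSpace Y] {f : ℝ → Y} {A : ℝ → ℝ}
    (h : ∀ s t : ℝ, 0 ≤ s → s ≤ t → t ≤ 1 → dist (f s) (f t) ≤ A t - A s) :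
    ∀ s ∈ Icc (0 : ℝ) 1, ∀ t ∈ Icc (0 : ℝ) 1, dist (f s) (f t) ≤ |A s - A t| := by
  intro s hs t ht
  rcases le_total s t with h1 | h1
  · exact (h s t hs.1 h1 ht.2).trans (by rw [abs_sub_comm]; exact le_abs_self _)
  · rw [dist_comm]
    exact (h t s ht.1 h1 hs.2).trans (le_abs_self _)

theorem exists_dom {γ : UCurve X} (hγ : HasL2Speed γ) :
    ∃ A : ℝ → ℝ, AbsolutelyContinuousOnInterval A 0 1 ∧
      ∀ s ∈ Icc (0 : ℝ) 1, ∀ t ∈ Icc (0 : ℝ) 1, dist (γ.ext s) (γ.ext t) ≤ |A s - A t| := by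
  obtain ⟨a, ha, h2, h⟩ := hγ
  have hfin : ∫⁻ r in Icc (0 : ℝ) 1, a r < ⊤ := by
    calc ∫⁻ r in Icc (0 : ℝ) 1, a r ≤ ∫⁻ r in Icc (0 : ℝ) 1, (1 + a r ^ 2) := by
          refine lintegral_mono fun r => ?_
          rcases le_total (a r) 1 with h1 | h1
          · exact h1.trans le_self_add
          · exact (le_self_pow₀ h1 two_ne_zero).trans le_add_self
      _ < ⊤ := by
          rw [lintegral_add_left measurable_const]
          exact ENNReal.add_lt_top.2 ⟨by simp, h2⟩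
  obtain ⟨A, hA, h3, -⟩ := exists_prim a ha.aemeasurable hfin
  refine ⟨A, hA, abs_of_le fun s t hs hst ht => ?_⟩
  have h4 := h ⟨s, hs, hst.trans ht⟩ ⟨t, hs.trans hst, ht⟩ hst
  rw [← ext_coe, ← ext_coe, (h3 s t hs hst ht).2, edist_dist] at h4
  exact (ENNReal.ofReal_le_ofReal_iff (h3 s t hs hst ht).1).1 h4

theorem ftc {w : ℝ → ℝ} {s t : ℝ} (hw : AbsolutelyContinuousOnInterval w s t) (hst : s ≤ t) :
    ENNReal.ofReal |w t - w s| ≤ ∫⁻ r in Icc s t, ENNReal.ofReal |deriv w r| := by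
  rw [← hw.integral_deriv_eq_sub, intervalIntegral.integral_of_le hst,
    ← integral_Icc_eq_integral_Ioc]
  simp only [← Real.enorm_eq_ofReal_abs]
  exact enorm_integral_le_lintegral_enorm _

theorem tendsto_abs {A : ℝ → ℝ} {D t : ℝ} (h : HasDerivAt A D t) :
    Tendsto (fun s => |A s - A t| / |s - t|) (𝓝[≠] t) (𝓝 |D|) := by
  simpa only [slope_def_field, abs_div] using (hasDerivAt_iff_tendsto_slope.1 h).abs

theorem ae_Ioo : ∀ᵐ t ∂(volume.restrict (Icc (0 : ℝ) 1)), t ∈ Ioo (0 : ℝ) 1 := by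
  rw [← Measure.restrict_congr_set Ioo_ae_eq_Icc]
  exact ae_restrict_mem measurableSet_Ioo

theorem upperSpeed_ne_top {γ : UCurve X} {A : ℝ → ℝ} {D t : ℝ} (hA : HasDerivAt A D t)
    (h : ∀ᶠ s in 𝓝 t, dist (γ.ext s) (γ.ext t) ≤ |A s - A t|) : upperSpeed γ t ≠ ⊤ := by
  refine ne_top_of_le_ne_top (ENNReal.ofReal_ne_top (r := |D|)) ?_
  rw [← (ENNReal.tendsto_ofReal (tendsto_abs hA)).limsup_eq]
  refine limsup_le_limsup ((h.filter_mono nhdsWithin_le_nhds).mono fun s hs => ?_)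
  exact ENNReal.ofReal_le_ofReal (div_le_div_of_nonneg_right hs (abs_nonneg _))

theorem ascSlope_le {u : X → ℝ} {x : X} {L : ℝ≥0} (h : LipschitzOnWith L u (Metric.closedBall x 1)) :
    ascSlope u x ≤ L := by
  refine limsup_le_of_le (by isBoundedDefault) ?_
  filter_upwards [nhdsWithin_le_nhds (Metric.closedBall_mem_nhds x one_pos)] with y hy
  rw [← ENNReal.ofReal_coe_nnreal]
  refine ENNReal.ofReal_le_ofReal (div_le_of_le_mul₀ dist_nonneg L.2 ?_)
  exact (le_abs_self _).trans (h.dist_le_mul y hy x (Metric.mem_closedBall_self zero_le_one))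

theorem deriv_le {γ : UCurve X} {u : X → ℝ} {d t : ℝ} (hd : HasDerivAt (fun t => u (γ.ext t)) d t)
    (h1 : ascSlope u (γ.ext t) ≠ ⊤) (h2 : upperSpeed γ t ≠ ⊤) :
    ENNReal.ofReal |d| ≤ ascSlope u (γ.ext t) * upperSpeed γ t := by
  refine ENNReal.le_mul_of_forall_lt (Or.inr h2) (Or.inl h1) fun S hS V hV => ?_
  rcases eq_or_ne S ⊤ with rfl | hS'
  · rw [ENNReal.top_mul (ne_zero_of_lt hV)]
    exact le_top
  rcases eq_or_ne V ⊤ with rfl | hV'
  · rw [ENNReal.mul_top (ne_zero_of_lt hS)]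
    exact le_top
  lift S to ℝ≥0 using hS'
  lift V to ℝ≥0 using hV'
  have e1 : ∀ᶠ y in 𝓝 (γ.ext t), u y - u (γ.ext t) ≤ S * dist y (γ.ext t) := by
    have := eventually_nhdsWithin_iff.1 (eventually_lt_of_limsup_lt hS)
    filter_upwards [this] with y hy
    rcases eq_or_ne y (γ.ext t) with rfl | hne
    · simp
    · exact (div_le_iff₀ (dist_pos.2 hne)).1 (ENNReal.ofReal_le_coe.1 (hy hne).le)
  have hc : ContinuousAt γ.ext t :=
    (continuous_ext.comp (continuous_const.prodMk continuous_id)).continuousAt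
  have e2 : ∀ᶠ s in 𝓝[≠] t, u (γ.ext s) - u (γ.ext t) ≤ S * V * |s - t| := by
    filter_upwards [nhdsWithin_le_nhds (hc.eventually e1), eventually_lt_of_limsup_lt hV,
      self_mem_nhdsWithin] with s h3 h4 h5
    have h6 := (div_le_iff₀ (abs_pos.2 (sub_ne_zero.2 h5))).1 (ENNReal.ofReal_le_coe.1 h4.le)
    rw [mul_assoc]
    exact h3.trans (mul_le_mul_of_nonneg_left h6 S.2)
  have ht := hasDerivAt_iff_tendsto_slope.1 hd
  rw [← ENNReal.coe_mul, ENNReal.ofReal_le_coe, NNReal.coe_mul, abs_le]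
  constructor
  · refine ge_of_tendsto (ht.mono_left (nhdsLT_le_nhdsNE t)) ?_
    filter_upwards [nhdsLT_le_nhdsNE t e2, self_mem_nhdsWithin] with s h3 h4
    have h5 : s - t < 0 := sub_neg.2 h4
    rw [abs_of_neg h5] at h3
    rw [slope_def_field, le_div_iff_of_neg h5]
    linarith
  · refine le_of_tendsto (ht.mono_left (nhdsGT_le_nhdsNE t)) ?_
    filter_upwards [nhdsGT_le_nhdsNE t e2, self_mem_nhdsWithin] with s h3 h4
    have h5 : 0 < s - t := sub_pos.2 h4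
    rw [abs_of_pos h5] at h3
    rwa [slope_def_field, div_le_iff₀ h5]

theorem comp_curve {γ : UCurve X} (hγ : HasL2Speed γ) {u : X → ℝ} (hu : LipBdd u) :
    AbsolutelyContinuousOnInterval (fun t => u (γ.ext t)) 0 1 ∧
    ∀ᵐ t ∂(volume.restrict (Icc (0 : ℝ) 1)),
      ENNReal.ofReal |deriv (fun t => u (γ.ext t)) t| ≤
        ascSlope u (γ.ext t) * upperSpeed γ t := by
  obtain ⟨A, hA, h⟩ := exists_dom hγ
  obtain ⟨R, hR⟩ := (isCompact_range γ.toMap.continuous).isBounded.subset_closedBall (γ.ext 0)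
  obtain ⟨L, hL⟩ := hu (γ.ext 0) R
  have hac : AbsolutelyContinuousOnInterval (fun t => u (γ.ext t)) 0 1 :=
    ac_of_le L hA fun s hs t ht => (hL.dist_le_mul _ (hR ⟨_, rfl⟩) _ (hR ⟨_, rfl⟩)).trans
      (mul_le_mul_of_nonneg_left (h s hs t ht) L.2)
  refine ⟨hac, ?_⟩
  filter_upwards [ae_Ioo, ae_restrict_of_ae hA.ae_differentiableAt,
    ae_restrict_of_ae hac.ae_differentiableAt] with t ht h1 h2
  have ht' : t ∈ uIcc (0 : ℝ) 1 := by
    rw [uIcc_of_le zero_le_one]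
    exact Ioo_subset_Icc_self ht
  obtain ⟨L', hL'⟩ := hu (γ.ext t) 1
  refine deriv_le (h2 ht').hasDerivAt (ne_top_of_le_ne_top ENNReal.coe_ne_top (ascSlope_le hL'))
    (upperSpeed_ne_top (h1 ht').hasDerivAt ?_)
  filter_upwards [Icc_mem_nhds ht.1 ht.2] with s hs
  exact h s hs t (Ioo_subset_Icc_self ht)

end OneDAux

theorem edist_le_lintegral_upperSpeed {γ : UCurve X} (hγ : HasL2Speed γ) {s t : ℝ}
    (hs : s ∈ Icc (0 : ℝ) 1) (ht : t ∈ Icc (0 : ℝ) 1) (hst : s ≤ t) :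
    edist (γ.ext s) (γ.ext t) ≤ ∫⁻ r in Icc s t, upperSpeed γ r := by
  have hl : LipschitzWith 1 fun y => dist (γ.ext s) y := LipschitzWith.dist_right _
  obtain ⟨h1, h2⟩ := OneDAux.comp_curve hγ (u := fun y => dist (γ.ext s) y)
    fun _ _ => ⟨1, hl.lipschitzOnWith⟩
  have h3 := OneDAux.ftc (h1.mono (c := s) (d := t) (by
    rw [uIcc_of_le hst, uIcc_of_le zero_le_one]; exact Icc_subset_Icc hs.1 ht.2)) hst
  rw [dist_self, sub_zero, abs_of_nonneg dist_nonneg, ← edist_dist] at h3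
  refine h3.trans (lintegral_mono_ae ?_)
  filter_upwards [ae_restrict_of_ae_restrict_of_subset (Icc_subset_Icc hs.1 ht.2) h2] with r hr
  refine hr.trans ((mul_le_mul_left (OneDAux.ascSlope_le hl.lipschitzOnWith) _).trans_eq ?_)
  simp

theorem lipBdd_comp_curve {γ : UCurve X} (hγ : HasL2Speed γ) {u : X → ℝ} (hu : LipBdd u) :
    AbsolutelyContinuousOnInterval (fun t => u (γ.ext t)) 0 1 ∧
    ∀ᵐ t ∂(volume.restrict (Icc (0 : ℝ) 1)),
      ENNReal.ofReal |deriv (fun t => u (γ.ext t)) t| ≤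
        ascSlope u (γ.ext t) * upperSpeed γ t := by
  exact OneDAux.comp_curve hγ hu

/-- A function on the rationals of `[0,1]` with dominated increments extends to an absolutely
continuous function. -/
theorem exists_ac_extension (v : ℝ → ℝ) (a : ℝ → ℝ≥0∞)
    (ha : AEMeasurable a (volume.restrict (Icc (0 : ℝ) 1)))
    (hfin : ∫⁻ r in Icc (0 : ℝ) 1, a r < ⊤)
    (hv : ∀ s t : ℚ, 0 ≤ s → s ≤ t → t ≤ 1 →
      ENNReal.ofReal |v t - v s| ≤ ∫⁻ r in Icc (s : ℝ) (t : ℝ), a r) :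
    ∃ w : ℝ → ℝ, AbsolutelyContinuousOnInterval w 0 1 ∧
      (∀ s : ℚ, 0 ≤ s → s ≤ 1 → w s = v s) ∧
      (∀ s t : ℝ, 0 ≤ s → s ≤ t → t ≤ 1 →
        ENNReal.ofReal |w t - w s| ≤ ∫⁻ r in Icc s t, a r) ∧
      ∀ᵐ t ∂(volume.restrict (Icc (0 : ℝ) 1)), ENNReal.ofReal |deriv w t| ≤ a t := by
  obtain ⟨A, hA, h1, h2⟩ := OneDAux.exists_prim a ha hfin
  have h3 : ∀ s t : ℚ, 0 ≤ s → s ≤ t → t ≤ 1 → |v t - v s| ≤ A t - A s := fun s t hs hst ht => by
    have h := h1 s t (by exact_mod_cast hs) (by exact_mod_cast hst) (by exact_mod_cast ht)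
    exact (ENNReal.ofReal_le_ofReal_iff h.1).1 ((hv s t hs hst ht).trans_eq h.2)
  have h4 : ∀ p q : {q : ℚ // 0 ≤ q ∧ q ≤ 1}, v p - v q ≤ |A p - A q| := fun p q => by
    rcases le_total p.1 q.1 with h | h
    · rw [abs_sub_comm]
      exact ((le_abs_self _).trans ((abs_sub_comm _ _).trans_le (h3 p q p.2.1 h q.2.2))).trans
        (le_abs_self _)
    · exact ((le_abs_self _).trans (h3 q p q.2.1 h p.2.2)).trans (le_abs_self _)
  have : Nonempty {q : ℚ // 0 ≤ q ∧ q ≤ 1} := ⟨⟨0, le_rfl, zero_le_one⟩⟩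
  have h5 : ∀ (t : ℝ) (p q : {q : ℚ // 0 ≤ q ∧ q ≤ 1}),
      v p - |A t - A p| ≤ v q + |A t - A q| := fun t p q => by
    have := abs_sub_le (A p) (A t) (A q)
    rw [abs_sub_comm (A p) (A t)] at this
    linarith [h4 p q]
  obtain ⟨w, hw⟩ : ∃ w : ℝ → ℝ, ∀ (t : ℝ) (q : ℚ), 0 ≤ q → q ≤ 1 → |w t - v q| ≤ |A t - A q| := by
    refine ⟨fun t => ⨆ p : {q : ℚ // 0 ≤ q ∧ q ≤ 1}, (v p - |A t - A p|), fun t q h0 h => ?_⟩
    have e1 := ciSup_le fun p => h5 t p ⟨q, h0, h⟩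
    have e2 := le_ciSup (f := fun p : {q : ℚ // 0 ≤ q ∧ q ≤ 1} => v p - |A t - A p|)
      ⟨_, forall_mem_range.2 fun p => h5 t p ⟨q, h0, h⟩⟩ ⟨q, h0, h⟩
    exact abs_le.2 ⟨by linarith, by linarith⟩
  have h6 : ∀ s t : ℝ, 0 ≤ s → s ≤ t → t ≤ 1 → dist (w s) (w t) ≤ A t - A s := by
    intro s t hs hst ht
    rcases hst.eq_or_lt with rfl | hlt
    · simp
    obtain ⟨q, hq1, hq2⟩ := exists_rat_btwn hlt
    have q0 : (0 : ℝ) ≤ q := hs.trans hq1.le
    have q1 : (q : ℝ) ≤ 1 := hq2.le.trans ht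
    have e1 := hw s q (by exact_mod_cast q0) (by exact_mod_cast q1)
    have e2 := hw t q (by exact_mod_cast q0) (by exact_mod_cast q1)
    rw [abs_sub_comm (A s), abs_of_nonneg (h1 s q hs hq1.le q1).1] at e1
    rw [abs_of_nonneg (h1 q t q0 hq2.le ht).1, abs_sub_comm] at e2
    have := abs_sub_le (w s) (v q) (w t)
    rw [Real.dist_eq]
    linarith
  have h7 := OneDAux.abs_of_le h6
  refine ⟨w, OneDAux.ac_of_le 1 hA (by simpa only [one_mul] using h7), fun s hs hs' => ?_,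
    fun s t hs hst ht => ?_, ?_⟩
  · simpa [sub_eq_zero] using hw s s hs hs'
  · rw [(h1 s t hs hst ht).2, abs_sub_comm]
    exact ENNReal.ofReal_le_ofReal (h6 s t hs hst ht)
  · filter_upwards [OneDAux.ae_Ioo, ae_restrict_of_ae h2] with t ht hd
    by_cases hw' : DifferentiableAt ℝ w t
    · refine le_trans (ENNReal.ofReal_le_ofReal ?_) ENNReal.ofReal_toReal_le
      rw [← abs_of_nonneg (ENNReal.toReal_nonneg (a := a t))]
      refine le_of_tendsto_of_tendsto (OneDAux.tendsto_abs hw'.hasDerivAt)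
        (OneDAux.tendsto_abs (hd (Ioo_subset_Icc_self ht))) ?_
      filter_upwards [nhdsWithin_le_nhds (Icc_mem_nhds ht.1 ht.2)] with s hs
      exact div_le_div_of_nonneg_right (h7 s hs t (Ioo_subset_Icc_self ht)) (abs_nonneg _)
    · simp [deriv_zero_of_not_differentiableAt hw']

/-- The derivative vanishes almost everywhere on the preimage of a countable set. -/
theorem ae_deriv_eq_zero_of_countable {w : ℝ → ℝ} (hw : AbsolutelyContinuousOnInterval w 0 1)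
    {S : Set ℝ} (hS : S.Countable) :
    ∀ᵐ t ∂(volume.restrict (Icc (0 : ℝ) 1)),
      DifferentiableAt ℝ w t ∧ (w t ∈ S → deriv w t = 0) := by
  have h1 : ∀ c, {t | w t = c ∧ deriv w t ≠ 0}.Countable := fun c => by
    refine Countable.mono (fun t ht => ?_)
      (countable_setOfPred_isolated_right_within (s := {t | w t = c}))
    refine ⟨ht.1, ?_⟩
    have h2 : ∀ᶠ y in 𝓝[≠] t, w y ≠ c :=
      not_frequently.1 fun h => ht.2 (deriv_zero_of_frequently_const h)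
    rw [← eventually_false_iff_eq_bot]
    filter_upwards [nhdsWithin_mono t (fun y hy => ne_of_gt hy.2) h2, self_mem_nhdsWithin]
      with y h3 h4
    exact h3 h4.1
  have h2 : ∀ᵐ t, t ∉ ⋃ c ∈ S, {t | w t = c ∧ deriv w t ≠ 0} :=
    (hS.biUnion fun c _ => h1 c).ae_notMem _
  filter_upwards [ae_restrict_mem measurableSet_Icc, ae_restrict_of_ae hw.ae_differentiableAt,
    ae_restrict_of_ae h2] with t ht h3 h4
  refine ⟨h3 (by rwa [uIcc_of_le zero_le_one]), fun h5 => by_contra fun h6 => h4 ?_⟩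
  exact mem_biUnion h5 ⟨rfl, h6⟩

theorem ofReal_abs_sub_le_lintegral_deriv {w : ℝ → ℝ}
    (hw : AbsolutelyContinuousOnInterval w 0 1) :
    ENNReal.ofReal |w 1 - w 0| ≤ ∫⁻ t in Icc (0 : ℝ) 1, ENNReal.ofReal |deriv w t| := by
  exact OneDAux.ftc hw zero_le_one

end Crest.Agent.R242
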