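import Crest.Agent.R242.OTBasic
import Crest.Agent.R242.OneD

/-! Row 242: summing short steps along a test plan. -/

set_option autoImplicit false
set_option linter.unusedSectionVars false

open MeasureTheory Filter Set Topology
open scoped ENNReal NNReal
open Crest.GeometryTopology.SyntheticRicci

namespace Crest.Agent.R242

variable {X : Type*} [MetricSpace X] [ProperSpace X] [MeasurableSpace X] [BorelSpace X]
  {m : Measure X} [IsLocallyFiniteMeasure m] [m.IsOpenPosMeasure]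

theorem Riemann_amgm {h e β l : ℝ} (hh : 0 ≤ h) (he : 0 ≤ e) (hβ : 0 ≤ β) (hl : 0 < l) :
    √(h * e) * √β ≤ l / 2 * (h * β) + e / (2 * l) := by
  rw [← Real.sqrt_mul (by positivity)]
  refine Real.sqrt_le_iff.2 ⟨by positivity, ?_⟩
  have e1 : h * e * β = 4 * (l / 2 * (h * β)) * (e / (2 * l)) := by field_simp; ring
  rw [e1]
  nlinarith [sq_nonneg (l / 2 * (h * β) - e / (2 * l))]

theorem riemann_step {a b E : ℝ → ℝ} (hb : Continuous b) (hb0 : ∀ t, 0 ≤ b t)
    (hE : MonotoneOn E (Icc (0 : ℝ) 1))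
    (h : ∀ η : ℝ, 0 < η → ∃ δ A : ℝ, 0 < δ ∧ ∀ s t : ℝ, 0 ≤ s → s ≤ t → t ≤ 1 → t - s ≤ δ →
      a t - a s ≤ √((t - s) * (E t - E s)) * √(b s + η) + A * ((t - s) * (E t - E s)))
    {l : ℝ} (hl : 0 < l) :
    a 1 - a 0 ≤ l / 2 * (∫ t in (0 : ℝ)..1, b t) + (E 1 - E 0) / (2 * l) := by
  refine le_of_forall_pos_le_add fun ε hε => ?_
  have hη : 0 < ε / (2 * l) := by positivity
  obtain ⟨δ, A, hδ, hstep⟩ := h _ hη
  obtain ⟨δ', hδ', huc⟩ := Metric.uniformContinuousOn_iff.1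
    ((isCompact_Icc (a := (0 : ℝ)) (b := 1)).uniformContinuousOn_of_continuous hb.continuousOn) _ hη
  have hE01 : 0 ≤ E 1 - E 0 :=
    sub_nonneg.2 (hE (left_mem_Icc.2 zero_le_one) (right_mem_Icc.2 zero_le_one) zero_le_one)
  obtain ⟨n, hn⟩ := exists_nat_one_div_lt
    (show 0 < min δ (min δ' (ε / (2 * (|A| * (E 1 - E 0) + 1)))) by positivity)
  set r : ℝ := 1 / ((n : ℝ) + 1) with hr
  have hr0 : 0 < r := by positivity
  have hr1 : ((n + 1 : ℕ) : ℝ) * r = 1 := by rw [hr]; push_cast; field_simp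
  have hrδ : r ≤ δ := hn.le.trans (min_le_left _ _)
  have hrδ' : r < δ' := hn.trans_le ((min_le_right _ _).trans (min_le_left _ _))
  have hrA : r ≤ ε / (2 * (|A| * (E 1 - E 0) + 1)) :=
    hn.le.trans ((min_le_right _ _).trans (min_le_right _ _))
  have key : ∀ k ∈ Finset.range (n + 1), a (((k + 1 : ℕ) : ℝ) * r) - a ((k : ℝ) * r) ≤
      l / 2 * (∫ t in ((k : ℝ) * r)..(((k + 1 : ℕ) : ℝ) * r), b t) + r * (ε / 2) +
        (1 / (2 * l) + |A| * r) * (E (((k + 1 : ℕ) : ℝ) * r) - E ((k : ℝ) * r)) := by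
    intro k hk
    set s : ℝ := (k : ℝ) * r with hs
    set t : ℝ := ((k + 1 : ℕ) : ℝ) * r with ht
    have hts : t - s = r := by rw [hs, ht]; push_cast; ring
    have hs0 : 0 ≤ s := by positivity
    have hst : s ≤ t := by linarith
    have ht1 : t ≤ 1 := by
      rw [← hr1]
      exact mul_le_mul_of_nonneg_right (by exact_mod_cast Finset.mem_range.1 hk) hr0.le
    have hsI : s ∈ Icc (0 : ℝ) 1 := ⟨hs0, hst.trans ht1⟩
    have hΔ : 0 ≤ E t - E s := sub_nonneg.2 (hE hsI ⟨hs0.trans hst, ht1⟩ hst)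
    have h1 := hstep s t hs0 hst ht1 (by rw [hts]; exact hrδ)
    rw [hts] at h1
    have h2 := Riemann_amgm hr0.le hΔ (add_nonneg (hb0 s) hη.le) hl
    have h3 : r * (b s - ε / (2 * l)) ≤ ∫ x in s..t, b x := by
      have := intervalIntegral.integral_mono_on (μ := volume) hst
        (intervalIntegrable_const (c := b s - ε / (2 * l))) (hb.intervalIntegrable s t)
        fun x hx => by
          have h4 := huc s hsI x ⟨hs0.trans hx.1, hx.2.trans ht1⟩ (by
            rw [Real.dist_eq, abs_sub_comm, abs_of_nonneg (sub_nonneg.2 hx.1)]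
            linarith [hx.2])
          rw [Real.dist_eq] at h4
          linarith [(abs_lt.1 h4).2]
      rwa [intervalIntegral.integral_const, hts, smul_eq_mul] at this
    have h4 : A * (r * (E t - E s)) ≤ |A| * (r * (E t - E s)) :=
      mul_le_mul_of_nonneg_right (le_abs_self A) (by positivity)
    have h5 := mul_le_mul_of_nonneg_left h3 (show 0 ≤ l / 2 by positivity)
    have e1 : l / 2 * (r * (b s + ε / (2 * l))) =
        l / 2 * (r * (b s - ε / (2 * l))) + r * (ε / 2) := by field_simp; ring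
    have e2 : (1 / (2 * l) + |A| * r) * (E t - E s) =
        (E t - E s) / (2 * l) + |A| * (r * (E t - E s)) := by ring
    linarith
  have hsum := Finset.sum_le_sum key
  rw [Finset.sum_range_sub (fun k : ℕ => a ((k : ℝ) * r)), Finset.sum_add_distrib,
    Finset.sum_add_distrib, ← Finset.mul_sum, ← Finset.mul_sum, ← Finset.mul_sum,
    Finset.sum_range_sub (fun k : ℕ => E ((k : ℝ) * r)),
    intervalIntegral.sum_integral_adjacent_intervals (a := fun k : ℕ => (k : ℝ) * r)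
      (fun k _ => hb.intervalIntegrable _ _), hr1, Nat.cast_zero, zero_mul, Finset.sum_const,
    Finset.card_range, nsmul_eq_mul, ← mul_assoc r, mul_comm r, hr1, one_mul] at hsum
  have h6 : |A| * r * (E 1 - E 0) ≤ ε / 2 := by
    rw [le_div_iff₀ (by positivity)] at hrA
    nlinarith
  have e2 : (1 / (2 * l) + |A| * r) * (E 1 - E 0) =
      (E 1 - E 0) / (2 * l) + |A| * r * (E 1 - E 0) := by ring
  linarith

/-- The kinetic energy up to time `t`. -/
noncomputable def kin (P : Measure (UCurve X)) (t : ℝ) : ℝ :=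
  (∫⁻ γ, (∫⁻ r in Icc (0 : ℝ) t, upperSpeed γ r ^ 2) ∂P).toReal

theorem anchor_kin : True := by
  have := @kin.eq_1.{0}
  have := @kin.eq_def.{0}
  have := @kin.eq_unfold.{0}
  have := @kin.congr_simp.{0}
  trivial

theorem Riemann_meas (S : Set ℝ) :
    Measurable fun γ : UCurve X => ∫⁻ r in S, upperSpeed γ r ^ 2 :=
  (measurable_upperSpeed.pow_const 2).lintegral_prod_right'

theorem Riemann_fin {P : Measure (UCurve X)} (hP : IsTestPlan2 m P) {S : Set ℝ}
    (hS : S ⊆ Icc (0 : ℝ) 1) : (∫⁻ γ, (∫⁻ r in S, upperSpeed γ r ^ 2) ∂P) ≠ ⊤ :=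
  ((lintegral_mono fun _ => lintegral_mono_set hS).trans_lt hP.2.2.2).ne

theorem Riemann_kin_sub {P : Measure (UCurve X)} (hP : IsTestPlan2 m P) {s t : ℝ} (hs : 0 ≤ s)
    (hst : s ≤ t) (ht : t ≤ 1) :
    kin P t - kin P s = (∫⁻ γ, (∫⁻ r in Icc s t, upperSpeed γ r ^ 2) ∂P).toReal := by
  have e : (∫⁻ γ, (∫⁻ r in Icc (0 : ℝ) t, upperSpeed γ r ^ 2) ∂P) =
      (∫⁻ γ, (∫⁻ r in Icc (0 : ℝ) s, upperSpeed γ r ^ 2) ∂P) +
        ∫⁻ γ, (∫⁻ r in Icc s t, upperSpeed γ r ^ 2) ∂P := by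
    rw [← lintegral_add_left (Riemann_meas _)]
    refine lintegral_congr fun γ => ?_
    rw [← Icc_union_Ioc_eq_Icc hs hst, lintegral_union measurableSet_Ioc
      (disjoint_left.2 fun x hx hx' => absurd hx.2 (not_le.2 hx'.1)),
      setLIntegral_congr (Ioc_ae_eq_Icc (a := s) (b := t))]
  unfold kin
  rw [e, ENNReal.toReal_add (Riemann_fin hP (Icc_subset_Icc_right (hst.trans ht)))
    (Riemann_fin hP (Icc_subset_Icc hs ht))]
  ring

theorem Riemann_cs {f : ℝ → ℝ≥0∞} (hf : Measurable f) (s t : ℝ) :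
    (∫⁻ r in Icc s t, f r) ^ 2 ≤ ENNReal.ofReal (t - s) * ∫⁻ r in Icc s t, f r ^ 2 := by
  have h := ENNReal.lintegral_mul_le_Lp_mul_Lq (volume.restrict (Icc s t))
    Real.HolderConjugate.two_two (f := fun _ => 1) aemeasurable_const hf.aemeasurable
  simp only [Pi.mul_apply, one_mul, one_pow, lintegral_const, Measure.restrict_apply_univ,
    Real.volume_Icc, ENNReal.rpow_two] at h
  refine (pow_le_pow_left' h 2).trans (le_of_eq ?_)
  have e : ∀ x : ℝ≥0∞, (x ^ (1 / 2 : ℝ)) ^ 2 = x := fun x => by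
    rw [← ENNReal.rpow_two, ← ENNReal.rpow_mul]; norm_num
  rw [mul_pow, e, e]

theorem Riemann_ofReal_le {Y : Type*} [MeasurableSpace Y] (μ : Measure Y) {g : Y → ℝ}
    (hg : ∀ y, 0 ≤ g y) : ENNReal.ofReal (∫ y, g y ∂μ) ≤ ∫⁻ y, ENNReal.ofReal (g y) ∂μ := by
  rw [← Real.enorm_eq_ofReal (integral_nonneg hg)]
  refine (enorm_integral_le_lintegral_enorm _).trans (le_of_eq (lintegral_congr fun y => ?_))
  exact Real.enorm_eq_ofReal (hg y)

theorem kin_zero (P : Measure (UCurve X)) : kin P 0 = 0 := by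
  unfold kin
  simp

theorem monotoneOn_kin {P : Measure (UCurve X)} (hP : IsTestPlan2 m P) :
    MonotoneOn (kin P) (Icc (0 : ℝ) 1) := by
  intro s hs t ht hst
  have := Riemann_kin_sub hP hs.1 hst ht.2
  linarith [ENNReal.toReal_nonneg (a := ∫⁻ γ, (∫⁻ r in Icc s t, upperSpeed γ r ^ 2) ∂P)]

theorem Wsq_marg_le {P : Measure (UCurve X)} (hP : IsTestPlan2 m P) (hB : HasBoundedTracks P)
    {s t : ℝ} (hs : 0 ≤ s) (hst : s ≤ t) (ht : t ≤ 1) :
    Wsq (marg P s) (marg P t) ≤ (t - s) * (kin P t - kin P s) := by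
  have _ := hB
  have hm : Measurable fun γ : UCurve X => (γ.ext s, γ.ext t) :=
    (TestPlan_meas s).prodMk (TestPlan_meas t)
  have hq : IsCouplingOf (P.map fun γ : UCurve X => (γ.ext s, γ.ext t)) (marg P s) (marg P t) :=
    ⟨Measure.map_map measurable_fst hm, Measure.map_map measurable_snd hm⟩
  have h1 : quadCost (P.map fun γ : UCurve X => (γ.ext s, γ.ext t)) ≤
      ENNReal.ofReal (t - s) * ∫⁻ γ, (∫⁻ r in Icc s t, upperSpeed γ r ^ 2) ∂P := by
    unfold quadCost
    rw [lintegral_map (measurable_edist.pow_const 2) hm, ← lintegral_const_mul _ (Riemann_meas _)]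
    refine lintegral_mono_ae ?_
    filter_upwards [hP.2.2.1] with γ hγ
    exact (pow_le_pow_left' (edist_le_lintegral_upperSpeed hγ ⟨hs, hst.trans ht⟩
      ⟨hs.trans hst, ht⟩ hst) 2).trans
      (Riemann_cs (measurable_upperSpeed.comp measurable_prodMk_left) s t)
  rw [Riemann_kin_sub hP hs hst ht]
  have h2 : (⨅ (q : Measure (X × X)) (_ : IsCouplingOf q (marg P s) (marg P t)), quadCost q) ≤
      quadCost (P.map fun γ : UCurve X => (γ.ext s, γ.ext t)) :=
    iInf₂_le (f := fun q (_ : IsCouplingOf q (marg P s) (marg P t)) => quadCost q) _ hq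
  unfold Wsq
  refine (ENNReal.toReal_mono (ENNReal.mul_ne_top ENNReal.ofReal_ne_top
    (Riemann_fin hP (Icc_subset_Icc hs ht))) (h2.trans h1)).trans (le_of_eq ?_)
  rw [ENNReal.toReal_mul, ENNReal.toReal_ofReal (sub_nonneg.2 hst)]

/-- Translation of a real inequality into the form used by `isWUGLoc_of_integrated`. -/
theorem ofReal_le_of_real_bound {P : Measure (UCurve X)} (hP : IsTestPlan2 m P)
    (hB : HasBoundedTracks P) {w : X → ℝ} (hw : MemLp w 2 m) (hw0 : ∀ᵐ x ∂m, 0 ≤ w x) {l z : ℝ}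
    (hl : 0 < l)
    (h : z ≤ l / 2 * (∫ t in (0 : ℝ)..1, ∫ x, w x ∂(marg P t)) + kin P 1 / (2 * l)) :
    ENNReal.ofReal z ≤ ∫⁻ γ, (∫⁻ t in Icc (0 : ℝ) 1,
      (ENNReal.ofReal (l / 2) * ENNReal.ofReal (√(w (γ.ext t))) ^ 2 +
        ENNReal.ofReal (1 / (2 * l)) * upperSpeed γ t ^ 2)) ∂P := by
  have := hP.1
  set v : X → ℝ := fun x => max (hw.1.mk w x) 0 with hv
  have hvm : Measurable v := hw.1.stronglyMeasurable_mk.measurable.max measurable_const
  have hv0 : ∀ x, 0 ≤ v x := fun x => le_max_right _ _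
  have hwv : ∀ᵐ x ∂m, w x = v x := by
    filter_upwards [hw.1.ae_eq_mk, hw0] with x h1 h2
    simp only [hv]
    rw [← h1, max_eq_left h2]
  obtain ⟨C, o, R, hbdd, -⟩ := testPlan_bdd hP hB
  have hf : Measurable fun p : UCurve X × ℝ => ENNReal.ofReal (v (p.1.ext p.2)) :=
    (hvm.comp continuous_ext.measurable).ennreal_ofReal
  have e1 : (∫⁻ γ, (∫⁻ t in Icc (0 : ℝ) 1,
      (ENNReal.ofReal (l / 2) * ENNReal.ofReal (√(w (γ.ext t))) ^ 2 +
        ENNReal.ofReal (1 / (2 * l)) * upperSpeed γ t ^ 2)) ∂P) =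
      ENNReal.ofReal (l / 2) * (∫⁻ γ, (∫⁻ t in Icc (0 : ℝ) 1, ENNReal.ofReal (v (γ.ext t))) ∂P) +
        ENNReal.ofReal (1 / (2 * l)) * ∫⁻ γ, (∫⁻ t in Icc (0 : ℝ) 1, upperSpeed γ t ^ 2) ∂P := by
    rw [← lintegral_const_mul _ hf.lintegral_prod_right', ← lintegral_const_mul _ (Riemann_meas _),
      ← lintegral_add_right _ ((Riemann_meas _).const_mul _)]
    refine lintegral_congr_ae ?_
    filter_upwards [testPlan_ae_ae_ext hP hwv] with γ hγ
    have hs : Measurable fun t => upperSpeed γ t ^ 2 :=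
      (measurable_upperSpeed.comp measurable_prodMk_left).pow_const 2
    have hf' : Measurable fun t => ENNReal.ofReal (v (γ.ext t)) := hf.comp measurable_prodMk_left
    rw [← lintegral_const_mul _ hf', ← lintegral_const_mul _ hs,
      ← lintegral_add_right _ (hs.const_mul _)]
    refine lintegral_congr_ae ?_
    filter_upwards [hγ] with t ht
    rw [ht, ← ENNReal.ofReal_pow (Real.sqrt_nonneg _), Real.sq_sqrt (hv0 _)]
  have h2 : ENNReal.ofReal (∫ t in (0 : ℝ)..1, ∫ x, w x ∂(marg P t)) ≤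
      ∫⁻ γ, (∫⁻ t in Icc (0 : ℝ) 1, ENNReal.ofReal (v (γ.ext t))) ∂P := by
    have e2 : ∀ t, ∫ x, w x ∂(marg P t) = ∫ x, v x ∂(marg P t) := fun t =>
      integral_congr_ae ((hbdd t).ac.ae_le hwv)
    simp only [e2]
    rw [intervalIntegral.integral_of_le zero_le_one, ← integral_Icc_eq_integral_Ioc,
      lintegral_lintegral_swap hf.aemeasurable]
    refine (Riemann_ofReal_le _ fun t => integral_nonneg hv0).trans (lintegral_mono fun t => ?_)
    refine (Riemann_ofReal_le _ hv0).trans (le_of_eq ?_)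
    unfold marg
    exact lintegral_map hvm.ennreal_ofReal (TestPlan_meas t)
  rw [e1]
  refine (ENNReal.ofReal_le_ofReal h).trans (ENNReal.ofReal_add_le.trans (add_le_add ?_ ?_))
  · rw [ENNReal.ofReal_mul (by positivity)]
    exact mul_le_mul_right h2 _
  · rw [div_eq_mul_one_div, mul_comm, ENNReal.ofReal_mul (by positivity)]
    exact mul_le_mul_right ENNReal.ofReal_toReal_le _

end Crest.Agent.R242
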