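import Crest.Agent.R242.GoodPlan
import Crest.Agent.R242.LipSob

/-! Row 242: variation of an integral under a short transport. -/

set_option autoImplicit false
set_option linter.unusedSectionVars false

open MeasureTheory Filter Set Topology
open scoped ENNReal NNReal
open Crest.GeometryTopology.SyntheticRicci

namespace Crest.Agent.R242

variable {X : Type*} [MetricSpace X] [ProperSpace X] [MeasurableSpace X] [BorelSpace X]
  {m : Measure X} [IsLocallyFiniteMeasure m] [m.IsOpenPosMeasure]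

theorem WStep_abs {μ : Measure X} {C : ℝ≥0} (hμ : μ ≤ (C : ℝ≥0∞) • m) {h g : X → ℝ}
    (hh : Integrable h m) (hg : Integrable g m) :
    ∫ x, h x ∂μ ≤ ∫ x, g x ∂μ + C * ∫ x, |h x - g x| ∂m := by
  have h1 := hh.of_measure_le_smul ENNReal.coe_ne_top hμ
  have h2 := hg.of_measure_le_smul ENNReal.coe_ne_top hμ
  rw [← sub_le_iff_le_add', ← integral_sub h1 h2]
  refine (integral_mono (h1.sub h2) (h1.sub h2).abs fun x => le_abs_self _).trans
    ((integral_mono_measure hμ (.of_forall fun x => abs_nonneg _)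
      ((hh.sub hg).abs.smul_measure ENNReal.coe_ne_top)).trans_eq ?_)
  rw [integral_smul_measure]
  rfl

theorem WStep_prob {P : Measure (UCurve X)} {μ ν : Measure X} {M C : ℝ≥0} {o : X} {R R' : ℝ}
    (hμ : Bdd m μ M o R) (hν : Bdd m ν M o R) (hP : IsOptPlan P μ ν) (hP' : IsGP m P C o R')
    {f g : X → ℝ} (hf : IsSobolev m f) {L : ℝ≥0} (hg : LipschitzWith L g) (hgi : Integrable g m)
    {θ : ℝ} (hθ : 0 < θ) :
    ∫ x, f x ∂ν - ∫ x, f x ∂μ ≤ √(Wsq μ ν) * √(∫ x, minWeakGrad m f x ^ 2 ∂μ +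
      L * (θ + Wsq μ ν / θ) + (C + M) * ∫ x, |minWeakGrad m f x ^ 2 - g x| ∂m) := by
  have := hP.1
  obtain ⟨h1, h2⟩ := hP.Wsq_eq hμ.isP2 hν.isP2
  have h := hP'.abs_integral_sub_le hf.2.1.1 (sl_wug hf.2.1) le_rfl zero_le_one le_rfl
  rw [hP.marg_eq.1, hP.marg_eq.2, sub_zero, one_mul, ← h2] at h
  refine (le_abs_self _).trans (h.trans (mul_le_mul_of_nonneg_left (Real.sqrt_le_sqrt
    ((Real.le_norm_self _).trans ((intervalIntegral.norm_integral_le_of_norm_le_const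
      fun r hr => ?_).trans_eq (by rw [sub_zero, abs_one, mul_one])))) (Real.sqrt_nonneg _)))
  rw [uIoc_of_le zero_le_one] at hr
  have hi : ∀ r, Integrable (fun γ : UCurve X => g (γ.ext r)) P := fun r =>
    (hgi.of_measure_le_smul ENNReal.coe_ne_top (hP'.2.2.2 r)).comp_measurable (TestPlan_meas r)
  have he : ∀ r, ∫ x, g x ∂(marg P r) = ∫ γ, g (γ.ext r) ∂P := fun r =>
    integral_map (TestPlan_meas r).aemeasurable hg.continuous.aestronglyMeasurable
  have h3 := WStep_abs (hP'.2.2.2 r) hf.2.2.integrable_sq hgi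
  have h4 := WStep_abs hμ.2.1 hgi hf.2.2.integrable_sq
  have h5 : ∫ x, g x ∂(marg P r) ≤ ∫ x, g x ∂μ + L * (θ + Wsq μ ν / θ) := by
    have h6 : Integrable (fun γ : UCurve X => L * (θ + len γ ^ 2 / θ)) P :=
      ((integrable_const θ).add (h1.div_const θ)).const_mul _
    rw [← hP.marg_eq.1, he, he, hP.marg_eq.1, h2]
    refine (integral_mono_ae (hi r) ((hi 0).add h6) ?_).trans_eq ?_
    · filter_upwards [hP.2.1] with γ hγ
      have h7 := hg.dist_le_mul (γ.ext r) (γ.ext 0)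
      rw [geo_dist_ext hγ ⟨hr.1.le, hr.2⟩ ⟨le_rfl, zero_le_one⟩, sub_zero, abs_of_pos hr.1] at h7
      have h8 : r * len γ ≤ θ + len γ ^ 2 / θ := by
        have h9 : 0 ≤ len γ := dist_nonneg
        refine (mul_le_of_le_one_left h9 hr.2).trans (le_of_mul_le_mul_left ?_ hθ)
        rw [mul_add, mul_div_cancel₀ _ hθ.ne']
        nlinarith [sq_nonneg (θ - len γ), mul_nonneg hθ.le h9]
      exact sub_le_iff_le_add'.1 ((le_abs_self _).trans
        (h7.trans (mul_le_mul_of_nonneg_left h8 L.2)))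
    · simp only [Pi.add_apply]
      rw [integral_add (hi 0) h6, integral_const_mul,
        integral_add (integrable_const θ) (h1.div_const θ), integral_div]
      simp
  simp only [abs_sub_comm (g _)] at h4
  rw [Real.norm_of_nonneg (integral_nonneg fun x => sq_nonneg _)]
  linarith

theorem WStep_div {μ : Measure X} {a M : ℝ≥0} (ha : a ≠ 0) (h : a • μ ≤ (M : ℝ≥0∞) • m) :
    μ ≤ ((M / a : ℝ≥0) : ℝ≥0∞) • m := fun s => by
  have h1 := h s
  simp only [Measure.smul_apply, smul_eq_mul, ENNReal.smul_def] at h1 ⊢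
  rw [ENNReal.coe_div ha, div_eq_mul_inv, mul_right_comm, ← div_eq_mul_inv,
    ENNReal.le_div_iff_mul_le (.inl (by simpa using ha)) (.inl ENNReal.coe_ne_top), mul_comm]
  exact h1

theorem WStep_sub {κ : ℝ} (hG : Good m κ) (R : ℝ) : ∃ c : ℝ≥0, ∀ (o : X) (M : ℝ≥0)
    (q : Measure (X × X)), q univ ≤ 1 → q.map Prod.fst ≤ (M : ℝ≥0∞) • m →
    q.map Prod.snd ≤ (M : ℝ≥0∞) • m → (∀ᵐ p ∂q, dist p.1 o ≤ R ∧ dist p.2 o ≤ R) →
    ∀ f g : X → ℝ, IsSobolev m f → ∀ L : ℝ≥0, LipschitzWith L g → Integrable g m →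
    ∀ θ : ℝ, 0 < θ → ∫ x, f x ∂(q.map Prod.snd) - ∫ x, f x ∂(q.map Prod.fst) ≤
      √(∫ p, dist p.1 p.2 ^ 2 ∂q) * √(∫ x, minWeakGrad m f x ^ 2 ∂(q.map Prod.fst) +
        L * (θ + (∫ p, dist p.1 p.2 ^ 2 ∂q) / θ) +
          (c + 1) * M * ∫ x, |minWeakGrad m f x ^ 2 - g x| ∂m) := by
  obtain ⟨c, hc⟩ := exists_goodPlan hG R
  refine ⟨c, fun o M q h1 h2 h3 h4 f g hf L hg hgi θ hθ => ?_⟩
  rcases eq_zero_or_neZero q with rfl | h0
  · simp
  have : IsFiniteMeasure q := ⟨h1.trans_lt ENNReal.one_lt_top⟩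
  obtain ⟨a, Q, hQ, ha, rfl⟩ : ∃ (a : ℝ≥0) (Q : Measure (X × X)), IsProbabilityMeasure Q ∧ a ≠ 0 ∧
      q = a • Q := by
    refine ⟨(q univ).toNNReal, (q univ)⁻¹ • q, inferInstance,
      ENNReal.toNNReal_ne_zero.2 ⟨NeZero.ne _, measure_ne_top _ _⟩, ?_⟩
    rw [ENNReal.smul_def, ENNReal.coe_toNNReal (measure_ne_top _ _), smul_smul,
      ENNReal.mul_inv_cancel (NeZero.ne _) (measure_ne_top _ _), one_smul]
  have ha1 : (a : ℝ) ≤ 1 := by simpa using h1
  have ha0 : (0 : ℝ) < a := NNReal.coe_pos.2 ha.bot_lt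
  rw [Measure.map_smul] at h2 h3
  rw [ENNReal.smul_def, Measure.ae_ennreal_smul_measure_eq (by simpa using ha)] at h4
  have hb : ∀ π : X × X → X, Measurable π → a • Q.map π ≤ (M : ℝ≥0∞) • m →
      (∀ᵐ p ∂Q, dist (π p) o ≤ R) → Bdd m (Q.map π) (M / a) o R := fun π hπ h5 h6 =>
    ⟨Measure.isProbabilityMeasure_map hπ.aemeasurable, WStep_div ha h5,
      (ae_map_iff hπ.aemeasurable measurableSet_closedBall).2 h6⟩
  have hμ := hb _ measurable_fst h2 (h4.mono fun _ h => h.1)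
  have hν := hb _ measurable_snd h3 (h4.mono fun _ h => h.2)
  obtain ⟨P, hP, hP', -⟩ := hc o _ _ _ hμ hν
  have h5 := WStep_prob hμ hν hP hP' hf hg hgi hθ
  have h6 := Wsq_le_of_coupling hμ.isP2 hν.isP2 ⟨rfl, rfl⟩
  simp only [Measure.map_smul, integral_smul_nnreal_measure, NNReal.smul_def, smul_eq_mul]
  rw [← mul_sub]
  refine (mul_le_mul_of_nonneg_left h5 ha0.le).trans ?_
  rw [← Real.mul_self_sqrt ha0.le, mul_mul_mul_comm, ← Real.sqrt_mul ha0.le,
    ← Real.sqrt_mul ha0.le, Real.mul_self_sqrt ha0.le]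
  refine mul_le_mul (Real.sqrt_le_sqrt (by gcongr)) (Real.sqrt_le_sqrt ?_) (Real.sqrt_nonneg _)
    (Real.sqrt_nonneg _)
  have h7 : (a : ℝ) * (θ + Wsq (Q.map Prod.fst) (Q.map Prod.snd) / θ) ≤
      θ + (a * ∫ p, dist p.1 p.2 ^ 2 ∂Q) / θ := by
    rw [mul_add, mul_div_assoc]
    exact add_le_add (mul_le_of_le_one_left hθ.le ha1) (by gcongr)
  have h8 : (a : ℝ) * (((c * (M / a) : ℝ≥0) : ℝ) + (M / a : ℝ≥0)) = (c + 1) * M := by
    push_cast
    field_simp
  rw [mul_add, mul_add, mul_left_comm, ← mul_assoc (a : ℝ), h8]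
  gcongr

theorem w_step {κ : ℝ} (hG : Good m κ) {f : X → ℝ} {L : ℝ≥0} (hf : LipschitzWith L f)
    (hc : HasCompactSupport f) (M : ℝ≥0) {η : ℝ} (hη : 0 < η) :
    ∃ δ A : ℝ, 0 < δ ∧ 0 ≤ A ∧ ∀ (μ ν : Measure X) (q : Measure (X × X)),
      IsProbabilityMeasure μ → μ ≤ (M : ℝ≥0∞) • m → ν ≤ (M : ℝ≥0∞) • m → IsCouplingOf q μ ν →
      Integrable (fun p : X × X => dist p.1 p.2 ^ 2) q → ∫ p, dist p.1 p.2 ^ 2 ∂q ≤ δ →
      ∫ x, f x ∂ν - ∫ x, f x ∂μ ≤
        √(∫ p, dist p.1 p.2 ^ 2 ∂q) * √(∫ x, minWeakGrad m f x ^ 2 ∂μ + η) +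
          A * ∫ p, dist p.1 p.2 ^ 2 ∂q := by
  rcases isEmpty_or_nonempty X with hX | ⟨⟨o⟩⟩
  · exact ⟨1, 0, one_pos, le_rfl, fun μ _ _ _ => hX.elim (nonempty_of_isProbabilityMeasure μ).some⟩
  obtain ⟨R, hR⟩ := hc.isCompact.isBounded.subset_closedBall o
  obtain ⟨B, hB⟩ := hf.continuous.bounded_above_of_compact_support hc
  have hB0 := (norm_nonneg _).trans (hB o)
  obtain ⟨c, hq⟩ := WStep_sub hG (R + 2)
  have hs := (lipS_of_lipschitz (m := m) hf hc).1
  obtain ⟨g, K, hg, hgc, -, hg'⟩ := exists_lip_approx_L1 hs.2.2.integrable_sq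
    (η := η / (2 * ((c + 1) * M + 1))) (by positivity)
  have hθ : 0 < η / (4 * (K + 1)) := by positivity
  refine ⟨(η / (4 * (K + 1))) ^ 2, 2 * B, by positivity, by positivity,
    fun μ ν q hμ h1 h2 h3 hi hδ => ?_⟩
  have := IsCouplingOf.isProb h3
  obtain ⟨rfl, rfl⟩ := h3
  set S : Set (X × X) := {p | dist p.1 p.2 ≤ 1 ∧ dist p.1 o ≤ R + 1} with hS
  have mS : MeasurableSet S := (measurableSet_le measurable_dist measurable_const).inter
    (measurableSet_le (measurable_fst.dist measurable_const) measurable_const)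
  have l1 := Measure.map_mono (q.restrict_le_self (s := S)) measurable_fst
  have l2 := Measure.map_mono (q.restrict_le_self (s := S)) measurable_snd
  have h4 := hq o M (q.restrict S) ((q.restrict_le_self _).trans prob_le_one) (l1.trans h1)
    (l2.trans h2) ((ae_restrict_mem mS).mono fun p hp => ⟨by linarith [hp.2], by
      linarith [hp.1, hp.2, dist_triangle_left p.2 o p.1]⟩) f g hs K hg
    (hg.continuous.integrable_of_hasCompactSupport hgc) _ hθ
  have h5 : ∫ p in S, dist p.1 p.2 ^ 2 ∂q ≤ ∫ p, dist p.1 p.2 ^ 2 ∂q :=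
    setIntegral_le_integral hi (.of_forall fun _ => sq_nonneg _)
  have h6 : ∫ p in Sᶜ, dist p.1 p.2 ^ 2 ∂q ≤ ∫ p, dist p.1 p.2 ^ 2 ∂q :=
    setIntegral_le_integral hi (.of_forall fun _ => sq_nonneg _)
  have h7 := integral_mono_measure l1 (.of_forall fun x => sq_nonneg _)
    (hs.2.2.integrable_sq.of_measure_le_smul ENNReal.coe_ne_top h1)
  have hm := hf.continuous
  have i1 : Integrable (fun p : X × X => f p.1) q :=
    .of_bound (by fun_prop) B (.of_forall fun _ => hB _)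
  have i2 : Integrable (fun p : X × X => f p.2) q :=
    .of_bound (by fun_prop) B (.of_forall fun _ => hB _)
  have h8 : ∫ p in Sᶜ, f p.2 ∂q - ∫ p in Sᶜ, f p.1 ∂q ≤ 2 * B * ∫ p in Sᶜ, dist p.1 p.2 ^ 2 ∂q := by
    rw [← integral_sub i2.integrableOn i1.integrableOn, ← integral_const_mul]
    refine setIntegral_mono_on (i2.sub i1).integrableOn (hi.const_mul _).integrableOn mS.compl
      fun p hp => ?_
    rcases lt_or_ge 1 (dist p.1 p.2) with h | h
    · have h9 := abs_le.1 (hB p.1)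
      have h10 := abs_le.1 (hB p.2)
      nlinarith [one_le_pow₀ (n := 2) h.le]
    · have h9 : R + 1 < dist p.1 o := not_le.1 fun h' => hp ⟨h, h'⟩
      have h10 : ∀ x, R < dist x o → f x = 0 := fun x hx =>
        image_eq_zero_of_notMem_tsupport fun h' => (hx.trans_le (hR h')).false
      rw [h10 p.1 (by linarith), h10 p.2 (by linarith [dist_triangle p.1 p.2 o]), sub_self]
      positivity
  rw [integral_map measurable_fst.aemeasurable hm.aestronglyMeasurable,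
    integral_map measurable_snd.aemeasurable hm.aestronglyMeasurable] at h4 ⊢
  rw [← integral_add_compl mS i1, ← integral_add_compl mS i2, add_sub_add_comm]
  refine add_le_add (h4.trans (mul_le_mul (Real.sqrt_le_sqrt h5) (Real.sqrt_le_sqrt ?_)
    (Real.sqrt_nonneg _) (Real.sqrt_nonneg _))) (h8.trans (by gcongr))
  have h9 : (∫ p in S, dist p.1 p.2 ^ 2 ∂q) / (η / (4 * (K + 1))) ≤ η / (4 * (K + 1)) := by
    rw [div_le_iff₀ hθ, ← sq]
    exact h5.trans hδ
  have h10 : K * (η / (4 * (K + 1))) ≤ η / 4 := by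
    rw [mul_div_assoc', div_le_div_iff₀ (by positivity) (by norm_num)]
    nlinarith
  have h11 : (c + 1) * M * (η / (2 * ((c + 1) * M + 1))) ≤ η / 2 := by
    rw [mul_div_assoc', div_le_div_iff₀ (by positivity) (by norm_num)]
    nlinarith
  have h12 := mul_le_mul_of_nonneg_left hg' (show (0 : ℝ) ≤ (c + 1) * M by positivity)
  nlinarith [mul_le_mul_of_nonneg_left h9 K.2]

end Crest.Agent.R242
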