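import Crest.Agent.R242.Contract
import Crest.Agent.R242.WStep
import Crest.Agent.R242.Riemann
import Crest.Agent.R242.LocWUG

/-! Row 242: gradient estimate for compactly supported Lipschitz data. -/

set_option autoImplicit false
set_option linter.unusedSectionVars false

open MeasureTheory Filter Set Topology
open scoped ENNReal NNReal
open Crest.GeometryTopology.SyntheticRicci

namespace Crest.Agent.R242

variable {X : Type*} [MetricSpace X] [ProperSpace X] [MeasurableSpace X] [BorelSpace X]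
  {m : Measure X} [IsLocallyFiniteMeasure m] [m.IsOpenPosMeasure]

theorem ge_plan {κ : ℝ} (hG : Good m κ) : ∃ lam₀ : ℝ, ∀ lam : ℝ, lam₀ ≤ lam → 16 * κ < lam →
    ∀ (f u w : X → ℝ) (L : ℝ≥0), LipschitzWith L f → HasCompactSupport f → IsRes m 0 lam f u →
      IsRes m 0 lam (gradPairing m f f) w → ∀ P : Measure (UCurve X), IsTestPlan2 m P →
      HasBoundedTracks P → ∀ l : ℝ, 0 < l →
      ∫ x, u x ∂(marg P 1) - ∫ x, u x ∂(marg P 0) ≤
        l / 2 * (∫ t in (0 : ℝ)..1, ∫ x, lam / (lam - 16 * κ) * w x ∂(marg P t)) +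
          kin P 1 / (2 * l) := by

  obtain ⟨lam₀, h₀⟩ := exists_resPair hG
  refine ⟨lam₀, fun lam hl hκ f u w L hf hc hu hw P hP hB l hl0 => ?_⟩
  have hκ0 := hG.nonneg
  have hlam : 0 < lam := by linarith
  have hd : 0 < lam - 16 * κ := by linarith
  set c : ℝ := lam / (lam - 16 * κ) with hc_def
  have hc0 : 0 < c := div_pos hlam hd
  obtain ⟨C, o, R, hbdd, -⟩ := testPlan_bdd hP hB
  choose ρ hρ hρe hρM hρR using fun t => (hbdd t).exists_niceD
  choose ρ' hpair hres hρ'M using fun t => h₀ lam hl (ρ t) C o R (hρ t) (hρM t) (hρR t)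
  have hfS : LipS m f L := lipS_of_lipschitz hf hc
  have hf2 : MemLp f 2 m := hfS.1.1
  have hΓ2 : MemLp (gradPairing m f f) 2 m := gamma_memLp hG.hilb hfS.1.2.1 hfS.2 hfS.1
  have hself := gamma_self hfS.1.2.1
  -- the two duality identities
  have hsym : ∀ (g v : X → ℝ), MemLp g 2 m → IsRes m 0 lam g v → ∀ t,
      ∫ x, v x ∂(marg P t) = ∫ x, g x ∂(dm m (ρ' t)) := by
    intro g v hg hv t
    have h := IsRes.symm hG.hilb isWt_zero hlam hg (hρ t).memLp hv (hres t)
    simp only [Pi.zero_apply, Real.exp_zero, one_mul] at h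
    rw [hρe t, integral_dm (hρ t).meas (hρ t).nonneg,
      integral_dm (hpair t).nice'.meas (hpair t).nice'.nonneg]
    simp only [mul_comm (ρ t _), mul_comm (ρ' t _)]
    exact h
  have hw0 : ∀ᵐ x ∂m, 0 ≤ w x := by
    refine IsRes.nonneg hG.hilb isWt_zero hlam hΓ2 hw ?_
    filter_upwards [hself] with x hx
    rw [hx]
    positivity
  have hwD : ∀ t, ∫ x, w x ∂(marg P t) = ∫ x, minWeakGrad m f x ^ 2 ∂(dm m (ρ' t)) := by
    intro t
    rw [hsym _ _ hΓ2 hw t]
    exact integral_congr_ae ((dm_ac (ρ' t)).ae_le hself)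
  have hwint : IntegrableOn (fun x => c * w x) (Metric.closedBall o R) m := by
    have : IsFiniteMeasure (m.restrict (Metric.closedBall o R)) :=
      isFiniteMeasure_restrict.2 (isCompact_closedBall o R).measure_lt_top.ne
    exact ((hw.1.1.restrict _).integrable one_le_two).const_mul c
  have hk1 : 0 ≤ kin P 1 := ENNReal.toReal_nonneg
  have hmono := monotoneOn_kin hP
  have key := riemann_step (a := fun t => ∫ x, u x ∂(marg P t))
    (b := fun t => ∫ x, c * w x ∂(marg P t)) (E := kin P) (continuous_integral_marg hbdd hwint)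
    (fun t => integral_nonneg_of_ae (by
      filter_upwards [(hbdd t).ac.ae_le hw0] with x hx
      exact mul_nonneg hc0.le hx)) hmono ?_ hl0
  · rwa [kin_zero, sub_zero] at key
  intro η hη
  obtain ⟨δ, A, hδ, hA, hstep⟩ := w_step hG hf hc C (div_pos hη hc0)
  refine ⟨δ / (c * (kin P 1 + 1)), A * c, by positivity, fun s t hs hst ht hts => ?_⟩
  have hP2s := (hpair s).nice'.isP2
  have hP2t := (hpair t).nice'.isP2
  obtain ⟨q, hq⟩ := hG.opt _ _ hP2s hP2t (dm_ac _) (dm_ac _)
  have hE0 : 0 ≤ kin P t - kin P s :=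
    sub_nonneg.2 (hmono ⟨hs, hst.trans ht⟩ ⟨hs.trans hst, ht⟩ hst)
  have hE1 : kin P t - kin P s ≤ kin P 1 := by
    have h1 : kin P t ≤ kin P 1 := hmono ⟨hs.trans hst, ht⟩ ⟨zero_le_one, le_rfl⟩ ht
    have h2 : 0 ≤ kin P s := ENNReal.toReal_nonneg
    linarith
  set τ : ℝ := (t - s) * (kin P t - kin P s) with hτ
  have hτ0 : 0 ≤ τ := mul_nonneg (sub_nonneg.2 hst) hE0
  have hcost : ∫ p, dist p.1 p.2 ^ 2 ∂q ≤ c * τ := by
    rw [← Wsq_eq_of_opt hP2s hP2t hq]
    have h1 := contract hG hlam (hpair s) (hpair t)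
    rw [← hρe s, ← hρe t] at h1
    have h2 := Wsq_marg_le hP hB hs hst ht
    rw [hc_def, div_mul_eq_mul_div, le_div_iff₀ hd, mul_comm]
    exact h1.trans (mul_le_mul_of_nonneg_left h2 hlam.le)
  have hcδ : c * τ ≤ δ := by
    have h1 : τ ≤ δ / (c * (kin P 1 + 1)) * (kin P 1 + 1) :=
      mul_le_mul hts (by linarith) hE0 (by positivity)
    calc c * τ ≤ c * (δ / (c * (kin P 1 + 1)) * (kin P 1 + 1)) := by gcongr
      _ = δ := by field_simp
  have h := hstep _ _ q hP2s.1 (dm_le (hρ'M s)) (dm_le (hρ'M t)) hq.1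
    (integrable_sq_of_coupling hP2s hP2t hq.1) (hcost.trans hcδ)
  rw [hsym _ _ hf2 hu t, hsym _ _ hf2 hu s, integral_const_mul, hwD s]
  refine h.trans (add_le_add ?_ ?_)
  · have hW : 0 ≤ ∫ x, minWeakGrad m f x ^ 2 ∂(dm m (ρ' s)) :=
      integral_nonneg fun x => sq_nonneg _
    calc _ ≤ √(c * τ) * √(∫ x, minWeakGrad m f x ^ 2 ∂(dm m (ρ' s)) + η / c) := by gcongr
      _ = _ := by
          rw [← Real.sqrt_mul (by positivity), ← Real.sqrt_mul hτ0]
          congr 1
          field_simp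
  · rw [mul_assoc]
    gcongr

end Crest.Agent.R242
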