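import Crest.Agent.R242.OTBasic
import Crest.Agent.R242.Tau
import Crest.Agent.R242.ACD

/-! Row 242: the consequences of the curvature-dimension condition. -/

set_option autoImplicit false
set_option linter.unusedSectionVars false

open MeasureTheory Filter Set Topology
open scoped ENNReal NNReal
open Crest.GeometryTopology.SyntheticRicci

namespace Crest.Agent.R242

variable {X : Type*} [MetricSpace X] [ProperSpace X] [MeasurableSpace X] [BorelSpace X]
  {m : Measure X} [IsLocallyFiniteMeasure m] [m.IsOpenPosMeasure]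

theorem good_of_rcd {K N : ℝ} (hN : 1 < N) (hR : IsRCD m K N)
    (hg : ∃ a : ℝ, 0 < a ∧ ∀ o : X, Integrable (fun x => Real.exp (-(a * dist x o))) m) :
    Good m |K| := by
  refine ⟨abs_nonneg K, hR.2, fun μ ν hμ hν hμm hνm => ?_, fun μ ν M o R hμ hν => ?_, hg⟩
  · obtain ⟨P, hP, -⟩ := cd_mid hN hR.1 hμ hν hμm hνm
    exact ⟨_, hP.2.2⟩
  · obtain ⟨P, hP, h⟩ := cd_mid hN hR.1 hμ.isP2 hν.isP2 hμ.ac hν.ac
    have hpk := hP.pk_marg hμ.2.2 hν.2.2 (1 / 2)
    haveI := hpk.1
    refine ⟨P, hP, fun D hD => ?_, ent_of_renyi hpk hN fun N' hN' =>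
      (cd_lower_ent (lt_of_lt_of_le hN hN') hμ hν hP).trans (h N' hN')⟩
    have h1 := ((cd_lower_len (abs_nonneg K) hN hμ hν hP hD).trans (h N le_rfl)).trans
      (renyi_le_support hN)
    have hN0 : 0 < N := by linarith
    have h2 := ENNReal.rpow_le_rpow h1 hN0.le
    have hM0 : (M : ℝ≥0∞) ≠ 0 := by
      intro h0
      haveI := hμ.1
      have := hμ.2.1 univ
      simp [h0] at this
    rw [ENNReal.mul_rpow_of_nonneg _ _ hN0.le, ← ENNReal.rpow_mul, ← ENNReal.rpow_mul,
      ENNReal.ofReal_rpow_of_pos (Real.exp_pos _), ← Real.exp_mul] at h2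
    have e1 : -(|K| * D ^ 2 / N) * N = -(|K| * D ^ 2) := by field_simp
    have e2 : -1 / N * N = -1 := by field_simp
    have e3 : 1 / N * N = 1 := by field_simp
    rw [e1, e2, e3, ENNReal.rpow_one, ENNReal.rpow_neg_one] at h2
    calc ENNReal.ofReal (Real.exp (-(|K| * D ^ 2)))
        = (M : ℝ≥0∞) * (ENNReal.ofReal (Real.exp (-(|K| * D ^ 2))) * (M : ℝ≥0∞)⁻¹) := by
          rw [mul_left_comm, ENNReal.mul_inv_cancel hM0 ENNReal.coe_ne_top, mul_one]
      _ ≤ _ := by gcongr

end Crest.Agent.R242
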