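import Crest.Agent.R242.Defs

/-! Row 242: approximation by compactly supported Lipschitz functions. -/

set_option autoImplicit false
set_option linter.unusedSectionVars false

open MeasureTheory Filter Set Topology
open scoped ENNReal NNReal
open Crest.GeometryTopology.SyntheticRicci

namespace Crest.Agent.R242

variable {X : Type*} [MetricSpace X] [ProperSpace X] [MeasurableSpace X] [BorelSpace X]
  {m : Measure X} [IsLocallyFiniteMeasure m] [m.IsOpenPosMeasure]

namespace LipApproxAux

theorem unif {g : X → ℝ} (hc : Continuous g) (hs : HasCompactSupport g) {ε : ℝ} (hε : 0 < ε) :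
    ∃ (h : X → ℝ) (L : ℝ≥0), LipschitzWith L h ∧ ∀ x, |g x - h x| ≤ ε := by
  obtain ⟨B, hB⟩ := hs.exists_bound_of_continuous hc
  obtain ⟨δ, hδ, H⟩ := Metric.uniformContinuous_iff.1 (hs.uniformContinuous_of_continuous hc) ε hε
  obtain ⟨L, hL⟩ : ∃ L : ℝ≥0, 2 * |B| ≤ L * δ :=
    ⟨⟨2 * |B| / δ, by positivity⟩, (div_mul_cancel₀ _ hδ.ne').ge⟩
  have key : ∀ x y, g x - ε ≤ g y + L * dist x y := by
    intro x y
    have h0 : 0 ≤ L * dist x y := by positivity
    by_cases h : dist x y < δ
    · have := (abs_lt.1 (show |g x - g y| < ε from H h)).2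
      linarith
    · have h1 : L * δ ≤ L * dist x y := mul_le_mul_of_nonneg_left (not_lt.1 h) L.2
      have h2 := abs_le.1 (show |g x| ≤ B from hB x)
      have h3 := abs_le.1 (show |g y| ≤ B from hB y)
      linarith [le_abs_self B, h2.2, h3.1]
  have hb : ∀ x, BddBelow (range fun y => g y + L * dist x y) := fun x =>
    ⟨g x - ε, by rintro _ ⟨y, rfl⟩; exact key x y⟩
  refine ⟨fun x => ⨅ y, (g y + L * dist x y), L, LipschitzWith.of_le_add_mul L fun x x' => ?_,
    fun x => ?_⟩
  · have : Nonempty X := ⟨x⟩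
    rw [← sub_le_iff_le_add]
    refine le_ciInf fun y => ?_
    have h1 := ciInf_le (hb x) y
    have h2 := mul_le_mul_of_nonneg_left (dist_triangle x x' y) L.2
    simp only [NNReal.val_eq_coe] at h2
    linarith
  · have : Nonempty X := ⟨x⟩
    have h1 := ciInf_le (hb x) x
    have h2 := le_ciInf (key x)
    rw [dist_self, mul_zero, add_zero] at h1
    rw [abs_le]
    constructor <;> linarith

theorem unif' {g : X → ℝ} (hc : Continuous g) (hs : HasCompactSupport g) {ε : ℝ} (hε : 0 < ε) :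
    ∃ (h : X → ℝ) (L : ℝ≥0), LipschitzWith L h ∧ (∀ x, |g x - h x| ≤ ε) ∧
      ∀ x, g x = 0 → h x = 0 := by
  obtain ⟨h, L, hL, H⟩ := unif hc hs (half_pos hε)
  refine ⟨fun x => h x - max (-(ε / 2)) (min (ε / 2) (h x)), L + L,
    hL.sub ((hL.const_min _).const_max _), fun x => ?_, fun x hx => ?_⟩
  · have h1 := abs_le.1 (H x)
    have h2 := le_max_left (-(ε / 2)) (min (ε / 2) (h x))
    have h3 : max (-(ε / 2)) (min (ε / 2) (h x)) ≤ ε / 2 :=
      max_le (by linarith) (min_le_left _ _)
    rw [abs_le]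
    constructor <;> linarith [h1.1, h1.2]
  · have h1 := abs_le.1 (H x)
    rw [hx] at h1
    change h x - max (-(ε / 2)) (min (ε / 2) (h x)) = 0
    rw [min_eq_right (by linarith [h1.1]), max_eq_right (by linarith [h1.2]), sub_self]

theorem core (m : Measure X) [IsLocallyFiniteMeasure m] {g : X → ℝ} (hc : Continuous g)
    (hs : HasCompactSupport g) {η : ℝ} (hη : 0 < η) :
    ∃ (h : X → ℝ) (L : ℝ≥0) (r : X → ℝ), LipschitzWith L h ∧ HasCompactSupport h ∧
      Integrable r m ∧ ∫ x, r x ∂m ≤ η ∧ ∀ x, |g x - h x| ≤ r x ∧ (g x - h x) ^ 2 ≤ r x := by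
  have h0 : 0 ≤ m.real (tsupport g) := measureReal_nonneg
  obtain ⟨ε, hε, hε1, hε2⟩ : ∃ ε : ℝ, 0 < ε ∧ ε ≤ 1 ∧ m.real (tsupport g) * ε ≤ η := by
    refine ⟨min 1 (η / (m.real (tsupport g) + 1)), by positivity, min_le_left _ _, ?_⟩
    have h1 := (le_div_iff₀ (by positivity)).1 (min_le_right 1 (η / (m.real (tsupport g) + 1)))
    have h2 : 0 < min 1 (η / (m.real (tsupport g) + 1)) := by positivity
    linarith
  obtain ⟨h, L, hL, H, H0⟩ := unif' hc hs hε
  have hm : MeasurableSet (tsupport g) := (isClosed_tsupport g).measurableSet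
  refine ⟨h, L, (tsupport g).indicator fun _ => ε, hL,
    hs.mono fun x hx hx' => hx (H0 x hx'),
    (integrable_indicator_iff hm).2 (integrableOn_const hs.isCompact.measure_lt_top.ne), ?_,
    fun x => ?_⟩
  · rw [integral_indicator_const _ hm, smul_eq_mul]
    exact hε2
  · by_cases hx : x ∈ tsupport g
    · rw [indicator_of_mem hx]
      refine ⟨H x, ?_⟩
      rw [← sq_abs]
      nlinarith [H x, abs_nonneg (g x - h x)]
    · have h1 := image_eq_zero_of_notMem_tsupport hx
      rw [indicator_of_notMem hx, h1, H0 x h1]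
      simp

theorem approx_L2 {f : X → ℝ} (hf : MemLp f 2 m) {η : ℝ} (hη : 0 < η) :
    ∃ (g : X → ℝ) (L : ℝ≥0), LipschitzWith L g ∧ HasCompactSupport g ∧
      ∫ x, (f x - g x) ^ 2 ∂m ≤ η := by
  have e : ENNReal.ofReal 2 = 2 := by simp
  obtain ⟨g, hs, hg, hc, hm⟩ := MemLp.exists_hasCompactSupport_integral_rpow_sub_le (p := 2)
    two_pos (e ▸ hf) (show 0 < η / 4 by positivity)
  rw [e] at hm
  simp only [Real.rpow_two, Real.norm_eq_abs, sq_abs] at hg
  obtain ⟨h, L, r, hL, hh, hr, hr', H⟩ := core m hc hs (show 0 < η / 4 by positivity)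
  have hi : Integrable (fun x => (f x - g x) ^ 2) m := (hf.sub hm).integrable_sq
  refine ⟨h, L, hL, hh, ?_⟩
  calc ∫ x, (f x - h x) ^ 2 ∂m ≤ ∫ x, 2 * (f x - g x) ^ 2 + 2 * r x ∂m := by
        refine integral_mono_of_nonneg (Eventually.of_forall fun x => sq_nonneg _)
          ((hi.const_mul 2).add (hr.const_mul 2)) (Eventually.of_forall fun x => ?_)
        have := (H x).2
        change (f x - h x) ^ 2 ≤ 2 * (f x - g x) ^ 2 + 2 * r x
        nlinarith [sq_nonneg (f x - g x - (g x - h x))]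
    _ ≤ η := by
        rw [integral_add (hi.const_mul 2) (hr.const_mul 2), integral_const_mul, integral_const_mul]
        linarith

theorem approx_L1 {f : X → ℝ} (hf : Integrable f m) {η : ℝ} (hη : 0 < η) :
    ∃ (g : X → ℝ) (L : ℝ≥0), LipschitzWith L g ∧ HasCompactSupport g ∧
      ∫ x, |f x - g x| ∂m ≤ η := by
  obtain ⟨g, hs, hg, hc, hm⟩ := hf.exists_hasCompactSupport_integral_sub_le (half_pos hη)
  simp only [Real.norm_eq_abs] at hg
  obtain ⟨h, L, r, hL, hh, hr, hr', H⟩ := core m hc hs (half_pos hη)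
  have hi : Integrable (fun x => |f x - g x|) m := (hf.sub hm).abs
  refine ⟨h, L, hL, hh, ?_⟩
  calc ∫ x, |f x - h x| ∂m ≤ ∫ x, |f x - g x| + r x ∂m := by
        refine integral_mono_of_nonneg (Eventually.of_forall fun x => abs_nonneg _)
          (hi.add hr) (Eventually.of_forall fun x => ?_)
        have := (H x).1
        change |f x - h x| ≤ |f x - g x| + r x
        linarith [abs_sub_le (f x) (g x) (h x)]
    _ ≤ η := by
        rw [integral_add hi hr]
        linarith

theorem clamp_le {a b s : ℝ} (h1 : a ≤ s) (h2 : s ≤ b) (t : ℝ) :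
    |s - max a (min b t)| ≤ |s - t| := by
  have h := (((LipschitzWith.id (α := ℝ)).const_min b).const_max a).dist_le_mul s t
  simpa [min_eq_right h2, max_eq_right h1, Real.dist_eq] using h

theorem setIntegral_zero {f : X → ℝ} (hf : LocallyIntegrable f m) {U : Set X}
    (hU : IsOpen U) (h : ∀ (g : X → ℝ) (L : ℝ≥0), LipschitzWith L g → HasCompactSupport g →
      tsupport g ⊆ U → (∀ x, 0 ≤ g x) → ∫ x, g x * f x ∂m = 0) {K : Set X} (hK : IsCompact K)
    (hKU : K ⊆ U) : ∫ x in K, f x ∂m = 0 := by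
  obtain ⟨δ, hδ, hδU⟩ := hK.exists_cthickening_subset_open hU hKU
  obtain ⟨u, -, hu, hlim⟩ := exists_seq_strictAnti_tendsto' hδ
  have hK' : IsCompact (Metric.cthickening δ K) := hK.cthickening
  have hz : ∀ n x, x ∉ Metric.cthickening δ K → (thickenedIndicator (hu n).1 K x : ℝ) = 0 := by
    intro n x hx
    rw [thickenedIndicator_zero (hu n).1 K fun h' => hx
      (Metric.cthickening_mono (hu n).2.le K (Metric.thickening_subset_cthickening _ _ h'))]
    rfl
  have hL : ∀ n, ∃ L, LipschitzWith L fun x => (thickenedIndicator (hu n).1 K x : ℝ) := fun n =>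
    ⟨_, NNReal.isometry_coe.lipschitz.comp (lipschitzWith_thickenedIndicator (hu n).1 K)⟩
  have h0 : ∀ n, ∫ x, (thickenedIndicator (hu n).1 K x : ℝ) * f x ∂m = 0 := by
    intro n
    obtain ⟨L, hL⟩ := hL n
    have hs : tsupport (fun x => (thickenedIndicator (hu n).1 K x : ℝ)) ⊆
        Metric.cthickening δ K :=
      closure_minimal (fun x hx => by_contra fun hx' => hx (hz n x hx'))
        Metric.isClosed_cthickening
    exact h _ L hL (hK'.of_isClosed_subset (isClosed_tsupport _) hs) (hs.trans hδU)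
      fun x => NNReal.coe_nonneg _
  have hlim' : Tendsto (fun n => ∫ x, (thickenedIndicator (hu n).1 K x : ℝ) * f x ∂m) atTop
      (𝓝 (∫ x, K.indicator f x ∂m)) := by
    refine tendsto_integral_of_dominated_convergence
      ((Metric.cthickening δ K).indicator fun x => ‖f x‖) (fun n => ?_) ?_
      (fun n => Eventually.of_forall fun x => ?_) (Eventually.of_forall fun x => ?_)
    · obtain ⟨L, hL⟩ := hL n
      exact hL.continuous.aestronglyMeasurable.mul hf.aestronglyMeasurable
    · exact (integrable_indicator_iff hK'.measurableSet).2 (hf.integrableOn_isCompact hK').norm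
    · by_cases hx : x ∈ Metric.cthickening δ K
      · rw [indicator_of_mem hx, norm_mul]
        refine mul_le_of_le_one_left (norm_nonneg _) ?_
        rw [Real.norm_eq_abs, NNReal.abs_eq]
        exact_mod_cast thickenedIndicator_le_one (hu n).1 K x
      · rw [indicator_of_notMem hx, hz n x hx, zero_mul, norm_zero]
    · have h1 := tendsto_pi_nhds.1
        (thickenedIndicator_tendsto_indicator_closure (fun n => (hu n).1) hlim K) x
      have h2 := (NNReal.tendsto_coe.2 h1).mul_const (f x)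
      rw [hK.isClosed.closure_eq] at h2
      convert h2 using 2
      by_cases hx : x ∈ K <;> simp [hx]
  simp only [h0] at hlim'
  rw [← integral_indicator hK.measurableSet]
  exact (tendsto_nhds_unique tendsto_const_nhds hlim').symm

end LipApproxAux

open LipApproxAux

theorem exists_lip_approx_L2 {f : X → ℝ} (hf : MemLp f 2 m) {a b : ℝ} (ha : a ≤ 0) (hb : 0 ≤ b)
    (hab : ∀ᵐ x ∂m, a ≤ f x ∧ f x ≤ b) {η : ℝ} (hη : 0 < η) :
    ∃ (g : X → ℝ) (L : ℝ≥0), LipschitzWith L g ∧ HasCompactSupport g ∧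
      (∀ x, a ≤ g x ∧ g x ≤ b) ∧ ∫ x, (f x - g x) ^ 2 ∂m ≤ η := by
  obtain ⟨g, L, hL, hs, H⟩ := approx_L2 hf hη
  refine ⟨fun x => max a (min b (g x)), L, (hL.const_min b).const_max a,
    hs.comp_left (g := fun t => max a (min b t)) (by simp [ha, hb]),
    fun x => ⟨le_max_left _ _, max_le (ha.trans hb) (min_le_left _ _)⟩, le_trans ?_ H⟩
  refine integral_mono_of_nonneg (Eventually.of_forall fun x => sq_nonneg _)
    (hf.sub (hL.continuous.memLp_of_hasCompactSupport hs)).integrable_sq ?_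
  filter_upwards [hab] with x hx
  exact sq_le_sq.2 (clamp_le hx.1 hx.2 _)

theorem exists_lip_approx_L2' {f : X → ℝ} (hf : MemLp f 2 m) {η : ℝ} (hη : 0 < η) :
    ∃ (g : X → ℝ) (L : ℝ≥0), LipschitzWith L g ∧ HasCompactSupport g ∧
      ∫ x, (f x - g x) ^ 2 ∂m ≤ η :=
  approx_L2 hf hη

theorem exists_lip_approx_L1 {f : X → ℝ} (hf : Integrable f m) {η : ℝ} (hη : 0 < η) :
    ∃ (g : X → ℝ) (L : ℝ≥0), LipschitzWith L g ∧ HasCompactSupport g ∧
      ((∀ᵐ x ∂m, 0 ≤ f x) → ∀ x, 0 ≤ g x) ∧ ∫ x, |f x - g x| ∂m ≤ η := by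
  obtain ⟨g, L, hL, hs, H⟩ := approx_L1 hf hη
  by_cases h0 : ∀ᵐ x ∂m, 0 ≤ f x
  · refine ⟨fun x => max 0 (g x), L, hL.const_max 0,
      hs.comp_left (g := fun t => max 0 t) (by simp), fun _ x => le_max_left _ _, le_trans ?_ H⟩
    refine integral_mono_of_nonneg (Eventually.of_forall fun x => abs_nonneg _)
      (hf.sub (hL.continuous.integrable_of_hasCompactSupport hs)).abs ?_
    filter_upwards [h0] with x hx
    have h := ((LipschitzWith.id (α := ℝ)).const_max 0).dist_le_mul (f x) (g x)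
    simpa [max_eq_right hx, Real.dist_eq] using h
  · exact ⟨g, L, hL, hs, fun h => absurd h h0, H⟩

/-- A function with zero integral against all Lipschitz functions compactly supported in the
open set `U` vanishes on `U`. -/
theorem ae_eq_zero_of_lip_tests {f : X → ℝ} (hf : LocallyIntegrable f m) {U : Set X}
    (hU : IsOpen U) (h : ∀ (g : X → ℝ) (L : ℝ≥0), LipschitzWith L g → HasCompactSupport g →
      tsupport g ⊆ U → (∀ x, 0 ≤ g x) → ∫ x, g x * f x ∂m = 0) :
    ∀ᵐ x ∂m, x ∈ U → f x = 0 := by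
  obtain ⟨F, hF, hFU, hFU', -⟩ := hU.exists_iUnion_isClosed
  have key : ∀ n, ∀ᵐ x ∂m, x ∈ F n → f x = 0 := by
    intro n
    rw [← ae_restrict_iff' (hF n).measurableSet]
    refine ae_eq_zero_of_forall_setIntegral_isCompact_eq_zero'
      (hf.mono_measure Measure.restrict_le_self) fun s hs => ?_
    rw [Measure.restrict_restrict' (hF n).measurableSet]
    exact setIntegral_zero hf hU h (hs.inter_right (hF n)) (inter_subset_right.trans (hFU n))
  filter_upwards [ae_all_iff.2 key] with x hx hxU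
  rw [← hFU'] at hxU
  obtain ⟨n, hn⟩ := mem_iUnion.1 hxU
  exact hx n hn

/-- The standard cut-off: `1` on the ball of radius `R`, `0` outside the ball of radius `R + S`. -/
theorem exists_cutoff (o : X) (R : ℝ) {S : ℝ≥0} (hS : 0 < S) :
    ∃ χ : X → ℝ, LipschitzWith S⁻¹ χ ∧ HasCompactSupport χ ∧ (∀ x, 0 ≤ χ x ∧ χ x ≤ 1) ∧
      (∀ x, dist x o ≤ R → χ x = 1) ∧ ∀ x, R + S ≤ dist x o → χ x = 0 := by
  have hS' : (0 : ℝ) < S := hS
  have hz : ∀ x, R + S ≤ dist x o → max 0 (min 1 (1 - (dist x o - R) / S)) = (0 : ℝ) := by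
    intro x hx
    refine max_eq_left (min_le_of_right_le ?_)
    rw [sub_nonpos, one_le_div hS']
    linarith
  have hL : LipschitzWith S⁻¹ fun x => 1 - (dist x o - R) / S := by
    refine LipschitzWith.of_le_add_mul _ fun x y => ?_
    have h1 : dist y o - dist x o ≤ dist x y := by linarith [dist_triangle_left y o x]
    have h2 := div_le_div_of_nonneg_right h1 hS'.le
    rw [NNReal.coe_inv, ← div_eq_inv_mul]
    simp only [sub_div] at h2 ⊢
    linarith
  refine ⟨fun x => max 0 (min 1 (1 - (dist x o - R) / S)), (hL.const_min 1).const_max 0,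
    HasCompactSupport.intro (isCompact_closedBall o (R + S)) fun x hx => hz x ?_,
    fun x => ⟨le_max_left _ _, max_le zero_le_one (min_le_left _ _)⟩, fun x hx => ?_, hz⟩
  · exact (not_le.1 fun h => hx (Metric.mem_closedBall.2 h)).le
  · have : (dist x o - R) / S ≤ 0 := div_nonpos_of_nonpos_of_nonneg (by linarith) hS'.le
    change max 0 (min 1 (1 - (dist x o - R) / S)) = (1 : ℝ)
    rw [min_eq_left (by linarith), max_eq_right zero_le_one]

end Crest.Agent.R242
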