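import Crest.Agent.R242.ResExist
import Crest.Agent.R242.LipApprox
import Crest.Agent.R242.LipSob

/-! Row 242: convergence of the resolvent. -/

set_option autoImplicit false
set_option linter.unusedSectionVars false

open MeasureTheory Filter Set Topology
open scoped ENNReal NNReal
open Crest.GeometryTopology.SyntheticRicci

namespace Crest.Agent.R242

variable {X : Type*} [MetricSpace X] [ProperSpace X] [MeasurableSpace X] [BorelSpace X]
  {m : Measure X} [IsLocallyFiniteMeasure m] [m.IsOpenPosMeasure]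

theorem RC_sq_add {a b c : X → ℝ} (ha : MemLp a 2 m) (hb : MemLp b 2 m)
    (h : ∀ᵐ x ∂m, |c x| ≤ |a x| + |b x|) :
    ∫ x, c x ^ 2 ∂m ≤ 2 * ∫ x, a x ^ 2 ∂m + 2 * ∫ x, b x ^ 2 ∂m := by
  have h1 := ha.integrable_sq.const_mul 2
  have h2 := hb.integrable_sq.const_mul 2
  rw [← integral_const_mul, ← integral_const_mul, ← integral_add h1 h2]
  refine integral_mono_of_nonneg (Eventually.of_forall fun x => sq_nonneg _) (h1.add h2) ?_
  filter_upwards [h] with x hx
  have h3 : c x ^ 2 ≤ (|a x| + |b x|) ^ 2 := by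
    rw [← sq_abs]
    exact pow_le_pow_left₀ (abs_nonneg _) hx 2
  nlinarith [sq_nonneg (|a x| - |b x|), sq_abs (a x), sq_abs (b x)]

theorem RC_tri {a b c : X → ℝ} (ha : MemLp a 2 m) (hb : MemLp b 2 m) (hc : MemLp c 2 m) :
    ∫ x, (a x - c x) ^ 2 ∂m ≤ 2 * ∫ x, (a x - b x) ^ 2 ∂m + 2 * ∫ x, (b x - c x) ^ 2 ∂m :=
  RC_sq_add (a := fun x => a x - b x) (b := fun x => b x - c x) (ha.sub hb) (hb.sub hc)
    (Eventually.of_forall fun x => abs_sub_le _ _ _)

theorem RC_comm (a b : X → ℝ) : ∫ x, (a x - b x) ^ 2 ∂m = ∫ x, (b x - a x) ^ 2 ∂m := by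
  congr 1 with x
  ring

theorem RC_res_bound {V : X → ℝ} (hV : IsWt V) : ∃ c : ℝ, 0 < c ∧
    ∀ (lam : ℝ) (f u : X → ℝ), 0 < lam → MemLp f 2 m → IsRes m V lam f u →
      ∫ x, u x ^ 2 ∂m ≤ c * ∫ x, f x ^ 2 ∂m ∧
        ∫ x, minWeakGrad m u x ^ 2 ∂m ≤ c * lam * ∫ x, f x ^ 2 ∂m := by
  obtain ⟨c, hc, h⟩ := hV.compare (m := m)
  refine ⟨c * c, by positivity, fun lam f u hl hf hu => ?_⟩
  obtain ⟨e1, e2, -⟩ := hu.energy hV hl hf
  have a1 := (h _ hf.integrable_sq (Eventually.of_forall fun x => sq_nonneg _)).2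
  have a2 := (h _ hu.1.1.integrable_sq (Eventually.of_forall fun x => sq_nonneg _)).1
  have a3 := (h _ hu.1.2.2.integrable_sq (Eventually.of_forall fun x => sq_nonneg _)).1
  constructor
  · calc _ ≤ c * (c * ∫ x, f x ^ 2 ∂m) :=
          a2.trans (mul_le_mul_of_nonneg_left (e1.trans a1) hc.le)
      _ = _ := by ring
  · calc _ ≤ c * (lam * (c * ∫ x, f x ^ 2 ∂m)) :=
          a3.trans (mul_le_mul_of_nonneg_left
            (e2.trans (mul_le_mul_of_nonneg_left a1 hl.le)) hc.le)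
      _ = _ := by ring

theorem RC_res_sob (hH : IsInfHilbertian m) {V : X → ℝ} (hV : IsWt V) : ∃ c : ℝ, 0 < c ∧
    ∀ (lam : ℝ) (f u : X → ℝ), 0 < lam → IsSobolev m f → IsRes m V lam f u →
      ∫ x, minWeakGrad m u x ^ 2 ∂m ≤ c * ∫ x, minWeakGrad m f x ^ 2 ∂m ∧
        ∫ x, (u x - f x) ^ 2 ∂m ≤ c * (∫ x, minWeakGrad m f x ^ 2 ∂m) * lam⁻¹ ∧
        ∫ x, Real.exp (V x) * minWeakGrad m u x ^ 2 ∂m ≤
          ∫ x, Real.exp (V x) * minWeakGrad m f x ^ 2 ∂m := by
  obtain ⟨c, hc, h⟩ := hV.compare (m := m)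
  refine ⟨c * c, by positivity, fun lam f u hl hf hu => ?_⟩
  have e := hu.energy_sob hH hV hl hf
  have a1 := (h _ hf.2.2.integrable_sq (Eventually.of_forall fun x => sq_nonneg _)).2
  have a2 : ∫ x, (f x - u x) ^ 2 ∂m ≤ c * ∫ x, Real.exp (V x) * (f x - u x) ^ 2 ∂m :=
    (h _ (hf.1.sub hu.1.1).integrable_sq (Eventually.of_forall fun x => sq_nonneg _)).1
  have a3 := (h _ hu.1.2.2.integrable_sq (Eventually.of_forall fun x => sq_nonneg _)).1
  have p1 : 0 ≤ ∫ x, Real.exp (V x) * minWeakGrad m u x ^ 2 ∂m :=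
    integral_nonneg fun x => mul_nonneg (Real.exp_pos _).le (sq_nonneg _)
  have p2 : 0 ≤ ∫ x, Real.exp (V x) * (f x - u x) ^ 2 ∂m :=
    integral_nonneg fun x => mul_nonneg (Real.exp_pos _).le (sq_nonneg _)
  have p3 := mul_nonneg hl.le p2
  refine ⟨?_, ?_, by linarith⟩
  · calc _ ≤ c * (c * ∫ x, minWeakGrad m f x ^ 2 ∂m) :=
          a3.trans (mul_le_mul_of_nonneg_left (by linarith) hc.le)
      _ = _ := by ring
  · rw [RC_comm, ← div_eq_mul_inv, le_div_iff₀ hl]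
    calc _ ≤ c * (∫ x, Real.exp (V x) * (f x - u x) ^ 2 ∂m) * lam :=
          mul_le_mul_of_nonneg_right a2 hl.le
      _ = c * (lam * ∫ x, Real.exp (V x) * (f x - u x) ^ 2 ∂m) := by ring
      _ ≤ c * (c * ∫ x, minWeakGrad m f x ^ 2 ∂m) :=
          mul_le_mul_of_nonneg_left (by linarith) hc.le
      _ = _ := by ring

theorem RC_mixed {a : ℕ → X → ℝ} {b : X → ℝ} (ha : ∀ n, MemLp (a n) 2 m) (hb : MemLp b 2 m)
    {M : ℝ} (hM0 : 0 ≤ M) (hM : ∀ n, ∀ᵐ x ∂m, a n x ^ 2 ≤ M)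
    (h : Tendsto (fun n => ∫ x, a n x ^ 2 ∂m) atTop (𝓝 0)) {c : ℕ → X → ℝ}
    (hc : ∀ n, ∀ᵐ x ∂m, c n x ^ 2 ≤ b x ^ 2 * a n x ^ 2) :
    Tendsto (fun n => ∫ x, c n x ^ 2 ∂m) atTop (𝓝 0) := by
  have hb2 := hb.integrable_sq
  have hm : ∀ K : ℕ, AEStronglyMeasurable (fun x => max (b x ^ 2 - K) 0) m := fun K =>
    ((hb2.aemeasurable.sub aemeasurable_const).max aemeasurable_const).aestronglyMeasurable
  have hbd : ∀ K : ℕ, ∀ᵐ x ∂m, ‖max (b x ^ 2 - K) 0‖ ≤ b x ^ 2 := fun K =>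
    Eventually.of_forall fun x => by
      rw [Real.norm_of_nonneg (le_max_right _ _)]
      exact max_le (sub_le_self _ (Nat.cast_nonneg K)) (sq_nonneg _)
  have h1 := tendsto_integral_of_dominated_convergence (μ := m)
    (F := fun (K : ℕ) x => max (b x ^ 2 - K) 0) (f := fun _ => 0) _ hm hb2 hbd
    (Eventually.of_forall fun x => by
      refine tendsto_const_nhds.congr' ?_
      filter_upwards [eventually_ge_atTop ⌈b x ^ 2⌉₊] with K hK
      exact (max_eq_right (sub_nonpos.2 (Nat.ceil_le.1 hK))).symm)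
  rw [integral_zero] at h1
  have h2 := h1.const_mul M
  rw [mul_zero] at h2
  refine tendsto_order.2 ⟨fun η hη => Eventually.of_forall fun n =>
    hη.trans_le (integral_nonneg fun x => sq_nonneg _), fun η hη => ?_⟩
  obtain ⟨K, hK⟩ := (h2.eventually (gt_mem_nhds (half_pos hη))).exists
  have h3 := h.const_mul (K : ℝ)
  rw [mul_zero] at h3
  filter_upwards [h3.eventually (gt_mem_nhds (half_pos hη))] with n hn
  have i1 := (ha n).integrable_sq.const_mul (K : ℝ)
  have i2 := (hb2.mono' (hm K) (hbd K)).const_mul M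
  have h4 : ∫ x, c n x ^ 2 ∂m ≤ ∫ x, (K * a n x ^ 2 + M * max (b x ^ 2 - K) 0) ∂m := by
    refine integral_mono_of_nonneg (Eventually.of_forall fun x => sq_nonneg _) (i1.add i2) ?_
    filter_upwards [hc n, hM n] with x a1 a2
    have a3 := mul_le_mul_of_nonneg_right a2 (le_max_right (b x ^ 2 - K) 0)
    have a4 := mul_le_mul_of_nonneg_left (le_max_left (b x ^ 2 - K) 0) (sq_nonneg (a n x))
    nlinarith
  rw [integral_add i1 i2, integral_const_mul, integral_const_mul] at h4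
  linarith

/-- Continuity in the datum, uniformly in the parameter. -/
theorem res_L2Conv_data (hH : IsInfHilbertian m) {V : X → ℝ} (hV : IsWt V) {lam : ℝ}
    (hl : 0 < lam) {f u : ℕ → X → ℝ} {g w : X → ℝ} (hf : ∀ n, MemLp (f n) 2 m) (hg : MemLp g 2 m)
    (hu : ∀ n, IsRes m V lam (f n) (u n)) (hw : IsRes m V lam g w) (h : L2Conv m f g) :
    W12Conv m u w := by
  obtain ⟨c, -, hc⟩ := RC_res_bound (m := m) hV
  have key := fun n => hc lam _ _ hl ((hf n).sub hg) ((hu n).sub hH hV (hf n) hg hw)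
  have h1 := Tendsto.const_mul c h
  have h2 := Tendsto.const_mul (c * lam) h
  rw [mul_zero] at h1 h2
  exact ⟨squeeze_zero (fun n => integral_nonneg fun x => sq_nonneg _) (fun n => (key n).1) h1,
    squeeze_zero (fun n => integral_nonneg fun x => sq_nonneg _) (fun n => (key n).2) h2⟩

theorem res_L2Conv (hH : IsInfHilbertian m) {V : X → ℝ} (hV : IsWt V) {lam : ℕ → ℝ}
    (hl : ∀ n, 0 < lam n) (hlam : Tendsto lam atTop atTop) {f u : ℕ → X → ℝ} {g : X → ℝ}
    (hf : ∀ n, MemLp (f n) 2 m) (hg : MemLp g 2 m) (hu : ∀ n, IsRes m V (lam n) (f n) (u n))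
    (h : L2Conv m f g) : L2Conv m u g := by
  obtain ⟨c, hc0, hc⟩ := RC_res_bound (m := m) hV
  obtain ⟨c', -, hc'⟩ := RC_res_sob hH hV
  refine tendsto_order.2 ⟨fun η hη => Eventually.of_forall fun n =>
    hη.trans_le (integral_nonneg fun x => sq_nonneg _), fun η hη => ?_⟩
  have hδ : 0 < η / (2 * (4 * c + 4)) := by positivity
  obtain ⟨g0, L, hL, hcs, hg0⟩ := exists_lip_approx_L2' hg hδ
  have s0 := (lipS_of_lipschitz (m := m) hL hcs).1
  have h1 := (Tendsto.const_mul (4 * c) h).add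
    ((tendsto_inv_atTop_zero.comp hlam).const_mul (4 * (c' * ∫ x, minWeakGrad m g0 x ^ 2 ∂m)))
  rw [mul_zero, mul_zero, add_zero] at h1
  filter_upwards [h1.eventually (gt_mem_nhds (half_pos hη))] with n hn
  obtain ⟨z, hz⟩ := exists_res hH hV (hl n) s0.1
  have a1 : ∫ x, (u n x - z x) ^ 2 ∂m ≤ c * ∫ x, (f n x - g0 x) ^ 2 ∂m :=
    (hc _ _ _ (hl n) ((hf n).sub s0.1) ((hu n).sub hH hV (hf n) s0.1 hz)).1
  have a2 := (hc' _ _ _ (hl n) s0 hz).2.1
  have a3 := RC_tri (hu n).1.1 hz.1.1 hg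
  have a4 := RC_tri hz.1.1 s0.1 hg
  have a5 := mul_le_mul_of_nonneg_left (RC_tri (hf n) hg s0.1) hc0.le
  have a6 := RC_comm (m := m) g0 g
  have a7 := mul_le_mul_of_nonneg_left hg0 (by positivity : 0 ≤ 4 * c + 4)
  have a8 : (4 * c + 4) * (η / (2 * (4 * c + 4))) = η / 2 := by field_simp
  simp only [Function.comp_apply] at hn
  nlinarith

theorem res_W12Conv (hH : IsInfHilbertian m) {V : X → ℝ} (hV : IsWt V) {lam : ℕ → ℝ}
    (hl : ∀ n, 0 < lam n) (hlam : Tendsto lam atTop atTop) {u : ℕ → X → ℝ} {g : X → ℝ}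
    (hg : IsSobolev m g) (hu : ∀ n, IsRes m V (lam n) g (u n)) : W12Conv m u g := by
  have h1 : L2Conv m u g :=
    res_L2Conv hH hV hl hlam (fun _ => hg.1) hg.1 hu (by simp [L2Conv])
  refine ⟨h1, ?_⟩
  obtain ⟨c', -, hc'⟩ := RC_res_sob hH hV
  obtain ⟨c, hc0, hc⟩ := hV.compare (m := m)
  obtain ⟨B, hB⟩ := hV.2
  have hθ : AEStronglyMeasurable (fun x => Real.exp (V x)) m := hV.1.exp.aestronglyMeasurable
  have h2 := weak_conv hH (fun n => (hu n).1) hg.1 h1 (fun n => (hc' _ _ _ (hl n) hg (hu n)).1) hg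
    hθ (B := Real.exp B) (Eventually.of_forall fun x => by
      rw [abs_of_pos (Real.exp_pos _)]
      exact Real.exp_le_exp.2 ((le_abs_self _).trans (hB x)))
  have h3 : ∫ x, Real.exp (V x) * gradPairing m g g x ∂m =
      ∫ x, Real.exp (V x) * minWeakGrad m g x ^ 2 ∂m :=
    integral_congr_ae ((gamma_self hg.2.1).mono fun x hx => by simp only [hx])
  rw [h3] at h2
  have h4 := ((h2.const_mul 2).const_sub
    (2 * ∫ x, Real.exp (V x) * minWeakGrad m g x ^ 2 ∂m)).const_mul c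
  rw [sub_self, mul_zero] at h4
  refine squeeze_zero (fun n => integral_nonneg fun x => sq_nonneg _) (fun n => ?_) h4
  have s1 := sob_sub (hu n).1 hg
  refine (hc _ s1.2.2.integrable_sq (Eventually.of_forall fun x => sq_nonneg _)).1.trans
    (mul_le_mul_of_nonneg_left ?_ hc0.le)
  have i1 := hV.integrable_mul (hu n).1.2.2.integrable_sq
  have i2 := (hV.integrable_mul (gamma_integrable hH (hu n).1 hg)).const_mul 2
  have i3 := hV.integrable_mul hg.2.2.integrable_sq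
  have i4 : Integrable (fun x => Real.exp (V x) * minWeakGrad m (u n) x ^ 2 -
      2 * (Real.exp (V x) * gradPairing m (u n) g x)) m := i1.sub i2
  have e : ∫ x, Real.exp (V x) * minWeakGrad m (fun y => u n y - g y) x ^ 2 ∂m =
      ∫ x, (Real.exp (V x) * minWeakGrad m (u n) x ^ 2 -
        2 * (Real.exp (V x) * gradPairing m (u n) g x) +
        Real.exp (V x) * minWeakGrad m g x ^ 2) ∂m :=
    integral_congr_ae ((D_sub_sq hH (hu n).1.2.1 hg.2.1).mono fun x hx => by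
      simp only [hx]
      ring)
  rw [e, integral_add i4 i3, integral_sub i1 i2, integral_const_mul]
  have := (hc' _ _ _ (hl n) hg (hu n)).2.2
  linarith

theorem L2Conv.tendsto_integral_mul {u v : ℕ → X → ℝ} {f g : X → ℝ} (hu : ∀ n, MemLp (u n) 2 m)
    (hv : ∀ n, MemLp (v n) 2 m) (hf : MemLp f 2 m) (hg : MemLp g 2 m) (huf : L2Conv m u f)
    (hvg : L2Conv m v g) :
    Tendsto (fun n => ∫ x, u n x * v n x ∂m) atTop (𝓝 (∫ x, f x * g x ∂m)) := by
  have h1 := Tendsto.sqrt huf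
  have h2 := Tendsto.sqrt hvg
  rw [Real.sqrt_zero] at h1 h2
  have h3 := ((h1.mul h2).add (h1.mul_const √(∫ x, g x ^ 2 ∂m))).add
    (h2.const_mul √(∫ x, f x ^ 2 ∂m))
  simp only [zero_mul, mul_zero, add_zero] at h3
  rw [tendsto_iff_norm_sub_tendsto_zero]
  refine squeeze_zero (fun n => norm_nonneg _) (fun n => ?_) h3
  have m1 : MemLp (fun x => u n x - f x) 2 m := (hu n).sub hf
  have m2 : MemLp (fun x => v n x - g x) 2 m := (hv n).sub hg
  have i1 : Integrable (fun x => (u n x - f x) * (v n x - g x)) m := m1.integrable_mul m2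
  have i2 : Integrable (fun x => (u n x - f x) * g x) m := m1.integrable_mul hg
  have i3 : Integrable (fun x => f x * (v n x - g x)) m := hf.integrable_mul m2
  have i4 : Integrable (fun x => u n x * v n x) m := (hu n).integrable_mul (hv n)
  have i5 : Integrable (fun x => f x * g x) m := hf.integrable_mul hg
  have i6 : Integrable (fun x => (u n x - f x) * (v n x - g x) + (u n x - f x) * g x) m :=
    i1.add i2
  have e : ∫ x, u n x * v n x ∂m - ∫ x, f x * g x ∂m =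
      ∫ x, (u n x - f x) * (v n x - g x) ∂m + ∫ x, (u n x - f x) * g x ∂m +
        ∫ x, f x * (v n x - g x) ∂m := by
    rw [← integral_sub i4 i5, ← integral_add i1 i2, ← integral_add i6 i3]
    congr 1 with x
    ring
  rw [e, Real.norm_eq_abs]
  exact (abs_add_three _ _ _).trans
    (add_le_add (add_le_add (WC_cs m1 m2) (WC_cs m1 hg)) (WC_cs hf m2))

theorem L2Conv.const (f : X → ℝ) : L2Conv m (fun _ => f) f := by
  simp [L2Conv]

theorem L2Conv.add {u v : ℕ → X → ℝ} {f g : X → ℝ} (hu : ∀ n, MemLp (u n) 2 m)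
    (hv : ∀ n, MemLp (v n) 2 m) (hf : MemLp f 2 m) (hg : MemLp g 2 m) (huf : L2Conv m u f)
    (hvg : L2Conv m v g) : L2Conv m (fun n x => u n x + v n x) (fun x => f x + g x) := by
  have h1 := (Tendsto.const_mul 2 huf).add (Tendsto.const_mul 2 hvg)
  rw [mul_zero, add_zero] at h1
  refine squeeze_zero (fun n => integral_nonneg fun x => sq_nonneg _) (fun n => ?_) h1
  exact RC_sq_add (a := fun x => u n x - f x) (b := fun x => v n x - g x) ((hu n).sub hf)
    ((hv n).sub hg) (Eventually.of_forall fun x => by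
      rw [add_sub_add_comm]
      exact abs_add_le _ _)

theorem L2Conv.bdd_mul {u : ℕ → X → ℝ} {f θ : X → ℝ} (hu : ∀ n, MemLp (u n) 2 m)
    (hf : MemLp f 2 m) (huf : L2Conv m u f) (hθ : AEStronglyMeasurable θ m) {B : ℝ}
    (hB : ∀ᵐ x ∂m, |θ x| ≤ B) : L2Conv m (fun n x => θ x * u n x) (fun x => θ x * f x) := by
  have h1 := Tendsto.const_mul (B ^ 2) huf
  rw [mul_zero] at h1
  refine squeeze_zero (fun n => integral_nonneg fun x => sq_nonneg _) (fun n => ?_) h1
  rw [← integral_const_mul]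
  refine integral_mono_of_nonneg (Eventually.of_forall fun x => sq_nonneg _)
    (((hu n).sub hf).integrable_sq.const_mul _) ?_
  filter_upwards [hB] with x hx
  rw [← mul_sub, mul_pow, ← sq_abs (θ x)]
  exact mul_le_mul_of_nonneg_right (pow_le_pow_left₀ (abs_nonneg _) hx 2) (sq_nonneg _)

theorem L2Conv.congr {u u' : ℕ → X → ℝ} {f f' : X → ℝ} (h : L2Conv m u f)
    (hu : ∀ n, u n =ᵐ[m] u' n) (hf : f =ᵐ[m] f') : L2Conv m u' f' := by
  refine Tendsto.congr (fun n => integral_congr_ae ?_) h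
  filter_upwards [hu n, hf] with x a1 a2
  rw [a1, a2]

theorem L2Conv.bounded {u : ℕ → X → ℝ} {f : X → ℝ} (hu : ∀ n, MemLp (u n) 2 m)
    (hf : MemLp f 2 m) (huf : L2Conv m u f) : ∃ A : ℝ, ∀ n, ∫ x, u n x ^ 2 ∂m ≤ A := by
  obtain ⟨A, hA⟩ := Tendsto.bddAbove_range huf
  refine ⟨2 * A + 2 * ∫ x, f x ^ 2 ∂m, fun n => ?_⟩
  have h1 := RC_sq_add (a := fun x => u n x - f x) (b := f) (c := u n) ((hu n).sub hf) hf
    (Eventually.of_forall fun x => by
      have := abs_add_le (u n x - f x) (f x)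
      rwa [sub_add_cancel] at this)
  have h2 : ∫ x, (u n x - f x) ^ 2 ∂m ≤ A := hA ⟨n, rfl⟩
  linarith

theorem W12Conv.bounded {u : ℕ → X → ℝ} {f : X → ℝ} (hu : ∀ n, IsSobolev m (u n))
    (hf : IsSobolev m f) (huf : W12Conv m u f) :
    ∃ A : ℝ, ∀ n, ∫ x, minWeakGrad m (u n) x ^ 2 ∂m ≤ A := by
  obtain ⟨A, hA⟩ := Tendsto.bddAbove_range huf.2
  refine ⟨2 * A + 2 * ∫ x, minWeakGrad m f x ^ 2 ∂m, fun n => ?_⟩
  have a := sob_sub (hu n) hf
  have e1 := (sl_add a.2.1 hf.2.1).2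
  simp only [sub_add_cancel] at e1
  have h1 := RC_sq_add (c := minWeakGrad m (u n)) a.2.2 hf.2.2 (by
    filter_upwards [e1, sl_D_nonneg (hu n).2.1] with x b1 b2
    rw [abs_of_nonneg b2]
    exact b1.trans (add_le_add (le_abs_self _) (le_abs_self _)))
  have h2 : ∫ x, minWeakGrad m (fun y => u n y - f y) x ^ 2 ∂m ≤ A := hA ⟨n, rfl⟩
  linarith

/-- Pairing with a function of bounded gradient. -/
theorem W12Conv.gamma_bdd (hH : IsInfHilbertian m) {u : ℕ → X → ℝ} {f F : X → ℝ}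
    (hu : ∀ n, IsSobolev m (u n)) (hf : IsSobolev m f) (huf : W12Conv m u f)
    (hF : IsSobolevLoc m F) {L : ℝ} (hL : ∀ᵐ x ∂m, minWeakGrad m F x ≤ L) :
    L2Conv m (fun n => gradPairing m F (u n)) (gradPairing m F f) := by
  have h1 := huf.2.const_mul (L ^ 2)
  rw [mul_zero] at h1
  refine squeeze_zero (fun n => integral_nonneg fun x => sq_nonneg _) (fun n => ?_) h1
  have a := sob_sub (hu n) hf
  rw [← integral_const_mul]
  refine integral_mono_of_nonneg (Eventually.of_forall fun x => sq_nonneg _)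
    (a.2.2.integrable_sq.const_mul _) ?_
  filter_upwards [gamma_sub_right hH (hu n).2.1 hf.2.1 hF, abs_gamma_le hH hF a.2.1, hL,
    sl_D_nonneg a.2.1] with x b1 b2 b3 b4
  rw [← b1, ← mul_pow, ← sq_abs]
  exact pow_le_pow_left₀ (abs_nonneg _) (b2.trans (mul_le_mul_of_nonneg_right b3 b4)) 2

/-- Pairing of uniformly Lipschitz functions with a Sobolev function. -/
theorem W12Conv.gamma_mixed (hH : IsInfHilbertian m) {u : ℕ → X → ℝ} {f h : X → ℝ} {L : ℝ}
    (hu : ∀ n, LipS m (u n) L) (hf : LipS m f L) (huf : W12Conv m u f) (hh : IsSobolev m h) :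
    L2Conv m (fun n => gradPairing m h (u n)) (gradPairing m h f) := by
  refine RC_mixed (a := fun n => minWeakGrad m fun y => u n y - f y)
    (c := fun n x => gradPairing m h (u n) x - gradPairing m h f x)
    (fun n => (sob_sub (hu n).1 hf.1).2.2) hh.2.2 (sq_nonneg (L + L)) (fun n => ?_) huf.2
    fun n => ?_
  · filter_upwards [(sl_sub (hu n).1.2.1 hf.1.2.1).2, (hu n).2, hf.2,
      sl_D_nonneg (sob_sub (hu n).1 hf.1).2.1] with x b1 b2 b3 b4
    exact pow_le_pow_left₀ b4 (b1.trans (add_le_add b2 b3)) 2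
  · filter_upwards [gamma_sub_right hH (hu n).1.2.1 hf.1.2.1 hh.2.1,
      abs_gamma_le hH hh.2.1 (sob_sub (hu n).1 hf.1).2.1] with x b1 b2
    rw [← b1, ← mul_pow, ← sq_abs]
    exact pow_le_pow_left₀ (abs_nonneg _) b2 2

end Crest.Agent.R242
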