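import Crest.Agent.R242.GE0
import Crest.Agent.R242.DensLipS
import Crest.Agent.R242.ResConv

/-! Row 242: the gradient estimate for the resolvent. -/

set_option autoImplicit false
set_option linter.unusedSectionVars false

open MeasureTheory Filter Set Topology
open scoped ENNReal NNReal
open Crest.GeometryTopology.SyntheticRicci

namespace Crest.Agent.R242

variable {X : Type*} [MetricSpace X] [ProperSpace X] [MeasurableSpace X] [BorelSpace X]
  {m : Measure X} [IsLocallyFiniteMeasure m] [m.IsOpenPosMeasure]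

theorem grad_est_lip {κ : ℝ} (hG : Good m κ) : ∃ lam₀ : ℝ, ∀ lam : ℝ, lam₀ ≤ lam →
    16 * κ < lam → ∀ (f u w : X → ℝ) (L : ℝ≥0), LipschitzWith L f → HasCompactSupport f →
      IsRes m 0 lam f u → IsRes m 0 lam (gradPairing m f f) w →
      ∀ᵐ x ∂m, minWeakGrad m u x ^ 2 ≤ lam / (lam - 16 * κ) * w x := by
  obtain ⟨lam₀, h₀⟩ := ge_plan hG
  refine ⟨lam₀, fun lam hl hκ f u w L hf hc hu hw => ?_⟩
  have hH := hG.hilb
  have hl0 : 0 < lam := by linarith [hG.nonneg]
  have hc0 : 0 ≤ lam / (lam - 16 * κ) := div_nonneg hl0.le (by linarith)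
  have hfS := lipS_of_lipschitz (m := m) hf hc
  have hΓ := LipS.gamma_memLp hH hfS
  have hw0 : ∀ᵐ x ∂m, 0 ≤ w x :=
    IsRes.nonneg hH isWt_zero hl0 hΓ.1 hw (hΓ.2.mono fun x hx => hx.1)
  have hcw : MemLp (fun x => lam / (lam - 16 * κ) * w x) 2 m := hw.1.1.const_mul _
  have hcw0 : ∀ᵐ x ∂m, 0 ≤ lam / (lam - 16 * κ) * w x :=
    hw0.mono fun x hx => mul_nonneg hc0 hx
  have hf' : LipschitzWith L (fun x => (-1 : ℝ) * f x) := by
    have : (fun x => (-1 : ℝ) * f x) = -f := by funext x; simp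
    rw [this]; exact hf.neg
  have hc' : HasCompactSupport (fun x => (-1 : ℝ) * f x) := hc.mul_left
  have hu' : IsRes m 0 lam (fun x => (-1 : ℝ) * f x) (fun x => (-1 : ℝ) * u x) :=
    hu.const_mul hH (-1)
  have hw' : IsRes m 0 lam (gradPairing m (fun x => (-1 : ℝ) * f x) (fun x => (-1 : ℝ) * f x)) w := by
    refine hw.congr ?_ (EventuallyEq.refl _ _)
    have h1 := sl_const_mul hfS.1.2.1 (-1)
    filter_upwards [gamma_self hfS.1.2.1, gamma_self h1.1, h1.2] with x a1 a2 a3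
    rw [a1, a2, a3]
    simp
  have hG2 : IsL2OnBalls m (fun x => √(lam / (lam - 16 * κ) * w x)) := by
    have h1 : IsL2OnBalls m (fun x => 1 + lam / (lam - 16 * κ) * w x) := fun o R =>
      (C1_l2_const 1 o R).add (isL2OnBalls_of_memLp hcw o R)
    refine isL2OnBalls_of_le
      (Real.continuous_sqrt.comp_aestronglyMeasurable hcw.1) h1 (hcw0.mono fun x hx => ?_)
    rw [abs_of_nonneg (Real.sqrt_nonneg _)]
    refine Real.sqrt_le_iff.mpr ⟨by linarith, by nlinarith⟩
  have hwug : IsWUGLoc m u (fun x => √(lam / (lam - 16 * κ) * w x)) := by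
    refine isWUGLoc_of_integrated hu.1.2.1.1 hG2 (Eventually.of_forall fun x => Real.sqrt_nonneg _)
      fun P hP hB l hl' => ?_
    refine ofReal_le_of_real_bound (w := fun x => lam / (lam - 16 * κ) * w x) hP hB hcw hcw0 hl' ?_
    have h1 := h₀ lam hl hκ f u w L hf hc hu hw P hP hB l hl'
    have h2 := h₀ lam hl hκ _ _ w L hf' hc' hu' hw' P hP hB l hl'
    rw [integral_const_mul, integral_const_mul] at h2
    exact abs_le.mpr ⟨by linarith, h1⟩
  filter_upwards [(sobolevLoc_of_wug hu.1.2.1.1 hwug).2, sl_D_nonneg hu.1.2.1, hcw0] with x a1 a2 a3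
  calc minWeakGrad m u x ^ 2 ≤ √(lam / (lam - 16 * κ) * w x) ^ 2 := by gcongr
    _ = _ := Real.sq_sqrt a3

theorem exists_gradEst {κ : ℝ} (hG : Good m κ) : ∃ lam₀ : ℝ, GradEst m κ lam₀ := by
  obtain ⟨lam₀, h₀⟩ := grad_est_lip hG
  refine ⟨max lam₀ (32 * κ + 1), le_max_right _ _, fun lam hl f u w L hf hu hw => ?_⟩
  have hH := hG.hilb
  have hκ0 := hG.nonneg
  have hl1 : 32 * κ + 1 ≤ lam := (le_max_right _ _).trans hl
  have hl0 : 0 < lam := by linarith
  obtain ⟨g, hg, hgf⟩ := densLipS hG hf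
  have hf' : LipS m f (L + 1) := hf.mono (by linarith)
  have hΓn : ∀ n, MemLp (gradPairing m (g n) (g n)) 2 m := fun n =>
    (LipS.gamma_memLp hH (hg n).2.2.1).1
  choose un hun using fun n => exists_res hH isWt_zero hl0 (hg n).2.2.1.1.1
  choose wn hwn using fun n => exists_res hH isWt_zero hl0 (hΓn n)
  have c1 : W12Conv m un u :=
    res_L2Conv_data hH isWt_zero hl0 (fun n => (hg n).2.2.1.1.1) hf.1.1 hun hu hgf.1
  have c2 : W12Conv m wn w :=
    res_L2Conv_data hH isWt_zero hl0 hΓn (LipS.gamma_memLp hH hf).1 hwn hw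
      (W12Conv.gamma_L2 hH (fun n => (hg n).2.2.1) hf' hgf)
  obtain ⟨A, hA⟩ := W12Conv.bounded (fun n => (hun n).1) hu.1 c1
  have c3 : L2Conv m (fun n x => lam / (lam - 16 * κ) * wn n x)
      (fun x => lam / (lam - 16 * κ) * w x) :=
    L2Conv.bdd_mul (θ := fun _ => lam / (lam - 16 * κ)) (fun n => (hwn n).1.1) hw.1.1 c2.1
      aestronglyMeasurable_const (Eventually.of_forall fun _ => le_rfl)
  have key := D_sq_le_of_limit (fun n => (hun n).1) hu.1.1 c1.1 hA
    (fun n => (hwn n).1.1.const_mul _) (hw.1.1.const_mul _) c3 (fun n => by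
      obtain ⟨K, hK⟩ := (hg n).1
      exact h₀ lam ((le_max_left _ _).trans hl) (by linarith) (g n) (un n) (wn n) K hK (hg n).2.1
        (hun n) (hwn n))
  filter_upwards [key, gamma_self hu.1.2.1] with x a1 a2
  rw [a2]; exact a1

end Crest.Agent.R242
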