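import Crest.Agent.R242.Hyp

/-! Row 242: extension of the Hessian bound by approximation. -/

set_option autoImplicit false
set_option linter.unusedSectionVars false

open MeasureTheory Filter Set Topology
open scoped ENNReal NNReal
open Crest.GeometryTopology.SyntheticRicci

namespace Crest.Agent.R242

variable {X : Type*} [MetricSpace X] [ProperSpace X] [MeasurableSpace X] [BorelSpace X]
  {m : Measure X} [IsLocallyFiniteMeasure m] [m.IsOpenPosMeasure]

theorem HessExt_mul {f θ : X → ℝ} (hf : MemLp f 2 m) (hθ : AEStronglyMeasurable θ m) {B : ℝ}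
    (hB : ∀ᵐ x ∂m, |θ x| ≤ B) : MemLp (fun x => θ x * f x) 2 m := by
  refine MemLp.of_le_mul (c := B) hf (hθ.mul hf.1) ?_
  filter_upwards [hB] with x hx
  rw [norm_mul]
  exact mul_le_mul_of_nonneg_right hx (norm_nonneg _)

theorem hess_dom {κ lam₀ : ℝ} {F G : X → ℝ} (H : Hyp m κ lam₀ F G) {g Lg h : X → ℝ}
    (hg : IsWeakLaplacian m g Lg) {L B : ℝ} (hL : ∀ᵐ x ∂m, minWeakGrad m g x ≤ L)
    (hB : ∀ᵐ x ∂m, |g x| ≤ B) {K : ℝ≥0} (hh : LipschitzWith K h) (hc : HasCompactSupport h)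
    (h0 : ∀ x, 0 ≤ h x) : HessIneq m F G g Lg h := by
  rcases isEmpty_or_nonempty X with hX | ⟨⟨o⟩⟩
  · simp [HessIneq, integral_of_isEmpty]
  have hH := H.good.hilb
  obtain ⟨u, Lu, hu, hW, hLc, hΓc, A, hA⟩ := approx_lap H.good H.ge hg hL
  have hn : ∀ n, HessIneq m F G (u n) (Lu n) h := by
    intro n
    obtain ⟨h1, h2, h3, h4⟩ := hu n
    obtain ⟨g', hg1, hg2, hg3⟩ := exists_bdd_lip_rep H.good h3 (h4 B hB)
    have h5 := lap_congr h1 hg3 (EventuallyEq.refl _ _)
    have h6 := hess_test H (isTestFn_of_lap hg2 hg1 h5 h2) h5 hh hc h0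
    unfold HessIneq at h6 ⊢
    rw [gradPairing_congr (EventuallyEq.refl _ h) hg3,
      gradPairing_congr (EventuallyEq.refl _ F) hg3, gradPairing_congr hg3 hg3]
    exact h6
  obtain ⟨C, hC⟩ := hh.continuous.bounded_above_of_compact_support hc
  have hC' : ∀ᵐ x ∂m, |h x| ≤ C := Eventually.of_forall hC
  have hhm : AEStronglyMeasurable h m := hh.continuous.aestronglyMeasurable
  have hhS : LipS m h K := lipS_of_lipschitz hh hc
  obtain ⟨LF, hF⟩ := H.Fl
  obtain ⟨hFs, hFD⟩ := sl_of_lipschitz (m := m) hF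
  have huS : ∀ n, IsSobolev m (u n) := fun n => (hu n).1.1
  have hΓ := (bochner_weak H.good H.ge hg hL).1
  have T1 : Tendsto (fun n => ∫ x, (h x * Lu n x + gradPairing m h (u n) x) *
      gradPairing m F (u n) x ∂m) atTop
      (𝓝 (∫ x, (h x * Lg x + gradPairing m h g x) * gradPairing m F g x ∂m)) := by
    have a1 : ∀ n, MemLp (fun x => h x * Lu n x) 2 m := fun n => HessExt_mul (hu n).1.2.1 hhm hC'
    have a2 : MemLp (fun x => h x * Lg x) 2 m := HessExt_mul hg.2.1 hhm hC'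
    have a3 : ∀ n, MemLp (gradPairing m h (u n)) 2 m := fun n =>
      gamma_memLp hH hhS.1.2.1 hhS.2 (huS n)
    have a4 : MemLp (gradPairing m h g) 2 m := gamma_memLp hH hhS.1.2.1 hhS.2 hg.1
    exact L2Conv.tendsto_integral_mul (fun n => (a1 n).add (a3 n))
      (fun n => gamma_memLp hH hFs hFD (huS n)) (a2.add a4) (gamma_memLp hH hFs hFD hg.1)
      (L2Conv.add a1 a3 a2 a4 (hLc.bdd_mul (fun n => (hu n).1.2.1) hg.2.1 hhm hC')
        (hW.gamma_bdd hH huS hg.1 hhS.1.2.1 hhS.2)) (hW.gamma_bdd hH huS hg.1 hFs hFD)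
  have T2 : Tendsto (fun n => ∫ x, h x * gradPairing m F (gradPairing m (u n) (u n)) x ∂m) atTop
      (𝓝 (∫ x, h x * gradPairing m F (gradPairing m g g) x ∂m)) := by
    obtain ⟨R, hR⟩ := hc.isCompact.isBounded.subset_closedBall o
    obtain ⟨F', L', hF1, hF2, hF3⟩ := (lipBdd_of_lipschitz hF).exists_compact o R
    have hF' : IsSobolev m F' := (lipS_of_lipschitz hF1 hF2).1
    have key : ∀ U : X → ℝ, IsSobolev m U →
        ∫ x, h x * gradPairing m F U x ∂m = ∫ x, h x * gradPairing m U F' x ∂m := by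
      intro U hU
      refine integral_congr_ae ?_
      filter_upwards [gamma_locality hH hF'.2.1 hFs hU.2.1, gamma_comm hU.2.1 hF'.2.1] with x h1 h2
      by_cases hx : h x = 0
      · simp [hx]
      · rw [h2, h1 (hF3 x (hR (subset_tsupport h hx)))]
    rw [key _ hΓ]
    simp only [key _ (hA _).1]
    exact weak_conv hH (fun n => (hA n).1) hΓ.1 hΓc (fun n => (hA n).2) hF' hhm hC'
  have T3 : Tendsto (fun n => ∫ x, h x * G x * gradPairing m (u n) (u n) x ∂m) atTop
      (𝓝 (∫ x, h x * G x * gradPairing m g g x ∂m)) := by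
    have a1 : MemLp (fun x => h x * G x) 2 m :=
      (hh.continuous.mul H.Gc).memLp_of_hasCompactSupport hc.mul_right
    exact L2Conv.tendsto_integral_mul (u := fun _ x => h x * G x) (fun _ => a1)
      (fun n => (hA n).1.1) a1 hΓ.1 (L2Conv.const _) hΓc
  exact le_of_tendsto_of_tendsto' (T1.neg.sub (T2.div_const 2)) T3 hn

theorem hess_ext {κ lam₀ : ℝ} {F G : X → ℝ} (H : Hyp m κ lam₀ F G) {g Lg h : X → ℝ}
    (hg : IsWeakLaplacian m g Lg) {L B : ℝ} (hL : ∀ᵐ x ∂m, minWeakGrad m g x ≤ L)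
    (hB : ∀ᵐ x ∂m, |g x| ≤ B) (hh : IsSobolev m h) (h0 : ∀ᵐ x ∂m, 0 ≤ h x) :
    HessIneq m F G g Lg h := by
  have hH := H.good.hilb
  obtain ⟨k, hk, hW⟩ := densLip H.good H.ge hh h0
  have hn : ∀ n, HessIneq m F G g Lg (k n) := fun n => by
    obtain ⟨⟨K, h1⟩, h2, h3⟩ := hk n
    exact hess_dom H hg hL hB h1 h2 h3
  have hkS : ∀ n, IsSobolev m (k n) := fun n => by
    obtain ⟨⟨K, h1⟩, h2, -⟩ := hk n
    exact (lipS_of_lipschitz h1 h2).1
  obtain ⟨LF, hF⟩ := H.Fl
  obtain ⟨hFs, hFD⟩ := sl_of_lipschitz (m := m) hF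
  have hΓ := (bochner_weak H.good H.ge hg hL).1
  have hFg : MemLp (gradPairing m F g) 2 m := gamma_memLp hH hFs hFD hg.1
  have hFgb : ∀ᵐ x ∂m, |gradPairing m F g x| ≤ LF * L := by
    filter_upwards [abs_gamma_le hH hFs hg.1.2.1, hFD, hL, sl_D_nonneg hg.1.2.1] with x h1 h2 h3 h4
    exact h1.trans (mul_le_mul h2 h3 h4 LF.2)
  have a1 : MemLp (fun x => gradPairing m F g x * Lg x) 2 m := HessExt_mul hg.2.1 hFg.1 hFgb
  have a2 : ∀ U : X → ℝ, IsSobolev m U → MemLp (gradPairing m g U) 2 m := fun U hU =>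
    gamma_memLp hH hg.1.2.1 hL hU
  have key : ∀ U : X → ℝ, IsSobolev m U →
      ∫ x, (U x * Lg x + gradPairing m U g x) * gradPairing m F g x ∂m =
        ∫ x, U x * (gradPairing m F g x * Lg x) ∂m +
          ∫ x, gradPairing m g U x * gradPairing m F g x ∂m := by
    intro U hU
    have i1 : Integrable (fun x => U x * (gradPairing m F g x * Lg x)) m := hU.1.integrable_mul a1
    have i2 : Integrable (fun x => gradPairing m g U x * gradPairing m F g x) m :=
      (a2 U hU).integrable_mul hFg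
    rw [← integral_add i1 i2]
    refine integral_congr_ae ?_
    filter_upwards [gamma_comm hU.2.1 hg.1.2.1] with x h1
    rw [h1]
    ring
  have T1 : Tendsto (fun n => ∫ x, (k n x * Lg x + gradPairing m (k n) g x) *
      gradPairing m F g x ∂m) atTop
      (𝓝 (∫ x, (h x * Lg x + gradPairing m h g x) * gradPairing m F g x ∂m)) := by
    rw [key _ hh]
    simp only [key _ (hkS _)]
    exact (L2Conv.tendsto_integral_mul (v := fun _ x => gradPairing m F g x * Lg x)
      (fun n => (hkS n).1) (fun _ => a1) hh.1 a1 hW.1 (L2Conv.const _)).add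
      (L2Conv.tendsto_integral_mul (v := fun _ => gradPairing m F g) (fun n => a2 _ (hkS n))
        (fun _ => hFg) (a2 _ hh) hFg (hW.gamma_bdd hH hkS hh hg.1.2.1 hL) (L2Conv.const _))
  have T2 : Tendsto (fun n => ∫ x, k n x * gradPairing m F (gradPairing m g g) x ∂m) atTop
      (𝓝 (∫ x, h x * gradPairing m F (gradPairing m g g) x ∂m)) := by
    have b1 := gamma_memLp hH hFs hFD hΓ
    exact L2Conv.tendsto_integral_mul (v := fun _ => gradPairing m F (gradPairing m g g))
      (fun n => (hkS n).1) (fun _ => b1) hh.1 b1 hW.1 (L2Conv.const _)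
  have T3 : Tendsto (fun n => ∫ x, k n x * G x * gradPairing m g g x ∂m) atTop
      (𝓝 (∫ x, h x * G x * gradPairing m g g x ∂m)) := by
    obtain ⟨BG, hG⟩ := H.Gb
    have b1 : MemLp (fun x => G x * gradPairing m g g x) 2 m :=
      HessExt_mul hΓ.1 H.Gc.aestronglyMeasurable (Eventually.of_forall hG)
    simp only [mul_assoc]
    exact L2Conv.tendsto_integral_mul (v := fun _ x => G x * gradPairing m g g x)
      (fun n => (hkS n).1) (fun _ => b1) hh.1 b1 hW.1 (L2Conv.const _)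
  exact le_of_tendsto_of_tendsto' (T1.neg.sub (T2.div_const 2)) T3 hn

end Crest.Agent.R242
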