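import Crest.Agent.R242.LipSob
import Crest.Agent.R242.OTBasic

/-! Row 242: the Hopf-Lax formula for compactly supported potentials. -/

set_option autoImplicit false
set_option linter.unusedSectionVars false

open MeasureTheory Filter Set Topology
open scoped ENNReal NNReal
open Crest.GeometryTopology.SyntheticRicci

namespace Crest.Agent.R242

variable {X : Type*} [MetricSpace X] [ProperSpace X] [MeasurableSpace X] [BorelSpace X]
  {m : Measure X} [IsLocallyFiniteMeasure m] [m.IsOpenPosMeasure]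

/-- Compactly supported nonpositive Lipschitz function with explicit bounds. -/
structure CPot (ψ : X → ℝ) (Λ : ℝ≥0) (o : X) : Prop where
  lip : LipschitzWith Λ ψ
  bd : ∀ x, -(Λ : ℝ) ≤ ψ x ∧ ψ x ≤ 0
  supp : ∀ x, (Λ : ℝ) ≤ dist x o → ψ x = 0

theorem HL_symm (x y : X) : cst x y = cst y x := by rw [cst, cst, dist_comm]

theorem HL_sub {ψ : X → ℝ} {Λ : ℝ≥0} {o : X} (h : CPot ψ Λ o) (x y : X) :
    ψ x - ψ y ≤ Λ * dist x y := (le_abs_self _).trans (h.lip.dist_le_mul x y)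

theorem HL_le {ψ : X → ℝ} {Λ : ℝ≥0} {o : X} (h : CPot ψ Λ o) {s : ℝ} (hs : 0 < s) (x y : X) :
    hopfLax ψ s x ≤ ψ y + cst x y / s := by
  rw [hopfLax, if_neg hs.not_ge]
  refine ciInf_le ⟨-(Λ : ℝ), ?_⟩ y
  rintro _ ⟨z, rfl⟩
  have : 0 ≤ cst x z / s := by unfold cst; positivity
  linarith [(h.bd z).1]

theorem HL_min {ψ : X → ℝ} {Λ : ℝ≥0} {o : X} (h : CPot ψ Λ o) {s : ℝ} (hs : 0 < s) (x : X) :
    ∃ y, dist x y ≤ 2 * Λ * s ∧ hopfLax ψ s x = ψ y + cst x y / s := by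
  have hx : x ∈ Metric.closedBall x (2 * Λ * s) := Metric.mem_closedBall_self (by positivity)
  have hc : Continuous fun y => ψ y + cst x y / s :=
    h.lip.continuous.add (by unfold cst; fun_prop)
  obtain ⟨y, hy, hmin⟩ := (isCompact_closedBall x (2 * Λ * s)).exists_isMinOn ⟨x, hx⟩
    hc.continuousOn
  refine ⟨y, Metric.mem_closedBall'.1 hy, le_antisymm (HL_le h hs x y) ?_⟩
  have : Nonempty X := ⟨x⟩
  rw [hopfLax, if_neg hs.not_ge]
  refine le_ciInf fun z => ?_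
  by_cases hz : z ∈ Metric.closedBall x (2 * Λ * s)
  · exact hmin hz
  · have h1 : ψ y + cst x y / s ≤ ψ x + cst x x / s := hmin hx
    have h2 : 2 * Λ * s < dist x z := not_le.1 fun h => hz (Metric.mem_closedBall'.2 h)
    have h3 : Λ * dist x z ≤ cst x z / s := by
      rw [le_div_iff₀ hs, cst]
      nlinarith [dist_nonneg (x := x) (y := z)]
    have h4 : cst x x / s = 0 := by simp [cst]
    linarith [HL_sub h x z]

theorem HL_le_self {ψ : X → ℝ} {Λ : ℝ≥0} {o : X} (h : CPot ψ Λ o) (s : ℝ) (x : X) :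
    hopfLax ψ s x ≤ ψ x := by
  rcases le_or_gt s 0 with hs | hs
  · rw [hopfLax, if_pos hs]
  · simpa [cst] using HL_le h hs x x

theorem HL_ge {ψ : X → ℝ} {Λ : ℝ≥0} {o : X} (h : CPot ψ Λ o) {s : ℝ} (hs : 0 ≤ s) (x : X) :
    ψ x - (Λ : ℝ) ^ 2 * s / 2 ≤ hopfLax ψ s x := by
  rcases hs.eq_or_lt with rfl | hs
  · simp [hopfLax]
  obtain ⟨y, -, hy⟩ := HL_min h hs x
  have h1 : Λ * dist x y - (Λ : ℝ) ^ 2 * s / 2 ≤ cst x y / s := by
    rw [le_div_iff₀ hs, cst]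
    nlinarith [sq_nonneg (dist x y - Λ * s)]
  linarith [HL_sub h x y]

theorem HL_anti {ψ : X → ℝ} {Λ : ℝ≥0} {o : X} (h : CPot ψ Λ o) {s t : ℝ} (hs : 0 ≤ s)
    (hst : s ≤ t) (x : X) : 0 ≤ hopfLax ψ s x - hopfLax ψ t x ∧
      hopfLax ψ s x - hopfLax ψ t x ≤ 4 * (Λ : ℝ) ^ 2 * (t - s) := by
  constructor
  · rcases hs.eq_or_lt with rfl | hs
    · rw [hopfLax, if_pos le_rfl]
      exact sub_nonneg.2 (HL_le_self h t x)
    · obtain ⟨y, -, hy⟩ := HL_min h hs x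
      have h1 : cst x y / t ≤ cst x y / s :=
        div_le_div_of_nonneg_left (by unfold cst; positivity) hs hst
      linarith [HL_le h (hs.trans_le hst) x y]
  rcases le_or_gt (2 * s) t with h2 | h2
  · have h3 := mul_le_mul_of_nonneg_left h2 (sq_nonneg (Λ : ℝ))
    have h4 := mul_le_mul_of_nonneg_left hst (sq_nonneg (Λ : ℝ))
    linarith [HL_le_self h s x, HL_ge h (hs.trans hst) x]
  · have hs' : 0 < s := by linarith
    have ht : 0 < t := hs'.trans_le hst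
    obtain ⟨y, hd, hy⟩ := HL_min h ht x
    have h1 : cst x y / s - cst x y / t ≤ 4 * (Λ : ℝ) ^ 2 * (t - s) := by
      rw [div_sub_div _ _ hs'.ne' ht.ne', div_le_iff₀ (mul_pos hs' ht), mul_comm s (cst x y),
        ← mul_sub, mul_right_comm]
      refine mul_le_mul_of_nonneg_right ?_ (sub_nonneg.2 hst)
      have h3 := pow_le_pow_left₀ dist_nonneg hd 2
      have h4 := mul_le_mul_of_nonneg_left h2.le (by positivity : 0 ≤ (Λ : ℝ) ^ 2 * t)
      rw [cst]
      linarith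
    linarith [HL_le h hs' x y]

theorem CPot.compact {ψ : X → ℝ} {Λ : ℝ≥0} {o : X} (h : CPot ψ Λ o) : HasCompactSupport ψ := by
  refine HasCompactSupport.intro (isCompact_closedBall o Λ) fun x hx => h.supp x ?_
  exact (not_le.1 hx).le

theorem CPot.lipS {ψ : X → ℝ} {Λ : ℝ≥0} {o : X} (h : CPot ψ Λ o) : LipS m ψ Λ :=
  lipS_of_lipschitz h.lip h.compact

theorem hopfLax_zero (ψ : X → ℝ) : hopfLax ψ 0 = ψ := by
  funext x
  rw [hopfLax, if_pos le_rfl]

theorem CPot.hopfLax {ψ : X → ℝ} {Λ : ℝ≥0} {o : X} (h : CPot ψ Λ o) {s : ℝ}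
    (hs : s ∈ Icc (0 : ℝ) 1) : CPot (hopfLax ψ s) (Λ ^ 2 + 2 * Λ + 1) o := by
  have hΛ : (0 : ℝ) ≤ Λ := Λ.2
  have hΛ2 := sq_nonneg (Λ : ℝ)
  rcases hs.1.eq_or_lt with rfl | hs0
  · rw [hopfLax_zero]
    refine ⟨h.lip.weaken ?_, fun x => ⟨le_trans ?_ (h.bd x).1, (h.bd x).2⟩,
      fun x hx => h.supp x (le_trans ?_ hx)⟩
    · rw [← NNReal.coe_le_coe]; push_cast; linarith
    · push_cast; linarith
    · push_cast; linarith
  refine ⟨LipschitzWith.of_le_add_mul _ fun x' x => ?_, fun x =>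
    ⟨?_, (HL_le_self h s x).trans (h.bd x).2⟩, fun x hx =>
      le_antisymm ((HL_le_self h s x).trans (h.bd x).2) ?_⟩
  · have hd : 0 ≤ dist x' x := dist_nonneg
    have h0 := mul_nonneg hΛ hd
    have h0' := mul_nonneg hΛ2 hd
    push_cast
    rcases le_total (dist x' x) s with h1 | h1
    · obtain ⟨y, hy, he⟩ := HL_min h hs0 x
      have h2 : cst x' y / s - cst x y / s ≤ (2 * Λ + 1 / 2) * dist x' x := by
        rw [← sub_div, div_le_iff₀ hs0, mul_right_comm]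
        refine (LipSob_cst_sub x' x y).trans (mul_le_mul_of_nonneg_right ?_ hd)
        linarith [dist_triangle x' x y]
      linarith [HL_le h hs0 x' y]
    · have h2 := mul_le_mul_of_nonneg_left h1 hΛ2
      linarith [HL_le_self h s x', HL_ge h hs.1 x, HL_sub h x' x]
  · have h1 := mul_le_mul_of_nonneg_left hs.2 hΛ2
    push_cast
    linarith [HL_ge h hs.1 x, (h.bd x).1]
  · obtain ⟨y, hy, he⟩ := HL_min h hs0 x
    have h1 := mul_le_mul_of_nonneg_left hs.2 hΛ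
    push_cast at hx
    have h2 : (Λ : ℝ) ≤ dist y o := by
      nlinarith [dist_triangle x y o, sq_nonneg ((Λ : ℝ) - 1)]
    rw [he, h.supp y h2, zero_add, cst]
    positivity

theorem CPot.time_lip {ψ : X → ℝ} {Λ : ℝ≥0} {o : X} (h : CPot ψ Λ o) {s t : ℝ} (hs : 0 ≤ s)
    (ht : 0 ≤ t) (x : X) :
    |R242.hopfLax ψ s x - R242.hopfLax ψ t x| ≤ 4 * (Λ : ℝ) ^ 2 * |s - t| := by
  rcases le_total s t with hst | hst
  · obtain ⟨h1, h2⟩ := HL_anti h hs hst x
    rwa [abs_of_nonneg h1, abs_sub_comm, abs_of_nonneg (sub_nonneg.2 hst)]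
  · obtain ⟨h1, h2⟩ := HL_anti h ht hst x
    rwa [abs_sub_comm, abs_of_nonneg h1, abs_of_nonneg (sub_nonneg.2 hst)]

theorem CPot.subsol {ψ : X → ℝ} {Λ : ℝ≥0} {o : X} (h : CPot ψ Λ o) {s : ℝ} (hs : 0 < s)
    (hs1 : s ≤ 1) : ∀ᵐ x ∂m, ∀ τ : ℝ, 0 < τ → R242.hopfLax ψ (s + τ) x - R242.hopfLax ψ s x ≤
      -(τ * s / (s + τ) * minWeakGrad m (R242.hopfLax ψ s) x ^ 2 / 2) := by
  obtain ⟨h1, h2⟩ := (lipBdd_of_lipschitz (h.hopfLax ⟨hs.le, hs1⟩).lip).sl (m := m)
  filter_upwards [h2, sl_D_nonneg h1] with x hx h0 τ hτ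
  obtain ⟨y, -, he⟩ := HL_min h hs x
  have h3 : minWeakGrad m (R242.hopfLax ψ s) x ≤ dist x y / s := by
    refine le_of_forall_pos_le_add fun ε hε => ?_
    refine (ENNReal.ofReal_le_ofReal_iff (by positivity)).1 (hx.trans (LipSob_ascSlope_le ?_))
    filter_upwards [Metric.closedBall_mem_nhds x (mul_pos hε hs)] with z hz
    have h4 : cst z y / s - cst x y / s ≤ (dist x y / s + ε) * dist z x := by
      rw [← sub_div, div_le_iff₀ hs, mul_right_comm, add_mul, div_mul_cancel₀ _ hs.ne']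
      refine (LipSob_cst_sub z x y).trans (mul_le_mul_of_nonneg_right ?_ dist_nonneg)
      linarith [dist_triangle z x y, Metric.mem_closedBall.1 hz, mul_pos hε hs]
    linarith [HL_le h hs z y]
  have h4 := pow_le_pow_left₀ h0 h3 2
  have h5 := mul_le_mul_of_nonneg_left h4 (by positivity : 0 ≤ τ * s / (s + τ))
  have h6 : cst x y / (s + τ) - cst x y / s = -(τ * s / (s + τ) * (dist x y / s) ^ 2 / 2) := by
    rw [cst]
    field_simp
    ring
  linarith [HL_le h (add_pos hs hτ) x y]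

theorem CPot.le_cst {ψ : X → ℝ} {Λ : ℝ≥0} {o : X} (h : CPot ψ Λ o) (x y : X) :
    R242.hopfLax ψ 1 y - ψ x ≤ cst x y := by
  have h1 := HL_le h one_pos y x
  rw [div_one, HL_symm] at h1
  linarith

theorem CPot.eq_of_pot {ψ : X → ℝ} {Λ : ℝ≥0} {o : X} (h : CPot ψ Λ o) {q : Measure (X × X)}
    (hp : IsPot (fun x => -ψ x) q) :
    ∀ᵐ p ∂q, R242.hopfLax ψ 1 p.2 - ψ p.1 = cst p.1 p.2 := by
  filter_upwards [hp] with p hp
  refine le_antisymm (h.le_cst _ _) ?_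
  obtain ⟨y, -, he⟩ := HL_min h one_pos p.2
  rw [div_one, HL_symm] at he
  linarith [hp y]

theorem CPot.pot_of_eq {ψ : X → ℝ} {Λ : ℝ≥0} {o : X} (h : CPot ψ Λ o) {q : Measure (X × X)}
    (hp : ∀ᵐ p ∂q, R242.hopfLax ψ 1 p.2 - ψ p.1 = cst p.1 p.2) :
    IsPot (fun x => -ψ x) q ∧ IsPot (R242.hopfLax ψ 1) (q.map Prod.swap) := by
  refine ⟨hp.mono fun p hp x' => by linarith [h.le_cst x' p.2], ?_⟩
  refine (MeasurableEquiv.prodComm (α := X) (β := X)).measurableEmbedding.ae_map_iff.2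
    (hp.mono fun p hp x' => ?_)
  change _ - R242.hopfLax ψ 1 p.2 ≤ cst x' p.1 - cst p.2 p.1
  rw [HL_symm x', HL_symm p.2]
  linarith [h.le_cst p.1 x']

theorem CPot.dual_eq {ψ : X → ℝ} {Λ : ℝ≥0} {o : X} (h : CPot ψ Λ o) {q : Measure (X × X)}
    {μ ν : Measure X} [IsProbabilityMeasure μ] (hq : IsCouplingOf q μ ν)
    (hp : IsPot (fun x => -ψ x) q) :
    ∫ y, R242.hopfLax ψ 1 y ∂ν - ∫ x, ψ x ∂μ = (∫ p, dist p.1 p.2 ^ 2 ∂q) / 2 := by
  have := IsCouplingOf.isProb hq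
  have hQ := h.hopfLax (s := 1) ⟨zero_le_one, le_rfl⟩
  have hi : ∀ {φ : X → ℝ} {L : ℝ≥0} {g : X × X → X}, CPot φ L o → Continuous g →
      Integrable (fun p => φ (g p)) q := fun {φ L g} hφ hg =>
    Integrable.of_bound (hφ.lip.continuous.comp hg).aestronglyMeasurable L
      (Eventually.of_forall fun p => abs_le.2 ⟨(hφ.bd _).1, (hφ.bd _).2.trans L.2⟩)
  rw [← hq.1, ← hq.2, integral_map measurable_snd.aemeasurable
      hQ.lip.continuous.aestronglyMeasurable,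
    integral_map measurable_fst.aemeasurable h.lip.continuous.aestronglyMeasurable,
    ← integral_sub (hi hQ continuous_snd) (hi h continuous_fst), ← integral_div]
  exact integral_congr_ae (h.eq_of_pot hp)

theorem CPot.hopfLax_sub_le {ψ ψ' : X → ℝ} {Λ : ℝ≥0} {o : X} (h : CPot ψ Λ o) (h' : CPot ψ' Λ o)
    {η : ℝ} (hη : ∀ x, |ψ x - ψ' x| ≤ η) (x : X) :
    |R242.hopfLax ψ 1 x - R242.hopfLax ψ' 1 x| ≤ η := by
  obtain ⟨y, -, he⟩ := HL_min h one_pos x
  obtain ⟨y', -, he'⟩ := HL_min h' one_pos x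
  rw [abs_le]
  constructor
  · linarith [HL_le h' one_pos x y, (abs_le.1 (hη y)).1]
  · linarith [HL_le h one_pos x y', (abs_le.1 (hη y')).2]

/-- Compactness. -/
theorem cpot_subseq {ψ : ℕ → X → ℝ} {Λ : ℝ≥0} {o : X} (h : ∀ n, CPot (ψ n) Λ o) :
    ∃ (χ : X → ℝ) (k : ℕ → ℕ), StrictMono k ∧ CPot χ Λ o ∧
      ∀ η : ℝ, 0 < η → ∀ᶠ n in atTop, ∀ x, |ψ (k n) x - χ x| ≤ η := by
  classical
  set K := Metric.closedBall o (Λ : ℝ)
  have : CompactSpace K := isCompact_iff_compactSpace.1 (isCompact_closedBall o Λ)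
  let f : ℕ → BoundedContinuousFunction K ℝ := fun n => BoundedContinuousFunction.mkOfCompact
    ⟨fun x => ψ n x, (h n).lip.continuous.comp continuous_subtype_val⟩
  have hc : IsCompact (closure (range f)) := by
    refine BoundedContinuousFunction.arzela_ascoli _ (isCompact_Icc (a := -(Λ : ℝ)) (b := 0)) _ ?_ ?_
    · rintro _ x ⟨n, rfl⟩
      exact (h n).bd x
    · refine (LipschitzWith.uniformEquicontinuous _ Λ ?_).equicontinuous
      rintro ⟨_, n, rfl⟩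
      exact LipschitzWith.of_dist_le_mul fun x y => (h n).lip.dist_le_mul x y
  obtain ⟨g, -, k, hk, hg⟩ := hc.tendsto_subseq fun n => subset_closure (mem_range_self n)
  let χ : X → ℝ := fun x => if hx : x ∈ K then g ⟨x, hx⟩ else 0
  have hu : ∀ η : ℝ, 0 < η → ∀ᶠ n in atTop, ∀ x, |ψ (k n) x - χ x| ≤ η := by
    intro η hη
    filter_upwards [hg.eventually (Metric.closedBall_mem_nhds g hη)] with n hn x
    by_cases hx : x ∈ K
    · simp only [χ, dif_pos hx]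
      exact (BoundedContinuousFunction.dist_coe_le_dist (f := f (k n)) ⟨x, hx⟩).trans hn
    · simp only [χ, dif_neg hx, (h (k n)).supp x (not_le.1 hx).le, sub_zero, abs_zero, hη.le]
  have hp : ∀ x, Tendsto (fun n => ψ (k n) x) atTop (𝓝 (χ x)) := fun x =>
    Metric.nhds_basis_closedBall.tendsto_right_iff.2 fun η hη => (hu η hη).mono fun n hn => hn x
  refine ⟨χ, k, hk, ⟨LipschitzWith.of_dist_le_mul fun x y => ?_, fun x => ⟨?_, ?_⟩,
    fun x hx => ?_⟩, hu⟩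
  · exact le_of_tendsto' ((hp x).dist (hp y)) fun n => (h _).lip.dist_le_mul x y
  · exact ge_of_tendsto' (hp x) fun n => ((h _).bd x).1
  · exact le_of_tendsto' (hp x) fun n => ((h _).bd x).2
  · exact tendsto_nhds_unique (hp x) (tendsto_const_nhds.congr fun n => ((h _).supp x hx).symm)

end Crest.Agent.R242
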