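import Crest.Agent.R242.Cutoff
import Crest.Agent.R242.DensLip

/-! Row 242: the standing hypotheses and the first extension of the Hessian bound. -/

set_option autoImplicit false
set_option linter.unusedSectionVars false

open MeasureTheory Filter Set Topology
open scoped ENNReal NNReal
open Crest.GeometryTopology.SyntheticRicci

namespace Crest.Agent.R242

variable {X : Type*} [MetricSpace X] [ProperSpace X] [MeasurableSpace X] [BorelSpace X]
  {m : Measure X} [IsLocallyFiniteMeasure m] [m.IsOpenPosMeasure]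

/-- The standing hypotheses. -/
structure Hyp (m : Measure X) (κ lam₀ : ℝ) (F G : X → ℝ) : Prop where
  good : Good m κ
  ge : GradEst m κ lam₀
  Fb : ∃ B : ℝ, ∀ x, |F x| ≤ B
  Fl : ∃ L : ℝ≥0, LipschitzWith L F
  Gb : ∃ B : ℝ, ∀ x, |G x| ≤ B
  Gc : Continuous G
  hess : HasWeakHessLe m F G

/-- The Hessian inequality for `g` with Laplacian `Lg` and weight `h`. -/
def HessIneq (m : Measure X) (F G g Lg h : X → ℝ) : Prop :=
  -(∫ x, (h x * Lg x + gradPairing m h g x) * gradPairing m F g x ∂m) -
      (∫ x, h x * gradPairing m F (gradPairing m g g) x ∂m) / 2 ≤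
    ∫ x, h x * G x * gradPairing m g g x ∂m

theorem anchor_hess : True := by
  have := @HessIneq.eq_1.{0}
  have := @HessIneq.eq_def.{0}
  have := @HessIneq.eq_unfold.{0}
  have := @HessIneq.congr_simp.{0}
  trivial

theorem hess_test {κ lam₀ : ℝ} {F G : X → ℝ} (H : Hyp m κ lam₀ F G) {g Lg h : X → ℝ}
    (hg : IsTestFn m g) (hL : IsWeakLaplacian m g Lg) {K : ℝ≥0} (hh : LipschitzWith K h)
    (hc : HasCompactSupport h) (h0 : ∀ x, 0 ≤ h x) : HessIneq m F G g Lg h := by
  rcases isEmpty_or_nonempty X with hX | ⟨⟨o⟩⟩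
  · simp [HessIneq, integral_of_isEmpty]
  have hH := H.good.hilb
  obtain ⟨R, hR⟩ := hc.isCompact.isBounded.subset_ball o
  obtain ⟨χ, hχ, hχc, hχ1⟩ := exists_test_cutoff H.good H.ge o R
  set g' : X → ℝ := fun x => χ x * g x with hg'
  have hg'T : IsTestFn m g' := testFn_mul H.good H.ge hχ hg
  have hg'c : HasCompactSupport g' := hχc.mul_right
  have key := H.hess g' hg'T hg'c h ⟨K, hh⟩ hc h0
  have hU : ∀ x ∈ Metric.ball o R, g' x = g x := fun x hx => by
    simp only [hg', hχ1 x (Metric.mem_ball.1 hx).le, one_mul]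
  have hout : ∀ x, x ∉ Metric.ball o R → h x = 0 := fun x hx =>
    image_eq_zero_of_notMem_tsupport fun h' => hx (hR h')
  obtain ⟨LF, hLF⟩ := H.Fl
  obtain ⟨Kg, hKg⟩ := hg.2.1
  obtain ⟨Kg', hKg'⟩ := hg'T.2.1
  obtain ⟨Lg', hLg'⟩ := hg'T.2.2.1
  have sF : IsSobolevLoc m F := (sl_of_lipschitz hLF).1
  have sh : IsSobolevLoc m h := (sl_of_lipschitz hh).1
  have sg : IsSobolevLoc m g := (sl_of_lipschitz hKg).1
  have sg' : IsSobolevLoc m g' := (sl_of_lipschitz hKg').1
  have sG : IsSobolevLoc m (gradPairing m g g) :=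
    (bochner_weak H.good H.ge hL (sl_of_lipschitz hKg).2).1.2.1
  have sG' : IsSobolevLoc m (gradPairing m g' g') :=
    (bochner_weak H.good H.ge hLg' (sl_of_lipschitz hKg').2).1.2.1
  have a1 := gamma_locality_right hH sg' sg sh
  have a2 := gamma_locality_right hH sg' sg sF
  have a3 : ∀ᵐ x ∂m, x ∈ Metric.ball o R → gradPairing m g' g' x = gradPairing m g g x := by
    filter_upwards [gamma_locality_right hH sg' sg sg', gamma_locality hH sg' sg sg] with x b1 b2 hx
    rw [b1 (hU x hx), b2 (hU x hx)]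
  have a4 := gamma_locality_right hH sG' sG sF
  have a5 := gamma_const_mul_right hH sG' sF (1 / 2)
  have a6 := lap_locality hH (lap_weakLaplacian hLg').1 hL Metric.isOpen_ball hU
  have a7 := gamma_eq_zero_on_level hH sh sg 0
  have a8 := gamma_eq_zero_on_level hH sh sg' 0
  have e1 : ∫ x, (gradPairing m h g' x + h x * weakLaplacian m g' x) * gradPairing m F g' x ∂m
      = ∫ x, (h x * Lg x + gradPairing m h g x) * gradPairing m F g x ∂m := by
    refine integral_congr_ae ?_
    filter_upwards [a1, a2, a6, a7, a8] with x b1 b2 b6 b7 b8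
    by_cases hx : x ∈ Metric.ball o R
    · rw [b1 (hU x hx), b2 (hU x hx), b6 hx, add_comm]
    · rw [(b7 (hout x hx)).1, (b8 (hout x hx)).1, hout x hx]; simp
  have e2 : ∫ x, h x * gradPairing m F (fun y => gradPairing m g' g' y / 2) x ∂m
      = (∫ x, h x * gradPairing m F (gradPairing m g g) x ∂m) / 2 := by
    rw [← integral_div]
    have : (fun y => gradPairing m g' g' y / 2) = fun y => 1 / 2 * gradPairing m g' g' y := by
      funext y; ring
    rw [this]
    refine integral_congr_ae ?_
    filter_upwards [a3, a4, a5] with x b3 b4 b5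
    by_cases hx : x ∈ Metric.ball o R
    · rw [b5, b4 (b3 hx)]; ring
    · rw [hout x hx]; simp
  have e3 : ∫ x, h x * G x * gradPairing m g' g' x ∂m = ∫ x, h x * G x * gradPairing m g g x ∂m := by
    refine integral_congr_ae ?_
    filter_upwards [a3] with x b3
    by_cases hx : x ∈ Metric.ball o R
    · rw [b3 hx]
    · rw [hout x hx]; simp
  rw [weakHess, e1, e2, e3] at key
  exact key

end Crest.Agent.R242
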