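import Crest.Agent.R242.HopfLax
import Crest.Agent.R242.ResMarkov
import Crest.Agent.R242.DensLipS

/-! Row 242: Kuwada's argument for one resolvent step. -/

set_option autoImplicit false
set_option linter.unusedSectionVars false

open MeasureTheory Filter Set Topology
open scoped ENNReal NNReal
open Crest.GeometryTopology.SyntheticRicci

namespace Crest.Agent.R242

variable {X : Type*} [MetricSpace X] [ProperSpace X] [MeasurableSpace X] [BorelSpace X]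
  {m : Measure X} [IsLocallyFiniteMeasure m] [m.IsOpenPosMeasure]

theorem Kuwada_real {a W s : ℝ} {A B G : ℝ → ℝ} (hs : 0 < s) (hs1 : s < 1)
    (hd : HasDerivAt A a s) (hB : Continuous B) (hG : Continuous G)
    (h : ∀ τ : ℝ, 0 < τ → s + τ ≤ 1 → A (s + τ) - A s ≤
      -(τ * s / (s + τ) / 2) * B (s + τ) + √(τ * W) * √(∫ r in s..(s + τ), G r)) :
    a ≤ -(B s) / 2 + √W * √(G s) := by
  have h1 := hd.tendsto_slope_zero_right
  have h2 : HasDerivAt (fun t => ∫ r in s..t, G r) (G s) s :=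
    intervalIntegral.integral_hasDerivAt_right (hG.intervalIntegrable _ _)
      (hG.stronglyMeasurableAtFilter _ _) hG.continuousAt
  have h3 := h2.tendsto_slope_zero_right
  simp only [intervalIntegral.integral_same, sub_zero, smul_eq_mul] at h1 h3
  have h4 : Tendsto (fun τ : ℝ => -(s / (s + τ) / 2) * B (s + τ)) (𝓝[>] 0)
      (𝓝 (-(s / (s + 0) / 2) * B (s + 0))) := by
    refine Tendsto.mono_left (ContinuousAt.tendsto
      (f := fun τ : ℝ => -(s / (s + τ) / 2) * B (s + τ)) ?_) nhdsWithin_le_nhds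
    have : s + 0 ≠ 0 := by linarith
    have hB' : ContinuousAt (fun τ : ℝ => B (s + τ)) 0 :=
      (hB.comp (continuous_const.add continuous_id)).continuousAt
    exact (((continuousAt_const.div (continuousAt_const.add continuousAt_id) this).div_const
      2).neg).mul hB'
  have h5 := h4.add ((h3.sqrt).const_mul (√W))
  have e : -(s / (s + 0) / 2) * B (s + 0) = -(B s) / 2 := by
    rw [add_zero, div_self hs.ne']; ring
  rw [e] at h5
  refine le_of_tendsto_of_tendsto h1 h5 ?_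
  filter_upwards [Ioo_mem_nhdsGT (show (0 : ℝ) < 1 - s by linarith)] with τ hτ
  have hτ0 := hτ.1
  have h6 := h τ hτ0 (by linarith [hτ.2])
  rw [inv_mul_le_iff₀ hτ0]
  refine h6.trans (le_of_eq ?_)
  have hq : √τ * √τ = τ := Real.mul_self_sqrt hτ0.le
  have hq0 : 0 < √τ := Real.sqrt_pos.2 hτ0
  rw [Real.sqrt_mul hτ0.le, Real.sqrt_mul (inv_pos.2 hτ0).le, Real.sqrt_inv]
  have e2 : τ * (√W * ((√τ)⁻¹ * √(∫ r in s..(s + τ), G r))) =
      √τ * √W * √(∫ r in s..(s + τ), G r) := by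
    field_simp
    rw [sq, hq]
    ring
  rw [mul_add, e2]
  ring

theorem Kuwada_int {P : Measure (UCurve X)} {C : ℝ≥0} {o : X} {R : ℝ} (hP : IsGP m P C o R)
    {g : X → ℝ} (hg : MemLp g 2 m) (t : ℝ) : Integrable g (marg P t) :=
  have := (hP.bdd t).1
  (abs_integral_le_of_le_smul (hP.bdd t).2.1 hg).1

theorem Kuwada_cont {P : Measure (UCurve X)} {C : ℝ≥0} {o : X} {R : ℝ} (hP : IsGP m P C o R)
    {g : X → ℝ} (hg : MemLp g 2 m) : Continuous fun t => ∫ x, g x ∂(marg P t) := by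
  refine continuous_integral_marg hP.bdd ?_
  have : IsFiniteMeasure (m.restrict (Metric.closedBall o R)) :=
    isFiniteMeasure_restrict.2 (isCompact_closedBall o R).measure_lt_top.ne
  exact (hg.restrict _).integrable one_le_two

theorem Kuwada_hl {ψ : X → ℝ} {Λ : ℝ≥0} {o' : X} (hψ : CPot ψ Λ o') {s : ℝ}
    (hs : s ∈ Icc (0 : ℝ) 1) : MemLp (hopfLax ψ s) 2 m :=
  ((hψ.hopfLax hs).lipS (m := m)).1.1

theorem Kuwada_step (hH : IsInfHilbertian m) {V : X → ℝ} (hV : IsWt V) {lam : ℝ} (hl : 0 < lam)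
    {ψ : X → ℝ} {Λ : ℝ≥0} {o' : X} (hψ : CPot ψ Λ o') {P : Measure (UCurve X)} {C : ℝ≥0} {o : X}
    {R : ℝ} (hP : IsGP m P C o R) {u : ℝ → X → ℝ}
    (hu : ∀ s ∈ Icc (0 : ℝ) 1, IsRes m V lam (hopfLax ψ s) (u s)) {L : ℝ}
    (huL : ∀ s ∈ Icc (0 : ℝ) 1, ∀ᵐ x ∂m, minWeakGrad m (u s) x ≤ L) {s t : ℝ}
    (hs : s ∈ Icc (0 : ℝ) 1) (ht : t ∈ Icc (0 : ℝ) 1) (hst : s ≤ t) :
    |∫ x, u t x ∂(marg P t) - ∫ x, u s x ∂(marg P s)| ≤
      (4 * (Λ : ℝ) ^ 2 + √(∫ γ, len γ ^ 2 ∂P) * |L|) * (t - s) := by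
  have hts : 0 ≤ t - s := sub_nonneg.2 hst
  have h1 : ∀ᵐ x ∂m, |u t x - u s x| ≤ 4 * (Λ : ℝ) ^ 2 * (t - s) := by
    refine IsRes.abs_le hH hV hl ((Kuwada_hl hψ ht).sub (Kuwada_hl hψ hs))
      (IsRes.sub hH hV (Kuwada_hl hψ ht) (Kuwada_hl hψ hs) (hu t ht) (hu s hs))
      (Eventually.of_forall fun x => ?_)
    have := hψ.time_lip ht.1 hs.1 x
    rwa [abs_of_nonneg hts] at this
  have hpt := (hP.bdd t).1
  have h2 : |∫ x, u t x ∂(marg P t) - ∫ x, u s x ∂(marg P t)| ≤ 4 * (Λ : ℝ) ^ 2 * (t - s) := by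
    rw [← integral_sub (Kuwada_int hP (hu t ht).1.1 t) (Kuwada_int hP (hu s hs).1.1 t)]
    have := norm_integral_le_of_norm_le_const (μ := marg P t) (f := fun x => u t x - u s x)
      (C := 4 * (Λ : ℝ) ^ 2 * (t - s)) ((hP.bdd t).ac.ae_le h1)
    simpa using this
  have hsl := (hu s hs).1.2.1
  have h3 := hP.abs_integral_sub_le hsl.1 (sl_wug hsl) hs.1 hst ht.2
  have h4 : ∫ r in s..t, ∫ x, minWeakGrad m (u s) x ^ 2 ∂(marg P r) ≤ (t - s) * L ^ 2 := by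
    have hc : Continuous fun r => ∫ x, minWeakGrad m (u s) x ^ 2 ∂(marg P r) :=
      continuous_integral_marg hP.bdd (hu s hs).1.2.2.integrable_sq.integrableOn
    have := intervalIntegral.integral_mono_on (μ := volume) hst (hc.intervalIntegrable s t)
      (intervalIntegrable_const (c := L ^ 2)) (fun r _ => by
        have := (hP.bdd r).1
        refine (integral_mono_of_nonneg (Eventually.of_forall fun x => sq_nonneg _)
          (integrable_const (L ^ 2)) ?_).trans (by simp)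
        refine (hP.bdd r).ac.ae_le ?_
        filter_upwards [huL s hs, sl_D_nonneg hsl] with x hx hx0
        exact pow_le_pow_left₀ hx0 hx 2)
    simpa using this
  have h5 : √((t - s) * ∫ γ, len γ ^ 2 ∂P) *
      √(∫ r in s..t, ∫ x, minWeakGrad m (u s) x ^ 2 ∂(marg P r)) ≤
      √(∫ γ, len γ ^ 2 ∂P) * |L| * (t - s) := by
    refine (mul_le_mul_of_nonneg_left (Real.sqrt_le_sqrt h4) (Real.sqrt_nonneg _)).trans
      (le_of_eq ?_)
    rw [Real.sqrt_mul hts, Real.sqrt_mul hts, Real.sqrt_sq_eq_abs]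
    have hq : √(t - s) * √(t - s) = t - s := Real.mul_self_sqrt hts
    linear_combination (√(∫ γ, len γ ^ 2 ∂P) * |L|) * hq
  have h6 := abs_sub_le (∫ x, u t x ∂(marg P t)) (∫ x, u s x ∂(marg P t)) (∫ x, u s x ∂(marg P s))
  linarith

theorem kuwada_lip (hH : IsInfHilbertian m) {V : X → ℝ} (hV : IsWt V) {lam : ℝ} (hl : 0 < lam)
    {ψ : X → ℝ} {Λ : ℝ≥0} {o' : X} (hψ : CPot ψ Λ o') {P : Measure (UCurve X)} {C : ℝ≥0} {o : X}
    {R : ℝ} (hP : IsGP m P C o R) {u : ℝ → X → ℝ}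
    (hu : ∀ s ∈ Icc (0 : ℝ) 1, IsRes m V lam (hopfLax ψ s) (u s)) {L : ℝ}
    (huL : ∀ s ∈ Icc (0 : ℝ) 1, ∀ᵐ x ∂m, minWeakGrad m (u s) x ≤ L) :
    ∃ K : ℝ≥0, LipschitzOnWith K (fun s => ∫ x, u s x ∂(marg P s)) (Icc (0 : ℝ) 1) := by
  have h0 : 0 ≤ 4 * (Λ : ℝ) ^ 2 + √(∫ γ, len γ ^ 2 ∂P) * |L| := by positivity
  refine ⟨⟨_, h0⟩, LipschitzOnWith.of_dist_le_mul fun s hs t ht => ?_⟩
  rcases le_total s t with h | h
  · rw [dist_comm, dist_comm s, Real.dist_eq, Real.dist_eq, abs_of_nonneg (sub_nonneg.2 h)]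
    exact Kuwada_step hH hV hl hψ hP hu huL hs ht h
  · rw [Real.dist_eq, Real.dist_eq, abs_of_nonneg (sub_nonneg.2 h)]
    exact Kuwada_step hH hV hl hψ hP hu huL ht hs h

theorem kuwada_deriv (hH : IsInfHilbertian m) {V : X → ℝ} (hV : IsWt V) {lam : ℝ} (hl : 0 < lam)
    {ψ : X → ℝ} {Λ : ℝ≥0} {o' : X} (hψ : CPot ψ Λ o') {P : Measure (UCurve X)} {C : ℝ≥0} {o : X}
    {R : ℝ} (hP : IsGP m P C o R) {u : ℝ → X → ℝ}
    (hu : ∀ s ∈ Icc (0 : ℝ) 1, IsRes m V lam (hopfLax ψ s) (u s)) {s : ℝ}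
    (hs : s ∈ Ioo (0 : ℝ) 1) {β : X → ℝ}
    (hβ : IsRes m V lam (gradPairing m (hopfLax ψ s) (hopfLax ψ s)) β) {a : ℝ}
    (hd : HasDerivAt (fun s => ∫ x, u s x ∂(marg P s)) a s) :
    a ≤ -(∫ x, β x ∂(marg P s)) / 2 +
      √(∫ γ, len γ ^ 2 ∂P) * √(∫ x, gradPairing m (u s) (u s) x ∂(marg P s)) := by
  have hs' : s ∈ Icc (0 : ℝ) 1 := Ioo_subset_Icc_self hs
  have hsl := (hu s hs').1.2.1
  have hL := (hψ.hopfLax hs').lipS (m := m)
  have hΓ := (LipS.gamma_memLp hH hL).1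
  have e : ∫ x, gradPairing m (u s) (u s) x ∂(marg P s) =
      ∫ x, minWeakGrad m (u s) x ^ 2 ∂(marg P s) :=
    integral_congr_ae ((hP.bdd s).ac.ae_le (gamma_self hsl))
  rw [e]
  refine Kuwada_real (A := fun s => ∫ x, u s x ∂(marg P s)) (B := fun t => ∫ x, β x ∂(marg P t))
    (G := fun r => ∫ x, minWeakGrad m (u s) x ^ 2 ∂(marg P r)) hs.1 hs.2 hd
    (Kuwada_cont hP hβ.1.1)
    (continuous_integral_marg hP.bdd (hu s hs').1.2.2.integrable_sq.integrableOn)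
    fun τ hτ hτ1 => ?_
  have ht : s + τ ∈ Icc (0 : ℝ) 1 := ⟨by linarith [hs.1], hτ1⟩
  have h1 : ∀ᵐ x ∂m, u (s + τ) x - u s x ≤ -(τ * s / (s + τ) / 2) * β x := by
    refine IsRes.mono hH hV hl ((Kuwada_hl hψ ht).sub (Kuwada_hl hψ hs')) (hΓ.const_mul _)
      (IsRes.sub hH hV (Kuwada_hl hψ ht) (Kuwada_hl hψ hs') (hu _ ht) (hu s hs'))
      (IsRes.const_mul hH hβ (-(τ * s / (s + τ) / 2))) ?_
    filter_upwards [hψ.subsol (m := m) hs.1 hs.2.le, gamma_self hL.1.2.1] with x hx hx'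
    have := hx τ hτ
    rw [hx']
    simp only [Pi.sub_apply]
    linarith
  have h2 : ∫ x, u (s + τ) x ∂(marg P (s + τ)) - ∫ x, u s x ∂(marg P (s + τ)) ≤
      -(τ * s / (s + τ) / 2) * ∫ x, β x ∂(marg P (s + τ)) := by
    rw [← integral_sub (Kuwada_int hP (hu _ ht).1.1 _) (Kuwada_int hP (hu s hs').1.1 _),
      ← integral_const_mul]
    exact integral_mono_ae ((Kuwada_int hP (hu _ ht).1.1 _).sub (Kuwada_int hP (hu s hs').1.1 _))
      ((Kuwada_int hP hβ.1.1 _).const_mul _) ((hP.bdd _).ac.ae_le h1)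
  have h3 := hP.abs_integral_sub_le hsl.1 (sl_wug hsl) hs.1.le (le_add_of_nonneg_right hτ.le) hτ1
  rw [add_sub_cancel_left] at h3
  have h4 := le_abs_self (∫ x, u s x ∂(marg P (s + τ)) - ∫ x, u s x ∂(marg P s))
  linarith

end Crest.Agent.R242
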