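import Crest.Agent.R242.MinWUG

/-! Row 242: lower semicontinuity of the weighted energy. -/

set_option autoImplicit false
set_option linter.unusedSectionVars false

open MeasureTheory Filter Set Topology
open scoped ENNReal NNReal
open Crest.GeometryTopology.SyntheticRicci

namespace Crest.Agent.R242

variable {X : Type*} [MetricSpace X] [ProperSpace X] [MeasurableSpace X] [BorelSpace X]
  {m : Measure X} [IsLocallyFiniteMeasure m] [m.IsOpenPosMeasure]

namespace Lsc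

/-- weak cluster points of bounded families in a Hilbert space -/
theorem weak_cluster {H ι : Type*} [NormedAddCommGroup H] [InnerProductSpace ℝ H] [CompleteSpace H]
    (l : Filter ι) [l.NeBot] (x : ι → H) {R : ℝ} (hx : ∀ i, ‖x i‖ ≤ R) :
    ∃ g : H, ∀ (ℓ : H →L[ℝ] ℝ) (c : ℝ), (∀ᶠ i in l, c ≤ ℓ (x i)) → c ≤ ℓ g := by
  obtain ⟨φ, -, hφ⟩ := (WeakDual.isCompact_closedBall (0 : StrongDual ℝ H) R).exists_mapClusterPt
    (f := l) (u := fun i => StrongDual.toWeakDual (InnerProductSpace.toDual ℝ H (x i)))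
    (le_principal_iff.2 (mem_map.2 (Eventually.of_forall fun i => by simpa using hx i)))
  refine ⟨(InnerProductSpace.toDual ℝ H).symm (WeakDual.toStrongDual φ), fun ℓ c h => ?_⟩
  obtain ⟨v, rfl⟩ := (InnerProductSpace.toDual ℝ H).surjective ℓ
  rw [InnerProductSpace.toDual_apply_apply, real_inner_comm, InnerProductSpace.toDual_symm_apply]
  refine (isClosed_le continuous_const (WeakDual.eval_continuous v)).mem_of_mapClusterPt hφ
    (h.mono fun i hi => ?_)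
  exact hi.trans_eq (real_inner_comm _ _)

theorem inner_toLp {Ω : Type*} [MeasurableSpace Ω] {μ : Measure Ω} {a : Ω → ℝ} (ha : MemLp a 2 μ)
    (b : Lp ℝ 2 μ) : inner ℝ (ha.toLp a) b = ∫ x, a x * b x ∂μ := by
  rw [L2.inner_def]
  refine integral_congr_ae (ha.coeFn_toLp.mono fun x hx => ?_)
  simp only [hx, RCLike.inner_apply, conj_trivial, mul_comm]

theorem norm_toLp {Ω : Type*} [MeasurableSpace Ω] {μ : Measure Ω} {a : Ω → ℝ} (ha : MemLp a 2 μ) :
    ‖ha.toLp a‖ = √(∫ x, a x ^ 2 ∂μ) := by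
  rw [norm_eq_sqrt_real_inner, inner_toLp]
  exact congrArg _ (integral_congr_ae (ha.coeFn_toLp.mono fun x hx => by simp only [hx, sq]))

theorem exists_ell {Ω : Type*} [MeasurableSpace Ω] (μ : Measure Ω) {ev : Ω → X} (hev : Measurable ev)
    {C : ℝ≥0} (hC : μ.map ev ≤ (C : ℝ≥0∞) • m) {s : Ω → ℝ≥0∞} (hs : Measurable s)
    (hs2 : ∫⁻ ω, s ω ^ 2 ∂μ < ⊤) : ∃ ℓ : Lp ℝ 2 m →L[ℝ] ℝ, ∀ (E : X → ℝ) (hE : MemLp E 2 m),
      (∀ᵐ x ∂m, 0 ≤ E x) → 0 ≤ ℓ (hE.toLp E) ∧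
        ENNReal.ofReal (ℓ (hE.toLp E)) = ∫⁻ ω, ENNReal.ofReal (E (ev ω)) * s ω ∂μ := by
  have h1 : MemLp (fun ω => (s ω).toReal) 2 μ :=
    (memLp_two_iff_integrable_sq hs.ennreal_toReal.aestronglyMeasurable).2 (by
      simpa only [ENNReal.toReal_pow] using
        integrable_toReal_of_lintegral_ne_top (hs.pow_const 2).aemeasurable hs2.ne)
  have h2 : MeasurePreserving ev μ (μ.map ev) := ⟨hev, rfl⟩
  have h3 : Measure.QuasiMeasurePreserving ev μ m :=
    ⟨hev, Measure.absolutelyContinuous_of_le_smul hC⟩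
  set T := (Lp.compMeasurePreservingₗᵢ ℝ (E := ℝ) (p := 2) ev h2).toContinuousLinearMap.comp
    (Lp.LpToLpOfMeasureLeSMul ENNReal.coe_ne_top hC)
  refine ⟨(innerSL ℝ (h1.toLp _)).comp T, fun E hE h0 => ?_⟩
  have h4 : T (hE.toLp E) =ᵐ[μ] fun ω => E (ev ω) :=
    (Lp.coeFn_compMeasurePreserving _ h2).trans
      ((h2.quasiMeasurePreserving.ae_eq
        (Lp.coeFn_LpToLpOfMeasureLeSMul ENNReal.coe_ne_top hC _)).trans (h3.ae_eq hE.coeFn_toLp))
  have h5 : ∀ᵐ ω ∂μ, 0 ≤ (s ω).toReal * T (hE.toLp E) ω := by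
    filter_upwards [h4, h3.ae h0] with ω h h'
    rw [h]
    positivity
  rw [ContinuousLinearMap.comp_apply, innerSL_apply_apply, inner_toLp]
  refine ⟨integral_nonneg_of_ae h5, ?_⟩
  refine (ofReal_integral_eq_lintegral_ofReal (h1.integrable_mul (Lp.memLp _)) h5).trans
    (lintegral_congr_ae ?_)
  filter_upwards [h4, ae_lt_top (hs.pow_const 2) hs2.ne] with ω h h'
  rw [Pi.mul_apply, h, ENNReal.ofReal_mul ENNReal.toReal_nonneg, mul_comm,
    ENNReal.ofReal_toReal fun e => by simp [e] at h']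

theorem tendsto_marg {u : ℕ → X → ℝ} {f : X → ℝ} (hu : ∀ n, MemLp (u n) 2 m) (hf : MemLp f 2 m)
    (hc : L2Conv m u f) {P : Measure (UCurve X)} (hP : IsTestPlan2 m P) (t : unitInterval) :
    Tendsto (fun n => ∫⁻ γ, ENNReal.ofReal |u n (γ.toMap t) - f (γ.toMap t)| ∂P) atTop (𝓝 0) := by
  obtain ⟨_, ⟨C, hC⟩, -⟩ := hP
  obtain ⟨ℓ, hℓ⟩ := exists_ell P (ev := fun γ => γ.toMap t)
    ((continuous_eval_const t).comp isEmbedding_toMap.continuous).measurable (hC t)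
    (s := fun _ => 1) measurable_const (by simp)
  have h1 : ∀ n, MemLp (fun x => |u n x - f x|) 2 m := fun n => ((hu n).sub hf).abs
  have h2 : Tendsto (fun n => (h1 n).toLp _) atTop (𝓝 0) := by
    rw [tendsto_zero_iff_norm_tendsto_zero]
    simpa only [norm_toLp, sq_abs, Real.sqrt_zero] using Tendsto.sqrt hc
  have h3 := ENNReal.tendsto_ofReal ((ℓ.continuous.tendsto 0).comp h2)
  rw [map_zero, ENNReal.ofReal_zero] at h3
  refine h3.congr fun n => ?_
  simpa only [mul_one, Function.comp_apply] using (hℓ _ (h1 n) (Eventually.of_forall fun _ => abs_nonneg _)).2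

theorem exists_lam {P : Measure (UCurve X)} (hP : IsTestPlan2 m P) :
    ∃ ℓ : Lp ℝ 2 m →L[ℝ] ℝ, ∀ (E : X → ℝ) (hE : MemLp E 2 m),
      (∀ᵐ x ∂m, 0 ≤ E x) → 0 ≤ ℓ (hE.toLp E) ∧ ENNReal.ofReal (ℓ (hE.toLp E)) =
        ∫⁻ γ, (∫⁻ t in Icc (0 : ℝ) 1, ENNReal.ofReal (E (γ.ext t)) * upperSpeed γ t) ∂P := by
  obtain ⟨_, ⟨C, hC⟩, -, hK⟩ := hP
  have hev : Measurable fun p : UCurve X × ℝ => p.1.ext p.2 := continuous_ext.measurable
  have h1 : (P.prod (volume.restrict (Icc (0 : ℝ) 1))).map (fun p => p.1.ext p.2) ≤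
      (C : ℝ≥0∞) • m := Measure.le_iff.2 fun A hA => by
    rw [Measure.map_apply hev hA, Measure.prod_apply_symm (hev hA)]
    refine (lintegral_mono (g := fun _ => ((C : ℝ≥0∞) • m) A) fun t => ?_).trans (by simp)
    refine le_trans (le_of_eq ?_) (hC (projIcc 0 1 zero_le_one t) A)
    exact (Measure.map_apply (continuous_ext_left t).measurable hA).symm
  obtain ⟨ℓ, hℓ⟩ := exists_ell _ hev h1 measurable_upperSpeed
    ((lintegral_prod _ (measurable_upperSpeed.pow_const 2).aemeasurable).trans_lt hK)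
  refine ⟨ℓ, fun E hE h0 => ⟨(hℓ E hE h0).1, (hℓ E hE h0).2.trans (lintegral_prod _ ?_)⟩⟩
  exact (hE.1.aemeasurable.comp_quasiMeasurePreserving
    ⟨hev, Measure.absolutelyContinuous_of_le_smul h1⟩).ennreal_ofReal.mul
      measurable_upperSpeed.aemeasurable

theorem core {u : ℕ → X → ℝ} {f : X → ℝ} (hu : ∀ n, IsSobolev m (u n)) (hf : MemLp f 2 m)
    (hc : L2Conv m u f) {A : ℝ} (hA : ∀ n, ∫ x, minWeakGrad m (u n) x ^ 2 ∂m ≤ A)
    (l : Filter ℕ) [l.NeBot] (hl : l ≤ atTop) : ∃ G : X → ℝ, MemLp G 2 m ∧ IsWUGLoc m f G ∧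
      ∀ (φ : X → ℝ) (c : ℝ), MemLp φ 2 m →
        (∀ᶠ n in l, ∫ x, φ x * minWeakGrad m (u n) x ∂m ≤ c) → ∫ x, φ x * G x ∂m ≤ c := by
  obtain ⟨g, hg⟩ := weak_cluster l (fun n => (hu n).2.2.toLp _) (R := √A) fun n => by
    rw [norm_toLp]; exact Real.sqrt_le_sqrt (hA n)
  have h0 : ∀ᵐ x ∂m, 0 ≤ g x := by
    refine ae_nonneg_of_forall_setIntegral_nonneg_of_sigmaFinite (fun s _ hs => ?_) fun s hs hs' => ?_
    · have : IsFiniteMeasure (m.restrict s) := ⟨by simpa using hs⟩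
      exact ((Lp.memLp g).restrict s).integrable one_le_two
    · have := hg (innerSL ℝ (indicatorConstLp 2 hs hs'.ne (1 : ℝ))) 0 (Eventually.of_forall fun n => by
        rw [innerSL_apply_apply, L2.inner_indicatorConstLp_one]
        refine integral_nonneg_of_ae (ae_restrict_of_ae ?_)
        filter_upwards [(hu n).2.2.coeFn_toLp, sl_D_nonneg (hu n).2.1] with x h h'
        exact h'.trans_eq h.symm)
      rwa [innerSL_apply_apply, L2.inner_indicatorConstLp_one] at this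
  refine ⟨g, Lp.memLp g, ⟨isL2OnBalls_of_memLp (Lp.memLp g), h0, fun P hP hB => ?_⟩,
    fun φ c hφ h => ?_⟩
  · obtain ⟨ℓ, hℓ⟩ := exists_lam hP
    rw [← (hℓ g (Lp.memLp g) h0).2, Lp.toLp_coeFn]
    refine ENNReal.le_of_forall_pos_le_add fun ε hε _ => ?_
    have h1 := (tendsto_marg (fun n => (hu n).1) hf hc hP 1).add
      (tendsto_marg (fun n => (hu n).1) hf hc hP 0)
    rw [add_zero] at h1
    have hm : ∀ {v : X → ℝ} (t : unitInterval), MemLp v 2 m →
        AEMeasurable (fun γ : UCurve X => v (γ.toMap t)) P := fun t hv => by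
      obtain ⟨_, ⟨C, hC⟩, -⟩ := hP
      exact hv.1.aemeasurable.comp_quasiMeasurePreserving
        ⟨((continuous_eval_const t).comp isEmbedding_toMap.continuous).measurable,
          Measure.absolutelyContinuous_of_le_smul (hC t)⟩
    have h2 : ∀ᶠ n in l, ∫⁻ γ, ENNReal.ofReal |f (γ.toMap 1) - f (γ.toMap 0)| ∂P ≤
        ENNReal.ofReal (ℓ ((hu n).2.2.toLp _) + ε) ∧ 0 ≤ ℓ ((hu n).2.2.toLp _) := by
      filter_upwards [hl (h1.eventually (ge_mem_nhds (ENNReal.coe_pos.2 hε)))] with n hn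
      obtain ⟨h3, h4⟩ := hℓ _ (hu n).2.2 (sl_D_nonneg (hu n).2.1)
      refine ⟨?_, h3⟩
      rw [ENNReal.ofReal_add h3 ε.coe_nonneg, h4, ENNReal.ofReal_coe_nnreal]
      refine le_trans ?_ (add_le_add ((sl_wug (hu n).2.1).2.2 P hP hB) hn)
      rw [← lintegral_add_left' ((hm 1 (hu n).1).fun_sub (hm 1 hf)).abs.ennreal_ofReal,
        ← lintegral_add_left' ((hm 1 (hu n).1).fun_sub (hm 0 (hu n).1)).abs.ennreal_ofReal]
      refine lintegral_mono fun γ => ?_
      rw [← ENNReal.ofReal_add (abs_nonneg _) (abs_nonneg _),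
        ← ENNReal.ofReal_add (abs_nonneg _) (by positivity)]
      refine ENNReal.ofReal_le_ofReal ?_
      have a1 := abs_sub_le (f (γ.toMap 1)) (u n (γ.toMap 1)) (f (γ.toMap 0))
      have a2 := abs_sub_le (u n (γ.toMap 1)) (u n (γ.toMap 0)) (f (γ.toMap 0))
      rw [abs_sub_comm (f (γ.toMap 1)) (u n _)] at a1
      linarith
    obtain ⟨n, hn, -⟩ := h2.exists
    have h3 := hg ℓ ((∫⁻ γ, ENNReal.ofReal |f (γ.toMap 1) - f (γ.toMap 0)| ∂P).toReal - ε)
      (h2.mono fun n hn => sub_le_iff_le_add.2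
        (ENNReal.toReal_le_of_le_ofReal (add_nonneg hn.2 ε.coe_nonneg) hn.1))
    rw [← ENNReal.ofReal_toReal (ne_top_of_le_ne_top ENNReal.ofReal_ne_top hn),
      ← ENNReal.ofReal_coe_nnreal]
    exact (ENNReal.ofReal_le_ofReal (sub_le_iff_le_add.1 h3)).trans ENNReal.ofReal_add_le
  · have := hg (-innerSL ℝ (hφ.toLp φ)) (-c) (h.mono fun n hn => by
      rw [neg_apply, innerSL_apply_apply, inner_toLp, neg_le_neg_iff]
      refine le_trans (le_of_eq (integral_congr_ae ?_)) hn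
      exact (hu n).2.2.coeFn_toLp.mono fun x hx => by simp only [hx])
    rwa [neg_apply, innerSL_apply_apply, inner_toLp, neg_le_neg_iff] at this

end Lsc

theorem sob_of_limit {u : ℕ → X → ℝ} {f : X → ℝ} (hu : ∀ n, IsSobolev m (u n)) (hf : MemLp f 2 m)
    (hc : L2Conv m u f) {A : ℝ} (hA : ∀ n, ∫ x, minWeakGrad m (u n) x ^ 2 ∂m ≤ A) :
    IsSobolev m f ∧ ∀ (θ : X → ℝ) (B : ℝ), AEStronglyMeasurable θ m →
      (∀ᵐ x ∂m, 0 ≤ θ x ∧ θ x ≤ B) → ∀ η : ℝ, 0 < η → ∀ᶠ n in atTop,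
        ∫ x, θ x * minWeakGrad m f x ^ 2 ∂m ≤ ∫ x, θ x * minWeakGrad m (u n) x ^ 2 ∂m + η := by
  obtain ⟨G, hG, hG', -⟩ := Lsc.core hu hf hc hA atTop le_rfl
  have hs := sob_of_wug hf hG' hG
  refine ⟨hs, fun θ B hθ hB η hη => by_contra fun h => ?_⟩
  rw [not_eventually, frequently_iff_neBot] at h
  obtain ⟨G, hG, hG', h1⟩ := @Lsc.core _ _ _ _ _ _ _ _ _ _ hu hf hc _ hA _ h inf_le_left
  have h2 : ∀ {a : X → ℝ}, MemLp a 2 m → MemLp (fun x => θ x * a x) 2 m := fun ha =>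
    ha.of_le_mul (c := B) (hθ.mul ha.1) (hB.mono fun x hx => by
      rw [norm_mul, Real.norm_of_nonneg hx.1]
      exact mul_le_mul_of_nonneg_right hx.2 (norm_nonneg _))
  have h3 : ∀ {a : X → ℝ}, MemLp a 2 m → Integrable (fun x => θ x * a x ^ 2) m := fun ha => by
    simpa only [sq, ← mul_assoc, Pi.mul_def] using (h2 ha).integrable_mul ha
  have h4 : ∫ x, θ x * minWeakGrad m f x ^ 2 ∂m ≤ ∫ x, θ x * G x ^ 2 ∂m := by
    refine integral_mono_ae (h3 hs.2.2) (h3 hG) ?_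
    filter_upwards [hB, sl_D_nonneg hs.2.1, (sl_isMin hs.2.1).2 G hG'] with x h h' h''
    exact mul_le_mul_of_nonneg_left (pow_le_pow_left₀ h' h'' 2) h.1
  have h5 := h1 _ ((∫ x, θ x * G x ^ 2 ∂m + (∫ x, θ x * minWeakGrad m f x ^ 2 ∂m - η)) / 2) (h2 hG)
    (eventually_inf_principal.2 (Eventually.of_forall fun n hn => by
      have a1 : ∫ x, θ x * G x * minWeakGrad m (u n) x ∂m ≤
          ∫ x, (θ x * G x ^ 2 + θ x * minWeakGrad m (u n) x ^ 2) / 2 ∂m := by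
        refine integral_mono_ae ((h2 hG).integrable_mul (hu n).2.2)
          (((h3 hG).add (h3 (hu n).2.2)).div_const _) (hB.mono fun x hx => ?_)
        have := mul_nonneg hx.1 (sq_nonneg (G x - minWeakGrad m (u n) x))
        beta_reduce
        linarith
      rw [integral_div, integral_add (h3 hG) (h3 (hu n).2.2)] at a1
      have a2 := not_le.1 hn
      linarith))
  simp only [mul_assoc, ← sq] at h5
  linarith

end Crest.Agent.R242
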