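import Crest.Agent.R242.Defs

/-! Row 242: lemmas of real analysis. -/

set_option autoImplicit false
set_option linter.unusedSectionVars false

open MeasureTheory Filter Set Topology
open scoped ENNReal NNReal
open Crest.GeometryTopology.SyntheticRicci

namespace Crest.Agent.R242

variable {X : Type*} [MetricSpace X] [ProperSpace X] [MeasurableSpace X] [BorelSpace X]
  {m : Measure X} [IsLocallyFiniteMeasure m] [m.IsOpenPosMeasure]

theorem lipschitzOn_ftc {a : ℝ → ℝ} {K : ℝ≥0} (ha : LipschitzOnWith K a (Icc (0 : ℝ) 1)) :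
    (∀ᵐ s ∂(volume.restrict (Icc (0 : ℝ) 1)), s ∈ Ioo (0 : ℝ) 1 ∧ DifferentiableAt ℝ a s) ∧
      IntegrableOn (deriv a) (Icc (0 : ℝ) 1) ∧ ∫ s in Icc (0 : ℝ) 1, deriv a s = a 1 - a 0 := by
  have h1 : AbsolutelyContinuousOnInterval a 0 1 :=
    LipschitzOnWith.absolutelyContinuousOnInterval (K := K) (by rwa [uIcc_of_le zero_le_one])
  refine ⟨?_, ?_, ?_⟩
  · rw [← Measure.restrict_congr_set Ioo_ae_eq_Icc, ae_restrict_iff' measurableSet_Ioo]
    filter_upwards [h1.ae_differentiableAt] with s hs hs'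
    exact ⟨hs', hs (by rw [uIcc_of_le zero_le_one]; exact Ioo_subset_Icc_self hs')⟩
  · exact (intervalIntegrable_iff_integrableOn_Icc_of_le zero_le_one).1 h1.intervalIntegrable_deriv
  · rw [integral_Icc_eq_integral_Ioc, ← intervalIntegral.integral_of_le zero_le_one]
    exact h1.integral_deriv_eq_sub

theorem integral_le_of_limsup {r : ℕ → ℝ → ℝ} (hi : ∀ n, IntegrableOn (r n) (Icc (0 : ℝ) 1))
    {C c : ℝ} (hC : ∀ n, ∀ᵐ s ∂(volume.restrict (Icc (0 : ℝ) 1)), r n s ≤ C)
    (hc : ∀ᵐ s ∂(volume.restrict (Icc (0 : ℝ) 1)), ∀ η : ℝ, 0 < η → ∀ᶠ n in atTop, r n s ≤ c + η)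
    {η : ℝ} (hη : 0 < η) : ∀ᶠ n in atTop, ∫ s in Icc (0 : ℝ) 1, r n s ≤ c + η := by
  have hi' : ∀ n, IntegrableOn (fun s => max (r n s - c) 0) (Icc (0 : ℝ) 1) := fun n =>
    ((hi n).sub (integrable_const c)).pos_part
  have h1 : Tendsto (fun n => ∫ s in Icc (0 : ℝ) 1, max (r n s - c) 0) atTop
      (𝓝 (∫ _ in Icc (0 : ℝ) 1, (0 : ℝ))) := by
    refine tendsto_integral_of_dominated_convergence (fun _ => max (C - c) 0)
      (fun n => (hi' n).aestronglyMeasurable) (integrable_const _) (fun n => ?_) ?_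
    · filter_upwards [hC n] with s hs
      rw [Real.norm_of_nonneg (le_max_right _ _)]
      exact max_le_max (by linarith) le_rfl
    · filter_upwards [hc] with s hs
      refine tendsto_order.2 ⟨fun y hy => Eventually.of_forall fun n =>
        hy.trans_le (le_max_right _ _), fun y hy => ?_⟩
      filter_upwards [hs (y / 2) (half_pos hy)] with n hn
      exact max_lt (by linarith) hy
  rw [integral_zero] at h1
  filter_upwards [h1.eventually (ge_mem_nhds hη)] with n hn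
  have h2 : ∫ s in Icc (0 : ℝ) 1, r n s ≤ ∫ s in Icc (0 : ℝ) 1, (c + max (r n s - c) 0) :=
    integral_mono (hi n) ((integrable_const c).add (hi' n)) fun s => by
      have := le_max_left (r n s - c) 0
      dsimp only
      linarith
  rw [integral_add (integrable_const c) (hi' n), setIntegral_const] at h2
  simp only [Real.volume_real_Icc, sub_zero, zero_le_one, sup_of_le_left, smul_eq_mul,
    one_mul] at h2
  linarith

theorem limsup_penal {r A b lam : ℕ → ℝ} {a b' k W : ℝ} (hW : 0 ≤ W) (ha : 0 ≤ a)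
    (hA : Tendsto A atTop (𝓝 a)) (hb : Tendsto b atTop (𝓝 b')) (hk : b' ≤ k * a)
    (hlam : Tendsto lam atTop atTop) (h : ∀ n, r n ≤ b n - lam n / 2 * (√(A n) - W) ^ 2)
    {η : ℝ} (hη : 0 < η) : ∀ᶠ n in atTop, r n ≤ k * W ^ 2 + η := by
  have _ := hW
  by_cases hw : √a = W
  · have h1 : a = W ^ 2 := by rw [← hw, Real.sq_sqrt ha]
    filter_upwards [hb.eventually (ge_mem_nhds (lt_add_of_pos_right b' hη)),
      hlam.eventually_ge_atTop 0] with n h2 h3
    have h4 : 0 ≤ lam n / 2 * (√(A n) - W) ^ 2 := by positivity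
    have h5 := h n
    rw [← h1]
    linarith
  · have h1 : Tendsto (fun n => (√(A n) - W) ^ 2) atTop (𝓝 ((√a - W) ^ 2)) :=
      (hA.sqrt.sub_const W).pow 2
    have h2 : 0 < (√a - W) ^ 2 := sq_pos_of_ne_zero (sub_ne_zero.2 hw)
    have h3 : Tendsto (fun n => lam n / 2 * (√(A n) - W) ^ 2) atTop atTop :=
      (hlam.atTop_div_const two_pos).atTop_mul_pos h2 h1
    filter_upwards [hb.eventually (ge_mem_nhds (lt_add_of_pos_right b' hη)),
      h3.eventually_ge_atTop (b' - k * W ^ 2)] with n h4 h5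
    have h6 := h n
    linarith

theorem sub_le_of_left_deriv {f : ℝ → ℝ} (hf : Continuous f) {c k : ℝ}
    (h : ∀ t ∈ Ioc (0 : ℝ) 1, ∃ d : ℝ, HasDerivWithinAt f d (Iic t) t ∧ d ≤ c + k * t) :
    f 1 - f 0 ≤ c + k / 2 := by
  have h' : ∀ s : ℝ, ∃ d : ℝ, s ∈ Ico (0 : ℝ) 1 →
      HasDerivWithinAt (fun s => -f (1 - s)) d (Ici s) s ∧ d ≤ c + k * (1 - s) := fun s => by
    by_cases hs : s ∈ Ico (0 : ℝ) 1
    · obtain ⟨d, h1, h2⟩ := h (1 - s) ⟨by linarith [hs.2], by linarith [hs.1]⟩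
      have h3 : HasDerivWithinAt (fun s : ℝ => 1 - s) (-1) (Ici s) s :=
        ((hasDerivAt_id s).const_sub 1).hasDerivWithinAt
      have h4 := (h1.comp s h3 fun y (hy : s ≤ y) => sub_le_sub_left hy (1 : ℝ)).neg
      rw [mul_neg_one, neg_neg] at h4
      exact ⟨d, fun _ => ⟨h4, h2⟩⟩
    · exact ⟨0, fun h => absurd h hs⟩
  choose d hd using h'
  have h1 := image_le_of_deriv_right_le_deriv_boundary (f := fun s => -f (1 - s)) (f' := d)
    (a := 0) (b := 1) (by fun_prop) (fun s hs => (hd s hs).1)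
    (B := fun s => -f 1 + ((c + k) * s - k / 2 * s ^ 2)) (B' := fun s => c + k * (1 - s))
    (by simp) (by fun_prop) (fun s _ => by
      have h2 := ((((hasDerivAt_id s).const_mul (c + k)).sub
        ((hasDerivAt_pow 2 s).const_mul (k / 2))).const_add (-f 1)).hasDerivWithinAt (s := Ici s)
      refine h2.congr_deriv ?_
      push_cast
      ring) (fun s hs => (hd s hs).2) (right_mem_Icc.2 zero_le_one)
  simp only [sub_self] at h1
  linarith

theorem exists_right_deriv_gt {g : ℝ → ℝ} (hg : Continuous g) {δ c : ℝ} (hδ : 0 < δ)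
    (d : ℝ → ℝ) (hd : ∀ s ∈ Ico (0 : ℝ) δ, HasDerivWithinAt g (d s) (Ici s) s)
    (hc : c * δ < g δ - g 0) : ∃ s ∈ Ico (0 : ℝ) δ, c < d s := by
  by_contra h
  push Not at h
  have h1 := image_le_of_deriv_right_le_deriv_boundary hg.continuousOn hd
    (B := fun s => g 0 + c * s) (B' := fun _ => c) (by simp) (by fun_prop) (fun s _ => by
      simpa using (((hasDerivAt_id s).const_mul c).const_add (g 0)).hasDerivWithinAt (s := Ici s))
    h (right_mem_Icc.2 hδ.le)
  linarith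

theorem RealAux_mv {u u' : ℝ → ℝ} (hd : ∀ s, HasDerivAt u (u' s) s) (h0 : u 0 = 0) {τ C : ℝ}
    (hC0 : 0 ≤ C) (hC : ∀ s ∈ Icc 0 τ, |u' s| ≤ C) : ∀ s ∈ Icc 0 τ, |u s| ≤ C * τ := by
  intro s hs
  have h := norm_image_sub_le_of_norm_deriv_le_segment' (a := 0) (b := τ) (C := C)
    (fun x _ => (hd x).hasDerivWithinAt) (fun x hx => hC x (Ico_subset_Icc_self hx)) s hs
  rw [h0, sub_zero, sub_zero] at h
  exact h.trans (mul_le_mul_of_nonneg_left hs.2 hC0)

theorem RealAux_taylor {φ φ₁ φ₂ : ℝ → ℝ} (h1 : ∀ s, HasDerivAt φ (φ₁ s) s)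
    (h2 : ∀ s, HasDerivAt φ₁ (φ₂ s) s) {L : ℝ≥0} (hL : LipschitzWith L φ₂) (t : ℝ) {τ : ℝ}
    (hτ : 0 ≤ τ) : |φ (t + τ) + φ (t - τ) - 2 * φ t - τ ^ 2 * φ₂ t| ≤ 2 * L * τ * τ * τ := by
  have a1 := RealAux_mv (u := fun s => φ₁ (t + s) - φ₁ (t - s) - 2 * s * φ₂ t)
    (u' := fun s => (φ₂ (t + s) - φ₂ t) + (φ₂ (t - s) - φ₂ t)) (fun s => by
      have b1 := (h2 (t + s)).comp s ((hasDerivAt_id s).const_add t)
      have b2 := (h2 (t - s)).comp s ((hasDerivAt_id s).const_sub t)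
      have b3 := ((hasDerivAt_id s).const_mul 2).mul_const (φ₂ t)
      exact ((b1.sub b2).sub b3).congr_deriv (by ring)) (by simp) (τ := τ) (C := 2 * L * τ)
    (by positivity) fun s hs => by
      have b1 := hL.dist_le_mul (t + s) t
      have b2 := hL.dist_le_mul (t - s) t
      rw [Real.dist_eq, Real.dist_eq, add_sub_cancel_left, abs_of_nonneg hs.1] at b1
      rw [Real.dist_eq, Real.dist_eq, sub_sub_cancel_left, abs_neg, abs_of_nonneg hs.1] at b2
      have b3 := mul_le_mul_of_nonneg_left hs.2 L.coe_nonneg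
      exact (abs_add_le _ _).trans (by linarith)
  exact RealAux_mv (u := fun s => φ (t + s) + φ (t - s) - 2 * φ t - s ^ 2 * φ₂ t)
    (fun s => by
      have b1 := (h1 (t + s)).comp s ((hasDerivAt_id s).const_add t)
      have b2 := (h1 (t - s)).comp s ((hasDerivAt_id s).const_sub t)
      have b3 := (hasDerivAt_pow 2 s).mul_const (φ₂ t)
      exact (((b1.add b2).sub_const (2 * φ t)).sub b3).congr_deriv (by push_cast; ring))
    (by simp only [add_zero, sub_zero]; ring) (by positivity) a1 τ (right_mem_Icc.2 hτ)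

theorem RealAux_lim {a b c δ : ℝ} (hδ : 0 < δ) (h : ∀ τ, 0 < τ → τ ≤ δ → a ≤ b + c * τ) :
    a ≤ b := by
  have h1 : Tendsto (fun τ : ℝ => b + c * τ) (𝓝[>] 0) (𝓝 (b + c * 0)) :=
    ((by fun_prop : Continuous fun τ : ℝ => b + c * τ).tendsto 0).mono_left nhdsWithin_le_nhds
  rw [mul_zero, add_zero] at h1
  refine ge_of_tendsto h1 ?_
  filter_upwards [Ioc_mem_nhdsGT hδ] with τ hτ
  exact h τ hτ.1 hτ.2

theorem RealAux_shift {f φ : ℝ → ℝ} (hf : Continuous f) (hφ : Continuous φ)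
    (hc : HasCompactSupport φ) (τ : ℝ) :
    ∫ t, f t * (φ (t + τ) + φ (t - τ) - 2 * φ t) =
      ∫ t, (f (t + τ) + f (t - τ) - 2 * f t) * φ t := by
  have i0 : ∀ {u : ℝ → ℝ}, Continuous u → Integrable fun t => u t * φ t := fun hu =>
    (hu.mul hφ).integrable_of_hasCompactSupport hc.mul_left
  have i1 := i0 (u := fun t => f (t - τ)) (by fun_prop)
  have i2 := i0 (u := fun t => f (t + τ)) (by fun_prop)
  have i3 := (i0 hf).const_mul 2
  have i4 := i1.comp_add_right τ
  have i5 := i2.comp_sub_right τ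
  have e1 := integral_add_right_eq_self (μ := volume) (fun t => f (t - τ) * φ t) τ
  have e2 := integral_sub_right_eq_self (μ := volume) (fun t => f (t + τ) * φ t) τ
  simp only [add_sub_cancel_right, sub_add_cancel] at i4 i5 e1 e2
  have e3 : (fun t => f t * (φ (t + τ) + φ (t - τ) - 2 * φ t)) =
      fun t => f t * φ (t + τ) + f t * φ (t - τ) - 2 * (f t * φ t) := by
    funext t
    ring
  have e4 : (fun t => (f (t + τ) + f (t - τ) - 2 * f t) * φ t) =
      fun t => f (t - τ) * φ t + f (t + τ) * φ t - 2 * (f t * φ t) := by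
    funext t
    ring
  have i6 : Integrable fun t => f t * φ (t + τ) + f t * φ (t - τ) := i4.add i5
  have i7 : Integrable fun t => f (t - τ) * φ t + f (t + τ) * φ t := i1.add i2
  rw [e3, e4, integral_sub i6 i3, integral_sub i7 i3, integral_add i4 i5,
    integral_add i1 i2, e1, e2]

/-- From second differences to the distributional inequality. -/
theorem second_deriv_of_second_diff {f g : ℝ → ℝ} (hf : Continuous f) (hg : Continuous g)
    (h : ∀ η : ℝ, 0 < η → ∃ δ : ℝ, 0 < δ ∧ ∀ t τ : ℝ, 0 < τ → τ ≤ δ → 0 ≤ t - τ → t + τ ≤ 1 →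
      f (t + τ) + f (t - τ) - 2 * f t ≤ (g t + η) * τ ^ 2)
    {φ : ℝ → ℝ} (hφ : ContDiff ℝ ((⊤ : ℕ∞) : WithTop ℕ∞) φ) (hc : HasCompactSupport φ)
    (hs : tsupport φ ⊆ Ioo (0 : ℝ) 1) (h0 : ∀ t, 0 ≤ φ t) :
    ∫ t in Icc (0 : ℝ) 1, f t * iteratedDeriv 2 φ t ≤ ∫ t in Icc (0 : ℝ) 1, g t * φ t := by
  obtain ⟨d1, hφ1⟩ := contDiff_infty_iff_deriv.1 hφ
  obtain ⟨d2, hφ2⟩ := contDiff_infty_iff_deriv.1 hφ1
  obtain ⟨L, hL⟩ := hφ2.lipschitzWith_of_hasCompactSupport hc.deriv.deriv (by simp)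
  have e0 : iteratedDeriv 2 φ = deriv (deriv φ) := by
    rw [iteratedDeriv_succ, iteratedDeriv_one]
  rw [e0]
  obtain ⟨e, he0, he⟩ := hc.isCompact.exists_cthickening_subset_open isOpen_Ioo hs
  have he' : ∀ t, φ t ≠ 0 → ∀ s, |s - t| ≤ e → s ∈ Ioo (0 : ℝ) 1 := fun t ht s hst =>
    he (Metric.mem_cthickening_of_dist_le s t e _ (subset_tsupport _ ht) hst)
  have hz : ∀ s, s ∉ Icc (0 : ℝ) 1 → ∀ t, |s - t| ≤ e → φ t = 0 := fun s hs t hst => by
    by_contra ht
    exact hs (Ioo_subset_Icc_self (he' t ht s hst))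
  obtain ⟨M, hM⟩ := (isCompact_Icc (a := (0 : ℝ)) (b := 1)).exists_bound_of_continuousOn
    hf.continuousOn
  have hφc := hφ.continuous
  have i0 : ∀ {u : ℝ → ℝ}, Continuous u → Integrable fun t => u t * φ t := fun hu =>
    (hu.mul hφc).integrable_of_hasCompactSupport hc.mul_left
  have eg : ∫ t in Icc (0 : ℝ) 1, g t * φ t = ∫ t, g t * φ t :=
    setIntegral_eq_integral_of_forall_compl_eq_zero fun t ht => by
      rw [hz t ht t (by simpa using he0.le), mul_zero]
  rw [eg]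
  refine RealAux_lim (c := ∫ t, φ t) one_pos fun η hη _ => ?_
  obtain ⟨δ, hδ, hd⟩ := h η hη
  refine RealAux_lim (c := M * (2 * L)) (lt_min hδ he0) fun τ hτ hτ' => ?_
  have hτe : τ ≤ e := hτ'.trans (min_le_right _ _)
  have c1 : Continuous fun t => f t * (φ (t + τ) + φ (t - τ) - 2 * φ t) := by fun_prop
  have c2 : Continuous fun t => τ ^ 2 * (f t * deriv (deriv φ) t) :=
    continuous_const.mul (hf.mul hφ2.continuous)
  have s1 : ∫ t in Icc (0 : ℝ) 1, τ ^ 2 * (f t * deriv (deriv φ) t) ≤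
      ∫ t in Icc (0 : ℝ) 1,
        (f t * (φ (t + τ) + φ (t - τ) - 2 * φ t) + M * (2 * L * τ * τ * τ)) := by
    refine setIntegral_mono_on c2.integrableOn_Icc (c1.add continuous_const).integrableOn_Icc
      measurableSet_Icc fun t ht => ?_
    have b1 := RealAux_taylor (fun s => (d1 s).hasDerivAt) (fun s => (d2 s).hasDerivAt) hL t hτ.le
    have b2 := mul_le_mul (hM t ht) b1 (abs_nonneg _) ((norm_nonneg _).trans (hM t ht))
    rw [Real.norm_eq_abs, ← abs_mul] at b2
    have b3 := (abs_le.1 b2).1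
    linarith
  rw [integral_const_mul, integral_add c1.integrableOn_Icc (integrable_const _), setIntegral_const,
    setIntegral_eq_integral_of_forall_compl_eq_zero (s := Icc (0 : ℝ) 1)
      (f := fun t => f t * (φ (t + τ) + φ (t - τ) - 2 * φ t)) fun t ht => by
        rw [hz t ht t (by simpa using he0.le),
          hz t ht (t + τ) (by rwa [sub_add_cancel_left, abs_neg, abs_of_pos hτ]),
          hz t ht (t - τ) (by rwa [sub_sub_cancel, abs_of_pos hτ])]
        ring,
    RealAux_shift hf hφc hc] at s1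
  have s2 : ∫ t, (f (t + τ) + f (t - τ) - 2 * f t) * φ t ≤
      ∫ t, (τ ^ 2 * (g t * φ t) + τ ^ 2 * η * φ t) := by
    refine integral_mono (i0 (by fun_prop)) (((i0 hg).const_mul _).add (i0 continuous_const))
      fun t => ?_
    by_cases ht : φ t = 0
    · simp [ht]
    have b1 := he' t ht (t - τ) (by rwa [sub_sub_cancel_left, abs_neg, abs_of_pos hτ])
    have b2 := he' t ht (t + τ) (by rwa [add_sub_cancel_left, abs_of_pos hτ])
    have b3 := mul_le_mul_of_nonneg_right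
      (hd t τ hτ (hτ'.trans (min_le_left _ _)) b1.1.le b2.2.le) (h0 t)
    dsimp only
    linarith
  rw [integral_add ((i0 hg).const_mul _) (i0 continuous_const), integral_const_mul,
    integral_const_mul] at s2
  simp only [Real.volume_real_Icc, sub_zero, zero_le_one, sup_of_le_left, smul_eq_mul,
    one_mul] at s1
  refine le_of_mul_le_mul_left ?_ (pow_pos hτ 2)
  linarith

end Crest.Agent.R242
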