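import Crest.Agent.R242.FirstDiff
import Crest.Agent.R242.GoodPlan
import Crest.Agent.R242.Potential
import Crest.Agent.R242.CConc
import Crest.Agent.R242.RealAux

/-! Row 242: plans along which the two tangents nearly cancel. -/

set_option autoImplicit false
set_option linter.unusedSectionVars false

open MeasureTheory Filter Set Topology
open scoped ENNReal NNReal
open Crest.GeometryTopology.SyntheticRicci

namespace Crest.Agent.R242

variable {X : Type*} [MetricSpace X] [ProperSpace X] [MeasurableSpace X] [BorelSpace X]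
  {m : Measure X} [IsLocallyFiniteMeasure m] [m.IsOpenPosMeasure]

theorem MidData_ae {P : Measure (UCurve X)} {p : X → Prop} (hp : MeasurableSet {w | p w}) {t : ℝ}
    (h : ∀ᵐ γ ∂P, p (γ.ext t)) : ∀ᵐ w ∂(marg P t), p w :=
  (ae_map_iff (TestPlan_meas t).aemeasurable hp).2 h

theorem MidData_int (hH : IsInfHilbertian m) {μ : Measure X} {C : ℝ≥0} {o : X} {R : ℝ}
    (hμ : Bdd m μ C o R) {f : X → ℝ} (hf : IsSobolevLoc m f) :
    Integrable (fun w => minWeakGrad m f w ^ 2) μ :=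
  (hμ.integrable (gamma_integrableOn hH hf hf o R)).congr (hμ.ac.ae_le (gamma_self hf))

theorem MidData_core {κ : ℝ} (hG : Good m κ) {x y z : X} {r R : ℝ} (hrR : r ≤ R)
    (hxz : dist x z = r) (hyz : dist y z = r) (hxy : dist x y = 2 * r) {δ t : ℝ} (hδ0 : 0 < δ)
    (hδ1 : δ < 1) (ht : 0 < t) (htR : t ≤ R) :
    ∃ (P : Measure (UCurve X)) (C : ℝ≥0) (φ : X → ℝ), IsGP m P C z (4 * R) ∧
      IsOptPlan P (marg P 0) (marg P 1) ∧ LipBdd φ ∧ IsPot φ (endpointLaw P) ∧
      (∀ᵐ γ ∂P, dist (γ.toMap 0) z ≤ t + δ * (r + 2 * t) ∧ dist (γ.toMap 1) x ≤ t) ∧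
      ∫ w, minWeakGrad m (fun w => φ w + cst w y) w ^ 2 ∂(marg P 0) ≤
        δ ^ 2 * r ^ 2 + 4 * r * t + 4 * t ^ 2 + 2 * ((4 * r * t + t ^ 2 / 2) / δ + t) +
          (r + t + δ * (r + 2 * t)) ^ 2 - r ^ 2 := by
  have hr : 0 ≤ r := hxz ▸ dist_nonneg
  have hA := bdd_cond (m := m) (A := Metric.closedBall z t) measurableSet_closedBall
    (Metric.measure_closedBall_pos m z ht).ne' (o := z) (R := 2 * R)
    (Metric.closedBall_subset_closedBall (by linarith))
  have hB := bdd_cond (m := m) (A := Metric.closedBall x t) measurableSet_closedBall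
    (Metric.measure_closedBall_pos m x ht).ne' (o := z) (R := 2 * R)
    (Metric.closedBall_subset_closedBall' (by linarith))
  obtain ⟨c, hc⟩ := exists_goodPlan hG (2 * R)
  obtain ⟨P, hO, hP, -⟩ := hc z _ _ _ (hA.mono (le_max_left _ _) le_rfl)
    (hB.mono (le_max_right _ _) le_rfl)
  rw [show 2 * (2 * R) = 4 * R by ring] at hP
  have hPp := hP.1
  have h0 : ∀ᵐ γ ∂P, dist (γ.ext 0) z ≤ t := by
    have : ∀ᵐ w ∂(marg P 0), w ∈ Metric.closedBall z t := by
      rw [hO.marg_eq.1]; exact ProbabilityTheory.ae_cond_mem measurableSet_closedBall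
    exact ae_of_ae_map (TestPlan_meas 0).aemeasurable this
  have h1 : ∀ᵐ γ ∂P, dist (γ.ext 1) x ≤ t := by
    have : ∀ᵐ w ∂(marg P 1), w ∈ Metric.closedBall x t := by
      rw [hO.marg_eq.2]; exact ProbabilityTheory.ae_cond_mem measurableSet_closedBall
    exact ae_of_ae_map (TestPlan_meas 1).aemeasurable this
  have hlen : ∀ᵐ γ ∂P, len γ ≤ r + 2 * t := by
    filter_upwards [h0, h1] with γ a b
    have := dist_triangle4 (γ.ext 0) z x (γ.ext 1)
    rw [dist_comm z x, dist_comm x (γ.ext 1)] at this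
    unfold len
    rw [← ext_zero, ← ext_one]
    linarith
  have hs : ∀ s ∈ Icc (0 : ℝ) δ, ∀ᵐ γ ∂P, dist (γ.ext s) z ≤ t + δ * (r + 2 * t) := by
    intro s hs
    filter_upwards [h0, hlen, hP.2.1] with γ a b g
    have e := geo_dist_ext g (s := s) (t := 0) ⟨hs.1, by linarith [hs.2]⟩ ⟨le_rfl, zero_le_one⟩
    rw [sub_zero, abs_of_nonneg hs.1] at e
    have l0 : 0 ≤ len γ := dist_nonneg
    have : s * len γ ≤ δ * (r + 2 * t) := mul_le_mul hs.2 b l0 hδ0.le
    linarith [dist_triangle (γ.ext s) (γ.ext 0) z]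
  have hcy : Continuous fun w : X => cst w y := (lipBdd_cst y).continuous
  have hci : ∀ s : ℝ, Integrable (fun w : X => cst w y) (marg P s) := fun s =>
    (hP.bdd s).integrable (hcy.continuousOn.integrableOn_compact (isCompact_closedBall _ _))
  set g : ℝ → ℝ := fun s => ∫ w, cst w y ∂(marg P s) with hg
  have hgc : Continuous g := continuous_integral_marg hP.bdd
    (hcy.continuousOn.integrableOn_compact (isCompact_closedBall _ _))
  have hg0 : g 0 ≤ (r + t) ^ 2 / 2 := by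
    have := (hP.bdd 0).1
    have h := integral_mono_ae (hci 0) (integrable_const ((r + t) ^ 2 / 2))
      (MidData_ae (p := fun w => cst w y ≤ (r + t) ^ 2 / 2)
        (measurableSet_le hcy.measurable measurable_const) (by
          filter_upwards [h0] with γ a
          have h1 := dist_triangle (γ.ext 0) z y
          rw [dist_comm z y] at h1
          have h2 : dist (γ.ext 0) y ^ 2 ≤ (r + t) ^ 2 :=
            pow_le_pow_left₀ dist_nonneg (by linarith) 2
          unfold cst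
          linarith))
    simpa using h
  have hgδ : (r ^ 2 + 2 * δ * r ^ 2 - 6 * r * t) / 2 ≤ g δ := by
    have := (hP.bdd δ).1
    have h := integral_mono_ae (integrable_const ((r ^ 2 + 2 * δ * r ^ 2 - 6 * r * t) / 2)) (hci δ)
      (MidData_ae (p := fun w => (r ^ 2 + 2 * δ * r ^ 2 - 6 * r * t) / 2 ≤ cst w y)
        (measurableSet_le measurable_const hcy.measurable) (by
          filter_upwards [h1, hlen, hP.2.1] with γ a b gd
          have e := geo_dist_ext gd (s := 1) (t := δ) ⟨zero_le_one, le_rfl⟩ ⟨hδ0.le, hδ1.le⟩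
          rw [abs_of_nonneg (by linarith)] at e
          have h3 := dist_triangle4 x (γ.ext 1) (γ.ext δ) y
          rw [dist_comm x (γ.ext 1)] at h3
          have h4 : (1 - δ) * len γ ≤ (1 - δ) * (r + 2 * t) :=
            mul_le_mul_of_nonneg_left b (by linarith)
          have h5 : (1 + δ) * r - 3 * t ≤ dist (γ.ext δ) y := by nlinarith
          unfold cst
          nlinarith [sq_nonneg (dist (γ.ext δ) y - r), mul_le_mul_of_nonneg_left h5 hr]))
    simpa using h
  have hφ : ∀ s : ℝ, ∃ φ : X → ℝ, s ∈ Icc (0 : ℝ) 1 →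
      IsCConc φ z (4 * R) ∧ IsPot φ (endpointLaw (P.map (restr s 1))) := by
    intro s
    by_cases hs : s ∈ Icc (0 : ℝ) 1
    · have hr := hO.restr hA.isP2 hB.isP2 hs ⟨zero_le_one, le_rfl⟩
      have := (hP.bdd 1).1
      obtain ⟨φ, h⟩ := exists_pot hr.1 (hP.bdd 1).2.2 hr.2.2.2
      exact ⟨φ, fun _ => h⟩
    · exact ⟨0, fun h => absurd h hs⟩
  choose φ hφ using hφ
  have hcs : IsSobolevLoc m fun w : X => cst w y := (lipBdd_cst y).sl.1
  obtain ⟨s, hs0, hsd⟩ := exists_right_deriv_gt hgc hδ0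
    (c := r ^ 2 - (4 * r * t + t ^ 2 / 2) / δ - t)
    (fun s => -(∫ w, gradPairing m (φ s) (fun w => cst w y) w ∂(marg P s)) * (1 / (1 - s)))
    (by
      intro s hs
      have hs' : s ∈ Icc (0 : ℝ) 1 := ⟨hs.1, by linarith [hs.2]⟩
      have hs1 : 0 < 1 - s := by linarith [hs.2]
      have d1 := first_diff_restr hG.hilb hP hs' ⟨zero_le_one, le_rfl⟩ (hφ s hs').1.lipBdd
        (hφ s hs').2 hcs
      have d2 : HasDerivWithinAt (fun u : ℝ => (u - s) / (1 - s)) (1 / (1 - s)) (Ici s) s :=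
        (((hasDerivAt_id s).sub_const s).div_const _).hasDerivWithinAt
      have d3 := HasDerivWithinAt.comp_of_eq s d1 d2
        (fun u hu => div_nonneg (sub_nonneg.2 hu) hs1.le) (by simp)
      refine d3.congr (fun u _ => ?_) ?_
      · simp only [hg, Function.comp]
        rw [show s + (1 - s) * ((u - s) / (1 - s)) = u by field_simp; ring]
      · simp [hg])
    (by
      have e : (r ^ 2 - (4 * r * t + t ^ 2 / 2) / δ - t) * δ =
          r ^ 2 * δ - (4 * r * t + t ^ 2 / 2) - t * δ := by field_simp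
      rw [e]
      nlinarith [mul_pos ht hδ0])
  have hs' : s ∈ Icc (0 : ℝ) 1 := ⟨hs0.1, by linarith [hs0.2]⟩
  have hs1 : 0 < 1 - s := by linarith [hs0.2]
  have hQ := hP.map_restr hs' ⟨zero_le_one, le_rfl⟩
  have hm0 : marg (P.map (restr s 1)) 0 = marg P s := by
    rw [marg_map_restr P s 1 ⟨le_rfl, zero_le_one⟩]; simp
  have hm1 : marg (P.map (restr s 1)) 1 = marg P 1 := by
    rw [marg_map_restr P s 1 ⟨zero_le_one, le_rfl⟩]; simp
  have hφl := (hφ s hs').1.lipBdd
  refine ⟨P.map (restr s 1), _, φ s, hQ.1, ?_, hφl, (hφ s hs').2, ?_, ?_⟩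
  · rw [hm0, hm1]
    exact (hO.restr hA.isP2 hB.isP2 hs' ⟨zero_le_one, le_rfl⟩).2
  · refine TestPlan_ae_map (continuous_restr s 1) ?_
    filter_upwards [hs s ⟨hs0.1, hs0.2.le⟩, h1] with γ a b
    rw [← ext_zero, ← ext_one, restr_ext s 1 γ ⟨le_rfl, zero_le_one⟩,
      restr_ext s 1 γ ⟨zero_le_one, le_rfl⟩]
    simpa using ⟨a, b⟩
  · have hb := brenier_le hQ.1 hφl (hφ s hs').2
    rw [hm0, hQ.2] at hb
    rw [hm0]
    have hbd := hP.bdd s
    have := hbd.1
    have i1 := MidData_int hG.hilb hbd hφl.sl.1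
    have i2 := hbd.integrable (gamma_integrableOn hG.hilb hφl.sl.1 hcs z (4 * R))
    have i3 := MidData_int hG.hilb hbd hcs
    have i4 : Integrable (fun w => minWeakGrad m (φ s) w ^ 2 +
        2 * gradPairing m (φ s) (fun w => cst w y) w) (marg P s) := i1.add (i2.const_mul 2)
    rw [integral_congr_ae (hbd.ac.ae_le (D_add_sq hG.hilb hφl.sl.1 hcs)),
      integral_add i4 i3, integral_add i1 (i2.const_mul 2),
      integral_const_mul]
    have hW : ∫ γ, len γ ^ 2 ∂P ≤ (r + 2 * t) ^ 2 := by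
      have h := integral_mono_ae (hO.Wsq_eq hA.isP2 hB.isP2).1 (integrable_const ((r + 2 * t) ^ 2))
        (by
          filter_upwards [hlen] with γ a
          exact pow_le_pow_left₀ dist_nonneg a 2)
      simpa using h
    have h3 : ∫ w, minWeakGrad m (fun w => cst w y) w ^ 2 ∂(marg P s) ≤
        (r + t + δ * (r + 2 * t)) ^ 2 := by
      have h := integral_mono_ae i3 (integrable_const ((r + t + δ * (r + 2 * t)) ^ 2)) (by
        filter_upwards [hbd.ac.ae_le (lipBdd_cst (X := X) y).sl.2, hbd.ac.ae_le (sl_D_nonneg hcs),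
          MidData_ae (p := fun w => dist w z ≤ t + δ * (r + 2 * t))
            (measurableSet_le (continuous_id.dist continuous_const).measurable measurable_const)
            (hs s ⟨hs0.1, hs0.2.le⟩)] with w a b c'
        have a' := (ENNReal.ofReal_le_ofReal_iff dist_nonneg).1 (a.trans (ascSlope_cst_le w y))
        have h1 := dist_triangle w z y
        rw [dist_comm z y] at h1
        exact pow_le_pow_left₀ b (by linarith) 2)
      simpa using h
    set I := ∫ w, gradPairing m (φ s) (fun w => cst w y) w ∂(marg P s)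
    set K := (4 * r * t + t ^ 2 / 2) / δ + t with hK
    have hK0 : 0 ≤ K := by positivity
    have hI : I ≤ -((1 - s) * (r ^ 2 - K)) := by
      rw [mul_one_div, lt_div_iff₀ hs1] at hsd
      rw [hK]
      linarith
    have h4 : (1 - s) ^ 2 * ∫ γ, len γ ^ 2 ∂P ≤ (1 - s) ^ 2 * (r + 2 * t) ^ 2 :=
      mul_le_mul_of_nonneg_left hW (sq_nonneg _)
    have h5 : (1 - s) ^ 2 * (4 * r * t + 4 * t ^ 2) ≤ 4 * r * t + 4 * t ^ 2 :=
      mul_le_of_le_one_left (by positivity) (pow_le_one₀ hs1.le (by linarith [hs0.1]))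
    have h6 : s ^ 2 * r ^ 2 ≤ δ ^ 2 * r ^ 2 :=
      mul_le_mul_of_nonneg_right (pow_le_pow_left₀ hs0.1 hs0.2.le 2) (sq_nonneg _)
    have h7 : (1 - s) * K ≤ K := mul_le_of_le_one_left hK0 (by linarith [hs0.1])
    nlinarith

theorem mid_data {κ : ℝ} (hG : Good m κ) {x y z : X} {r R : ℝ} (hrR : r ≤ R)
    (hxz : dist x z = r) (hyz : dist y z = r) (hxy : dist x y = 2 * r) {η : ℝ} (hη : 0 < η)
    (hηR : η ≤ R) :
    ∃ (P : Measure (UCurve X)) (C : ℝ≥0) (φ : X → ℝ), IsGP m P C z (4 * R) ∧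
      IsOptPlan P (marg P 0) (marg P 1) ∧ LipBdd φ ∧ IsPot φ (endpointLaw P) ∧
      (∀ᵐ γ ∂P, dist (γ.toMap 0) z ≤ η ∧ dist (γ.toMap 1) x ≤ η) ∧
      ∫ w, minWeakGrad m (fun w => φ w + cst w y) w ^ 2 ∂(marg P 0) ≤ η := by
  have c1 : Tendsto (fun δ : ℝ => δ ^ 2 + δ * (r + 2 * δ ^ 2)) (𝓝[>] 0) (𝓝 0) := by
    have : Continuous fun δ : ℝ => δ ^ 2 + δ * (r + 2 * δ ^ 2) := by fun_prop
    simpa using (this.tendsto 0).mono_left nhdsWithin_le_nhds
  have c2 : Tendsto (fun δ : ℝ => δ ^ 2) (𝓝[>] 0) (𝓝 0) := by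
    have : Continuous fun δ : ℝ => δ ^ 2 := by fun_prop
    simpa using (this.tendsto 0).mono_left nhdsWithin_le_nhds
  have c3 : Tendsto (fun δ : ℝ => δ ^ 2 * r ^ 2 + 4 * r * δ ^ 2 + 4 * (δ ^ 2) ^ 2 +
      2 * (4 * r * δ + δ ^ 3 / 2 + δ ^ 2) + (r + δ ^ 2 + δ * (r + 2 * δ ^ 2)) ^ 2 - r ^ 2)
      (𝓝[>] 0) (𝓝 0) := by
    have : Continuous fun δ : ℝ => δ ^ 2 * r ^ 2 + 4 * r * δ ^ 2 + 4 * (δ ^ 2) ^ 2 +
      2 * (4 * r * δ + δ ^ 3 / 2 + δ ^ 2) + (r + δ ^ 2 + δ * (r + 2 * δ ^ 2)) ^ 2 - r ^ 2 := by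
      fun_prop
    simpa using (this.tendsto 0).mono_left nhdsWithin_le_nhds
  obtain ⟨δ, ⟨⟨⟨h1, h2⟩, h3⟩, h4⟩⟩ := ((((c1.eventually (ge_mem_nhds hη)).and
    (c2.eventually (ge_mem_nhds hη))).and (c3.eventually (ge_mem_nhds hη))).and
    (Ioo_mem_nhdsGT (zero_lt_one' ℝ))).exists
  obtain ⟨P, C, φ, a1, a2, a3, a4, a5, a6⟩ := MidData_core hG hrR hxz hyz hxy h4.1 h4.2
    (t := δ ^ 2) (pow_pos h4.1 2) (h2.trans hηR)
  refine ⟨P, C, φ, a1, a2, a3, a4, a5.mono fun γ h => ⟨h.1.trans h1, h.2.trans h2⟩,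
    a6.trans (le_trans (le_of_eq ?_) h3)⟩
  have := h4.1.ne'
  field_simp

end Crest.Agent.R242
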