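import Crest.Agent.R242.AboveTanPt
import Crest.Agent.R242.MidData

/-! Row 242: the midpoint inequality along every geodesic. -/

set_option autoImplicit false
set_option linter.unusedSectionVars false

open MeasureTheory Filter Set Topology
open scoped ENNReal NNReal
open Crest.GeometryTopology.SyntheticRicci

namespace Crest.Agent.R242

variable {X : Type*} [MetricSpace X] [ProperSpace X] [MeasurableSpace X] [BorelSpace X]
  {m : Measure X} [IsLocallyFiniteMeasure m] [m.IsOpenPosMeasure]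

theorem Mid_abs {Ω : Type*} [MeasurableSpace Ω] {μ : Measure Ω} [IsProbabilityMeasure μ]
    {g : Ω → ℝ} (hg : AEStronglyMeasurable g μ) {c e : ℝ} (h : ∀ᵐ x ∂μ, |g x - c| ≤ e) :
    |∫ x, g x ∂μ - c| ≤ e := by
  have h1 : Integrable (fun x => g x - c) μ :=
    Integrable.of_bound (hg.sub aestronglyMeasurable_const) e (by simpa using h)
  have h2 : Integrable g μ := by
    have := h1.add (integrable_const c)
    refine this.congr (Eventually.of_forall fun x => ?_)
    simp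
  have h3 : ∫ x, g x ∂μ - c = ∫ x, (g x - c) ∂μ := by
    rw [integral_sub h2 (integrable_const c)]
    simp
  rw [h3]
  have := norm_integral_le_of_norm_le_const (μ := μ) (f := fun x => g x - c) (C := e)
    (by simpa using h)
  simpa using this

theorem Mid_sq {a r R η : ℝ} (hr : 0 ≤ r) (hrR : r ≤ R) (hη : η ≤ R) (h : |a - r| ≤ 2 * η) :
    |a ^ 2 - r ^ 2| ≤ 8 * R * η := by
  have h0 : 0 ≤ η := by have := abs_nonneg (a - r); linarith
  have h1 : |a + r| ≤ 4 * R := by
    have := abs_le.1 h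
    rw [abs_le]; constructor <;> linarith [this.1, this.2]
  calc |a ^ 2 - r ^ 2| = |a - r| * |a + r| := by rw [← abs_mul]; congr 1; ring
    _ ≤ (2 * η) * (4 * R) := mul_le_mul h h1 (abs_nonneg _) (by linarith)
    _ = 8 * R * η := by ring

theorem Mid_gamma (hH : IsInfHilbertian m) {μ : Measure X} {C : ℝ≥0} {o : X} {R : ℝ}
    (hμ : Bdd m μ C o R) {ψ F : X → ℝ} (hψ : IsSobolevLoc m ψ) {L : ℝ≥0}
    (hF : LipschitzWith L F) {δ : ℝ} (hδ : 0 < δ)
    (h : ∫ w, minWeakGrad m ψ w ^ 2 ∂μ ≤ δ ^ 2) :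
    -∫ w, gradPairing m ψ F w ∂μ ≤ L * δ := by
  have := hμ.1
  obtain ⟨hF1, hF2⟩ := sl_of_lipschitz (m := m) hF
  have hi : Integrable (gradPairing m ψ F) μ := hμ.integrable (gamma_integrableOn hH hψ hF1 o R)
  have hi2 : Integrable (fun w => minWeakGrad m ψ w ^ 2) μ := by
    refine hμ.integrable ?_
    have := (sl_D_l2 hψ o (R + 1)).integrable_sq
    exact IntegrableOn.mono_set this (Metric.closedBall_subset_ball (by linarith))
  have hb : ∀ᵐ w ∂μ, -gradPairing m ψ F w ≤ L * (δ / 2) + L / (2 * δ) * minWeakGrad m ψ w ^ 2 := by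
    refine hμ.ac.ae_le ?_
    filter_upwards [abs_gamma_le hH hψ hF1, hF2, sl_D_nonneg hψ] with w h1 h2 h3
    have h4 : minWeakGrad m ψ w ≤ δ / 2 + minWeakGrad m ψ w ^ 2 / (2 * δ) := by
      have : δ / 2 + minWeakGrad m ψ w ^ 2 / (2 * δ) - minWeakGrad m ψ w =
          (minWeakGrad m ψ w - δ) ^ 2 / (2 * δ) := by field_simp; ring
      have h5 : 0 ≤ (minWeakGrad m ψ w - δ) ^ 2 / (2 * δ) := by positivity
      linarith
    have hL : (0 : ℝ) ≤ L := L.2
    calc -gradPairing m ψ F w ≤ |gradPairing m ψ F w| := neg_le_abs _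
      _ ≤ minWeakGrad m ψ w * minWeakGrad m F w := h1
      _ ≤ minWeakGrad m ψ w * L := mul_le_mul_of_nonneg_left h2 h3
      _ ≤ (δ / 2 + minWeakGrad m ψ w ^ 2 / (2 * δ)) * L := mul_le_mul_of_nonneg_right h4 hL
      _ = _ := by ring
  have hL : (0 : ℝ) ≤ L := L.2
  calc -∫ w, gradPairing m ψ F w ∂μ = ∫ w, -gradPairing m ψ F w ∂μ := (integral_neg _).symm
    _ ≤ ∫ w, (L * (δ / 2) + L / (2 * δ) * minWeakGrad m ψ w ^ 2) ∂μ :=
        integral_mono_ae hi.neg ((integrable_const _).add (hi2.const_mul _)) hb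
    _ = L * (δ / 2) + L / (2 * δ) * ∫ w, minWeakGrad m ψ w ^ 2 ∂μ := by
        rw [integral_add (integrable_const _) (hi2.const_mul _), integral_const,
          integral_const_mul]
        simp
    _ ≤ L * (δ / 2) + L / (2 * δ) * δ ^ 2 := by gcongr
    _ = L * δ := by field_simp; ring

theorem Mid_step {κ lam₀ : ℝ} {F G : X → ℝ} (H : Hyp m κ lam₀ F G) {x y z : X} {r R : ℝ}
    (hR : 0 < R) (hrR : r ≤ R) (hxz : dist x z = r) (hyz : dist y z = r)
    (hxy : dist x y = 2 * r) {k : ℝ} (hk : ∀ w, dist w z ≤ 64 * R → G w ≤ k) {L : ℝ≥0}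
    (hF : LipschitzWith L F) {δ : ℝ} (hδ : 0 < δ) (hδ1 : δ ≤ 1) (hδR : δ ≤ R) :
    F x + F y - 2 * F z ≤ k * r ^ 2 + (4 * L + 8 * R * |k|) * δ := by
  have hη : 0 < δ ^ 2 := by positivity
  have hηδ : δ ^ 2 ≤ δ := by nlinarith
  have hr : 0 ≤ r := hxz ▸ dist_nonneg
  have hL : (0 : ℝ) ≤ L := L.2
  obtain ⟨P, C, φ, hP, hO, hφ, hp, hend, hD⟩ :=
    mid_data H.good hrR hxz hyz hxy hη (hηδ.trans hδR)
  have := hP.1
  have hμ0 := hP.bdd 0
  have hμ1 := hP.bdd 1
  have := hμ0.1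
  have := hμ1.1
  have hA := above_tan H (by linarith : 0 < 4 * R) hP hO hφ hp (k := k)
    (fun w hw => hk w (by linarith))
  have hB := above_tan_pt H (by linarith : 0 < 4 * R) hμ0 (y := y) (by linarith) (k := k)
    (fun w hw => hk w (by linarith))
  have hH := H.good.hilb
  have hφ1 := (hφ.sl (m := m)).1
  have hc1 := ((lipBdd_cst y).sl (m := m)).1
  have hF1 := (sl_of_lipschitz (m := m) hF).1
  have hadd : ∫ w, gradPairing m (fun w => φ w + cst w y) F w ∂(marg P 0) =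
      ∫ w, gradPairing m φ F w ∂(marg P 0) +
        ∫ w, gradPairing m (fun w => cst w y) F w ∂(marg P 0) := by
    rw [← integral_add (hμ0.integrable (gamma_integrableOn hH hφ1 hF1 _ _))
      (hμ0.integrable (gamma_integrableOn hH hc1 hF1 _ _))]
    exact integral_congr_ae (hμ0.ac.ae_eq (gamma_add_left hH hφ1 hc1 hF1))
  have hΓ := Mid_gamma hH hμ0 (sl_add hφ1 hc1).1 hF hδ hD
  have h0 : ∀ᵐ w ∂(marg P 0), dist w z ≤ δ := by
    refine (ae_map_iff (TestPlan_meas 0).aemeasurable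
      (isClosed_le (by fun_prop) continuous_const).measurableSet).2 ?_
    filter_upwards [hend] with γ hγ
    rw [ext_zero]; exact hγ.1.trans hηδ
  have h1 : ∀ᵐ w ∂(marg P 1), dist w x ≤ δ := by
    refine (ae_map_iff (TestPlan_meas 1).aemeasurable
      (isClosed_le (by fun_prop) continuous_const).measurableSet).2 ?_
    filter_upwards [hend] with γ hγ
    rw [ext_one]; exact hγ.2.trans hηδ
  have hLip : ∀ a b : X, dist a b ≤ δ → |F a - F b| ≤ L * δ := fun a b hab => by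
    have := hF.dist_le_mul a b
    rw [Real.dist_eq] at this
    exact this.trans (mul_le_mul_of_nonneg_left hab hL)
  have e0 : |∫ w, F w ∂(marg P 0) - F z| ≤ L * δ :=
    Mid_abs hF.continuous.aestronglyMeasurable (h0.mono fun w hw => hLip _ _ hw)
  have e1 : |∫ w, F w ∂(marg P 1) - F x| ≤ L * δ :=
    Mid_abs hF.continuous.aestronglyMeasurable (h1.mono fun w hw => hLip _ _ hw)
  have e2 : |∫ γ, len γ ^ 2 ∂P - r ^ 2| ≤ 8 * R * δ := by
    refine Mid_abs (continuous_len.pow 2).aestronglyMeasurable ?_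
    filter_upwards [hend] with γ hγ
    refine Mid_sq hr hrR hδR ?_
    have := dist_dist_dist_le (γ.toMap 0) (γ.toMap 1) z x
    rw [Real.dist_eq, dist_comm z x, hxz] at this
    have h2 := hγ.1.trans hηδ
    have h3 := hγ.2.trans hηδ
    exact this.trans (by linarith)
  have e3 : |∫ w, dist w y ^ 2 ∂(marg P 0) - r ^ 2| ≤ 8 * R * δ := by
    refine Mid_abs (by fun_prop : Continuous fun w : X => dist w y ^ 2).aestronglyMeasurable ?_
    filter_upwards [h0] with w hw
    refine Mid_sq hr hrR hδR ?_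
    have := abs_dist_sub_le w z y
    rw [dist_comm z y, hyz] at this
    exact this.trans (by linarith)
  have hk' : ∀ I : ℝ, |I - r ^ 2| ≤ 8 * R * δ → k * I ≤ k * r ^ 2 + |k| * (8 * R * δ) := by
    intro I hI
    have : k * (I - r ^ 2) ≤ |k| * (8 * R * δ) :=
      (le_abs_self _).trans (by rw [abs_mul]; exact mul_le_mul_of_nonneg_left hI (abs_nonneg _))
    linarith
  have f2 := hk' _ e2
  have f3 := hk' _ e3
  have g0 := abs_le.1 e0
  have g1 := abs_le.1 e1
  rw [hadd] at hΓ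
  nlinarith [g0.1, g0.2, g1.1, g1.2]

theorem midpoint_le {κ lam₀ : ℝ} {F G : X → ℝ} (H : Hyp m κ lam₀ F G) {x y z : X} {r R : ℝ}
    (hR : 0 < R) (hrR : r ≤ R) (hxz : dist x z = r) (hyz : dist y z = r)
    (hxy : dist x y = 2 * r) {k : ℝ} (hk : ∀ w, dist w z ≤ 64 * R → G w ≤ k) :
    F x + F y - 2 * F z ≤ k * r ^ 2 := by
  obtain ⟨L, hF⟩ := H.Fl
  have hlim : Tendsto (fun δ : ℝ => k * r ^ 2 + (4 * L + 8 * R * |k|) * δ) (𝓝[>] 0)
      (𝓝 (k * r ^ 2 + (4 * L + 8 * R * |k|) * 0)) :=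
    ((by fun_prop : Continuous fun δ : ℝ =>
      k * r ^ 2 + (4 * L + 8 * R * |k|) * δ).tendsto 0).mono_left nhdsWithin_le_nhds
  rw [mul_zero, add_zero] at hlim
  refine ge_of_tendsto hlim ?_
  filter_upwards [Ioo_mem_nhdsGT (lt_min one_pos hR)] with δ hδ
  exact Mid_step H hR hrR hxz hyz hxy hk hF hδ.1 (hδ.2.le.trans (min_le_left _ _))
    (hδ.2.le.trans (min_le_right _ _))

end Crest.Agent.R242
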