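import Crest.Agent.R242.Structure

/-! Row 242: existence of the minimal weak upper gradient. -/

set_option autoImplicit false
set_option linter.unusedSectionVars false

open MeasureTheory Filter Set Topology
open scoped ENNReal NNReal
open Crest.GeometryTopology.SyntheticRicci

namespace Crest.Agent.R242

variable {X : Type*} [MetricSpace X] [ProperSpace X] [MeasurableSpace X] [BorelSpace X]
  {m : Measure X} [IsLocallyFiniteMeasure m] [m.IsOpenPosMeasure]

theorem MinWUG_ae_Ioo : ∀ᵐ t ∂(volume.restrict (Icc (0 : ℝ) 1)), t ∈ Ioo (0 : ℝ) 1 := by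
  rw [← Measure.restrict_congr_set Ioo_ae_eq_Icc]
  exact ae_restrict_mem measurableSet_Ioo

theorem MinWUG_deriv_eq {w v g : ℝ → ℝ} (hw : AbsolutelyContinuousOnInterval w 0 1)
    (hv : AbsolutelyContinuousOnInterval v 0 1)
    (h1 : ∀ᵐ t ∂(volume.restrict (Icc (0 : ℝ) 1)), w t = g t)
    (h2 : ∀ᵐ t ∂(volume.restrict (Icc (0 : ℝ) 1)), v t = g t) :
    ∀ t ∈ Ioo (0 : ℝ) 1, deriv w t = deriv v t := by
  have hw' := hw.continuousOn
  have hv' := hv.continuousOn
  rw [uIcc_of_le zero_le_one] at hw' hv'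
  have h : EqOn w v (Icc 0 1) := Measure.eqOn_Icc_of_ae_eq volume zero_ne_one
    (by filter_upwards [h1, h2] with t a b using a.trans b.symm) hw' hv'
  intro t ht
  exact Filter.EventuallyEq.deriv_eq
    (by filter_upwards [Icc_mem_nhds ht.1 ht.2] with r hr using h hr)

theorem MinWUG_speed {P : Measure (UCurve X)} (hP : IsTestPlan2 m P) :
    ∀ᵐ γ ∂P, ∀ᵐ t ∂(volume.restrict (Icc (0 : ℝ) 1)), upperSpeed γ t ≠ ⊤ := by
  have hm : Measurable fun p : UCurve X × ℝ => upperSpeed p.1 p.2 ^ 2 :=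
    measurable_upperSpeed.pow_const 2
  filter_upwards [ae_lt_top (hm.lintegral_prod_right' (ν := volume.restrict (Icc (0 : ℝ) 1)))
    hP.2.2.2.ne] with γ hγ
  filter_upwards [ae_lt_top (hm.comp measurable_prodMk_left) hγ.ne] with t ht
  intro h
  have ht' : upperSpeed γ t ^ 2 < ⊤ := ht
  rw [h] at ht'
  simp at ht'

theorem MinWUG_l2_of_le {f g : X → ℝ} (hf : AEStronglyMeasurable f m) (hg : IsL2OnBalls m g)
    (h : ∀ᵐ x ∂m, |f x| ≤ g x) : IsL2OnBalls m f := fun o R =>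
  (hg o R).mono' hf.restrict (ae_restrict_of_ae h)

/-- A countable infimum of weak upper gradients is a weak upper gradient. -/
theorem MinWUG_iInf {f : X → ℝ} {E : ℕ → X → ℝ} (hf : IsL2OnBalls m f)
    (h : ∀ n, IsWUGLoc m f (E n)) : IsWUGLoc m f fun x => ⨅ n, E n x := by
  have h0 : ∀ᵐ x ∂m, ∀ n, 0 ≤ E n x := ae_all_iff.2 fun n => (h n).2.1
  have hm : AEStronglyMeasurable (fun x => ⨅ n, E n x) m :=
    (AEMeasurable.iInf fun n =>
      (isL2OnBalls_aemeasurable (h n).1).aemeasurable).aestronglyMeasurable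
  have hpos : ∀ᵐ x ∂m, 0 ≤ ⨅ n, E n x := by
    filter_upwards [h0] with x hx using le_ciInf hx
  refine isWUGLoc_of_ac (MinWUG_l2_of_le hm (h 0).1 ?_) hpos fun P hP hB => ?_
  · filter_upwards [h0, hpos] with x hx hx'
    rw [abs_of_nonneg hx']
    exact ciInf_le ⟨0, by rintro _ ⟨n, rfl⟩; exact hx n⟩ 0
  · filter_upwards [ae_all_iff.2 fun n => wug_structure hf (h n) hP hB, MinWUG_speed hP]
      with γ hγ hs
    choose w hw1 hw2 hw3 hw4 using hγ
    refine ⟨w 0, hw1 0, hw2 0, hw3 0, ?_⟩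
    have he : ∀ n, ∀ t ∈ Ioo (0 : ℝ) 1, deriv (w 0) t = deriv (w n) t := fun n =>
      MinWUG_deriv_eq (hw1 0) (hw1 n) ((hw4 0).mono fun _ ht => ht.1)
        ((hw4 n).mono fun _ ht => ht.1)
    filter_upwards [ae_all_iff.2 hw4, hs, MinWUG_ae_Ioo] with t ht hst hI
    rw [ENNReal.ofReal_iInf, ENNReal.iInf_mul fun h' => absurd h' hst]
    exact le_iInf fun n => by rw [he n t hI]; exact (ht n).2

theorem MinWUG_isMin {f : X → ℝ} (hf : ∃ D, IsMinWUGLoc m f D) :
    IsMinWUGLoc m f (minWeakGrad m f) := by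
  rw [minWeakGrad, dif_pos hf]
  exact Classical.choose_spec hf

theorem isWUGLoc_min {f D₁ D₂ : X → ℝ} (hf : IsL2OnBalls m f) (h₁ : IsWUGLoc m f D₁)
    (h₂ : IsWUGLoc m f D₂) : IsWUGLoc m f (fun x => min (D₁ x) (D₂ x)) := by
  refine isWUGLoc_of_ac (fun o R => (h₁.1 o R).inf (h₂.1 o R)) ?_ fun P hP hB => ?_
  · filter_upwards [h₁.2.1, h₂.2.1] with x a b using le_min a b
  · filter_upwards [wug_structure hf h₁ hP hB, wug_structure hf h₂ hP hB] with γ
      ⟨w, hw1, hw2, hw3, hw4⟩ ⟨v, hv1, _, _, hv4⟩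
    refine ⟨w, hw1, hw2, hw3, ?_⟩
    have he := MinWUG_deriv_eq hw1 hv1 (hw4.mono fun _ ht => ht.1) (hv4.mono fun _ ht => ht.1)
    filter_upwards [hw4, hv4, MinWUG_ae_Ioo] with t a b hI
    rcases le_total (D₁ (γ.ext t)) (D₂ (γ.ext t)) with h | h
    · rw [min_eq_left h]; exact a.2
    · rw [min_eq_right h, he t hI]; exact b.2

theorem sobolevLoc_of_wug {f D : X → ℝ} (hf : IsL2OnBalls m f) (hD : IsWUGLoc m f D) :
    IsSobolevLoc m f ∧ ∀ᵐ x ∂m, minWeakGrad m f x ≤ D x := by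
  have hint : ∀ E : X → ℝ, IsWUGLoc m f E →
      Integrable (fun x => Real.arctan (E x)) m.toFinite := fun E hE =>
    Integrable.of_bound (Real.continuous_arctan.comp_aestronglyMeasurable
      ((isL2OnBalls_aemeasurable hE.1).mono_ac (toFinite_absolutelyContinuous m))) (Real.pi / 2)
      (ae_of_all _ fun x => abs_le.2
        ⟨(Real.neg_pi_div_two_lt_arctan _).le, (Real.arctan_lt_pi_div_two _).le⟩)
  let S : Set ℝ := {c | ∃ E : X → ℝ, IsWUGLoc m f E ∧ c = ∫ x, Real.arctan (E x) ∂m.toFinite}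
  have hS : BddBelow S := ⟨0, by
    rintro _ ⟨E, hE, rfl⟩
    refine integral_nonneg_of_ae ?_
    rw [EventuallyLE, ae_toFinite]
    filter_upwards [hE.2.1] with x hx
    exact Real.arctan_zero.ge.trans (Real.arctan_strictMono.monotone hx)⟩
  obtain ⟨u, -, hu, huS⟩ := exists_seq_tendsto_sInf (S := S) ⟨_, D, hD, rfl⟩ hS
  choose E hE hE' using huS
  have hmin := MinWUG_iInf hf hE
  have h0 : ∀ᵐ x ∂m, ∀ n, 0 ≤ E n x := ae_all_iff.2 fun n => (hE n).2.1
  have hle : ∫ x, Real.arctan (⨅ n, E n x) ∂m.toFinite ≤ sInf S := by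
    refine ge_of_tendsto' hu fun n => ?_
    rw [hE' n]
    refine integral_mono_ae (hint _ hmin) (hint _ (hE n)) ?_
    rw [EventuallyLE, ae_toFinite]
    filter_upwards [h0] with x hx
    exact Real.arctan_strictMono.monotone (ciInf_le ⟨0, by rintro _ ⟨n, rfl⟩; exact hx n⟩ n)
  have hex : ∃ D, IsMinWUGLoc m f D := by
    refine ⟨_, hmin, fun D' hD' => ?_⟩
    have h1 := isWUGLoc_min hf hmin hD'
    have h2 : (fun x => Real.arctan (min (⨅ n, E n x) (D' x))) ≤ᵐ[m.toFinite]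
        fun x => Real.arctan (⨅ n, E n x) :=
      ae_of_all _ fun x => Real.arctan_strictMono.monotone (min_le_left _ _)
    have h3 := (integral_eq_iff_of_ae_le (hint _ h1) (hint _ hmin) h2).1
      (le_antisymm (integral_mono_ae (hint _ h1) (hint _ hmin) h2)
        (hle.trans (csInf_le hS ⟨_, h1, rfl⟩)))
    rw [EventuallyEq, ae_toFinite] at h3
    filter_upwards [h3] with x hx
    exact min_eq_left_iff.1 (Real.arctan_strictMono.injective hx)
  exact ⟨⟨hf, hex⟩, (MinWUG_isMin hex).2 D hD⟩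

theorem sl_isMin {f : X → ℝ} (hf : IsSobolevLoc m f) : IsMinWUGLoc m f (minWeakGrad m f) := by
  exact MinWUG_isMin hf.2

theorem sl_wug {f : X → ℝ} (hf : IsSobolevLoc m f) : IsWUGLoc m f (minWeakGrad m f) :=
  (sl_isMin hf).1

theorem sl_D_l2 {f : X → ℝ} (hf : IsSobolevLoc m f) : IsL2OnBalls m (minWeakGrad m f) :=
  (sl_wug hf).1

theorem sl_D_nonneg {f : X → ℝ} (hf : IsSobolevLoc m f) : ∀ᵐ x ∂m, 0 ≤ minWeakGrad m f x :=
  (sl_wug hf).2.1

theorem sl_D_meas {f : X → ℝ} (hf : IsSobolevLoc m f) :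
    AEStronglyMeasurable (minWeakGrad m f) m :=
  isL2OnBalls_aemeasurable (sl_D_l2 hf)

theorem minWeakGrad_congr {f g : X → ℝ} (h : f =ᵐ[m] g) : minWeakGrad m f = minWeakGrad m g := by
  have h1 : IsWUGLoc m f = IsWUGLoc m g := funext fun D => propext
    ⟨fun a => isWUGLoc_congr a h EventuallyEq.rfl, fun a => isWUGLoc_congr a h.symm EventuallyEq.rfl⟩
  have h2 : IsMinWUGLoc m f = IsMinWUGLoc m g := funext fun D => by
    rw [IsMinWUGLoc, IsMinWUGLoc, h1]
  have key : ∀ p q : (X → ℝ) → Prop, p = q →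
      (open Classical in if h : ∃ D, p D then Classical.choose h else 0) =
        (open Classical in if h : ∃ D, q D then Classical.choose h else 0) := by
    rintro p _ rfl
    rfl
  exact key _ _ h2

theorem gradPairing_congr {f f' g g' : X → ℝ} (hf : f =ᵐ[m] f') (hg : g =ᵐ[m] g') :
    gradPairing m f g = gradPairing m f' g' := by
  funext x
  rw [gradPairing, gradPairing,
    minWeakGrad_congr (f := fun y => f y + g y) (g := fun y => f' y + g' y) (hf.add hg),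
    minWeakGrad_congr (f := fun y => f y - g y) (g := fun y => f' y - g' y) (hf.sub hg)]

theorem sl_congr {f g : X → ℝ} (hf : IsSobolevLoc m f) (h : f =ᵐ[m] g) : IsSobolevLoc m g := by
  exact (sobolevLoc_of_wug (fun o R => (hf.1 o R).ae_eq (ae_restrict_of_ae h))
    (isWUGLoc_congr (sl_wug hf) h EventuallyEq.rfl)).1

theorem sob_congr {f g : X → ℝ} (hf : IsSobolev m f) (h : f =ᵐ[m] g) : IsSobolev m g := by
  exact ⟨hf.1.ae_eq h, sl_congr hf.2.1 h, minWeakGrad_congr h ▸ hf.2.2⟩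

theorem isL2OnBalls_of_memLp {f : X → ℝ} (hf : MemLp f 2 m) : IsL2OnBalls m f := by
  exact fun _ _ => hf.restrict _

theorem isL2OnBalls_of_le {f g : X → ℝ} (hf : AEStronglyMeasurable f m) (hg : IsL2OnBalls m g)
    (h : ∀ᵐ x ∂m, |f x| ≤ g x) : IsL2OnBalls m f := by
  exact MinWUG_l2_of_le hf hg h

theorem sob_of_wug {f D : X → ℝ} (hf : MemLp f 2 m) (hD : IsWUGLoc m f D) (hD2 : MemLp D 2 m) :
    IsSobolev m f := by
  obtain ⟨hs, h⟩ := sobolevLoc_of_wug (isL2OnBalls_of_memLp hf) hD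
  refine ⟨hf, hs, hD2.mono' (sl_D_meas hs) ?_⟩
  filter_upwards [h, sl_D_nonneg hs] with x a b
  rwa [Real.norm_of_nonneg b]

theorem sob_of_sl {f D : X → ℝ} (hf : MemLp f 2 m) (hs : IsSobolevLoc m f) (hD2 : MemLp D 2 m)
    (h : ∀ᵐ x ∂m, minWeakGrad m f x ≤ D x) : IsSobolev m f := by
  refine ⟨hf, hs, hD2.mono' (sl_D_meas hs) ?_⟩
  filter_upwards [h, sl_D_nonneg hs] with x a b
  rwa [Real.norm_of_nonneg b]

end Crest.Agent.R242
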