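import Crest.Agent.R242.Calc2
import Crest.Agent.R242.LipSob
import Crest.Agent.R242.LipApprox

/-! Row 242: the pointwise parallelogram identity. -/

set_option autoImplicit false
set_option linter.unusedSectionVars false

open MeasureTheory Filter Set Topology
open scoped ENNReal NNReal
open Crest.GeometryTopology.SyntheticRicci

namespace Crest.Agent.R242

variable {X : Type*} [MetricSpace X] [ProperSpace X] [MeasurableSpace X] [BorelSpace X]
  {m : Measure X} [IsLocallyFiniteMeasure m] [m.IsOpenPosMeasure]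

namespace Para

/-- The distance to the nearest integer. -/
noncomputable def Z (t : ℝ) : ℝ := |t - round t|

theorem Z_lip : LipschitzWith 1 Z := by
  refine LipschitzWith.of_le_add fun s t => (round_le s (round t)).trans ?_
  rw [Real.dist_eq, add_comm]
  exact abs_sub_le _ _ _

theorem Z_diff {z : ℝ} (hz : z ∉ range fun k : ℤ => (k : ℝ) / 2) : DifferentiableAt ℝ Z z := by
  have h1 : ((⌊z + 1 / 2⌋ : ℤ) : ℝ) < z + 1 / 2 := (Int.floor_le _).lt_of_ne fun e =>
    hz ⟨2 * ⌊z + 1 / 2⌋ - 1, by push_cast; linarith⟩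
  have h2 := Int.lt_floor_add_one (z + 1 / 2)
  have h3 : Z =ᶠ[𝓝 z] fun y => |y - (⌊z + 1 / 2⌋ : ℤ)| := by
    have hc : Continuous fun y : ℝ => y + 1 / 2 := by fun_prop
    filter_upwards [hc.continuousAt.eventually (Ioo_mem_nhds h1 h2)] with y hy
    rw [Z, round_eq, Int.floor_eq_iff.2 ⟨hy.1.le, hy.2⟩]
  refine DifferentiableAt.congr_of_eventuallyEq (DifferentiableAt.abs (by fun_prop) fun e => ?_) h3
  exact hz ⟨2 * ⌊z + 1 / 2⌋, by push_cast; linarith⟩

/-- The zigzag function. -/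
noncomputable def zz (d t : ℝ) : ℝ := d * Z (d⁻¹ * t)

theorem sl_zz {f : X → ℝ} (hf : IsSobolevLoc m f) (d : ℝ) :
    IsSobolevLoc m fun y => zz d (f y) :=
  (sl_const_mul (sl_comp (sl_const_mul hf d⁻¹).1 Z_lip (measurable_deriv Z)
    (fun _ => norm_deriv_le_of_lipschitz Z_lip) (countable_range _)
    fun _ hz => (Z_diff hz).hasDerivAt).1 d).1

theorem abs_zz_le {d : ℝ} (hd : 0 < d) (t : ℝ) : |zz d t| ≤ d / 2 := by
  rw [zz, Z, abs_mul, abs_abs, abs_of_pos hd]
  nlinarith [abs_sub_round (d⁻¹ * t)]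

theorem zz_cases {d : ℝ} (hd : 0 < d) (t : ℝ) :
    ∃ k : ℤ, zz d t = t + d * k ∨ zz d t = -t + d * k := by
  rcases abs_choice (d⁻¹ * t - round (d⁻¹ * t)) with h | h
  · exact ⟨-round (d⁻¹ * t), Or.inl (by rw [zz, Z, h]; push_cast; field_simp; ring)⟩
  · exact ⟨round (d⁻¹ * t), Or.inr (by rw [zz, Z, h]; field_simp; ring)⟩

theorem loc {u v : X → ℝ} (hu : IsSobolevLoc m u) (hv : IsSobolevLoc m v) (d : ℝ) :
    ∀ᵐ x ∂m, ∀ k : ℤ, (u x = v x + d * k ∨ u x = -v x + d * k) →
      minWeakGrad m u x = minWeakGrad m v x := by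
  refine ae_all_iff.2 fun k => ?_
  filter_upwards [D_locality hu (sl_add hv (sl_const (d * k)).1).1, D_add_const hv (d * k),
    D_locality hu (sl_add (sl_neg hv).1 (sl_const (d * k)).1).1, D_add_const (sl_neg hv).1 (d * k),
    (sl_neg hv).2] with x h1 h2 h3 h4 h5 h
  rcases h with h | h
  · rw [h1 h, h2]
  · rw [h3 h, h4, h5]

/-- The defect in the parallelogram identity. -/
noncomputable def Q (m : Measure X) (f g : X → ℝ) (x : X) : ℝ :=
  minWeakGrad m (fun y => f y + g y) x ^ 2 + minWeakGrad m (fun y => f y - g y) x ^ 2 -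
    (2 * minWeakGrad m f x ^ 2 + 2 * minWeakGrad m g x ^ 2)

theorem Q_zz {f g : X → ℝ} (hf : IsSobolevLoc m f) (hg : IsSobolevLoc m g) {d : ℝ} (hd : 0 < d) :
    ∀ᵐ x ∂m, Q m (fun y => zz d (f y)) (fun y => zz d (g y)) x = Q m f g x ∧
      minWeakGrad m (fun y => zz d (f y)) x = minWeakGrad m f x ∧
      minWeakGrad m (fun y => zz d (g y)) x = minWeakGrad m g x := by
  have hF := sl_zz hf d
  have hG := sl_zz hg d
  filter_upwards [loc hF hf d, loc hG hg d, loc (sl_add hF hG).1 (sl_add hf hg).1 d,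
    loc (sl_add hF hG).1 (sl_sub hf hg).1 d, loc (sl_sub hF hG).1 (sl_add hf hg).1 d,
    loc (sl_sub hF hG).1 (sl_sub hf hg).1 d] with x h1 h2 h3 h4 h5 h6
  obtain ⟨k, hk⟩ := zz_cases hd (f x)
  obtain ⟨l, hl⟩ := zz_cases hd (g x)
  refine ⟨?_, h1 k hk, h2 l hl⟩
  rw [Q, Q, h1 k hk, h2 l hl]
  rcases hk with hk | hk <;> rcases hl with hl | hl
  · rw [h3 (k + l) (Or.inl (by rw [hk, hl]; push_cast; ring)),
      h6 (k - l) (Or.inl (by rw [hk, hl]; push_cast; ring))]
  · rw [h4 (k + l) (Or.inl (by rw [hk, hl]; push_cast; ring)),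
      h5 (k - l) (Or.inl (by rw [hk, hl]; push_cast; ring))]
    ring
  · rw [h4 (k + l) (Or.inr (by rw [hk, hl]; push_cast; ring)),
      h5 (k - l) (Or.inr (by rw [hk, hl]; push_cast; ring))]
    ring
  · rw [h3 (k + l) (Or.inr (by rw [hk, hl]; push_cast; ring)),
      h6 (k - l) (Or.inr (by rw [hk, hl]; push_cast; ring))]

theorem l2_aff {S : X → ℝ} (hS : IsL2OnBalls m S) (a b : ℝ) :
    IsL2OnBalls m fun y => a * S y + b := fun o R =>
  ((hS o R).const_mul a).add ((sl_const (m := m) b).1.1 o R)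

theorem mul_le {a u : X → ℝ} {L : ℝ≥0} {B d : ℝ} (ha : LipschitzWith L a) (hB : ∀ x, |a x| ≤ B)
    (hu : IsSobolevLoc m u) (hd : ∀ x, |u x| ≤ d) : IsSobolevLoc m (fun y => a y * u y) ∧
      ∀ᵐ x ∂m, minWeakGrad m (fun y => a y * u y) x ≤ |a x| * minWeakGrad m u x + d * L := by
  obtain ⟨h1, h2⟩ := sl_of_lipschitz (m := m) ha
  have m1 := isL2OnBalls_aemeasurable h1.1
  have m2 := isL2OnBalls_aemeasurable hu.1
  have h3 : ∀ᵐ x ∂m, |u x| * minWeakGrad m a x ≤ d * L := by
    filter_upwards [h2, sl_D_nonneg h1] with x b1 b2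
    exact mul_le_mul (hd x) b1 b2 ((abs_nonneg _).trans (hd x))
  obtain ⟨h4, h5⟩ := sl_mul h1 hu (isL2OnBalls_of_le (m1.mul m2) (sl_const (B * d)).1.1
    (Eventually.of_forall fun x => by
      rw [abs_mul]
      exact mul_le_mul (hB x) (hd x) (abs_nonneg _) ((abs_nonneg _).trans (hB x))))
    (isL2OnBalls_of_le ((m1.norm.mul (sl_D_meas hu)).add (m2.norm.mul (sl_D_meas h1)))
      (l2_aff (sl_D_l2 hu) B (d * L)) (by
        filter_upwards [h3, sl_D_nonneg h1, sl_D_nonneg hu] with x b1 b2 b3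
        rw [abs_of_nonneg (by positivity)]
        exact add_le_add (mul_le_mul_of_nonneg_right (hB x) b3) b1))
  refine ⟨h4, ?_⟩
  filter_upwards [h3, h5] with x b1 b2
  linarith

theorem cut {χ u : X → ℝ} {L : ℝ≥0} {B d R : ℝ} {o : X} (hχ : LipschitzWith L χ)
    (hB : ∀ x, |χ x| ≤ B) (hs : ∀ x, x ∉ Metric.ball o R → χ x = 0) (hu : IsSobolevLoc m u)
    (hd : ∀ x, |u x| ≤ d) : IsSobolev m (fun y => χ y * u y) ∧ ∀ᵐ x ∂m,
      |minWeakGrad m (fun y => χ y * u y) x - |χ x| * minWeakGrad m u x| ≤ d * L ∧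
      (x ∉ Metric.ball o R → minWeakGrad m (fun y => χ y * u y) x = 0) := by
  obtain ⟨h1, h2⟩ := mul_le hχ hB hu hd
  have h3 : ∀ᵐ x ∂m, x ∉ Metric.ball o R → minWeakGrad m (fun y => χ y * u y) x = 0 := by
    filter_upwards [D_locality h1 (sl_const 0).1, (sl_const (m := m) 0).2] with x b1 b2 hx
    rw [b1 (by rw [hs x hx, zero_mul]), b2]
  have h4 : ∀ᵐ x ∂m, ∀ c : ℚ, |(c : ℝ)| * minWeakGrad m u x ≤
      minWeakGrad m (fun y => χ y * u y) x + (|χ x - c| * minWeakGrad m u x + d * L) := by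
    refine ae_all_iff.2 fun c => ?_
    obtain ⟨b1, b2⟩ := mul_le (a := fun y => χ y - c) (L := L) (B := B + |(c : ℝ)|)
      (LipschitzWith.of_dist_le_mul fun x y => by
        rw [dist_sub_right]; exact hχ.dist_le_mul x y)
      (fun x => (abs_sub _ _).trans (add_le_add (hB x) le_rfl)) hu hd
    have e : (fun y => (c : ℝ) * u y) = fun y => χ y * u y - (χ y - c) * u y :=
      funext fun y => by ring
    filter_upwards [b2, (sl_sub h1 b1).2, (sl_const_mul hu c).2] with x c1 c2 c3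
    rw [← c3, e]
    linarith
  refine ⟨sob_of_sl (D := (Metric.ball o R).indicator fun y => B * minWeakGrad m u y + d * L) ?_ h1
    ((memLp_indicator_iff_restrict measurableSet_ball).2 (l2_aff (sl_D_l2 hu) _ _ o R)) ?_, ?_⟩
  · have := (memLp_indicator_iff_restrict measurableSet_ball).2 (h1.1 o R)
    rwa [indicator_eq_self.2 fun x hx => by_contra fun h => hx (by simp [hs x h])] at this
  · filter_upwards [h2, h3, sl_D_nonneg hu] with x b1 b2 b3
    by_cases hx : x ∈ Metric.ball o R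
    · rw [indicator_of_mem hx]
      exact b1.trans (add_le_add (mul_le_mul_of_nonneg_right (hB x) b3) le_rfl)
    · rw [indicator_of_notMem hx, b2 hx]
  · filter_upwards [h2, h3, h4] with x b1 b2 b3
    refine ⟨abs_le.2 ⟨?_, by linarith⟩, b2⟩
    have hc : IsClosed {c : ℝ | |c| * minWeakGrad m u x ≤
        minWeakGrad m (fun y => χ y * u y) x + (|χ x - c| * minWeakGrad m u x + d * L)} :=
      isClosed_le (by fun_prop) (by fun_prop)
    have := hc.closure_subset_iff.2 (range_subset_iff.2 b3) (Rat.denseRange_cast (χ x))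
    rw [mem_ofPred_eq, sub_self, abs_zero, zero_mul] at this
    linarith

theorem int_Q (hH : IsInfHilbertian m) {f g : X → ℝ} (hf : IsSobolev m f) (hg : IsSobolev m g) :
    Integrable (Q m f g) m ∧ ∫ x, Q m f g x ∂m = 0 := by
  have i1 := (sob_add hf hg).2.2.integrable_sq
  have i2 := (sob_sub hf hg).2.2.integrable_sq
  have i3 := hf.2.2.integrable_sq
  have i4 := hg.2.2.integrable_sq
  have e := hH f g hf hg
  have p : ∀ u : X → ℝ, 0 ≤ ∫ x, minWeakGrad m u x ^ 2 ∂m := fun u =>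
    integral_nonneg fun _ => sq_nonneg _
  rw [← ofReal_integral_eq_lintegral_ofReal i1 (Eventually.of_forall fun _ => sq_nonneg _),
    ← ofReal_integral_eq_lintegral_ofReal i2 (Eventually.of_forall fun _ => sq_nonneg _),
    ← ofReal_integral_eq_lintegral_ofReal i3 (Eventually.of_forall fun _ => sq_nonneg _),
    ← ofReal_integral_eq_lintegral_ofReal i4 (Eventually.of_forall fun _ => sq_nonneg _),
    ← ENNReal.ofReal_add (p _) (p _), ← ENNReal.ofReal_ofNat 2,
    ← ENNReal.ofReal_mul zero_le_two, ← ENNReal.ofReal_mul zero_le_two,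
    ← ENNReal.ofReal_add (mul_nonneg zero_le_two (p _)) (mul_nonneg zero_le_two (p _)),
    ENNReal.ofReal_eq_ofReal_iff (add_nonneg (p _) (p _))
      (add_nonneg (mul_nonneg zero_le_two (p _)) (mul_nonneg zero_le_two (p _)))] at e
  have i5 : Integrable (fun x => minWeakGrad m (fun y => f y + g y) x ^ 2 +
    minWeakGrad m (fun y => f y - g y) x ^ 2) m := i1.add i2
  have i6 : Integrable (fun x => 2 * minWeakGrad m f x ^ 2 + 2 * minWeakGrad m g x ^ 2) m :=
    (i3.const_mul 2).add (i4.const_mul 2)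
  refine ⟨i5.sub i6, ?_⟩
  unfold Q
  rw [integral_sub i5 i6, integral_add i1 i2, integral_add (i3.const_mul 2) (i4.const_mul 2),
    integral_const_mul, integral_const_mul, e, sub_self]

theorem locInt_Q {f g : X → ℝ} (hf : IsSobolevLoc m f) (hg : IsSobolevLoc m g) :
    LocallyIntegrable (Q m f g) m := fun x =>
  ⟨_, Metric.ball_mem_nhds x one_pos, ((sl_D_l2 (sl_add hf hg).1 x 1).integrable_sq.add
    (sl_D_l2 (sl_sub hf hg).1 x 1).integrable_sq).sub
    (((sl_D_l2 hf x 1).integrable_sq.const_mul 2).add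
      ((sl_D_l2 hg x 1).integrable_sq.const_mul 2))⟩

theorem sq_err {a c t S B e L : ℝ} (h : |a - |c| * t| ≤ e) (he : e ≤ L) (hc : |c| ≤ B)
    (ht : 0 ≤ t) (hS : t ≤ S) : |c ^ 2 * t ^ 2 - a ^ 2| ≤ e * (2 * B * S + L) := by
  have h1 : |c| * t ≤ B * S := mul_le_mul hc hS ht ((abs_nonneg _).trans hc)
  have h2 : 0 ≤ |c| * t := by positivity
  rw [← sq_abs c, ← mul_pow, sq_sub_sq, abs_mul, mul_comm, abs_sub_comm]
  refine mul_le_mul h (abs_le.2 ⟨?_, ?_⟩) (abs_nonneg _) ((abs_nonneg _).trans h) <;>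
    linarith [abs_le.1 h]

theorem int_mul {q χ : X → ℝ} (hq : LocallyIntegrable q m) (hχ : Continuous χ)
    (hc : HasCompactSupport χ) (ψ : X → ℝ) (hψ : Continuous ψ) :
    Integrable (fun x => χ x * ψ x * q x) m :=
  hq.integrable_smul_left_of_hasCompactSupport (hχ.mul hψ) hc.mul_right

theorem int_sq (hH : IsInfHilbertian m) {f g : X → ℝ} (hf : IsSobolevLoc m f)
    (hg : IsSobolevLoc m g) (o : X) {χ : X → ℝ} {L : ℝ≥0} (hχ : LipschitzWith L χ)
    (hc : HasCompactSupport χ) : ∫ x, χ x * χ x * Q m f g x ∂m = 0 := by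
  obtain ⟨B, hB⟩ := hχ.continuous.bounded_above_of_compact_support hc
  obtain ⟨R, hR⟩ := (IsCompact.isBounded hc).subset_ball o
  have hs : ∀ x, x ∉ Metric.ball o R → χ x = 0 := fun x hx =>
    image_eq_zero_of_notMem_tsupport fun h => hx (hR h)
  have : IsFiniteMeasure (m.restrict (Metric.ball o R)) :=
    isFiniteMeasure_restrict.2 measure_ball_lt_top.ne
  set H : X → ℝ := (Metric.ball o R).indicator fun y =>
    6 * L * (2 * B * (minWeakGrad m f y + minWeakGrad m g y) + L) with hHd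
  have iH : Integrable H m := (integrable_indicator_iff measurableSet_ball).2
    ((((((sl_D_l2 hf o R).add (sl_D_l2 hg o R)).integrable one_le_two).const_mul (2 * B)).add
      (integrable_const _)).const_mul _)
  have key : ∀ d : ℝ, 0 < d → d ≤ 1 → |∫ x, χ x * χ x * Q m f g x ∂m| ≤ d * ∫ x, H x ∂m := by
    intro d hd hd1
    have hF := sl_zz hf d
    have hG := sl_zz hg d
    have a0 := abs_zz_le hd
    have a1 : ∀ t, |zz d t| ≤ d := fun t => by linarith [a0 t]
    obtain ⟨s1, c1⟩ := cut hχ hB hs hF fun x => a1 _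
    obtain ⟨s2, c2⟩ := cut hχ hB hs hG fun x => a1 _
    obtain ⟨-, c3⟩ := cut (d := d) hχ hB hs (sl_add hF hG).1 fun x =>
      (abs_add_le _ _).trans (by linarith [a0 (f x), a0 (g x)])
    obtain ⟨-, c4⟩ := cut (d := d) hχ hB hs (sl_sub hF hG).1 fun x =>
      (abs_sub _ _).trans (by linarith [a0 (f x), a0 (g x)])
    simp only [mul_add] at c3
    simp only [mul_sub] at c4
    obtain ⟨i1, i2⟩ := int_Q hH s1 s2
    have i3 := int_mul (locInt_Q hf hg) hχ.continuous hc χ hχ.continuous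
    rw [← sub_zero (∫ x, _ ∂m), ← i2, ← integral_sub i3 i1, ← integral_const_mul,
      ← Real.norm_eq_abs]
    refine norm_integral_le_of_norm_le (iH.const_mul d) ?_
    filter_upwards [c1, c2, c3, c4, Q_zz hf hg hd, (sl_add hF hG).2, (sl_sub hF hG).2,
      sl_D_nonneg hF, sl_D_nonneg hG, sl_D_nonneg (sl_add hF hG).1, sl_D_nonneg (sl_sub hF hG).1]
      with x c1 c2 c3 c4 ⟨q1, q2, q3⟩ b1 b2 n1 n2 n3 n4
    rw [← q1, Real.norm_eq_abs, Q, Q]
    by_cases hx : x ∈ Metric.ball o R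
    · have he : d * L ≤ L := mul_le_of_le_one_left L.2 hd1
      have e1 := abs_le.1 (sq_err c1.1 he (hB x) n1 (le_add_of_nonneg_right n2))
      have e2 := abs_le.1 (sq_err c2.1 he (hB x) n2 (le_add_of_nonneg_left n1))
      have e3 := abs_le.1 (sq_err c3.1 he (hB x) n3 b1)
      have e4 := abs_le.1 (sq_err c4.1 he (hB x) n4 b2)
      rw [hHd, indicator_of_mem hx, ← q2, ← q3]
      exact abs_le.2 ⟨by linarith [e1.2, e2.2, e3.1, e4.1], by linarith [e1.1, e2.1, e3.2, e4.2]⟩
    · rw [hHd, indicator_of_notMem hx, hs x hx, c1.2 hx, c2.2 hx, c3.2 hx, c4.2 hx]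
      simp
  have ht : Tendsto (fun d : ℝ => d * ∫ x, H x ∂m) (𝓝[>] 0) (𝓝 (0 * ∫ x, H x ∂m)) :=
    (tendsto_id.mul_const _).mono_left nhdsWithin_le_nhds
  rw [zero_mul] at ht
  refine abs_nonpos_iff.1 (ge_of_tendsto ht ?_)
  filter_upwards [Ioc_mem_nhdsGT one_pos] with d hd
  exact key d hd.1 hd.2

end Para

theorem parallelogram_ae (hH : IsInfHilbertian m) {f g : X → ℝ} (hf : IsSobolevLoc m f)
    (hg : IsSobolevLoc m g) :
    ∀ᵐ x ∂m, minWeakGrad m (fun y => f y + g y) x ^ 2 + minWeakGrad m (fun y => f y - g y) x ^ 2 =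
      2 * minWeakGrad m f x ^ 2 + 2 * minWeakGrad m g x ^ 2 := by
  rcases isEmpty_or_nonempty X with h | ⟨⟨o⟩⟩
  · exact Eventually.of_forall fun x => h.elim x
  have hq := Para.locInt_Q hf hg
  have := ae_eq_zero_of_lip_tests hq isOpen_univ fun a L ha hc _ _ => by
    obtain ⟨R, hR⟩ := (IsCompact.isBounded hc).subset_closedBall o
    obtain ⟨b, hb, hb', -, h1, -⟩ := exists_cutoff o R one_pos
    have e1 := Para.int_sq hH hf hg o ha hc
    have e2 := Para.int_sq hH hf hg o hb hb'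
    have e3 := Para.int_sq hH hf hg o (ha.add hb) (hc.add hb')
    have i1 := Para.int_mul hq ha.continuous hc a ha.continuous
    have i2 := Para.int_mul hq hb.continuous hb' b hb.continuous
    have i3 := Para.int_mul hq (ha.add hb).continuous (hc.add hb') _ (ha.add hb).continuous
    have e : ∀ x, a x * Para.Q m f g x = 1 / 2 * ((a x + b x) * (a x + b x) * Para.Q m f g x -
        (a x * a x * Para.Q m f g x + b x * b x * Para.Q m f g x)) := fun x => by
      by_cases hx : a x = 0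
      · rw [hx]; ring
      · rw [h1 x (hR (subset_tsupport _ hx))]; ring
    simp only [e]
    have i4 : Integrable (fun x => a x * a x * Para.Q m f g x + b x * b x * Para.Q m f g x) m :=
      i1.add i2
    rw [integral_const_mul, integral_sub i3 i4, integral_add i1 i2, e1, e2, e3]
    simp
  filter_upwards [this] with x hx
  exact sub_eq_zero.1 (hx trivial)

end Crest.Agent.R242
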