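import Crest.Agent.R242.Potential
import Crest.Agent.R242.CConc
import Crest.Agent.R242.LipApprox

/-! Row 242: compactly supported potentials with uniform bounds. -/

set_option autoImplicit false
set_option linter.unusedSectionVars false

open MeasureTheory Filter Set Topology
open scoped ENNReal NNReal
open Crest.GeometryTopology.SyntheticRicci

namespace Crest.Agent.R242

variable {X : Type*} [MetricSpace X] [ProperSpace X] [MeasurableSpace X] [BorelSpace X]
  {m : Measure X} [IsLocallyFiniteMeasure m] [m.IsOpenPosMeasure]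

theorem exists_pot_compact (R : ℝ) : ∃ Λ : ℝ≥0, ∀ (o : X) (μ ν : Measure X)
    (q : Measure (X × X)), IsProbabilityMeasure μ → IsProbabilityMeasure ν →
    μ (Metric.closedBall o R)ᶜ = 0 → ν (Metric.closedBall o R)ᶜ = 0 → IsOptCouplingOf q μ ν →
    ∃ ψ : X → ℝ, LipschitzWith Λ ψ ∧ (∀ x, -(Λ : ℝ) ≤ ψ x ∧ ψ x ≤ 0) ∧
      (∀ x, (Λ : ℝ) ≤ dist x o → ψ x = 0) ∧ IsPot (fun x => -ψ x) q := by
  obtain ⟨B, hB⟩ : ∃ B : ℝ, B = (2 * R + 1) ^ 2 + R ^ 2 / 2 := ⟨_, rfl⟩
  refine ⟨Real.toNNReal (B + (3 * R + 2)), fun o μ ν q hμ hν hμR hνR hq => ?_⟩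
  have hR : 0 ≤ R := by
    by_contra hneg
    rw [Metric.closedBall_eq_empty.2 (not_le.1 hneg), compl_empty, measure_univ] at hμR
    exact one_ne_zero hμR
  have hB0 : 0 ≤ B := by rw [hB]; positivity
  have hΛ : ((Real.toNNReal (B + (3 * R + 2)) : ℝ≥0) : ℝ) = B + (3 * R + 2) :=
    Real.coe_toNNReal _ (by positivity)
  have hae : ∀ᵐ x ∂μ, x ∈ Metric.closedBall o R := by
    rw [ae_iff]
    exact hμR
  have hP2 : IsP2 μ := by
    refine ⟨hμ, o, ?_⟩
    calc ∫⁻ x, edist x o ^ 2 ∂μ ≤ ∫⁻ _, ENNReal.ofReal R ^ 2 ∂μ := by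
          refine lintegral_mono_ae ?_
          filter_upwards [hae] with x hx
          rw [edist_dist]
          exact pow_le_pow_left' (ENNReal.ofReal_le_ofReal hx) 2
      _ < ⊤ := by
          rw [lintegral_const, measure_univ, mul_one]
          exact ENNReal.pow_lt_top ENNReal.ofReal_lt_top
  obtain ⟨φ, hc, hp⟩ := exists_pot hP2 hνR hq
  obtain ⟨χ, hχL, -, hχ01, hχ1, hχ0⟩ := exists_cutoff o R (S := 1) one_pos
  simp only [NNReal.coe_one] at hχ0
  have hχd : ∀ x y, χ y - χ x ≤ dist x y := by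
    intro x y
    have := hχL.dist_le_mul y x
    rw [inv_one, NNReal.coe_one, one_mul, Real.dist_eq, dist_comm] at this
    exact (le_abs_self _).trans this
  obtain ⟨f, hf⟩ : ∃ f : X → ℝ, ∀ x, f x = φ x - φ o + R ^ 2 / 2 := ⟨_, fun _ => rfl⟩
  have hf0 : ∀ x, 0 ≤ f x := by
    intro x
    have := hc.lower x
    rw [hf]
    nlinarith [sq_nonneg (dist x o - R)]
  have hfB : ∀ x, dist x o < R + 1 → f x ≤ B := by
    intro x hx
    have h1 := (le_abs_self _).trans (hc.abs_sub_le x)
    have h2 : (dist x o + R) ^ 2 ≤ (2 * R + 1) ^ 2 :=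
      pow_le_pow_left₀ (by positivity) (by linarith) 2
    rw [hf, hB]
    linarith
  have hg0 : ∀ x, 0 ≤ χ x * f x := fun x => mul_nonneg (hχ01 x).1 (hf0 x)
  have hgf : ∀ x, χ x * f x ≤ f x := fun x => mul_le_of_le_one_left (hf0 x) (hχ01 x).2
  refine ⟨fun x => -(χ x * f x), ?_, fun x => ⟨?_, ?_⟩, fun x hx => ?_, ?_⟩
  · refine LipschitzWith.of_le_add_mul _ fun x y => ?_
    rw [hΛ]
    have hd : 0 ≤ dist x y := dist_nonneg
    by_cases hy : R + 1 ≤ dist y o
    · have : 0 ≤ (B + (3 * R + 2)) * dist x y := by positivity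
      rw [hχ0 y hy]
      linarith [hg0 x]
    have hy' := not_le.1 hy
    have h1 : (χ y - χ x) * f y ≤ dist x y * B :=
      (mul_le_mul_of_nonneg_right (hχd x y) (hf0 y)).trans
        (mul_le_mul_of_nonneg_left (hfB y hy') hd)
    have h2 : χ x * (f y - f x) ≤ dist x y * (3 * R + 2) := by
      by_cases hx : R + 1 ≤ dist x o
      · rw [hχ0 x hx, zero_mul]
        positivity
      have hx' := not_le.1 hx
      have h3 := hc.sub_le x y
      have h4 : dist y x ≤ dist y o + dist x o := dist_triangle_right y x o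
      have h5 : f y - f x ≤ dist x y * (3 * R + 2) := by
        rw [hf, hf]
        rw [dist_comm y x] at h3 h4
        have : dist x y * (dist x o + R + dist x y / 2) ≤ dist x y * (3 * R + 2) :=
          mul_le_mul_of_nonneg_left (by linarith) hd
        linarith
      calc χ x * (f y - f x) ≤ χ x * (dist x y * (3 * R + 2)) :=
            mul_le_mul_of_nonneg_left h5 (hχ01 x).1
        _ ≤ dist x y * (3 * R + 2) := mul_le_of_le_one_left (by positivity) (hχ01 x).2
    nlinarith
  · rw [hΛ]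
    beta_reduce
    by_cases hx : R + 1 ≤ dist x o
    · rw [hχ0 x hx]
      linarith
    · linarith [hgf x, hfB x (not_le.1 hx)]
  · linarith [hg0 x]
  · rw [hΛ] at hx
    beta_reduce
    rw [hχ0 x (by linarith)]
    simp
  · have hae' : ∀ᵐ p ∂q, p.1 ∈ Metric.closedBall o R := by
      rw [← hq.1.1] at hae
      exact ae_of_ae_map measurable_fst.aemeasurable hae
    filter_upwards [hp, hae'] with p h1 h2 x'
    have h3 := h1 x'
    have h4 := hgf x'
    rw [hχ1 p.1 h2]
    rw [hf x'] at h4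
    rw [hf p.1, hf x']
    linarith

end Crest.Agent.R242
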