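import Crest.Agent.R242.Defs

/-! Row 242: properness and exponential volume growth from the volume comparison. -/

set_option autoImplicit false
set_option linter.unusedSectionVars false

open MeasureTheory Filter Set Topology
open scoped ENNReal NNReal
open Crest.GeometryTopology.SyntheticRicci

namespace Crest.Agent.R242

variable {X : Type*} [MetricSpace X] [CompleteSpace X] [TopologicalSpace.SeparableSpace X]
  [MeasurableSpace X] [BorelSpace X] {m : Measure X} [m.IsOpenPosMeasure]

theorem growth_iter {A β : ℝ} (hA : 1 ≤ A) (hβ : 0 ≤ β)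
    (h : ∀ (x : X) (R : ℝ), 0 < R →
      m (Metric.ball x R) ≤ ENNReal.ofReal (A * Real.exp (β * R)) * m (Metric.ball x (3 * R / 4)))
    (x : X) (n : ℕ) : ∀ R : ℝ, 0 < R → m (Metric.ball x R) ≤
      ENNReal.ofReal (A ^ n * Real.exp (4 * β * R)) * m (Metric.ball x (R * (3 / 4) ^ n)) := by
  induction n with
  | zero =>
    intro R hR
    rw [pow_zero, pow_zero, one_mul, mul_one]
    exact le_mul_of_one_le_left zero_le
      (ENNReal.one_le_ofReal.2 (Real.one_le_exp (by positivity)))
  | succ n ih =>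
    intro R hR
    refine (h x R hR).trans ((mul_le_mul_right (ih (3 * R / 4) (by positivity)) _).trans_eq ?_)
    rw [← mul_assoc, ← ENNReal.ofReal_mul (by positivity),
      show 3 * R / 4 * (3 / 4) ^ n = R * (3 / 4) ^ (n + 1) by ring,
      show 4 * β * R = β * R + 4 * β * (3 * R / 4) by ring, Real.exp_add]
    congr 2
    ring

theorem properSpace_of_growth (hfin : IsFiniteOnBalls m) {A β : ℝ} (hA : 1 ≤ A) (hβ : 0 ≤ β)
    (h : ∀ (x : X) (R : ℝ), 0 < R →
      m (Metric.ball x R) ≤ ENNReal.ofReal (A * Real.exp (β * R)) * m (Metric.ball x (3 * R / 4))) :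
    ProperSpace X := by
  refine ⟨fun o R => ?_⟩
  refine isCompact_iff_totallyBounded_isComplete.2 ⟨?_, Metric.isClosed_closedBall.isComplete⟩
  rw [Metric.totallyBounded_iff]
  intro ε hε
  by_contra hcon
  push Not at hcon
  obtain ⟨f, hf, hsep⟩ := exists_seq_of_forall_finset_exists
    (fun x => x ∈ Metric.closedBall o R) (fun x y => ε ≤ dist y x) fun s _ => by
      obtain ⟨y, hy, hy'⟩ := Set.not_subset.1 (hcon s s.finite_toSet)
      refine ⟨y, hy, fun x hx => not_lt.1 fun hlt => hy' ?_⟩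
      exact mem_iUnion₂.2 ⟨x, hx, hlt⟩
  have hR : 0 ≤ R := Metric.nonempty_closedBall.1 ⟨_, hf 0⟩
  obtain ⟨n, hn⟩ := exists_pow_lt_of_lt_one (show 0 < ε / 2 / (R + 1) by positivity)
    (show (3 / 4 : ℝ) < 1 by norm_num)
  rw [lt_div_iff₀' (by positivity)] at hn
  have hdisj : Pairwise (Function.onFun Disjoint fun k => Metric.ball (f k) (ε / 2)) := by
    refine pairwise_disjoint_on _ |>.2 fun k l hkl => Metric.ball_disjoint_ball ?_
    rw [add_halves, dist_comm]
    exact hsep k l hkl
  have h1 : ∑' k, m (Metric.ball (f k) (ε / 2)) < ⊤ := by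
    rw [← measure_iUnion hdisj fun k => measurableSet_ball]
    refine lt_of_le_of_lt (measure_mono (iUnion_subset fun k => ?_)) (hfin o (ε / 2 + R))
    exact Metric.ball_subset_ball' (by have := hf k; rw [Metric.mem_closedBall] at this; linarith)
  have h2 : ∀ k, m (Metric.ball o 1) ≤ ENNReal.ofReal (A ^ n * Real.exp (4 * β * (R + 1))) *
      m (Metric.ball (f k) (ε / 2)) := fun k => by
    refine (measure_mono (Metric.ball_subset_ball' ?_)).trans
      ((growth_iter hA hβ h (f k) n (R + 1) (by positivity)).trans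
        (mul_le_mul_right (measure_mono (Metric.ball_subset_ball hn.le)) _))
    have := hf k
    rw [Metric.mem_closedBall, dist_comm] at this
    linarith
  have h3 := ENNReal.tsum_le_tsum h2
  rw [ENNReal.tsum_const_eq_top_of_ne_zero (Metric.measure_ball_pos m o one_pos).ne',
    ENNReal.tsum_mul_left] at h3
  exact absurd h3 (not_le.2 (ENNReal.mul_lt_top ENNReal.ofReal_lt_top h1))

theorem exp_integrable_of_growth (hfin : IsFiniteOnBalls m) {A β : ℝ} (hA : 1 ≤ A) (hβ : 0 ≤ β)
    (h : ∀ (x : X) (R : ℝ), 0 < R →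
      m (Metric.ball x R) ≤ ENNReal.ofReal (A * Real.exp (β * R)) * m (Metric.ball x (3 * R / 4))) :
    ∃ a : ℝ, 0 < a ∧ ∀ o : X, Integrable (fun x => Real.exp (-(a * dist x o))) m := by
  have hlog : 0 ≤ Real.log A := Real.log_nonneg hA
  obtain ⟨a, ha⟩ : ∃ a : ℝ, a = 4 * β + 3 * Real.log A + 1 := ⟨_, rfl⟩
  have ha0 : 0 < a := by rw [ha]; positivity
  refine ⟨a, ha0, fun o => ⟨Continuous.aestronglyMeasurable (by fun_prop), ?_⟩⟩
  rw [hasFiniteIntegral_iff_ofReal (Eventually.of_forall fun x => (Real.exp_pos _).le)]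
  let s : ℕ → Set X := fun k => {x | (k : ℝ) ≤ dist x o} ∩ Metric.ball o (k + 1)
  have hs : ⋃ k, s k = univ := eq_univ_of_forall fun x =>
    mem_iUnion.2 ⟨⌊dist x o⌋₊, Nat.floor_le dist_nonneg, Nat.lt_floor_add_one (dist x o)⟩
  have hm : ∀ k, MeasurableSet (s k) := fun k =>
    (isClosed_le continuous_const (by fun_prop)).measurableSet.inter measurableSet_ball
  have h1 : ∀ k : ℕ, ∫⁻ x in s k, ENNReal.ofReal (Real.exp (-(a * dist x o))) ∂m ≤
      ENNReal.ofReal (Real.exp (4 * β) * Real.exp (-k)) * m (Metric.ball o 1) := by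
    intro k
    have e1 : ((k : ℝ) + 1) * (3 / 4) ^ (3 * k) ≤ 1 := by
      have e2 : ((k : ℝ) + 1) ≤ 2 ^ k := by exact_mod_cast Nat.lt_two_pow_self
      calc ((k : ℝ) + 1) * (3 / 4) ^ (3 * k) ≤ 2 ^ k * (3 / 4) ^ (3 * k) := by gcongr
        _ = (2 * (3 / 4) ^ 3) ^ k := by rw [pow_mul, mul_pow]
        _ ≤ 1 := pow_le_one₀ (by norm_num) (by norm_num)
    calc _ ≤ ∫⁻ _ in s k, ENNReal.ofReal (Real.exp (-(a * k))) ∂m :=
          setLIntegral_mono' (hm k) fun x hx => ENNReal.ofReal_le_ofReal
            (Real.exp_le_exp.2 (neg_le_neg (mul_le_mul_of_nonneg_left hx.1 ha0.le)))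
      _ = ENNReal.ofReal (Real.exp (-(a * k))) * m (s k) := setLIntegral_const _ _
      _ ≤ ENNReal.ofReal (Real.exp (-(a * k))) *
          (ENNReal.ofReal (A ^ (3 * k) * Real.exp (4 * β * (k + 1))) * m (Metric.ball o 1)) :=
          mul_le_mul_right ((measure_mono inter_subset_right).trans
            ((growth_iter hA hβ h o (3 * k) (k + 1) (by positivity)).trans
              (mul_le_mul_right (measure_mono (Metric.ball_subset_ball e1)) _))) _
      _ = _ := by
          rw [← mul_assoc, ← ENNReal.ofReal_mul (Real.exp_pos _).le,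
            ← Real.exp_log (show 0 < A ^ (3 * k) by positivity), Real.log_pow, ← Real.exp_add,
            ← Real.exp_add, ← Real.exp_add, ha]
          congr 3
          push_cast
          ring
  rw [← setLIntegral_univ, ← hs]
  refine (lintegral_iUnion_le _ _).trans_lt ((ENNReal.tsum_le_tsum h1).trans_lt ?_)
  rw [ENNReal.tsum_mul_right]
  exact ENNReal.mul_lt_top (Real.summable_exp_neg_nat.mul_left _).tsum_ofReal_lt_top (hfin o 1)

end Crest.Agent.R242
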