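import Crest.Agent.R242.Bochner

/-! Row 242: the resolvent of a bounded function is Lipschitz. -/

set_option autoImplicit false
set_option linter.unusedSectionVars false

open MeasureTheory Filter Set Topology
open scoped ENNReal NNReal
open Crest.GeometryTopology.SyntheticRicci

namespace Crest.Agent.R242

variable {X : Type*} [MetricSpace X] [ProperSpace X] [MeasurableSpace X] [BorelSpace X]
  {m : Measure X} [IsLocallyFiniteMeasure m] [m.IsOpenPosMeasure]

/-- The resolvent of `Γ(v,v)` is bounded when `v` is the resolvent of a bounded function. -/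
theorem RL_bound (hH : IsInfHilbertian m) {lam : ℝ} (hl : 0 < lam) {w v y : X → ℝ} {L B : ℝ}
    (hw : MemLp w 2 m) (hB : ∀ᵐ x ∂m, |w x| ≤ B) (hv : IsRes m 0 lam w v) (hvL : LipS m v L)
    (hy : IsRes m 0 lam (gradPairing m v v) y) : ∀ᵐ x ∂m, y x ≤ lam * B ^ 2 / 2 := by
  have hvB : ∀ᵐ x ∂m, |v x| ≤ B := hv.abs_le hH isWt_zero hl hw hB
  have hvS : IsSobolev m v := hvL.1
  have hyS : IsSobolev m y := hy.1
  have hG2 : MemLp (gradPairing m v v) 2 m := gamma_memLp hH hvS.2.1 hvL.2 hvS
  have hvv : IsSobolev m (fun x => v x * v x) := sob_mul_bdd_bdd hvS hvS hvB hvB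
  have hy' : IsSobolev m (fun x => 2 / lam * y x) := sob_const_mul hyS _
  have hZ : IsSobolev m (fun x => v x * v x + 2 / lam * y x) := sob_add hvv hy'
  have hww : MemLp (fun x => w x * w x) 2 m := C2_bdd hw.1 hB hw
  have key : ∀ᵐ x ∂m, v x * v x + 2 / lam * y x ≤ B ^ 2 := by
    refine subsol_le_const hH isWt_zero hl hZ hww (sq_nonneg B) ?_ ?_
    · filter_upwards [hB] with x hx
      have := abs_le.1 hx
      nlinarith
    · intro t ht ht01
      simp only [Pi.zero_apply, Real.exp_zero, one_mul]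
      have hvt : IsSobolev m (fun x => v x * t x) := sob_mul_of_bdd hvS.2.1 hvB hvL.2 ht
      have e1 := (isRes_zero_iff.1 hv).2 _ hvt
      have e2 := (isRes_zero_iff.1 hy).2 _ ht
      have hpt : ∀ᵐ x ∂m, gradPairing m (fun x => v x * v x + 2 / lam * y x) t x =
          2 * gradPairing m v (fun x => v x * t x) x - 2 * (t x * gradPairing m v v x) +
            2 / lam * gradPairing m y t x := by
        filter_upwards [gamma_add_left hH hvv.2.1 hy'.2.1 ht.2.1,
          gamma_const_mul_left hH hyS.2.1 ht.2.1 (2 / lam), gamma_comm hvv.2.1 ht.2.1,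
          (gamma_mul_right_of_bdd hH hvS.2.1 hvB hvL.2 hvS.2.1 ht.2.1).2,
          (gamma_mul_right_of_bdd hH hvS.2.1 hvB hvL.2 ht.2.1 hvS.2.1).2,
          gamma_comm hvS.2.1 ht.2.1] with x h1 h2 h3 h4 h5 h6
        rw [h1, h2, h3, h4, h5, h6]
        ring
      have i1 : Integrable (gradPairing m v (fun x => v x * t x)) m := gamma_integrable hH hvS hvt
      have i2 : Integrable (fun x => t x * gradPairing m v v x) m := ResBasic_int ht.1 hG2
      have i3 : Integrable (gradPairing m y t) m := gamma_integrable hH hyS ht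
      have i4 : Integrable (fun x => (w x - v x) * (v x * t x)) m :=
        ResBasic_int (hw.sub hvS.1) hvt.1
      have i5 : Integrable (fun x => (gradPairing m v v x - y x) * t x) m :=
        ResBasic_int (hG2.sub hyS.1) ht.1
      have i6 : Integrable (fun x => (w x * w x - (v x * v x + 2 / lam * y x)) * t x) m :=
        ResBasic_int (hww.sub hZ.1) ht.1
      have a1 : Integrable (fun x => 2 * gradPairing m v (fun x => v x * t x) x) m :=
        i1.const_mul 2
      have a2 : Integrable (fun x => 2 * (t x * gradPairing m v v x)) m := i2.const_mul 2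
      have a3 : Integrable (fun x => 2 / lam * gradPairing m y t x) m := i3.const_mul _
      have a12 : Integrable (fun x => 2 * gradPairing m v (fun x => v x * t x) x -
          2 * (t x * gradPairing m v v x)) m := a1.sub a2
      rw [integral_congr_ae hpt, integral_add a12 a3, integral_sub a1 a2, integral_const_mul,
        integral_const_mul, integral_const_mul, e1, e2]
      have b1 : Integrable (fun x => 2 * lam * ((w x - v x) * (v x * t x))) m := i4.const_mul _
      have b3 : Integrable (fun x => 2 * ((gradPairing m v v x - y x) * t x)) m := i5.const_mul 2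
      have b12 : Integrable (fun x => 2 * lam * ((w x - v x) * (v x * t x)) -
          2 * (t x * gradPairing m v v x)) m := b1.sub a2
      have hle : ∫ x, (2 * lam * ((w x - v x) * (v x * t x)) - 2 * (t x * gradPairing m v v x) +
          2 * ((gradPairing m v v x - y x) * t x)) ∂m ≤
          ∫ x, lam * ((w x * w x - (v x * v x + 2 / lam * y x)) * t x) ∂m := by
        refine integral_mono (b12.add b3) (i6.const_mul lam) fun x => ?_
        have h0 : 0 ≤ lam * ((w x - v x) ^ 2 * t x) :=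
          mul_nonneg hl.le (mul_nonneg (sq_nonneg _) (ht01 x).1)
        have h1 : lam * ((w x * w x - (v x * v x + 2 / lam * y x)) * t x) =
            lam * ((w x * w x - v x * v x) * t x) - 2 * (y x * t x) := by
          field_simp
          ring
        simp only [h1]
        nlinarith
      rw [integral_add b12 b3, integral_sub b1 a2, integral_const_mul, integral_const_mul,
        integral_const_mul, integral_const_mul] at hle
      have h2 : 2 / lam * (lam * ∫ x, (gradPairing m v v x - y x) * t x ∂m) =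
          2 * ∫ x, (gradPairing m v v x - y x) * t x ∂m := by
        field_simp
      rw [h2]
      linarith
  filter_upwards [key] with x hx
  have h1 : 2 / lam * y x ≤ B ^ 2 := by nlinarith [mul_self_nonneg (v x)]
  have h2 : y x = lam / 2 * (2 / lam * y x) := by field_simp
  rw [h2]
  nlinarith

/-- Two resolvent steps. -/
theorem reg_two {κ lam₀ : ℝ} (hG : Good m κ) (hE : GradEst m κ lam₀) {lam : ℝ}
    (hl : lam₀ ≤ lam) {w v z : X → ℝ} {L B : ℝ} (hw : MemLp w 2 m) (hB : ∀ᵐ x ∂m, |w x| ≤ B)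
    (hv : IsRes m 0 lam w v) (hvL : LipS m v L) (hz : IsRes m 0 lam v z) :
    LipS m z (√lam * B) := by
  have hH := hG.hilb
  have h1 : 1 ≤ lam₀ := GradEst.pos hG hE
  have hl0 : 0 < lam := by linarith
  have hκ := hG.nonneg
  have hκl : 32 * κ + 1 ≤ lam := hE.1.trans hl
  have hG2 : MemLp (gradPairing m v v) 2 m := gamma_memLp hH hvL.1.2.1 hvL.2 hvL.1
  obtain ⟨y, hy⟩ := exists_res hH isWt_zero hl0 hG2
  have hy0 : ∀ᵐ x ∂m, 0 ≤ y x := by
    refine hy.nonneg hH isWt_zero hl0 hG2 ?_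
    filter_upwards [gamma_self hvL.1.2.1] with x hx
    rw [hx]
    exact sq_nonneg _
  refine ⟨hz.1, ?_⟩
  filter_upwards [hB, hy0, RL_bound hH hl0 hw hB hv hvL hy, hE.2 lam hl v z y L hvL hz hy,
    gamma_self hz.1.2.1] with x hx h0 hb he hs
  have hB0 : 0 ≤ B := (abs_nonneg _).trans hx
  have hfac : lam / (lam - 16 * κ) ≤ 2 := by
    rw [div_le_iff₀ (by linarith)]
    linarith
  have h2 : minWeakGrad m z x ^ 2 ≤ (√lam * B) ^ 2 := by
    rw [mul_pow, Real.sq_sqrt hl0.le, ← hs]
    have := mul_le_mul_of_nonneg_right hfac h0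
    linarith
  exact (abs_le_of_sq_le_sq' h2 (mul_nonneg (Real.sqrt_nonneg _) hB0)).2

theorem RL_iter {κ lam₀ : ℝ} (hG : Good m κ) (hE : GradEst m κ lam₀) {f : X → ℝ} {B L : ℝ}
    (hB0 : 0 ≤ B) (hf : LipS m f L) (hB : ∀ᵐ x ∂m, |f x| ≤ B) (k : ℕ) :
    ∀ lam : ℝ, lam₀ ≤ lam → ∀ u : X → ℝ, IsRes m 0 lam f u →
      ∀ᵐ x ∂m, minWeakGrad m u x ≤ 3 * √lam * B + 2 * L * (1 / 2) ^ k := by
  have hH := hG.hilb
  have h1 : 1 ≤ lam₀ := GradEst.pos hG hE
  induction k with
  | zero =>
    intro lam hl u hu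
    filter_upwards [(res_lipS hG hE hl hf hu).2] with x hx
    have : 0 ≤ 3 * √lam * B := by positivity
    simp only [pow_zero, mul_one]
    linarith
  | succ k ih =>
    intro lam hl u hu
    have hl0 : 0 < lam := by linarith
    have hl2 : lam₀ ≤ 2 * lam := by linarith
    have hl20 : 0 < 2 * lam := by linarith
    have hf2 : MemLp f 2 m := hf.1.1
    have hu2 : MemLp u 2 m := hu.1.1
    have huB : ∀ᵐ x ∂m, |u x| ≤ B := hu.abs_le hH isWt_zero hl0 hf2 hB
    have huL : LipS m u (2 * L) := res_lipS hG hE hl hf hu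
    have hc : lam / (2 * lam) = 1 / 2 := by field_simp
    have hc' : (1 : ℝ) - 1 / 2 = 1 / 2 := by norm_num
    have hs : IsRes m 0 (2 * lam) (fun x => 1 / 2 * f x + 1 / 2 * u x) u := by
      have := hu.shift hl20.ne'
      rwa [hc, hc'] at this
    have hg2 : MemLp (fun x => 1 / 2 * f x + 1 / 2 * u x) 2 m :=
      (hf2.const_mul (1 / 2)).add (hu2.const_mul (1 / 2))
    have hgB : ∀ᵐ x ∂m, |1 / 2 * f x + 1 / 2 * u x| ≤ B := by
      filter_upwards [hB, huB] with x ha hb
      have := abs_le.1 ha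
      have := abs_le.1 hb
      rw [abs_le]
      constructor <;> linarith
    obtain ⟨a, ha⟩ := exists_res hH isWt_zero hl20 hf2
    obtain ⟨b, hb⟩ := exists_res hH isWt_zero hl20 hu2
    have hab : IsRes m 0 (2 * lam) (fun x => 1 / 2 * f x + 1 / 2 * u x)
        (fun x => 1 / 2 * a x + 1 / 2 * b x) :=
      IsRes.add hH isWt_zero (hf2.const_mul (1 / 2)) (hu2.const_mul (1 / 2))
        (ha.const_mul hH (1 / 2)) (hb.const_mul hH (1 / 2))
    have heq : u =ᵐ[m] fun x => 1 / 2 * a x + 1 / 2 * b x :=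
      IsRes.unique hH isWt_zero hl20 hg2 hs hab
    rw [minWeakGrad_congr heq]
    have ca := sl_const_mul ha.1.2.1 (1 / 2)
    have cb := sl_const_mul hb.1.2.1 (1 / 2)
    have hsq : √(2 * lam) ≤ 3 / 2 * √lam := by
      refine Real.sqrt_le_iff.2 ⟨by positivity, ?_⟩
      rw [mul_pow, Real.sq_sqrt hl0.le]
      linarith
    have hsB : √(2 * lam) * B ≤ 3 / 2 * √lam * B := mul_le_mul_of_nonneg_right hsq hB0
    filter_upwards [(sl_add ca.1 cb.1).2, ca.2, cb.2, ih (2 * lam) hl2 a ha,
      (reg_two hG hE hl2 hg2 hgB hs huL hb).2] with x e1 e2 e3 e4 e5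
    rw [e2, e3, abs_of_pos (by norm_num : (0 : ℝ) < 1 / 2)] at e1
    rw [pow_succ]
    linarith

theorem RL_lip {κ lam₀ : ℝ} (hG : Good m κ) (hE : GradEst m κ lam₀) {f : X → ℝ} {B L : ℝ}
    (hB0 : 0 ≤ B) (hf : LipS m f L) (hB : ∀ᵐ x ∂m, |f x| ≤ B) {lam : ℝ} (hl : lam₀ ≤ lam)
    {u : X → ℝ} (hu : IsRes m 0 lam f u) : ∀ᵐ x ∂m, minWeakGrad m u x ≤ 3 * √lam * B := by
  have h := ae_all_iff.2 fun k => RL_iter hG hE hB0 hf hB k lam hl u hu
  have ht : Tendsto (fun k : ℕ => 3 * √lam * B + 2 * L * (1 / 2) ^ k) atTop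
      (𝓝 (3 * √lam * B + 2 * L * 0)) :=
    tendsto_const_nhds.add (tendsto_const_nhds.mul
      (tendsto_pow_atTop_nhds_zero_of_lt_one (by norm_num) (by norm_num)))
  rw [mul_zero, add_zero] at ht
  filter_upwards [h] with x hx
  exact ge_of_tendsto' ht hx

theorem reg_lip {κ lam₀ : ℝ} (hG : Good m κ) (hE : GradEst m κ lam₀) {lam : ℝ}
    (hl : lam₀ ≤ lam) {f u : X → ℝ} {B : ℝ} (hf : MemLp f 2 m) (hB : ∀ᵐ x ∂m, |f x| ≤ B)
    (hu : IsRes m 0 lam f u) : LipS m u (3 * √lam * B) := by
  have hH := hG.hilb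
  have h1 : 1 ≤ lam₀ := GradEst.pos hG hE
  have hl0 : 0 < lam := by linarith
  rcases lt_or_ge B 0 with hB0 | hB0
  · refine ⟨hu.1, ?_⟩
    filter_upwards [hB] with x hx
    exact absurd ((abs_nonneg _).trans hx) (not_le.2 hB0)
  have hab : ∀ᵐ x ∂m, -B ≤ f x ∧ f x ≤ B := by
    filter_upwards [hB] with x hx
    exact abs_le.1 hx
  have hex : ∀ n : ℕ, ∃ (g : X → ℝ) (L : ℝ≥0), LipschitzWith L g ∧ HasCompactSupport g ∧
      (∀ x, -B ≤ g x ∧ g x ≤ B) ∧ ∫ x, (f x - g x) ^ 2 ∂m ≤ 1 / ((n : ℝ) + 1) := fun n =>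
    exists_lip_approx_L2 hf (by linarith) hB0 hab (by positivity)
  choose g L hgL hgc hgB hgf using hex
  have hgS : ∀ n, LipS m (g n) (L n) := fun n => lipS_of_lipschitz (hgL n) (hgc n)
  have hg2 : ∀ n, MemLp (g n) 2 m := fun n => (hgS n).1.1
  choose r hr using fun n => exists_res hH isWt_zero hl0 (hg2 n)
  have hconv : L2Conv m g f := by
    refine squeeze_zero (fun n => integral_nonneg fun x => sq_nonneg _) (fun n => ?_)
      tendsto_one_div_add_atTop_nhds_zero_nat
    rw [RC_comm]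
    exact hgf n
  have hW : W12Conv m r u := res_L2Conv_data hH isWt_zero hl0 hg2 hf hr hu hconv
  obtain ⟨A, hA⟩ := W12Conv.bounded (fun n => (hr n).1) hu.1 hW
  exact D_le_of_limit (fun n => (hr n).1) hu.1.1 hW.1 hA fun n =>
    RL_lip hG hE hB0 (hgS n) (Eventually.of_forall fun x => abs_le.2 (hgB n x)) hl (hr n)

end Crest.Agent.R242
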