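import Crest.Agent.R242.WeakConv
import Crest.Agent.R242.GammaCalc

/-! Row 242: algebraic properties and energy bounds of the weighted resolvent. -/

set_option autoImplicit false
set_option linter.unusedSectionVars false

open MeasureTheory Filter Set Topology
open scoped ENNReal NNReal
open Crest.GeometryTopology.SyntheticRicci

namespace Crest.Agent.R242

variable {X : Type*} [MetricSpace X] [ProperSpace X] [MeasurableSpace X] [BorelSpace X]
  {m : Measure X} [IsLocallyFiniteMeasure m] [m.IsOpenPosMeasure]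

theorem ResBasic_int {f g : X → ℝ} (hf : MemLp f 2 m) (hg : MemLp g 2 m) :
    Integrable (fun x => f x * g x) m :=
  hf.integrable_mul hg

theorem isWt_zero : IsWt (0 : X → ℝ) := by
  exact ⟨measurable_zero, 0, fun x => by simp⟩

theorem isWt_of_continuous {V : X → ℝ} (hV : Continuous V) {B : ℝ} (hB : ∀ x, |V x| ≤ B) :
    IsWt V := by
  exact ⟨hV.measurable, B, hB⟩

theorem IsWt.integrable_mul {V g : X → ℝ} (hV : IsWt V) (hg : Integrable g m) :
    Integrable (fun x => Real.exp (V x) * g x) m := by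
  obtain ⟨hm, B, hB⟩ := hV
  refine hg.bdd_mul (c := Real.exp B) hm.exp.aestronglyMeasurable (Eventually.of_forall fun x => ?_)
  rw [Real.norm_of_nonneg (Real.exp_pos _).le]
  exact Real.exp_le_exp.2 ((le_abs_self _).trans (hB x))

/-- The weighted and the unweighted integral of a nonnegative function are comparable. -/
theorem IsWt.compare {V : X → ℝ} (hV : IsWt V) : ∃ c : ℝ, 0 < c ∧ ∀ g : X → ℝ, Integrable g m →
    (∀ᵐ x ∂m, 0 ≤ g x) → ∫ x, g x ∂m ≤ c * ∫ x, Real.exp (V x) * g x ∂m ∧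
      ∫ x, Real.exp (V x) * g x ∂m ≤ c * ∫ x, g x ∂m := by
  obtain ⟨B, hB⟩ := hV.2
  refine ⟨Real.exp B, Real.exp_pos B, fun g hg h0 => ⟨?_, ?_⟩⟩
  · rw [← integral_const_mul]
    refine integral_mono_ae hg ((hV.integrable_mul hg).const_mul _) (h0.mono fun x hx => ?_)
    have h1 : 1 ≤ Real.exp B * Real.exp (V x) := by
      rw [← Real.exp_add]
      exact Real.one_le_exp (by linarith [(abs_le.1 (hB x)).1])
    show g x ≤ Real.exp B * (Real.exp (V x) * g x)
    rw [← mul_assoc]
    exact le_mul_of_one_le_left hx h1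
  · rw [← integral_const_mul]
    refine integral_mono_ae (hV.integrable_mul hg) (hg.const_mul _) (h0.mono fun x hx => ?_)
    exact mul_le_mul_of_nonneg_right (Real.exp_le_exp.2 (abs_le.1 (hB x)).2) hx

theorem isRes_zero_iff {lam : ℝ} {f u : X → ℝ} : IsRes m 0 lam f u ↔
    IsSobolev m u ∧ ∀ v : X → ℝ, IsSobolev m v →
      ∫ x, gradPairing m u v x ∂m = lam * ∫ x, (f x - u x) * v x ∂m := by
  simp only [IsRes, Pi.zero_apply, Real.exp_zero, one_mul]

theorem IsRes.congr {V : X → ℝ} {lam : ℝ} {f f' u u' : X → ℝ} (h : IsRes m V lam f u)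
    (hf : f =ᵐ[m] f') (hu : u =ᵐ[m] u') : IsRes m V lam f' u' := by
  refine ⟨sob_congr h.1 hu, fun v hv => ?_⟩
  rw [← gradPairing_congr hu EventuallyEq.rfl, h.2 v hv]
  congr 1
  refine integral_congr_ae ?_
  filter_upwards [hf, hu] with x h1 h2
  rw [h1, h2]

theorem IsRes.add (hH : IsInfHilbertian m) {V : X → ℝ} (hV : IsWt V) {lam : ℝ}
    {f g u w : X → ℝ} (hf : MemLp f 2 m) (hg : MemLp g 2 m) (hu : IsRes m V lam f u)
    (hw : IsRes m V lam g w) : IsRes m V lam (fun x => f x + g x) (fun x => u x + w x) := by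
  refine ⟨sob_add hu.1 hw.1, fun v hv => ?_⟩
  have e1 : ∫ x, Real.exp (V x) * gradPairing m (fun y => u y + w y) v x ∂m =
      ∫ x, Real.exp (V x) * gradPairing m u v x ∂m +
        ∫ x, Real.exp (V x) * gradPairing m w v x ∂m := by
    rw [← integral_add (hV.integrable_mul (gamma_integrable hH hu.1 hv))
      (hV.integrable_mul (gamma_integrable hH hw.1 hv))]
    refine integral_congr_ae ?_
    filter_upwards [gamma_add_left hH hu.1.2.1 hw.1.2.1 hv.2.1] with x hx
    rw [hx, mul_add]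
  have i1 : Integrable (fun x => Real.exp (V x) * ((f x - u x) * v x)) m :=
    hV.integrable_mul (ResBasic_int (hf.sub hu.1.1) hv.1)
  have i2 : Integrable (fun x => Real.exp (V x) * ((g x - w x) * v x)) m :=
    hV.integrable_mul (ResBasic_int (hg.sub hw.1.1) hv.1)
  rw [e1, hu.2 v hv, hw.2 v hv, ← mul_add, ← integral_add i1 i2]
  congr 1
  refine integral_congr_ae (Eventually.of_forall fun x => ?_)
  ring

theorem IsRes.const_mul (hH : IsInfHilbertian m) {V : X → ℝ} {lam : ℝ} {f u : X → ℝ}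
    (hu : IsRes m V lam f u) (c : ℝ) :
    IsRes m V lam (fun x => c * f x) (fun x => c * u x) := by
  refine ⟨sob_const_mul hu.1 c, fun v hv => ?_⟩
  have e1 : ∫ x, Real.exp (V x) * gradPairing m (fun y => c * u y) v x ∂m =
      c * ∫ x, Real.exp (V x) * gradPairing m u v x ∂m := by
    rw [← integral_const_mul]
    refine integral_congr_ae ?_
    filter_upwards [gamma_const_mul_left hH hu.1.2.1 hv.2.1 c] with x hx
    rw [hx]
    ring
  rw [e1, hu.2 v hv, mul_left_comm, ← integral_const_mul c]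
  congr 1
  refine integral_congr_ae (Eventually.of_forall fun x => ?_)
  ring

theorem IsRes.sub (hH : IsInfHilbertian m) {V : X → ℝ} (hV : IsWt V) {lam : ℝ}
    {f g u w : X → ℝ} (hf : MemLp f 2 m) (hg : MemLp g 2 m) (hu : IsRes m V lam f u)
    (hw : IsRes m V lam g w) : IsRes m V lam (fun x => f x - g x) (fun x => u x - w x) := by
  refine (hu.add hH hV hf (hg.const_mul (-1)) (hw.const_mul hH (-1))).congr
    (Eventually.of_forall fun x => ?_) (Eventually.of_forall fun x => ?_) <;> ring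

/-- Resolvent identity. -/
theorem IsRes.shift {V : X → ℝ} {lam Lam : ℝ} (hL : Lam ≠ 0) {f u : X → ℝ}
    (hu : IsRes m V lam f u) :
    IsRes m V Lam (fun x => lam / Lam * f x + (1 - lam / Lam) * u x) u := by
  refine ⟨hu.1, fun v hv => ?_⟩
  rw [hu.2 v hv, ← integral_const_mul, ← integral_const_mul]
  refine integral_congr_ae (Eventually.of_forall fun x => ?_)
  field_simp
  ring

theorem IsRes.energy {V : X → ℝ} (hV : IsWt V) {lam : ℝ} (hl : 0 < lam) {f u : X → ℝ}
    (hf : MemLp f 2 m) (hu : IsRes m V lam f u) :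
    ∫ x, Real.exp (V x) * u x ^ 2 ∂m ≤ ∫ x, Real.exp (V x) * f x ^ 2 ∂m ∧
    ∫ x, Real.exp (V x) * minWeakGrad m u x ^ 2 ∂m ≤ lam * ∫ x, Real.exp (V x) * f x ^ 2 ∂m ∧
    ∫ x, Real.exp (V x) * minWeakGrad m u x ^ 2 ∂m ≤
      lam * ∫ x, Real.exp (V x) * ((f x - u x) * f x) ∂m := by
  have hE : ∫ x, Real.exp (V x) * minWeakGrad m u x ^ 2 ∂m =
      lam * ∫ x, Real.exp (V x) * ((f x - u x) * u x) ∂m := by
    rw [← hu.2 u hu.1]
    refine integral_congr_ae ?_
    filter_upwards [gamma_self hu.1.2.1] with x hx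
    rw [hx]
  have i0 : Integrable (fun x => Real.exp (V x) * ((f x - u x) * u x)) m :=
    hV.integrable_mul (ResBasic_int (hf.sub hu.1.1) hu.1.1)
  have i1 : Integrable (fun x => Real.exp (V x) * ((f x - u x) * f x)) m :=
    hV.integrable_mul (ResBasic_int (hf.sub hu.1.1) hf)
  have i2 := hV.integrable_mul hf.integrable_sq
  have i3 := hV.integrable_mul hu.1.1.integrable_sq
  have h0 : 0 ≤ ∫ x, Real.exp (V x) * minWeakGrad m u x ^ 2 ∂m :=
    integral_nonneg fun x => by positivity
  refine ⟨?_, ?_, ?_⟩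
  · have h1 : 0 ≤ ∫ x, Real.exp (V x) * ((f x - u x) * u x) ∂m := by
      rw [hE] at h0
      exact (mul_nonneg_iff_of_pos_left hl).1 h0
    have h2 : ∫ x, (Real.exp (V x) * u x ^ 2 + 2 * (Real.exp (V x) * ((f x - u x) * u x))) ∂m ≤
        ∫ x, Real.exp (V x) * f x ^ 2 ∂m :=
      integral_mono (i3.add (i0.const_mul 2)) i2 fun x => by
        have := mul_nonneg (Real.exp_pos (V x)).le (sq_nonneg (f x - u x))
        simp only
        nlinarith
    rw [integral_add i3 (i0.const_mul 2), integral_const_mul] at h2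
    linarith
  · rw [hE]
    refine mul_le_mul_of_nonneg_left (integral_mono i0 i2 fun x => ?_) hl.le
    exact mul_le_mul_of_nonneg_left
      (by nlinarith [sq_nonneg (f x - u x), sq_nonneg (f x), sq_nonneg (u x)]) (Real.exp_pos _).le
  · rw [hE]
    refine mul_le_mul_of_nonneg_left (integral_mono i0 i1 fun x => ?_) hl.le
    exact mul_le_mul_of_nonneg_left (by nlinarith [sq_nonneg (f x - u x)]) (Real.exp_pos _).le

theorem IsRes.energy_sob (hH : IsInfHilbertian m) {V : X → ℝ} (hV : IsWt V) {lam : ℝ}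
    (hl : 0 < lam) {f u : X → ℝ} (hf : IsSobolev m f) (hu : IsRes m V lam f u) :
    ∫ x, Real.exp (V x) * minWeakGrad m u x ^ 2 ∂m +
        lam * ∫ x, Real.exp (V x) * (f x - u x) ^ 2 ∂m ≤
      ∫ x, Real.exp (V x) * minWeakGrad m f x ^ 2 ∂m := by
  have hv := sob_sub hf hu.1
  have hE : ∫ x, Real.exp (V x) * gradPairing m u (fun y => f y - u y) x ∂m =
      lam * ∫ x, Real.exp (V x) * (f x - u x) ^ 2 ∂m := by
    rw [hu.2 _ hv]
    simp only [sq]
  have i0 := hV.integrable_mul (gamma_integrable hH hu.1 hv)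
  have i1 := hV.integrable_mul hu.1.2.2.integrable_sq
  have i2 := hV.integrable_mul hf.2.2.integrable_sq
  have h0 : 0 ≤ lam * ∫ x, Real.exp (V x) * (f x - u x) ^ 2 ∂m :=
    mul_nonneg hl.le (integral_nonneg fun x => by positivity)
  have h2 : ∫ x, (Real.exp (V x) * minWeakGrad m u x ^ 2 +
      2 * (Real.exp (V x) * gradPairing m u (fun y => f y - u y) x)) ∂m ≤
        ∫ x, Real.exp (V x) * minWeakGrad m f x ^ 2 ∂m := by
    refine integral_mono_ae (i1.add (i0.const_mul 2)) i2 ?_
    filter_upwards [gamma_sub_right hH hf.2.1 hu.1.2.1 hu.1.2.1, gamma_self hu.1.2.1,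
      abs_gamma_le hH hu.1.2.1 hf.2.1] with x h1 h2 h3
    rw [h1, h2]
    have h4 : minWeakGrad m u x ^ 2 + 2 * (gradPairing m u f x - minWeakGrad m u x ^ 2) ≤
        minWeakGrad m f x ^ 2 := by
      nlinarith [le_abs_self (gradPairing m u f x),
        sq_nonneg (minWeakGrad m u x - minWeakGrad m f x)]
    have h5 := mul_le_mul_of_nonneg_left h4 (Real.exp_pos (V x)).le
    linarith
  rw [integral_add i1 (i0.const_mul 2), integral_const_mul, hE] at h2
  linarith

theorem IsRes.unique (hH : IsInfHilbertian m) {V : X → ℝ} (hV : IsWt V) {lam : ℝ} (hl : 0 < lam)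
    {f u w : X → ℝ} (hf : MemLp f 2 m) (hu : IsRes m V lam f u) (hw : IsRes m V lam f w) :
    u =ᵐ[m] w := by
  have h1 := ((hu.sub hH hV hf hf hw).energy hV hl (hf.sub hf)).1
  simp only [sub_self, ne_eq, OfNat.ofNat_ne_zero, not_false_eq_true, zero_pow, mul_zero,
    integral_zero, Pi.zero_apply] at h1
  have i1 : Integrable (fun x => Real.exp (V x) * (u x - w x) ^ 2) m :=
    hV.integrable_mul (hu.1.1.sub hw.1.1).integrable_sq
  have h2 := (integral_eq_zero_iff_of_nonneg (fun x => by positivity) i1).1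
    (le_antisymm h1 (integral_nonneg fun x => by positivity))
  filter_upwards [h2] with x hx
  have h3 : (u x - w x) ^ 2 = 0 := (mul_eq_zero.1 hx).resolve_left (Real.exp_pos _).ne'
  exact sub_eq_zero.1 (pow_eq_zero_iff two_ne_zero |>.1 h3)

theorem IsRes.symm (hH : IsInfHilbertian m) {V : X → ℝ} (hV : IsWt V) {lam : ℝ} (hl : 0 < lam)
    {f g u w : X → ℝ} (hf : MemLp f 2 m) (hg : MemLp g 2 m) (hu : IsRes m V lam f u)
    (hw : IsRes m V lam g w) :
    ∫ x, Real.exp (V x) * (u x * g x) ∂m = ∫ x, Real.exp (V x) * (f x * w x) ∂m := by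
  have h1 := hu.2 w hw.1
  have h2 := hw.2 u hu.1
  have h3 : ∫ x, Real.exp (V x) * gradPairing m u w x ∂m =
      ∫ x, Real.exp (V x) * gradPairing m w u x ∂m := by
    refine integral_congr_ae ?_
    filter_upwards [gamma_comm hu.1.2.1 hw.1.2.1] with x hx
    rw [hx]
  have h4 := mul_left_cancel₀ hl.ne' (h1.symm.trans (h3.trans h2))
  have i0 := hV.integrable_mul (ResBasic_int hu.1.1 hw.1.1)
  have e1 : ∫ x, Real.exp (V x) * ((f x - u x) * w x) ∂m =
      ∫ x, Real.exp (V x) * (f x * w x) ∂m - ∫ x, Real.exp (V x) * (u x * w x) ∂m := by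
    rw [← integral_sub (hV.integrable_mul (ResBasic_int hf hw.1.1)) i0]
    exact integral_congr_ae (Eventually.of_forall fun x => by ring)
  have e2 : ∫ x, Real.exp (V x) * ((g x - w x) * u x) ∂m =
      ∫ x, Real.exp (V x) * (u x * g x) ∂m - ∫ x, Real.exp (V x) * (u x * w x) ∂m := by
    rw [← integral_sub (hV.integrable_mul (ResBasic_int hu.1.1 hg)) i0]
    exact integral_congr_ae (Eventually.of_forall fun x => by ring)
  linarith

end Crest.Agent.R242
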