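import Crest.Agent.R242.ResBasic

/-! Row 242: existence of the weighted resolvent. -/

set_option autoImplicit false
set_option linter.unusedSectionVars false

open MeasureTheory Filter Set Topology
open scoped ENNReal NNReal
open Crest.GeometryTopology.SyntheticRicci

namespace Crest.Agent.R242

variable {X : Type*} [MetricSpace X] [ProperSpace X] [MeasurableSpace X] [BorelSpace X]
  {m : Measure X} [IsLocallyFiniteMeasure m] [m.IsOpenPosMeasure]

/-- The energy functional. -/
noncomputable def RE_Phi (m : Measure X) (V : X → ℝ) (lam : ℝ) (f u : X → ℝ) : ℝ :=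
  ∫ x, Real.exp (V x) * minWeakGrad m u x ^ 2 ∂m + lam * ∫ x, Real.exp (V x) * (f x - u x) ^ 2 ∂m

/-- Its first variation. -/
noncomputable def RE_B (m : Measure X) (V : X → ℝ) (lam : ℝ) (f u w : X → ℝ) : ℝ :=
  ∫ x, Real.exp (V x) * gradPairing m u w x ∂m -
    lam * ∫ x, Real.exp (V x) * ((f x - u x) * w x) ∂m

/-- Its second variation. -/
noncomputable def RE_Psi (m : Measure X) (V : X → ℝ) (lam : ℝ) (w : X → ℝ) : ℝ :=
  ∫ x, Real.exp (V x) * minWeakGrad m w x ^ 2 ∂m + lam * ∫ x, Real.exp (V x) * w x ^ 2 ∂m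

theorem RE_Phi_nonneg (V : X → ℝ) {lam : ℝ} (hl : 0 < lam) (f u : X → ℝ) :
    0 ≤ RE_Phi m V lam f u :=
  add_nonneg (integral_nonneg fun x => by positivity)
    (mul_nonneg hl.le (integral_nonneg fun x => by positivity))

theorem RE_exp (hH : IsInfHilbertian m) {V : X → ℝ} (hV : IsWt V) (lam : ℝ) {f u w : X → ℝ}
    (hf : MemLp f 2 m) (hu : IsSobolev m u) (hw : IsSobolev m w) (t : ℝ) :
    RE_Phi m V lam f (fun y => u y + t * w y) =
      RE_Phi m V lam f u + 2 * t * RE_B m V lam f u w + t ^ 2 * RE_Psi m V lam w := by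
  have hfu : MemLp (fun x => f x - u x) 2 m := hf.sub hu.1
  have h1 := hV.integrable_mul hu.2.2.integrable_sq
  have h2 := hV.integrable_mul (gamma_integrable hH hu hw)
  have h3 := hV.integrable_mul hw.2.2.integrable_sq
  have h4 := hV.integrable_mul hfu.integrable_sq
  have h5 : Integrable (fun x => Real.exp (V x) * ((f x - u x) * w x)) m :=
    hV.integrable_mul (hfu.integrable_mul hw.1)
  have h6 := hV.integrable_mul hw.1.integrable_sq
  have e1 : ∫ x, Real.exp (V x) * minWeakGrad m (fun y => u y + t * w y) x ^ 2 ∂m =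
      ∫ x, Real.exp (V x) * minWeakGrad m u x ^ 2 ∂m +
        2 * t * ∫ x, Real.exp (V x) * gradPairing m u w x ∂m +
        t ^ 2 * ∫ x, Real.exp (V x) * minWeakGrad m w x ^ 2 ∂m := by
    rw [← integral_const_mul, ← integral_const_mul, ← integral_add' h1 (h2.const_mul _),
      ← integral_add' (h1.add (h2.const_mul _)) (h3.const_mul _)]
    refine integral_congr_ae ?_
    filter_upwards [D_add_sq hH hu.2.1 (sob_const_mul hw t).2.1,
      gamma_const_mul_right hH hw.2.1 hu.2.1 t, (sl_const_mul hw.2.1 t).2] with x a1 a2 a3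
    simp only [Pi.add_apply]
    rw [a1, a2, a3, mul_pow, sq_abs]
    ring
  have e2 : ∫ x, Real.exp (V x) * (f x - (u x + t * w x)) ^ 2 ∂m =
      ∫ x, Real.exp (V x) * (f x - u x) ^ 2 ∂m +
        -(2 * t) * ∫ x, Real.exp (V x) * ((f x - u x) * w x) ∂m +
        t ^ 2 * ∫ x, Real.exp (V x) * w x ^ 2 ∂m := by
    rw [← integral_const_mul, ← integral_const_mul, ← integral_add' h4 (h5.const_mul _),
      ← integral_add' (h4.add (h5.const_mul _)) (h6.const_mul _)]
    refine integral_congr_ae (Eventually.of_forall fun x => ?_)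
    simp only [Pi.add_apply]
    ring
  simp only [RE_Phi, RE_B, RE_Psi, e1, e2]
  ring

theorem RE_compare {V : X → ℝ} (hV : IsWt V) {lam : ℝ} (hl : 0 < lam) :
    ∃ c : ℝ, 0 < c ∧ ∀ w : X → ℝ, IsSobolev m w →
      ∫ x, w x ^ 2 ∂m ≤ c * RE_Psi m V lam w ∧
      ∫ x, minWeakGrad m w x ^ 2 ∂m ≤ c * RE_Psi m V lam w ∧
      RE_Psi m V lam w ≤ c * ∫ x, w x ^ 2 ∂m + c * ∫ x, minWeakGrad m w x ^ 2 ∂m := by
  obtain ⟨c, hc, h⟩ := hV.compare (m := m)
  refine ⟨c * (1 + lam + lam⁻¹), by positivity, fun w hw => ?_⟩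
  obtain ⟨a1, a2⟩ := h _ hw.1.integrable_sq (Eventually.of_forall fun x => sq_nonneg _)
  obtain ⟨b1, b2⟩ := h _ hw.2.2.integrable_sq (Eventually.of_forall fun x => sq_nonneg _)
  have p1 : 0 ≤ ∫ x, Real.exp (V x) * w x ^ 2 ∂m := integral_nonneg fun x => by positivity
  have p2 : 0 ≤ ∫ x, Real.exp (V x) * minWeakGrad m w x ^ 2 ∂m :=
    integral_nonneg fun x => by positivity
  have p3 : 0 ≤ ∫ x, w x ^ 2 ∂m := integral_nonneg fun x => by positivity
  have p4 : 0 ≤ ∫ x, minWeakGrad m w x ^ 2 ∂m := integral_nonneg fun x => by positivity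
  unfold RE_Psi
  generalize ∫ x, Real.exp (V x) * w x ^ 2 ∂m = A at *
  generalize ∫ x, Real.exp (V x) * minWeakGrad m w x ^ 2 ∂m = B at *
  generalize ∫ x, w x ^ 2 ∂m = A' at *
  generalize ∫ x, minWeakGrad m w x ^ 2 ∂m = B' at *
  have hi : 0 < lam⁻¹ := inv_pos.2 hl
  have hli : lam⁻¹ * lam = 1 := inv_mul_cancel₀ hl.ne'
  refine ⟨a1.trans ?_, b1.trans ?_, ?_⟩
  · rw [mul_assoc]
    refine mul_le_mul_of_nonneg_left ?_ hc.le
    have : (1 + lam + lam⁻¹) * (B + lam * A) =
        A + ((1 + lam + lam⁻¹) * B + (1 + lam) * lam * A) := by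
      linear_combination A * hli
    rw [this]
    exact le_add_of_nonneg_right (by positivity)
  · rw [mul_assoc]
    refine mul_le_mul_of_nonneg_left ?_ hc.le
    have : (1 + lam + lam⁻¹) * (B + lam * A) =
        B + ((lam + lam⁻¹) * B + (1 + lam + lam⁻¹) * lam * A) := by ring
    rw [this]
    exact le_add_of_nonneg_right (by positivity)
  · have q1 := mul_le_mul_of_nonneg_left a2 hl.le
    have : c * (1 + lam + lam⁻¹) * A' + c * (1 + lam + lam⁻¹) * B' =
        c * B' + lam * (c * A') + (c * (1 + lam⁻¹) * A' + c * (lam + lam⁻¹) * B') := by ring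
    rw [this]
    exact (add_le_add b2 q1).trans (le_add_of_nonneg_right (by positivity))

theorem RE_real {B C : ℝ} (h : ∀ t : ℝ, 0 ≤ 2 * t * B + t ^ 2 * C) : B = 0 := by
  have := discrim_le_zero (a := C) (b := 2 * B) (c := 0) fun t => by nlinarith [h t]
  rw [discrim] at this
  nlinarith

theorem exists_res (hH : IsInfHilbertian m) {V : X → ℝ} (hV : IsWt V) {lam : ℝ} (hl : 0 < lam)
    {f : X → ℝ} (hf : MemLp f 2 m) : ∃ u : X → ℝ, IsRes m V lam f u := by
  obtain ⟨c, hc, hcmp⟩ := RE_compare (m := m) hV hl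
  let S : Set ℝ := RE_Phi m V lam f '' {u | IsSobolev m u}
  have hne : S.Nonempty := ⟨_, _, sob_zero, rfl⟩
  have hbd : BddBelow S := ⟨0, by rintro _ ⟨u, -, rfl⟩; exact RE_Phi_nonneg V hl f u⟩
  have hI : ∀ u, IsSobolev m u → sInf S ≤ RE_Phi m V lam f u := fun u hu =>
    csInf_le hbd ⟨u, hu, rfl⟩
  obtain ⟨a, -, ha, haS⟩ := exists_seq_tendsto_sInf hne hbd
  choose u hu hua using haS
  have hmid : ∀ n k, RE_Psi m V lam (fun y => u n y - u k y) ≤
      2 * (a n - sInf S) + 2 * (a k - sInf S) := fun n k => by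
    have hw := sob_sub (hu n) (hu k)
    have e1 := RE_exp hH hV lam hf (hu k) hw 1
    have e2 := RE_exp hH hV lam hf (hu k) hw (1 / 2)
    have e3 := hI _ (sob_add (hu k) (sob_const_mul hw (1 / 2)))
    have e4 : (fun y => u k y + 1 * (u n y - u k y)) = u n := by funext y; ring
    rw [e4, hua, hua] at e1
    rw [hua] at e2
    linarith
  obtain ⟨g, hg, hc1, hc2⟩ := sob_complete hu fun η hη => by
    have h1 : ∀ᶠ n in atTop, a n < sInf S + η / (4 * c) :=
      ha.eventually (gt_mem_nhds (lt_add_of_pos_right _ (by positivity)))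
    obtain ⟨N, hN⟩ := eventually_atTop.1 h1
    refine ⟨N, fun n k hn hk => ?_⟩
    obtain ⟨b1, b2, -⟩ := hcmp _ (sob_sub (hu n) (hu k))
    have h2 : c * RE_Psi m V lam (fun y => u n y - u k y) ≤ η := by
      have h3 : RE_Psi m V lam (fun y => u n y - u k y) ≤ 4 * (η / (4 * c)) := by
        linarith [hmid n k, hN n hn, hN k hk]
      refine (mul_le_mul_of_nonneg_left h3 hc.le).trans (le_of_eq ?_)
      field_simp
    exact ⟨b1.trans h2, b2.trans h2⟩
  have hmin : RE_Phi m V lam f g ≤ sInf S := by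
    have key : ∀ s : ℝ, 0 < s → RE_Phi m V lam f g * (s - 1) ≤ s * sInf S := fun s hs => by
      have h1 : Tendsto (fun n => s * a n + s ^ 2 * (c * ∫ x, (u n x - g x) ^ 2 ∂m +
          c * ∫ x, minWeakGrad m (fun y => u n y - g y) x ^ 2 ∂m)) atTop
          (𝓝 (s * sInf S + s ^ 2 * (c * 0 + c * 0))) :=
        (ha.const_mul s).add (((Tendsto.const_mul c hc1).add (hc2.const_mul c)).const_mul _)
      simp only [mul_zero, add_zero] at h1
      refine ge_of_tendsto' h1 fun n => ?_
      have hw := sob_sub (hu n) hg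
      have e1 := RE_exp hH hV lam hf hg hw 1
      have e2 := RE_exp hH hV lam hf hg hw s
      have e3 := RE_Phi_nonneg (m := m) V hl f fun y => g y + s * (u n y - g y)
      have e4 : (fun y => g y + 1 * (u n y - g y)) = u n := by funext y; ring
      rw [e4, hua] at e1
      obtain ⟨b1, -, b3⟩ := hcmp _ hw
      have p3 : 0 ≤ ∫ x, (u n x - g x) ^ 2 ∂m := integral_nonneg fun x => by positivity
      have p4 : 0 ≤ RE_Psi m V lam fun y => u n y - g y :=
        nonneg_of_mul_nonneg_right (p3.trans b1) hc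
      have q1 := mul_le_mul_of_nonneg_left b3 (sq_nonneg s)
      have q2 := mul_nonneg hs.le p4
      rw [e1]
      nlinarith
    by_contra hlt
    push Not at hlt
    have h0 := RE_Phi_nonneg (m := m) V hl f g
    have hd : 0 < RE_Phi m V lam f g - sInf S := sub_pos.2 hlt
    have h1 := key ((RE_Phi m V lam f g + 1) / (RE_Phi m V lam f g - sInf S)) (by positivity)
    have h2 : (RE_Phi m V lam f g + 1) / (RE_Phi m V lam f g - sInf S) *
        (RE_Phi m V lam f g - sInf S) = RE_Phi m V lam f g + 1 := div_mul_cancel₀ _ hd.ne'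
    nlinarith
  refine ⟨g, hg, fun v hv => sub_eq_zero.1 (RE_real (C := RE_Psi m V lam v) fun t => ?_)⟩
  have e1 := RE_exp hH hV lam hf hg hv t
  have e2 := hI _ (sob_add hg (sob_const_mul hv t))
  change 0 ≤ 2 * t * RE_B m V lam f g v + _
  linarith

end Crest.Agent.R242
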