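import Crest.Agent.R242.ResConv

/-! Row 242: resolvent and weak Laplacian. -/

set_option autoImplicit false
set_option linter.unusedSectionVars false

open MeasureTheory Filter Set Topology
open scoped ENNReal NNReal
open Crest.GeometryTopology.SyntheticRicci

namespace Crest.Agent.R242

variable {X : Type*} [MetricSpace X] [ProperSpace X] [MeasurableSpace X] [BorelSpace X]
  {m : Measure X} [IsLocallyFiniteMeasure m] [m.IsOpenPosMeasure]

theorem ResLap_int {f g : X → ℝ} (hf : MemLp f 2 m) (hg : MemLp g 2 m) :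
    Integrable (fun x => f x * g x) m := hf.integrable_mul hg

theorem lap_unique {u L L' : X → ℝ} (h : IsWeakLaplacian m u L) (h' : IsWeakLaplacian m u L') :
    L =ᵐ[m] L' := by
  have h0 := ae_eq_zero_of_lip_tests (m := m) (f := fun x => L x - L' x)
    ((h.2.1.sub h'.2.1).locallyIntegrable one_le_two) isOpen_univ fun g K hg hc _ _ => by
      have hs := (lipS_of_lipschitz (m := m) hg hc).1
      have e := neg_injective ((h.2.2 g hs).symm.trans (h'.2.2 g hs))
      simp only [mul_comm (g _), sub_mul]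
      rw [integral_sub (ResLap_int h.2.1 hs.1) (ResLap_int h'.2.1 hs.1), e, sub_self]
  filter_upwards [h0] with x hx using sub_eq_zero.1 (hx trivial)

theorem lap_weakLaplacian {u L : X → ℝ} (h : IsWeakLaplacian m u L) :
    IsWeakLaplacian m u (weakLaplacian m u) ∧ weakLaplacian m u =ᵐ[m] L := by
  have he : ∃ L, IsWeakLaplacian m u L := ⟨L, h⟩
  have h1 : IsWeakLaplacian m u (weakLaplacian m u) := by
    rw [weakLaplacian, dif_pos he]
    exact he.choose_spec
  exact ⟨h1, lap_unique h1 h⟩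

theorem lap_congr {u u' L L' : X → ℝ} (h : IsWeakLaplacian m u L) (hu : u =ᵐ[m] u')
    (hL : L =ᵐ[m] L') : IsWeakLaplacian m u' L' := by
  refine ⟨sob_congr h.1 hu, h.2.1.ae_eq hL, fun v hv => ?_⟩
  rw [← gradPairing_congr hu (ae_eq_refl v), h.2.2 v hv]
  congr 1
  refine integral_congr_ae ?_
  filter_upwards [hL] with x hx
  rw [hx]

theorem lap_add (hH : IsInfHilbertian m) {u w L L' : X → ℝ} (h : IsWeakLaplacian m u L)
    (h' : IsWeakLaplacian m w L') :
    IsWeakLaplacian m (fun x => u x + w x) (fun x => L x + L' x) := by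
  refine ⟨sob_add h.1 h'.1, h.2.1.add h'.2.1, fun v hv => ?_⟩
  rw [integral_congr_ae (gamma_add_left hH h.1.2.1 h'.1.2.1 hv.2.1),
    integral_add (gamma_integrable hH h.1 hv) (gamma_integrable hH h'.1 hv), h.2.2 v hv,
    h'.2.2 v hv]
  simp only [add_mul]
  rw [integral_add (ResLap_int h.2.1 hv.1) (ResLap_int h'.2.1 hv.1), neg_add]

theorem lap_sub (hH : IsInfHilbertian m) {u w L L' : X → ℝ} (h : IsWeakLaplacian m u L)
    (h' : IsWeakLaplacian m w L') :
    IsWeakLaplacian m (fun x => u x - w x) (fun x => L x - L' x) := by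
  refine ⟨sob_sub h.1 h'.1, h.2.1.sub h'.2.1, fun v hv => ?_⟩
  rw [integral_congr_ae (gamma_sub_left hH h.1.2.1 h'.1.2.1 hv.2.1),
    integral_sub (gamma_integrable hH h.1 hv) (gamma_integrable hH h'.1 hv), h.2.2 v hv,
    h'.2.2 v hv]
  simp only [sub_mul]
  rw [integral_sub (ResLap_int h.2.1 hv.1) (ResLap_int h'.2.1 hv.1)]
  ring

theorem ResLap_neg (lam : ℝ) (f u v : X → ℝ) :
    lam * ∫ x, (f x - u x) * v x ∂m = -∫ x, lam * (u x - f x) * v x ∂m := by
  rw [← integral_const_mul, ← integral_neg]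
  congr 1
  funext x
  ring

theorem IsRes.lap {lam : ℝ} {f u : X → ℝ} (hf : MemLp f 2 m) (hu : IsRes m 0 lam f u) :
    IsWeakLaplacian m u (fun x => lam * (u x - f x)) := by
  obtain ⟨h1, h2⟩ := isRes_zero_iff.1 hu
  exact ⟨h1, (h1.1.sub hf).const_mul lam, fun v hv => (h2 v hv).trans (ResLap_neg lam f u v)⟩

theorem isRes_of_lap {lam : ℝ} {f u : X → ℝ}
    (hu : IsWeakLaplacian m u (fun x => lam * (u x - f x))) : IsRes m 0 lam f u :=
  isRes_zero_iff.2 ⟨hu.1, fun v hv => (hu.2.2 v hv).trans (ResLap_neg lam f u v).symm⟩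

/-- The resolvent commutes with the Laplacian. -/
theorem IsRes.comm_lap (hH : IsInfHilbertian m) {lam : ℝ} {g u L : X → ℝ}
    (hg : IsWeakLaplacian m g L) (hu : IsRes m 0 lam g u) :
    IsRes m 0 lam L (fun x => lam * (u x - g x)) := by
  have h1 := lap_sub hH (hu.lap hg.1.1) hg
  refine isRes_of_lap ⟨sob_const_mul h1.1 lam, h1.2.1.const_mul lam, fun v hv => ?_⟩
  rw [integral_congr_ae (gamma_const_mul_left hH h1.1.2.1 hv.2.1 lam), integral_const_mul,
    h1.2.2 v hv, mul_neg, ← integral_const_mul]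
  simp only [mul_assoc]

theorem ResLap_exp (hH : IsInfHilbertian m) {V : X → ℝ} {LV : ℝ≥0} (hV : LipschitzWith LV V)
    {B : ℝ} (hB : ∀ x, |V x| ≤ B) {u v : X → ℝ} (hu : IsSobolev m u) (hv : IsSobolev m v) :
    IsSobolev m (fun y => Real.exp (V y) * v y) ∧ ∀ᵐ x ∂m,
      gradPairing m u (fun y => Real.exp (V y) * v y) x =
        Real.exp (V x) * (gradPairing m u v x + gradPairing m V u x * v x) := by
  obtain ⟨⟨L', hL'⟩, h2⟩ := exp_lip hH hV hB
  obtain ⟨s1, s2⟩ := sl_of_lipschitz (m := m) hL'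
  have hb : ∀ᵐ x ∂m, |Real.exp (V x)| ≤ Real.exp B := ae_of_all _ fun x => by
    rw [abs_of_pos (Real.exp_pos _)]
    exact Real.exp_le_exp.2 (le_of_abs_le (hB x))
  refine ⟨sob_mul_of_bdd s1 hb s2 hv, ?_⟩
  filter_upwards [(gamma_mul_right_of_bdd hH s1 hb s2 hv.2.1 hu.2.1).2, h2 u hu.2.1,
    gamma_comm hu.2.1 (sl_of_lipschitz (m := m) hV).1] with x e1 e2 e3
  rw [e1, e2, e3]
  ring

/-- The weighted equation as an equation with a drift. -/
theorem isRes_wt_iff (hH : IsInfHilbertian m) {V : X → ℝ} {LV : ℝ≥0} (hV : LipschitzWith LV V)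
    {B : ℝ} (hB : ∀ x, |V x| ≤ B) {lam : ℝ} {f u : X → ℝ} (hf : MemLp f 2 m) :
    IsRes m V lam f u ↔
      IsWeakLaplacian m u (fun x => lam * (u x - f x) - gradPairing m V u x) := by
  obtain ⟨s1, s2⟩ := sl_of_lipschitz (m := m) hV
  have key : ∀ v, IsSobolev m u → IsSobolev m v →
      (∫ x, gradPairing m u v x ∂m = -∫ x, (lam * (u x - f x) - gradPairing m V u x) * v x ∂m ↔
        ∫ x, (gradPairing m u v x - gradPairing m V u x * v x) ∂m =
          lam * ∫ x, (f x - u x) * v x ∂m) := by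
    intro v hu hv
    have i1 := ResLap_int (gamma_memLp hH s1 s2 hu) hv.1
    rw [ResLap_neg, integral_sub (gamma_integrable hH hu hv) i1]
    simp only [sub_mul (lam * _)]
    rw [integral_sub (ResLap_int (f := fun x => lam * (u x - f x))
      ((hu.1.sub hf).const_mul lam) hv.1) i1]
    constructor <;> intro h <;> linarith
  constructor
  · rintro ⟨hu, h⟩
    refine ⟨hu, ((hu.1.sub hf).const_mul lam).sub (gamma_memLp hH s1 s2 hu), fun v hv => ?_⟩
    have hV' : LipschitzWith LV fun y => -1 * V y := by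
      simp only [neg_one_mul]
      exact hV.neg
    obtain ⟨t1, t2⟩ := ResLap_exp hH hV' (B := B) (fun x => by simpa using hB x) hu hv
    have e : ∀ x, Real.exp (V x) * Real.exp (-1 * V x) = 1 := fun x => by
      rw [← Real.exp_add]
      simp
    refine (key v hu hv).2 (Eq.trans (integral_congr_ae ?_) ((h _ t1).trans ?_))
    · filter_upwards [t2, gamma_const_mul_left hH s1 hu.2.1 (-1)] with x e1 e2
      rw [e1, e2, ← mul_assoc, e]
      ring
    · congr 2
      funext x
      linear_combination ((f x - u x) * v x) * e x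
  · rintro ⟨hu, -, h⟩
    refine ⟨hu, fun v hv => ?_⟩
    obtain ⟨t1, t2⟩ := ResLap_exp hH hV hB hu hv
    refine Eq.trans (integral_congr_ae ?_) (((key _ hu t1).1 (h _ t1)).trans ?_)
    · filter_upwards [t2] with x e1
      rw [e1]
      ring
    · congr 2
      funext x
      ring

theorem ResLap_ibp (hH : IsInfHilbertian m) {g Lg h k : X → ℝ} (hg : IsWeakLaplacian m g Lg)
    (hh : IsSobolev m h) {B : ℝ} (hB : ∀ᵐ x ∂m, |h x| ≤ B) (hk : IsSobolev m k) {B' : ℝ}
    (hB' : ∀ᵐ x ∂m, |k x| ≤ B') :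
    ∫ x, h x * gradPairing m g k x ∂m =
      -∫ x, (h x * Lg x + gradPairing m h g x) * k x ∂m := by
  have s := sob_mul_bdd_bdd hh hk (B := max B B') (hB.mono fun x hx => hx.trans (le_max_left _ _))
    (hB'.mono fun x hx => hx.trans (le_max_right _ _))
  have e := gamma_mul_right hH hh.2.1 hk.2.1 hg.1.2.1 s.2.1.1 (isL2OnBalls_of_memLp
    ((C2_bdd hh.1.abs.1 (hB.mono fun x hx => (abs_abs _).trans_le hx) hk.2.2).add
      (C2_bdd hk.1.abs.1 (hB'.mono fun x hx => (abs_abs _).trans_le hx) hh.2.2)))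
  have i1 : Integrable (fun x => h x * gradPairing m g k x) m :=
    (gamma_integrable hH hg.1 hk).bdd_mul hh.1.1 hB
  have i2 : Integrable (fun x => k x * gradPairing m g h x) m :=
    (gamma_integrable hH hg.1 hh).bdd_mul hk.1.1 hB'
  have e1 := hg.2.2 _ s
  rw [integral_congr_ae e, integral_add i1 i2] at e1
  have e2 : ∫ x, (h x * Lg x + gradPairing m h g x) * k x ∂m =
      ∫ x, (Lg x * (h x * k x) + k x * gradPairing m g h x) ∂m := by
    refine integral_congr_ae ?_
    filter_upwards [gamma_comm hh.2.1 hg.1.2.1] with x hx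
    rw [hx]
    ring
  rw [e2, integral_add (ResLap_int hg.2.1 s.1) i2]
  linarith

/-- Integration by parts with a bounded Sobolev weight. -/
theorem lap_ibp (hH : IsInfHilbertian m) {g Lg h k : X → ℝ} (hg : IsWeakLaplacian m g Lg) {L : ℝ}
    (hL : ∀ᵐ x ∂m, minWeakGrad m g x ≤ L) (hh : IsSobolev m h) {B : ℝ} (hB : ∀ᵐ x ∂m, |h x| ≤ B)
    (hk : IsSobolev m k) :
    ∫ x, h x * gradPairing m g k x ∂m = -∫ x, (h x * Lg x + gradPairing m h g x) * k x ∂m := by
  set c : ℕ → X → ℝ := fun n y => max (-(n : ℝ)) (min n (k y)) with hc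
  have s : ∀ n, IsSobolev m (c n) ∧ ∀ᵐ x ∂m, minWeakGrad m (c n) x ≤ minWeakGrad m k x :=
    fun n => sob_clamp hk (neg_nonpos.2 (Nat.cast_nonneg n)) (Nat.cast_nonneg n)
  have b1 : ∀ n x, |c n x| ≤ n := fun n x => abs_le.2
    ⟨le_max_left _ _, max_le (neg_le_self (Nat.cast_nonneg n)) (min_le_left _ _)⟩
  have b2 : ∀ n x, |c n x| ≤ |k x| := fun n x => abs_le.2
    ⟨le_max_of_le_right (le_min ((neg_nonpos.2 (abs_nonneg _)).trans (Nat.cast_nonneg n))
      (neg_abs_le _)), max_le ((neg_nonpos.2 (Nat.cast_nonneg n)).trans (abs_nonneg _))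
      (min_le_of_right_le (le_abs_self _))⟩
  have ev : ∀ x, ∀ᶠ n : ℕ in atTop, c n x = k x := fun x => by
    filter_upwards [tendsto_natCast_atTop_atTop.eventually_ge_atTop |k x|] with n hn
    simp only [hc]
    rw [min_eq_right (le_of_abs_le hn), max_eq_right (neg_le_of_abs_le hn)]
  have w : MemLp (fun x => h x * Lg x + gradPairing m h g x) 2 m :=
    (C2_bdd hh.1.1 hB hg.2.1).add
      ((gamma_memLp hH hg.1.2.1 hL hh).ae_eq (gamma_comm hg.1.2.1 hh.2.1))
  have t1 : Tendsto (fun n => ∫ x, h x * gradPairing m g (c n) x ∂m) atTop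
      (𝓝 (∫ x, h x * gradPairing m g k x ∂m)) := by
    refine tendsto_integral_of_dominated_convergence
      (fun x => B * (minWeakGrad m g x * minWeakGrad m k x))
      (fun n => hh.1.1.mul (gamma_meas hg.1.2.1 (s n).1.2.1))
      ((ResLap_int hg.1.2.2 hk.2.2).const_mul B) (fun n => ?_) ?_
    · filter_upwards [hB, abs_gamma_le hH hg.1.2.1 (s n).1.2.1, (s n).2, sl_D_nonneg hg.1.2.1]
        with x a1 a2 a3 a4
      rw [Real.norm_eq_abs, abs_mul]
      exact mul_le_mul a1 (a2.trans (mul_le_mul_of_nonneg_left a3 a4)) (abs_nonneg _)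
        ((abs_nonneg _).trans a1)
    · filter_upwards [ae_all_iff.2 fun n => gamma_locality_right hH (s n).1.2.1 hk.2.1 hg.1.2.1]
        with x hx
      refine tendsto_const_nhds.congr' ?_
      filter_upwards [ev x] with n hn
      rw [hx n hn]
  have t2 : Tendsto (fun n => ∫ x, (h x * Lg x + gradPairing m h g x) * c n x ∂m) atTop
      (𝓝 (∫ x, (h x * Lg x + gradPairing m h g x) * k x ∂m)) := by
    refine tendsto_integral_of_dominated_convergence
      (fun x => ‖(h x * Lg x + gradPairing m h g x) * k x‖)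
      (fun n => w.1.mul (s n).1.1.1) (ResLap_int w hk.1).norm (fun n => ae_of_all _ fun x => ?_)
      (ae_of_all _ fun x => ?_)
    · rw [norm_mul, norm_mul]
      exact mul_le_mul_of_nonneg_left (b2 n x) (norm_nonneg _)
    · refine tendsto_const_nhds.congr' ?_
      filter_upwards [ev x] with n hn
      rw [hn]
  exact tendsto_nhds_unique t1 (t2.neg.congr fun n =>
    (ResLap_ibp hH hg hh hB (s n).1 (ae_of_all _ (b1 n))).symm)

end Crest.Agent.R242
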