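import Crest.Agent.R242.GoodPlan
import Crest.Agent.R242.MinWUG

/-! Row 242: the Sobolev-to-Lipschitz property. -/

set_option autoImplicit false
set_option linter.unusedSectionVars false

open MeasureTheory Filter Set Topology
open scoped ENNReal NNReal
open Crest.GeometryTopology.SyntheticRicci

namespace Crest.Agent.R242

variable {X : Type*} [MetricSpace X] [ProperSpace X] [MeasurableSpace X] [BorelSpace X]
  {m : Measure X} [IsLocallyFiniteMeasure m] [m.IsOpenPosMeasure]

theorem s2l_avg {κ : ℝ} (hG : Good m κ) {f : X → ℝ} (hf : IsSobolevLoc m f) {L : ℝ≥0}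
    (hL : ∀ᵐ x ∂m, minWeakGrad m f x ≤ L) {A B : Set X} (hA : MeasurableSet A)
    (hB : MeasurableSet B) (hA0 : m A ≠ 0) (hB0 : m B ≠ 0) {o : X} {R D : ℝ} (hD : 0 ≤ D)
    (hAR : A ⊆ Metric.closedBall o R) (hBR : B ⊆ Metric.closedBall o R)
    (hAB : ∀ a ∈ A, ∀ b ∈ B, dist a b ≤ D) :
    |∫ x, f x ∂(ProbabilityTheory.cond m B) - ∫ x, f x ∂(ProbabilityTheory.cond m A)| ≤ D * L := by
  have hμ := (bdd_cond hA hA0 hAR).mono (le_max_left _ (m B).toNNReal⁻¹) le_rfl
  have hν := (bdd_cond hB hB0 hBR).mono (le_max_right (m A).toNNReal⁻¹ _) le_rfl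
  obtain ⟨c, hc⟩ := exists_goodPlan hG R
  obtain ⟨P, hP, hGP, -⟩ := hc o _ _ _ hμ hν
  have h1 := hGP.abs_integral_sub_le hf.1 (sl_wug hf) le_rfl zero_le_one le_rfl
  rw [hP.marg_eq.1, hP.marg_eq.2, sub_zero, one_mul, ← (hP.Wsq_eq hμ.isP2 hν.isP2).2] at h1
  have := hμ.1
  have := hν.1
  refine h1.trans (mul_le_mul (Real.sqrt_le_iff.2 ⟨hD, ?_⟩) (Real.sqrt_le_iff.2 ⟨L.2, ?_⟩)
    (Real.sqrt_nonneg _) hD)
  · refine (Wsq_le_of_coupling hμ.isP2 hν.isP2
      (q := (ProbabilityTheory.cond m A).prod (ProbabilityTheory.cond m B))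
      ⟨by simp, by simp⟩).trans ?_
    refine (integral_mono_of_nonneg (Eventually.of_forall fun p => sq_nonneg _)
      (integrable_const (D ^ 2)) ?_).trans (by simp)
    filter_upwards [measurePreserving_fst.quasiMeasurePreserving.ae
        (ProbabilityTheory.ae_cond_mem (μ := m) hA),
      measurePreserving_snd.quasiMeasurePreserving.ae
        (ProbabilityTheory.ae_cond_mem (μ := m) hB)] with p h2 h3
    exact pow_le_pow_left₀ dist_nonneg (hAB _ h2 _ h3) 2
  · rw [intervalIntegral.integral_of_le zero_le_one]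
    refine (integral_mono_of_nonneg
      (Eventually.of_forall fun r => integral_nonneg fun x => sq_nonneg _)
      (integrable_const ((L : ℝ) ^ 2)) (Eventually.of_forall fun r => ?_)).trans (by simp)
    have := (hGP.bdd r).1
    refine (integral_mono_of_nonneg (Eventually.of_forall fun p => sq_nonneg _)
      (integrable_const ((L : ℝ) ^ 2)) ?_).trans (by simp)
    filter_upwards [(hGP.bdd r).ac.ae_le hL, (hGP.bdd r).ac.ae_le (sl_D_nonneg hf)] with x h2 h3
    exact pow_le_pow_left₀ h3 h2 2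

theorem s2l_levels {κ : ℝ} (hG : Good m κ) {f : X → ℝ} (hf : IsSobolevLoc m f) (hm : Measurable f)
    {L : ℝ≥0} (hL : ∀ᵐ x ∂m, minWeakGrad m f x ≤ L) {x y : X} {r a b : ℝ} (hr : 0 < r)
    (hA0 : m (Metric.ball x r ∩ {z | a < f z}) ≠ 0)
    (hB0 : m (Metric.ball y r ∩ {z | f z < b}) ≠ 0) : a - b ≤ (dist x y + 2 * r) * L := by
  have hA : MeasurableSet (Metric.ball x r ∩ {z | a < f z}) :=
    measurableSet_ball.inter (measurableSet_lt measurable_const hm)
  have hB : MeasurableSet (Metric.ball y r ∩ {z | f z < b}) :=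
    measurableSet_ball.inter (measurableSet_lt hm measurable_const)
  have hd : 0 ≤ dist x y := dist_nonneg
  have hAR : Metric.ball x r ∩ {z | a < f z} ⊆ Metric.closedBall x (dist x y + r) := fun z hz => by
    have := Metric.mem_ball.1 hz.1
    rw [Metric.mem_closedBall]; linarith
  have hBR : Metric.ball y r ∩ {z | f z < b} ⊆ Metric.closedBall x (dist x y + r) := fun z hz => by
    have := Metric.mem_ball.1 hz.1
    have := dist_triangle_right z x y
    rw [Metric.mem_closedBall]; linarith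
  have h1 := s2l_avg hG hf hL hA hB hA0 hB0 (D := dist x y + 2 * r) (by positivity) hAR hBR
    fun z hz w hw => by
      have := Metric.mem_ball.1 hz.1
      have := Metric.mem_ball'.1 hw.1
      have := dist_triangle4 z x y w
      linarith
  have hi : IntegrableOn f (Metric.closedBall x (dist x y + r)) m := by
    have : IsFiniteMeasure (m.restrict (Metric.ball x (dist x y + r + 1))) :=
      ⟨by rw [Measure.restrict_apply_univ]; exact measure_ball_lt_top⟩
    have h2 : IntegrableOn f (Metric.ball x (dist x y + r + 1)) m :=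
      (hf.1 x (dist x y + r + 1)).integrable one_le_two
    exact h2.mono_set (Metric.closedBall_subset_ball (lt_add_one _))
  have hμ := bdd_cond hA hA0 hAR
  have hν := bdd_cond hB hB0 hBR
  have := hμ.1
  have := hν.1
  have h2 := integral_mono_ae (integrable_const a) (hμ.integrable hi)
    ((ProbabilityTheory.ae_cond_mem (μ := m) hA).mono fun z hz => le_of_lt hz.2)
  have h3 := integral_mono_ae (hν.integrable hi) (integrable_const b)
    ((ProbabilityTheory.ae_cond_mem (μ := m) hB).mono fun z hz => le_of_lt hz.2)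
  simp only [integral_const, probReal_univ, one_smul] at h2 h3
  linarith [(abs_le.1 h1).1]

theorem s2l_dens (S : Set X) :
    ∀ᵐ x ∂m, x ∈ S → ∀ r : ℝ, 0 < r → m (Metric.ball x r ∩ S) ≠ 0 := by
  refine measure_null_of_locally_null _ fun x hx => ?_
  simp only [mem_compl_iff, mem_ofPred_eq, not_forall, not_not] at hx
  obtain ⟨-, r, hr, h⟩ := hx
  refine ⟨_, inter_mem (mem_nhdsWithin_of_mem_nhds (Metric.ball_mem_nhds x hr))
    (mem_of_superset self_mem_nhdsWithin fun z hz => ?_), h⟩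
  by_contra hn
  exact hz fun h' => absurd h' hn

theorem sobToLip {κ : ℝ} (hG : Good m κ) {f : X → ℝ} (hf : IsSobolevLoc m f) {L : ℝ≥0}
    (hL : ∀ᵐ x ∂m, minWeakGrad m f x ≤ L) : ∃ g : X → ℝ, LipschitzWith L g ∧ f =ᵐ[m] g := by
  obtain ⟨f₀, hm, ef⟩ := (isL2OnBalls_aemeasurable hf.1).aemeasurable
  have hf₀ := sl_congr hf ef
  rw [minWeakGrad_congr ef] at hL
  have h1 : ∀ᵐ x ∂m, ∀ q : ℚ, (q < f₀ x → ∀ r : ℝ, 0 < r →
      m (Metric.ball x r ∩ {z | q < f₀ z}) ≠ 0) ∧ (f₀ x < q → ∀ r : ℝ, 0 < r →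
      m (Metric.ball x r ∩ {z | f₀ z < q}) ≠ 0) :=
    ae_all_iff.2 fun q => (s2l_dens {z | q < f₀ z}).and (s2l_dens {z | f₀ z < q})
  have h2 : LipschitzOnWith L f₀ {x | ∀ q : ℚ, (q < f₀ x → ∀ r : ℝ, 0 < r →
      m (Metric.ball x r ∩ {z | q < f₀ z}) ≠ 0) ∧ (f₀ x < q → ∀ r : ℝ, 0 < r →
      m (Metric.ball x r ∩ {z | f₀ z < q}) ≠ 0)} := by
    refine LipschitzOnWith.of_le_add_mul L fun x hx y hy => ?_
    refine le_of_forall_pos_le_add fun ε hε => ?_
    have hL0 : (0 : ℝ) ≤ L := L.2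
    have hr : 0 < ε / (2 + 2 * L) := by positivity
    obtain ⟨a, ha1, ha2⟩ := exists_rat_btwn (sub_lt_self (f₀ x) hr)
    obtain ⟨b, hb1, hb2⟩ := exists_rat_btwn (lt_add_of_pos_right (f₀ y) hr)
    have h3 := s2l_levels hG hf₀ hm hL hr ((hx a).1 ha2 _ hr) ((hy b).2 hb1 _ hr)
    have h4 : ε / (2 + 2 * L) * (2 + 2 * L) = ε := div_mul_cancel₀ _ (by positivity)
    linarith
  obtain ⟨g, hg, he⟩ := h2.extend_real
  refine ⟨g, hg, ef.trans ?_⟩
  filter_upwards [h1] with x hx
  exact he hx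

end Crest.Agent.R242
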