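import Crest.Agent.R242.HopfLax
import Crest.Agent.R242.ResConv
import Crest.Agent.R242.WTriangle

/-! Row 242: approximation of bounded densities and potentials. -/

set_option autoImplicit false
set_option linter.unusedSectionVars false

open MeasureTheory Filter Set Topology
open scoped ENNReal NNReal
open Crest.GeometryTopology.SyntheticRicci

namespace Crest.Agent.R242

variable {X : Type*} [MetricSpace X] [ProperSpace X] [MeasurableSpace X] [BorelSpace X]
  {m : Measure X} [IsLocallyFiniteMeasure m] [m.IsOpenPosMeasure]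

namespace StabAux

theorem memLp_ball {g : X → ℝ} (hg : AEStronglyMeasurable g m) {A S : ℝ} {o : X}
    (h : ∀ x, (dist x o ≤ S → |g x| ≤ A) ∧ (S < dist x o → g x = 0)) : MemLp g 2 m := by
  refine (memLp_indicator_const 2 (Metric.isClosed_closedBall (x := o) (ε := S)).measurableSet A
    (Or.inr measure_closedBall_lt_top.ne)).mono' hg (Eventually.of_forall fun x => ?_)
  by_cases hx : dist x o ≤ S
  · rw [indicator_of_mem (Metric.mem_closedBall.2 hx)]
    exact (h x).1 hx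
  · rw [indicator_of_notMem (mt Metric.mem_closedBall.1 hx), (h x).2 (not_le.1 hx), norm_zero]

theorem int_sq_le {g : X → ℝ} {A S : ℝ} {o : X}
    (h : ∀ᵐ x ∂m, (dist x o ≤ S → |g x| ≤ A) ∧ (S < dist x o → g x = 0)) :
    ∫ x, g x ^ 2 ∂m ≤ A ^ 2 * m.real (Metric.closedBall o S) := by
  have hB := (Metric.isClosed_closedBall (x := o) (ε := S)).measurableSet
  refine (integral_mono_of_nonneg (Eventually.of_forall fun x => sq_nonneg _)
    ((integrable_indicator_iff hB).2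
      (integrableOn_const (C := A ^ 2) measure_closedBall_lt_top.ne)) ?_).trans ?_
  · filter_upwards [h] with x hx'
    by_cases hx : dist x o ≤ S
    · rw [indicator_of_mem (Metric.mem_closedBall.2 hx), ← sq_abs]
      exact pow_le_pow_left₀ (abs_nonneg _) (hx'.1 hx) 2
    · rw [indicator_of_notMem (mt Metric.mem_closedBall.1 hx), hx'.2 (not_le.1 hx)]
      simp
  · rw [integral_indicator_const _ hB, smul_eq_mul, mul_comm]

theorem l2_of_unif {u : ℕ → X → ℝ} {f : X → ℝ} {S : ℝ} {o : X}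
    (hc : ∀ e : ℝ, 0 < e → ∀ᶠ n in atTop, ∀ x, dist x o ≤ S → |u n x - f x| ≤ e)
    (hs : ∀ n x, S < dist x o → u n x - f x = 0) : L2Conv m u f := by
  refine tendsto_order.2 ⟨fun a ha => Eventually.of_forall fun n =>
    ha.trans_le (integral_nonneg fun x => sq_nonneg _), fun a ha => ?_⟩
  have hV : 0 ≤ m.real (Metric.closedBall o S) := measureReal_nonneg
  filter_upwards [hc √(a / (m.real (Metric.closedBall o S) + 1)) (by positivity)] with n hn
  refine (int_sq_le (g := fun x => u n x - f x)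
    (Eventually.of_forall fun x => ⟨hn x, hs n x⟩)).trans_lt ?_
  rw [Real.sq_sqrt (by positivity), div_mul_eq_mul_div, div_lt_iff₀ (by positivity)]
  nlinarith

theorem core (hH : IsInfHilbertian m) {u : ℕ → X → ℝ} {f θ F : X → ℝ} {S : ℝ} {o : X}
    (hu : ∀ n, IsSobolev m (u n)) (hf : IsSobolev m f) (hc : L2Conv m u f) {A : ℝ}
    (hA : ∀ n, ∫ x, minWeakGrad m (u n) x ^ 2 ∂m ≤ A) (hu0 : ∀ n x, S < dist x o → u n x = 0)
    (hf0 : ∀ x, S < dist x o → f x = 0) (hθ : NiceD m θ) {L : ℝ≥0} (hF : LipschitzWith L F) :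
    Tendsto (fun n => ∫ x, θ x * gradPairing m (u n) F x ∂m) atTop
      (𝓝 (∫ x, θ x * gradPairing m f F x ∂m)) := by
  obtain ⟨v, L', hv, hvc, hvF⟩ := (lipBdd_of_lipschitz hF).exists_compact o S
  have hv' := (lipS_of_lipschitz (m := m) hv hvc).1
  have hF' := (sl_of_lipschitz (m := m) hF).1
  obtain ⟨C, hC⟩ := hθ.bdd
  have key : ∀ w : X → ℝ, IsSobolev m w → (∀ x, S < dist x o → w x = 0) →
      ∫ x, θ x * gradPairing m w F x ∂m = ∫ x, θ x * gradPairing m w v x ∂m := fun w hw hw0 => by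
    refine integral_congr_ae ?_
    filter_upwards [gamma_locality_right hH hv'.2.1 hF' hw.2.1,
      gamma_eq_zero_on_level hH hw.2.1 hF' 0, gamma_eq_zero_on_level hH hw.2.1 hv'.2.1 0]
      with x h1 h2 h3
    rcases le_or_gt (dist x o) S with hx | hx
    · rw [h1 (hvF x hx)]
    · rw [(h2 (hw0 x hx)).1, (h3 (hw0 x hx)).1]
  simp only [fun n => key (u n) (hu n) (hu0 n), key f hf hf0]
  exact weak_conv hH hu hf.1 hc hA hv' hθ.meas.aestronglyMeasurable (B := C)
    (Eventually.of_forall fun x => by rw [abs_of_nonneg (hθ.nonneg x)]; exact hC x)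

theorem cut {ζ g : X → ℝ} {S d : ℝ} {o : X} (hζ : LipschitzWith 1 ζ)
    (h1 : ∀ x, 0 ≤ ζ x ∧ ζ x ≤ 1) (h0 : ∀ x, S ≤ dist x o → ζ x = 0) (hg : LipBdd g) (hd0 : 0 ≤ d)
    (hd : ∀ x, dist x o ≤ S → |g x| ≤ d) : IsSobolev m (fun y => ζ y * g y) ∧ ∀ᵐ x ∂m,
      (dist x o ≤ S → |minWeakGrad m (fun y => ζ y * g y) x| ≤ minWeakGrad m g x + d) ∧
      (S < dist x o → minWeakGrad m (fun y => ζ y * g y) x = 0) := by
  have hc : LipBdd fun y => max (-d) (min d (g y)) := fun o' R' =>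
    let ⟨L, hL⟩ := hg o' R'
    ⟨_, ((LipschitzWith.id.const_min d).const_max (-d)).comp_lipschitzOnWith hL⟩
  have he : ∀ x, dist x o ≤ S → max (-d) (min d (g x)) = g x := fun x hx => by
    rw [min_eq_right (abs_le.1 (hd x hx)).2, max_eq_right (abs_le.1 (hd x hx)).1]
  have he' : (fun y => ζ y * max (-d) (min d (g y))) = fun y => ζ y * g y := by
    funext y
    rcases le_total (dist y o) S with hy | hy
    · rw [he y hy]
    · rw [h0 y hy, zero_mul, zero_mul]
  have hb : ∀ x, |ζ x| ≤ 1 := fun x => by rw [abs_of_nonneg (h1 x).1]; exact (h1 x).2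
  obtain ⟨h2, h3⟩ := Para.cut (m := m) (R := S) (o := o) (d := d) hζ hb
    (fun x hx => h0 x (not_lt.1 (mt Metric.mem_ball.2 hx))) hc.sl.1
    (fun x => abs_le.2 ⟨le_max_left _ _, max_le (by linarith) (min_le_left _ _)⟩)
  rw [he'] at h2 h3
  refine ⟨h2, ?_⟩
  filter_upwards [h3, D_locality hc.sl.1 hg.sl.1, sl_D_nonneg h2.2.1, sl_D_nonneg hg.sl.1]
    with x h4 h5 h6 h7
  refine ⟨fun hx => ?_, fun hx => h4.2 (mt Metric.mem_ball.1 (not_lt.2 hx.le))⟩
  have h8 := (abs_le.1 h4.1).2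
  rw [h5 (he x hx), NNReal.coe_one, mul_one] at h8
  rw [abs_of_nonneg h6]
  nlinarith [hb x]

end StabAux

theorem exists_lip_density {ρ : X → ℝ} (hρ : NiceD m ρ) {M : ℝ≥0} (hM : ∀ x, ρ x ≤ M) {o : X}
    {R : ℝ} (hR : 0 < R) (hs : ∀ x, R < dist x o → ρ x = 0) :
    ∃ η : ℕ → X → ℝ, (∀ n, NiceD m (η n) ∧ IsSobolev m (η n) ∧ (∀ x, η n x ≤ (2 * M : ℝ≥0)) ∧
      ∀ x, 2 * R < dist x o → η n x = 0) ∧ L2Conv m η ρ ∧
      Tendsto (fun n => Wsq (dm m (η n)) (dm m ρ)) atTop (𝓝 0) := by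
  obtain ⟨ζ, hζ, -, h1, h2, h0⟩ := exists_cutoff o R (S := ⟨R, hR.le⟩) hR
  have h0' : ∀ x, 2 * R < dist x o → ζ x = 0 := fun x hx => h0 x (by
    change R + R ≤ _
    linarith)
  choose g L hg hgc hgM hgρ using fun n : ℕ => exists_lip_approx_L2 hρ.memLp le_rfl M.2
    (Eventually.of_forall fun x => ⟨hρ.nonneg x, hM x⟩) (Nat.one_div_pos_of_nat (α := ℝ) (n := n))
  have hS : ∀ n, IsSobolev m fun x => ζ x * g n x := fun n =>
    sob_mul_of_bdd (sl_of_lipschitz hζ).1 (B := 1)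
      (Eventually.of_forall fun x => by rw [abs_of_nonneg (h1 x).1]; exact (h1 x).2)
      (sl_of_lipschitz hζ).2 (lipS_of_lipschitz (hg n) (hgc n)).1
  have hb : ∀ n x, 0 ≤ ζ x * g n x ∧ ζ x * g n x ≤ M := fun n x =>
    ⟨mul_nonneg (h1 x).1 (hgM n x).1,
      (mul_le_of_le_one_left (hgM n x).1 (h1 x).2).trans (hgM n x).2⟩
  have hc : L2Conv m (fun n x => ζ x * g n x) ρ := by
    refine squeeze_zero (fun n => integral_nonneg fun x => sq_nonneg _) (fun n => ?_)
      tendsto_one_div_add_atTop_nhds_zero_nat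
    refine le_trans (integral_mono_of_nonneg (Eventually.of_forall fun x => sq_nonneg _)
      (hρ.memLp.sub (lipS_of_lipschitz (hg n) (hgc n)).1.1).integrable_sq
      (Eventually.of_forall fun x => ?_)) (hgρ n)
    simp only [Pi.sub_apply]
    rcases le_or_gt (dist x o) R with hx | hx
    · rw [h2 x hx, one_mul, sub_sq_comm]
    · rw [hs x hx, sub_zero, zero_sub, neg_sq]
      exact pow_le_pow_left₀ (hb n x).1 (mul_le_of_le_one_left (hgM n x).1 (h1 x).2) 2
  have hB := (Metric.isClosed_closedBall (x := o) (ε := 2 * R)).measurableSet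
  have hind : ∀ w : X → ℝ, Continuous w → (∀ x, dist x o ≤ 2 * R → |w x| ≤ (2 * R) ^ 2 + 1) →
      MemLp ((Metric.closedBall o (2 * R)).indicator w) 2 m := fun w hw hw' =>
    StabAux.memLp_ball (o := o) (S := 2 * R) (A := (2 * R) ^ 2 + 1)
      (hw.measurable.indicator hB).aestronglyMeasurable fun x =>
        ⟨fun hx => by rw [indicator_of_mem (Metric.mem_closedBall.2 hx)]; exact hw' x hx,
          fun hx => indicator_of_notMem (mt Metric.mem_closedBall.1 (not_le.2 hx)) _⟩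
  have hmul : ∀ w v : X → ℝ, (∀ x, 2 * R < dist x o → v x = 0) →
      ∫ x, v x * (Metric.closedBall o (2 * R)).indicator w x ∂m = ∫ x, w x * v x ∂m := by
    intro w v hv
    congr 1
    funext x
    rcases le_or_gt (dist x o) (2 * R) with hx | hx
    · rw [indicator_of_mem (Metric.mem_closedBall.2 hx), mul_comm]
    · rw [hv x hx, zero_mul, mul_zero]
  have hs' : ∀ x, 2 * R < dist x o → ρ x = 0 := fun x hx => hs x (by linarith)
  have hz : ∀ n x, 2 * R < dist x o → ζ x * g n x = 0 := fun n x hx => by rw [h0' x hx, zero_mul]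
  have i1 := hind (fun _ => 1) continuous_const fun x _ => by
    rw [abs_one]; linarith [sq_nonneg (2 * R)]
  have hmass : Tendsto (fun n => ∫ x, ζ x * g n x ∂m) atTop (𝓝 1) := by
    have := L2Conv.tendsto_integral_mul (fun n => (hS n).1) (fun _ => i1) hρ.memLp i1 hc
      (L2Conv.const _)
    simpa only [fun n => hmul (fun _ => 1) _ (hz n), hmul (fun _ => 1) ρ hs', one_mul,
      hρ.mass] using this
  obtain ⟨N, hN⟩ := eventually_atTop.1 (hmass.eventually (lt_mem_nhds (by norm_num : (1 / 2 : ℝ) < 1)))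
  set c : ℕ → ℝ := fun n => (∫ x, ζ x * g (n + N) x ∂m)⁻¹ with hcdef
  have hc0 : ∀ n, 0 < ∫ x, ζ x * g (n + N) x ∂m := fun n =>
    lt_trans (by norm_num) (hN _ (Nat.le_add_left N n))
  have hc1 : ∀ n, 0 < c n ∧ c n ≤ 2 := fun n => ⟨inv_pos.2 (hc0 n),
    (inv_anti₀ (by norm_num) (hN _ (Nat.le_add_left N n)).le).trans (by norm_num)⟩
  have hc2 : Tendsto (fun n => |c n - 1| * M) atTop (𝓝 0) := by
    have := (((((tendsto_add_atTop_iff_nat N).2 hmass).inv₀ one_ne_zero).sub_const 1).abs).mul_const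
      (M : ℝ)
    simpa using this
  have hle : ∀ n x, c n * (ζ x * g (n + N) x) ≤ (2 * M : ℝ≥0) := fun n x => by
    push_cast
    exact mul_le_mul (hc1 n).2 (hb _ x).2 (hb _ x).1 zero_le_two
  have hz' : ∀ n x, 2 * R < dist x o → c n * (ζ x * g (n + N) x) = 0 := fun n x hx => by
    rw [hz _ x hx, mul_zero]
  have hN' : ∀ n, NiceD m fun x => c n * (ζ x * g (n + N) x) := fun n =>
    niceD_of_bdd_support ((hζ.continuous.mul (hg _).continuous).measurable.const_mul _)
      (fun x => mul_nonneg (hc1 n).1.le (hb _ x).1) (hle n)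
      (by rw [integral_const_mul]; exact inv_mul_cancel₀ (hc0 n).ne') (hz' n)
  have hconv : L2Conv m (fun n x => c n * (ζ x * g (n + N) x)) ρ := by
    have h3 : L2Conv m (fun n x => (c n - 1) * (ζ x * g (n + N) x)) fun _ => 0 := by
      refine StabAux.l2_of_unif (o := o) (S := 2 * R) (fun e he => ?_)
        fun n x hx => by rw [hz _ x hx, mul_zero, sub_zero]
      filter_upwards [hc2.eventually (ge_mem_nhds he)] with n hn x _
      rw [sub_zero, abs_mul, abs_of_nonneg (hb _ x).1]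
      exact (mul_le_mul_of_nonneg_left (hb _ x).2 (abs_nonneg _)).trans hn
    have h4 : L2Conv m (fun n x => ζ x * g (n + N) x) ρ := (tendsto_add_atTop_iff_nat N).2 hc
    refine (L2Conv.add (fun n => (hS _).1.const_mul _) (fun n => (hS _).1) MemLp.zero hρ.memLp
      h3 h4).congr (fun n => Eventually.of_forall fun x => ?_) (Eventually.of_forall fun x => ?_)
    · ring
    · simp
  refine ⟨_, fun n => ⟨hN' n, sob_const_mul (hS _) _, hle n, hz' n⟩, hconv, ?_⟩
  have i2 := hind (fun x => dist x o ^ 2) (by fun_prop) fun x hx => by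
    rw [abs_of_nonneg (sq_nonneg _)]
    linarith [pow_le_pow_left₀ dist_nonneg hx 2]
  have h5 : L2Conv m (fun n x => |c n * (ζ x * g (n + N) x) - ρ x|) fun _ => 0 := by
    simpa only [L2Conv, sub_zero, sq_abs] using hconv
  have h6 := (L2Conv.tendsto_integral_mul (fun n => ((hN' n).memLp.sub hρ.memLp).abs) (fun _ => i2)
    MemLp.zero i2 h5 (L2Conv.const _)).const_mul 2
  simp only [Pi.zero_apply, zero_mul, integral_zero, mul_zero] at h6
  refine squeeze_zero (fun n => Wsq_nonneg _ _) (fun n => (Wsq_dm_le (hN' n) hρ o).trans ?_) h6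
  refine le_of_eq (congrArg _ (hmul _ _ fun x hx => ?_).symm)
  simp only [hz' n x hx, hs' x hx, sub_zero, abs_zero]

theorem tendsto_gamma_cpot (hH : IsInfHilbertian m) {ψ η : ℕ → X → ℝ} {χ ρ F : X → ℝ} {Λ : ℝ≥0}
    {o : X} (hψ : ∀ n, CPot (ψ n) Λ o) (hχ : CPot χ Λ o)
    (hc : ∀ e : ℝ, 0 < e → ∀ᶠ n in atTop, ∀ x, |ψ n x - χ x| ≤ e) (hη : ∀ n, MemLp (η n) 2 m)
    (hρ : NiceD m ρ) (hηρ : L2Conv m η ρ) {L : ℝ≥0} (hF : LipschitzWith L F) :
    Tendsto (fun n => ∫ x, η n x * gradPairing m (ψ n) F x ∂m) atTop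
      (𝓝 (∫ x, ρ x * gradPairing m χ F x ∂m)) ∧
    Tendsto (fun n => ∫ x, η n x * ψ n x ∂m) atTop (𝓝 (∫ x, ρ x * χ x ∂m)) := by
  have hF' := sl_of_lipschitz (m := m) hF
  have hS : ∀ n, LipS m (ψ n) Λ := fun n => (hψ n).lipS
  have hconv : L2Conv m ψ χ := StabAux.l2_of_unif (o := o) (S := Λ)
    (fun e he => (hc e he).mono fun n hn x _ => hn x)
    fun n x hx => by rw [(hψ n).supp x hx.le, hχ.supp x hx.le, sub_zero]
  refine ⟨?_, L2Conv.tendsto_integral_mul hη (fun n => (hS n).1.1) hρ.memLp hχ.lipS.1.1 hηρ hconv⟩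
  have hA : ∀ n, ∫ x, minWeakGrad m (ψ n) x ^ 2 ∂m ≤ Λ ^ 2 * m.real (Metric.closedBall o Λ) :=
    fun n => StabAux.int_sq_le (by
      filter_upwards [(hS n).2, sl_D_nonneg (hS n).1.2.1,
        D_eq_zero_on_countable (hS n).1.2.1 (countable_singleton (0 : ℝ))] with x h1 h2 h3
      exact ⟨fun _ => (abs_of_nonneg h2).trans_le h1, fun hx => h3 ((hψ n).supp x hx.le)⟩)
  have h1 := StabAux.core hH (fun n => (hS n).1) hχ.lipS.1 hconv hA
    (fun n x hx => (hψ n).supp x hx.le) (fun x hx => hχ.supp x hx.le) hρ hF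
  have h2 : ∀ n, MemLp (gradPairing m (ψ n) F) 2 m := fun n =>
    (gamma_memLp hH hF'.1 hF'.2 (hS n).1).ae_eq (gamma_comm hF'.1 (hS n).1.2.1)
  have h3 : ∀ n, ∫ x, gradPairing m (ψ n) F x ^ 2 ∂m ≤
      (Λ * L) ^ 2 * m.real (Metric.closedBall o Λ) := fun n => StabAux.int_sq_le (by
    filter_upwards [(hS n).2, hF'.2, sl_D_nonneg hF'.1, abs_gamma_le hH (hS n).1.2.1 hF'.1,
      gamma_eq_zero_on_level hH (hS n).1.2.1 hF'.1 0] with x h1 h2 h3 h4 h5
    exact ⟨fun _ => h4.trans (mul_le_mul h1 h2 h3 Λ.2), fun hx => (h5 ((hψ n).supp x hx.le)).1⟩)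
  have h4 : Tendsto (fun n => ∫ x, (η n x - ρ x) * gradPairing m (ψ n) F x ∂m) atTop (𝓝 0) := by
    have h5 := (Tendsto.sqrt hηρ).mul_const √((Λ * L) ^ 2 * m.real (Metric.closedBall o Λ))
    rw [Real.sqrt_zero, zero_mul] at h5
    refine squeeze_zero_norm (fun n => ?_) h5
    exact (WC_cs ((hη n).sub hρ.memLp) (h2 n)).trans
      (mul_le_mul_of_nonneg_left (Real.sqrt_le_sqrt (h3 n)) (Real.sqrt_nonneg _))
  have h5 := h4.add h1
  rw [zero_add] at h5
  refine h5.congr fun n => ?_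
  refine (integral_add (((hη n).sub hρ.memLp).integrable_mul (h2 n))
    (hρ.memLp.integrable_mul (h2 n))).symm.trans ?_
  congr 1
  funext x
  simp only [Pi.mul_apply, Pi.sub_apply]
  ring

/-- Locally uniform convergence with locally bounded gradients. -/
theorem tendsto_gamma_loc (hH : IsInfHilbertian m) {φ : ℕ → X → ℝ} {χ F : X → ℝ} {μ : Measure X}
    {M : ℝ≥0} {o : X} {R : ℝ} (hμ : Bdd m μ M o R) (hφ : ∀ n, LipBdd (φ n)) (hχ : LipBdd χ)
    {A : ℝ} (hA : ∀ n, ∀ᵐ x ∂m, dist x o ≤ R + 1 → minWeakGrad m (φ n) x ≤ A)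
    (hc : ∀ e : ℝ, 0 < e → ∀ᶠ n in atTop, ∀ x, dist x o ≤ R + 1 → |φ n x - χ x| ≤ e)
    {L : ℝ≥0} (hF : LipschitzWith L F) :
    Tendsto (fun n => ∫ x, gradPairing m (φ n) F x ∂μ) atTop
      (𝓝 (∫ x, gradPairing m χ F x ∂μ)) := by
  obtain ⟨ρ, hρ, rfl, -, hs⟩ := hμ.exists_niceD
  obtain ⟨ζ, hζ, -, h1, h2, h0⟩ := exists_cutoff o R (S := 1) one_pos
  rw [inv_one] at hζ
  rw [NNReal.coe_one] at h0
  obtain ⟨B, hB⟩ := (isCompact_closedBall o (R + 1)).exists_bound_of_continuousOn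
    hχ.continuous.continuousOn
  obtain ⟨N, hN⟩ := eventually_atTop.1 (hc 1 one_pos)
  have hB' : ∀ x, dist x o ≤ R + 1 → |χ x| ≤ |B| := fun x hx => (hB x hx).trans (le_abs_self _)
  have c1 := fun n => StabAux.cut (m := m) (d := |B| + 1) hζ h1 h0 (hφ (n + N)) (by positivity)
    fun x hx => by
      have := hN _ (Nat.le_add_left N n) x hx
      have := abs_sub_abs_le_abs_sub (φ (n + N) x) (χ x)
      linarith [hB' x hx]
  have c2 := (StabAux.cut (m := m) hζ h1 h0 hχ (abs_nonneg B) hB').1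
  have hF' := (sl_of_lipschitz (m := m) hF).1
  have key : ∀ w : X → ℝ, LipBdd w → IsSobolev m (fun y => ζ y * w y) →
      ∫ x, gradPairing m w F x ∂(dm m ρ) =
        ∫ x, ρ x * gradPairing m (fun y => ζ y * w y) F x ∂m := fun w hw hw' => by
    rw [integral_dm hρ.meas hρ.nonneg]
    refine integral_congr_ae ?_
    filter_upwards [gamma_locality hH hw'.2.1 hw.sl.1 hF'] with x hx
    rcases le_or_gt (dist x o) R with h | h
    · rw [hx (by rw [h2 x h, one_mul])]
    · rw [hs x h, zero_mul, zero_mul]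
  rw [← tendsto_add_atTop_iff_nat N, key χ hχ c2]
  simp only [fun n => key _ (hφ (n + N)) (c1 n).1]
  refine StabAux.core hH (o := o) (S := R + 1) (fun n => (c1 n).1) c2 ?_
    (A := (A + (|B| + 1)) ^ 2 * m.real (Metric.closedBall o (R + 1)))
    (fun n => StabAux.int_sq_le ?_) (fun n x hx => by rw [h0 x hx.le, zero_mul])
    (fun x hx => by rw [h0 x hx.le, zero_mul]) hρ hF
  · refine StabAux.l2_of_unif (o := o) (S := R + 1) (fun e he => ?_)
      fun n x hx => by rw [h0 x hx.le, zero_mul, zero_mul, sub_zero]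
    filter_upwards [(tendsto_add_atTop_nat N).eventually (hc e he)] with n hn x hx
    rw [← mul_sub, abs_mul, abs_of_nonneg (h1 x).1]
    exact (mul_le_of_le_one_left (abs_nonneg _) (h1 x).2).trans (hn x hx)
  · filter_upwards [(c1 n).2, hA (n + N)] with x h3 h4
    exact ⟨fun hx => (h3.1 hx).trans (by linarith [h4 hx]), h3.2⟩

end Crest.Agent.R242
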