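import Crest.Agent.R242.Star
import Crest.Agent.R242.StabAux
import Crest.Agent.R242.PotCompact
import Crest.Agent.R242.Duality
import Crest.Agent.R242.GoodPlan

/-! Row 242: monotonicity of the gradient of F for bounded densities. -/

set_option autoImplicit false
set_option linter.unusedSectionVars false

open MeasureTheory Filter Set Topology
open scoped ENNReal NNReal
open Crest.GeometryTopology.SyntheticRicci

namespace Crest.Agent.R242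

variable {X : Type*} [MetricSpace X] [ProperSpace X] [MeasurableSpace X] [BorelSpace X]
  {m : Measure X} [IsLocallyFiniteMeasure m] [m.IsOpenPosMeasure]

theorem Stab.integrable {ψ : X → ℝ} {Λ : ℝ≥0} {o : X} (h : CPot ψ Λ o) (μ : Measure X)
    [IsFiniteMeasure μ] : Integrable ψ μ :=
  Integrable.of_bound h.lip.continuous.aestronglyMeasurable Λ (Eventually.of_forall fun x => by
    rw [Real.norm_eq_abs, abs_le]
    exact ⟨(h.bd x).1, (h.bd x).2.trans Λ.coe_nonneg⟩)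

theorem stab {κ lam₀ : ℝ} {F G : X → ℝ} (H : Hyp m κ lam₀ F G) {μ ν : Measure X} {M : ℝ≥0}
    {o : X} {R : ℝ} (hR : 0 < R) (hμ : Bdd m μ M o R) (hν : Bdd m ν M o R) {k : ℝ}
    (hk : ∀ x, dist x o ≤ 4 * R → G x ≤ k) :
    ∃ (ψ : X → ℝ) (Λ : ℝ≥0), CPot ψ Λ o ∧
      (∀ q : Measure (X × X), IsOptCouplingOf q μ ν →
        IsPot (fun x => -ψ x) q ∧ IsPot (hopfLax ψ 1) (q.map Prod.swap)) ∧
      ∫ x, gradPairing m (hopfLax ψ 1) F x ∂ν - ∫ x, gradPairing m ψ F x ∂μ ≤ k * Wsq μ ν := by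
  obtain ⟨ρ, hρ, rfl, hρM, hρR⟩ := hμ.exists_niceD
  obtain ⟨σ, hσ, rfl, hσM, hσR⟩ := hν.exists_niceD
  obtain ⟨a, ha, haL, haW⟩ := exists_lip_density hρ hρM hR hρR
  obtain ⟨b, hb, hbL, hbW⟩ := exists_lip_density hσ hσM hR hσR
  have haB : ∀ n, Bdd m (dm m (a n)) (2 * M) o (2 * R) := fun n =>
    (ha n).1.bdd_dm (ha n).2.2.1 (ha n).2.2.2
  have hbB : ∀ n, Bdd m (dm m (b n)) (2 * M) o (2 * R) := fun n =>
    (hb n).1.bdd_dm (hb n).2.2.1 (hb n).2.2.2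
  obtain ⟨c, hc⟩ := exists_goodPlan H.good (2 * R)
  choose P hP hPG _ using fun n => hc o (2 * M) _ _ (haB n) (hbB n)
  obtain ⟨Λ, hΛ⟩ := exists_pot_compact (X := X) (2 * R)
  choose ψ hψ1 hψ2 hψ3 hψp using fun n => hΛ o _ _ _ (haB n).1 (hbB n).1 (haB n).2.2 (hbB n).2.2
    (hP n).2.2
  have hψ : ∀ n, CPot (ψ n) Λ o := fun n => ⟨hψ1 n, hψ2 n, hψ3 n⟩
  have hst : ∀ n, ∫ x, b n x * gradPairing m (hopfLax (ψ n) 1) F x ∂m -
      ∫ x, a n x * gradPairing m (ψ n) F x ∂m ≤ k * Wsq (dm m (a n)) (dm m (b n)) := fun n => by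
    rw [((hP n).Wsq_eq (haB n).isP2 (hbB n).isP2).2]
    exact star H (ha n).1 (hb n).1 (ha n).2.1 (hb n).2.1 (hψ n) (hPG n) (hP n).marg_eq.1
      (hP n).marg_eq.2 (hψp n) fun x hx => hk x (by linarith)
  have hdu : ∀ n, ∫ x, b n x * hopfLax (ψ n) 1 x ∂m - ∫ x, a n x * ψ n x ∂m =
      Wsq (dm m (a n)) (dm m (b n)) / 2 := fun n => by
    have := (haB n).1
    rw [Wsq_eq_of_opt (haB n).isP2 (hbB n).isP2 (hP n).2.2,
      ← (hψ n).dual_eq (hP n).2.2.1 (hψp n), integral_dm (ha n).1.meas (ha n).1.nonneg,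
      integral_dm (hb n).1.meas (hb n).1.nonneg]
  obtain ⟨χ, φ, hφ, hχ, hcv⟩ := cpot_subseq hψ
  obtain ⟨L, hL⟩ := H.Fl
  have h01 : (1 : ℝ) ∈ Icc (0 : ℝ) 1 := ⟨zero_le_one, le_rfl⟩
  obtain ⟨t1, t2⟩ := tendsto_gamma_cpot H.good.hilb (ψ := fun n => ψ (φ n))
    (η := fun n => a (φ n)) (fun n => hψ _) hχ hcv (fun n => (ha _).1.memLp) hρ
    (haL.comp hφ.tendsto_atTop) hL
  obtain ⟨t3, t4⟩ := tendsto_gamma_cpot H.good.hilb (ψ := fun n => hopfLax (ψ (φ n)) 1)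
    (η := fun n => b (φ n)) (fun n => (hψ _).hopfLax h01) (hχ.hopfLax h01)
    (fun e he => (hcv e he).mono fun n hn => (hψ _).hopfLax_sub_le hχ hn)
    (fun n => (hb _).1.memLp) hσ (hbL.comp hφ.tendsto_atTop) hL
  have t5 := (tendsto_Wsq (fun n => (haB n).isP2) (fun n => (hbB n).isP2) hμ.isP2 hν.isP2 haW
    hbW).comp hφ.tendsto_atTop
  have hd : ∫ x, σ x * hopfLax χ 1 x ∂m - ∫ x, ρ x * χ x ∂m = Wsq (dm m ρ) (dm m σ) / 2 :=
    tendsto_nhds_unique ((t4.sub t2).congr fun n => hdu (φ n)) (t5.div_const 2)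
  have := hμ.1
  have := hν.1
  refine ⟨χ, Λ, hχ, fun q hq => hχ.pot_of_eq (isPot_of_dual hμ.isP2 hν.isP2 hq
    (Stab.integrable hχ _) (Stab.integrable (hχ.hopfLax h01) _) hχ.le_cst ?_), ?_⟩
  · rw [integral_dm hρ.meas hρ.nonneg, integral_dm hσ.meas hσ.nonneg, hd]
  · rw [integral_dm hρ.meas hρ.nonneg, integral_dm hσ.meas hσ.nonneg]
    exact le_of_tendsto_of_tendsto' (t3.sub t1) (t5.const_mul k) fun n => hst (φ n)

end Crest.Agent.R242
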