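import Crest.Agent.R242.StarStep

/-! Row 242: monotonicity of the gradient of F for Sobolev densities. -/

set_option autoImplicit false
set_option linter.unusedSectionVars false

open MeasureTheory Filter Set Topology
open scoped ENNReal NNReal
open Crest.GeometryTopology.SyntheticRicci

namespace Crest.Agent.R242

variable {X : Type*} [MetricSpace X] [ProperSpace X] [MeasurableSpace X] [BorelSpace X]
  {m : Measure X} [IsLocallyFiniteMeasure m] [m.IsOpenPosMeasure]

/-- The generator of the weighted resolvent tested against a Sobolev density. -/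
theorem tendsto_res_generator (hH : IsInfHilbertian m) {V : X → ℝ} {LV : ℝ≥0}
    (hV : LipschitzWith LV V) {B : ℝ} (hB : ∀ x, |V x| ≤ B) {lam : ℕ → ℝ} (hl : ∀ n, 0 < lam n)
    (hlam : Tendsto lam atTop atTop) {f ρ : X → ℝ} {u : ℕ → X → ℝ} (hf : IsSobolev m f)
    (hρ : IsSobolev m ρ) (hu : ∀ n, IsRes m V (lam n) f (u n)) :
    Tendsto (fun n => lam n * (∫ x, ρ x * u n x ∂m - ∫ x, ρ x * f x ∂m)) atTop
      (𝓝 (∫ x, ρ x * gradPairing m f V x ∂m - ∫ x, gradPairing m f ρ x ∂m)) := by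
  have hW : IsWt V := isWt_of_continuous hV.continuous hB
  have hV' : LipschitzWith LV fun x => -V x := hV.neg
  obtain ⟨⟨L', hL'⟩, hch⟩ := exp_lip hH hV' (B := B) fun x => by rw [abs_neg]; exact hB x
  have hVs := sl_of_lipschitz (m := m) hV
  have hEs := sl_of_lipschitz (m := m) hL'
  have hEb : ∀ᵐ x ∂m, |Real.exp (-V x)| ≤ Real.exp B := Eventually.of_forall fun x => by
    rw [abs_of_pos (Real.exp_pos _)]
    exact Real.exp_le_exp.2 ((neg_le_abs _).trans (hB x))
  have hv : IsSobolev m fun y => Real.exp (-V y) * ρ y := sob_mul_of_bdd hEs.1 hEb hEs.2 hρ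
  have hc := res_W12Conv hH hW hl hlam hf hu
  obtain ⟨A, hA⟩ := hc.bounded (fun n => (hu n).1) hf
  have h1 := (weak_conv hH (θ := fun x => Real.exp (V x)) (fun n => (hu n).1) hf.1 hc.1 hA hv
    (Real.continuous_exp.comp hV.continuous).aestronglyMeasurable (B := Real.exp B)
    (Eventually.of_forall fun x => by
      rw [abs_of_pos (Real.exp_pos _)]
      exact Real.exp_le_exp.2 ((le_abs_self _).trans (hB x)))).neg
  have e1 : -∫ x, Real.exp (V x) * gradPairing m f (fun y => Real.exp (-V y) * ρ y) x ∂m =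
      ∫ x, ρ x * gradPairing m f V x ∂m - ∫ x, gradPairing m f ρ x ∂m := by
    have i1 : Integrable (fun x => ρ x * gradPairing m f V x) m :=
      hρ.1.integrable_mul ((memLp_congr_ae (gamma_comm hVs.1 hf.2.1)).1
        (gamma_memLp hH hVs.1 hVs.2 hf))
    rw [← integral_sub i1 (gamma_integrable hH hf hρ), ← integral_neg]
    refine integral_congr_ae ?_
    filter_upwards [(gamma_mul_right_of_bdd hH hEs.1 hEb hEs.2 hρ.2.1 hf.2.1).2, hch f hf.2.1,
      gamma_const_mul_right hH hVs.1 hf.2.1 (-1)] with x a1 a2 a3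
    simp only [neg_mul, one_mul] at a3
    rw [a1, a2, a3]
    have : Real.exp (V x) * Real.exp (-V x) = 1 := by rw [← Real.exp_add]; simp
    linear_combination (ρ x * gradPairing m f V x - gradPairing m f ρ x) * this
  rw [e1] at h1
  refine h1.congr fun n => ?_
  have i1 : Integrable (fun x => ρ x * u n x) m := hρ.1.integrable_mul (hu n).1.1
  have i2 : Integrable (fun x => ρ x * f x) m := hρ.1.integrable_mul hf.1
  rw [(hu n).2 _ hv, ← integral_sub i1 i2, ← mul_neg, ← integral_neg]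
  congr 1
  refine integral_congr_ae (Eventually.of_forall fun x => ?_)
  have : Real.exp (V x) * Real.exp (-V x) = 1 := by rw [← Real.exp_add]; simp
  dsimp only
  linear_combination (ρ x * u n x - ρ x * f x) * this

theorem star {κ lam₀ : ℝ} {F G : X → ℝ} (H : Hyp m κ lam₀ F G) {ρ σ : X → ℝ} (hρ : NiceD m ρ)
    (hσ : NiceD m σ) (hρs : IsSobolev m ρ) (hσs : IsSobolev m σ) {ψ : X → ℝ} {Λ : ℝ≥0} {o' : X}
    (hψ : CPot ψ Λ o') {P : Measure (UCurve X)} {C : ℝ≥0} {o : X} {R : ℝ} (hP : IsGP m P C o R)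
    (h₀ : marg P 0 = dm m ρ) (h₁ : marg P 1 = dm m σ)
    (hp : IsPot (fun x => -ψ x) (endpointLaw P)) {k : ℝ} (hk : ∀ x, dist x o ≤ R → G x ≤ k) :
    ∫ x, σ x * gradPairing m (hopfLax ψ 1) F x ∂m - ∫ x, ρ x * gradPairing m ψ F x ∂m ≤
      k * ∫ γ, len γ ^ 2 ∂P := by
  have hH := H.good.hilb
  obtain ⟨B, hB⟩ := H.Fb
  obtain ⟨L, hL⟩ := H.Fl
  have hFs := (sl_of_lipschitz (m := m) hL).1
  have hQ : ∀ s ∈ Icc (0 : ℝ) 1, IsSobolev m (hopfLax ψ s) := fun s hs => (hψ.hopfLax hs).lipS.1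
  have hψs : IsSobolev m ψ := hψ.lipS.1
  have hQ1 := hQ 1 ⟨zero_le_one, le_rfl⟩
  have hprob : IsProbabilityMeasure (marg P 0) := (hP.bdd 0).1
  have hdual := hψ.dual_eq (isCouplingOf_endpointLaw P) hp
  rw [integral_endpointLaw_sq, h₀, h₁, integral_dm hρ.meas hρ.nonneg,
    integral_dm hσ.meas hσ.nonneg] at hdual
  set W := ∫ γ, len γ ^ 2 ∂P with hW
  set a := ∫ x, σ x * gradPairing m (hopfLax ψ 1) F x ∂m -
    ∫ x, ρ x * gradPairing m ψ F x ∂m with ha
  set c := 8 * κ * W + ∫ x, gradPairing m (hopfLax ψ 1) σ x ∂m -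
    ∫ x, gradPairing m ψ ρ x ∂m with hc
  have key : ∀ ε : ℝ, 0 < ε → a ≤ k * W + ε * c := by
    intro ε hε
    have hV : LipschitzWith (⟨ε⁻¹, by positivity⟩ * L) fun x => F x / ε := by
      refine LipschitzWith.of_dist_le_mul fun x y => ?_
      rw [Real.dist_eq, ← sub_div, abs_div, abs_of_pos hε, div_eq_inv_mul, NNReal.coe_mul,
        mul_assoc]
      exact mul_le_mul_of_nonneg_left (hL.dist_le_mul x y) (by positivity)
    have hVB : ∀ x, |F x / ε| ≤ B / ε := fun x => by
      rw [abs_div, abs_of_pos hε]; exact div_le_div_of_nonneg_right (hB x) hε.le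
    have hl : ∀ n : ℕ, (0 : ℝ) < n + 1 := fun n => by positivity
    have hlam : Tendsto (fun n : ℕ => (n : ℝ) + 1) atTop atTop :=
      tendsto_atTop_add_const_right _ _ tendsto_natCast_atTop_atTop
    have hex : ∀ (n : ℕ) (s : ℝ), ∃ u : X → ℝ, s ∈ Icc (0 : ℝ) 1 →
        IsRes m (fun x => F x / ε) (n + 1) (hopfLax ψ s) u := fun n s => by
      by_cases hs : s ∈ Icc (0 : ℝ) 1
      · obtain ⟨u, hu⟩ := exists_res hH (isWt_of_continuous hV.continuous hVB) (hl n) (hQ s hs).1
        exact ⟨u, fun _ => hu⟩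
      · exact ⟨0, fun h => absurd h hs⟩
    choose u hu using hex
    have t1 := tendsto_res_generator hH hV hVB hl hlam hQ1 hσs
      fun n => hu n 1 ⟨zero_le_one, le_rfl⟩
    have t0 := tendsto_res_generator hH hV hVB hl hlam hψs hρs
      fun n => by simpa only [hopfLax_zero] using hu n 0 ⟨le_rfl, zero_le_one⟩
    have hdiv : ∀ {g τ : X → ℝ}, IsSobolev m g →
        ∫ x, τ x * gradPairing m g (fun y => F y / ε) x ∂m =
          ε⁻¹ * ∫ x, τ x * gradPairing m g F x ∂m := fun {g τ} hg => by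
      rw [← integral_const_mul]
      refine integral_congr_ae ?_
      filter_upwards [gamma_const_mul_right hH hFs hg.2.1 ε⁻¹] with x hx
      simp only [div_eq_inv_mul]
      rw [hx]; ring
    rw [hdiv hQ1] at t1
    rw [hdiv hψs] at t0
    have h2 : ∀ η : ℝ, 0 < η → ε⁻¹ * ∫ x, σ x * gradPairing m (hopfLax ψ 1) F x ∂m -
        ∫ x, gradPairing m (hopfLax ψ 1) σ x ∂m - (ε⁻¹ * ∫ x, ρ x * gradPairing m ψ F x ∂m -
          ∫ x, gradPairing m ψ ρ x ∂m) ≤ (8 * κ + k / ε) * W + η := fun η hη => by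
      refine le_of_tendsto (t1.sub t0) ?_
      filter_upwards [star_step H hε hψ hP hk hl hlam (fun n s hs => hu n s hs) hη] with n hn
      rw [h₀, h₁, integral_dm hρ.meas hρ.nonneg, integral_dm hσ.meas hσ.nonneg, ← hW,
        ← hdual] at hn
      linarith
    have h3 := mul_le_mul_of_nonneg_left (le_of_forall_pos_le_add h2) hε.le
    have e1 : ε * ε⁻¹ = 1 := mul_inv_cancel₀ hε.ne'
    rw [div_eq_mul_inv] at h3
    rw [ha, hc]
    linear_combination h3 + (k * W - a) * e1
  have t : Tendsto (fun ε : ℝ => k * W + ε * c) (𝓝[>] 0) (𝓝 (k * W + 0 * c)) :=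
    ((continuous_const.add (continuous_id.mul continuous_const)).tendsto 0).mono_left
      nhdsWithin_le_nhds
  rw [zero_mul, add_zero] at t
  exact ge_of_tendsto t (eventually_nhdsWithin_of_forall key)

end Crest.Agent.R242
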