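import Crest.Agent.R242.HessExt

/-! Row 242: gradient estimate for the weighted resolvent. -/

set_option autoImplicit false
set_option linter.unusedSectionVars false

open MeasureTheory Filter Set Topology
open scoped ENNReal NNReal
open Crest.GeometryTopology.SyntheticRicci

namespace Crest.Agent.R242

variable {X : Type*} [MetricSpace X] [ProperSpace X] [MeasurableSpace X] [BorelSpace X]
  {m : Measure X} [IsLocallyFiniteMeasure m] [m.IsOpenPosMeasure]

theorem Hyp.wt {κ lam₀ : ℝ} {F G : X → ℝ} (H : Hyp m κ lam₀ F G) (ε : ℝ) :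
    ∃ (L : ℝ≥0) (B : ℝ), LipschitzWith L (fun x => F x / ε) ∧ (∀ x, |F x / ε| ≤ B) ∧
      IsWt (fun x => F x / ε) := by
  obtain ⟨B, hB⟩ := H.Fb
  obtain ⟨L, hL⟩ := H.Fl
  have h1 : LipschitzWith (‖ε⁻¹‖₊ * L) fun x => F x / ε := by
    have e : (fun x => F x / ε) = (fun x => ε⁻¹ • x) ∘ F := funext fun x => div_eq_inv_mul _ _
    rw [e]
    exact (lipschitzWith_smul (β := ℝ) ε⁻¹).comp hL
  have h2 : ∀ x, |F x / ε| ≤ B / |ε| := fun x => by
    rw [abs_div]
    exact div_le_div_of_nonneg_right (hB x) (abs_nonneg _)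
  exact ⟨_, _, h1, h2, isWt_of_continuous h1.continuous h2⟩

theorem WGrad_int {a b : X → ℝ} (ha : MemLp a 2 m) (hb : MemLp b 2 m) :
    Integrable (fun x => a x * b x) m := ha.integrable_mul hb

theorem wgrad {κ lam₀ : ℝ} {F G : X → ℝ} (H : Hyp m κ lam₀ F G) {ε lam : ℝ} (hε : 0 < ε)
    (hl : 0 < lam) {f u β b : X → ℝ} {L L' B : ℝ} (hf : LipS m f L)
    (hu : IsRes m (fun x => F x / ε) lam f u) (huL : ∀ᵐ x ∂m, minWeakGrad m u x ≤ L')
    (huB : ∀ᵐ x ∂m, |u x| ≤ B) (hβ : IsRes m (fun x => F x / ε) lam (gradPairing m f f) β)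
    (hb : IsRes m (fun x => F x / ε) lam
      (fun x => (8 * κ + G x / ε) * gradPairing m u u x) b) :
    ∀ᵐ x ∂m, gradPairing m u u x ≤ β x + 2 / lam * b x := by
  have hH := H.good.hilb
  obtain ⟨LV, BV, hVL, hVB, hW⟩ := H.wt ε
  obtain ⟨BG, hBG⟩ := H.Gb
  obtain ⟨LF, hLF⟩ := H.Fl
  set V : X → ℝ := fun x => F x / ε with hV
  have su := hu.1
  have sf := hf.1
  have sF := sl_of_lipschitz (m := m) hLF
  have sV := sl_of_lipschitz (m := m) hVL
  have hlap := (isRes_wt_iff hH hVL hVB sf.1).1 hu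
  obtain ⟨sU, hBo⟩ := bochner_weak H.good H.ge hlap huL
  set U := gradPairing m u u with hU
  have hVe : V = fun x => ε⁻¹ * F x := funext fun x => div_eq_inv_mul _ _
  have mff : MemLp (gradPairing m f f) 2 m := gamma_memLp hH sf.2.1 hf.2 sf
  have mG : AEStronglyMeasurable (fun x => 8 * κ + G x / ε) m :=
    (continuous_const.add (H.Gc.div_const ε)).aestronglyMeasurable
  have mGU : MemLp (fun x => (8 * κ + G x / ε) * U x) 2 m :=
    C2_bdd mG (B := |8 * κ| + BG / |ε|) (Eventually.of_forall fun x => by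
      refine (abs_add_le _ _).trans (add_le_add le_rfl ?_)
      rw [abs_div]
      exact div_le_div_of_nonneg_right (hBG x) (abs_nonneg _)) sU.1
  have mg := mGU.const_mul (2 / lam)
  refine subsol_le_res hH hW hl sU (mff.add mg) (hβ.add hH hW mff mg (hb.const_mul hH (2 / lam)))
    fun v sv hv => ?_
  obtain ⟨⟨LE, hLE⟩, hexp⟩ := exp_lip hH hVL hVB
  have sE := sl_of_lipschitz (m := m) hLE
  have hEB : ∀ x, |Real.exp (V x)| ≤ Real.exp BV := fun x => by
    rw [abs_of_pos (Real.exp_pos _)]
    exact Real.exp_le_exp.2 ((le_abs_self _).trans (hVB x))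
  have sh : IsSobolev m fun x => Real.exp (V x) * v x :=
    sob_mul_of_bdd sE.1 (Eventually.of_forall hEB) sE.2 sv
  set h : X → ℝ := fun x => Real.exp (V x) * v x with hh
  have h0 : ∀ x, 0 ≤ h x := fun x => mul_nonneg (Real.exp_pos _).le (hv x).1
  have hB : ∀ x, h x ≤ Real.exp BV := fun x =>
    (mul_le_of_le_one_right (Real.exp_pos _).le (hv x).2).trans ((le_abs_self _).trans (hEB x))
  have hB' : ∀ᵐ x ∂m, |h x| ≤ Real.exp BV := Eventually.of_forall fun x => by
    rw [abs_of_nonneg (h0 x)]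
    exact hB x
  have sa : IsSobolev m fun x => lam * (u x - f x) := sob_const_mul (sob_sub su sf) lam
  have i1 := hBo h _ sh (Eventually.of_forall fun x => ⟨h0 x, hB x⟩)
  have i2 := lap_ibp hH hlap huL sh hB' sa
  have i3 := hess_ext H hlap huL huB sh (Eventually.of_forall h0)
  rw [HessIneq, ← hU] at i3
  have mhu : MemLp (gradPairing m h u) 2 m :=
    (memLp_congr_ae (gamma_comm sh.2.1 su.2.1)).2 (gamma_memLp hH su.2.1 huL sh)
  have mP : MemLp (fun x => h x * (lam * (u x - f x) - gradPairing m V u x) + gradPairing m h u x)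
      2 m := (C2_bdd sh.1.1 hB' hlap.2.1).add mhu
  set P : X → ℝ := fun x => h x * (lam * (u x - f x) - gradPairing m V u x) + gradPairing m h u x
    with hP
  have mFu : MemLp (gradPairing m F u) 2 m := gamma_memLp hH sF.1 sF.2 su
  have mFU : MemLp (gradPairing m F U) 2 m := gamma_memLp hH sF.1 sF.2 sU
  have e1 : ∫ x, P x * (lam * (u x - f x) - gradPairing m V u x) ∂m
      = ∫ x, P x * (lam * (u x - f x)) ∂m - ε⁻¹ * ∫ x, P x * gradPairing m F u x ∂m := by
    rw [← integral_const_mul, ← integral_sub (WGrad_int mP sa.1) ((WGrad_int mP mFu).const_mul _)]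
    refine integral_congr_ae ?_
    filter_upwards [gamma_const_mul_left hH sF.1 su.2.1 ε⁻¹] with x hx
    rw [← hVe] at hx
    rw [hx]
    ring
  have e2 : ∫ x, gradPairing m U h x ∂m = ∫ x, Real.exp (V x) * gradPairing m U v x ∂m
      + ε⁻¹ * ∫ x, h x * gradPairing m F U x ∂m := by
    rw [← integral_const_mul, ← integral_add (hW.integrable_mul (gamma_integrable hH sU sv))
      ((WGrad_int sh.1 mFU).const_mul _)]
    refine integral_congr_ae ?_
    filter_upwards [(gamma_mul_right_of_bdd hH sE.1 (Eventually.of_forall hEB) sE.2 sv.2.1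
      sU.2.1).2, hexp U sU.2.1, gamma_comm sU.2.1 sV.1,
      gamma_const_mul_left hH sF.1 sU.2.1 ε⁻¹] with x h1 h2 h3 h4
    rw [← hVe] at h4
    rw [h1, h2, h3, h4]
    simp only [hh]
    ring
  have ihU : Integrable (fun x => h x * U x) m := sh.1.integrable_mul sU.1
  have ihG : Integrable (fun x => h x * G x * U x) m := by
    have := WGrad_int sh.1
      (C2_bdd H.Gc.aestronglyMeasurable (Eventually.of_forall hBG) sU.1)
    simpa only [mul_assoc] using this
  have iha : Integrable (fun x => h x * gradPairing m u (fun x => lam * (u x - f x)) x) m :=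
    sh.1.integrable_mul (gamma_memLp hH su.2.1 huL sa)
  have e3 : 16 * κ * ∫ x, h x * U x ∂m
      - 2 * ∫ x, h x * gradPairing m u (fun x => lam * (u x - f x)) x ∂m
      + 2 * ε⁻¹ * ∫ x, h x * G x * U x ∂m ≤ lam * ∫ x, Real.exp (V x) *
        ((gradPairing m f f x + 2 / lam * ((8 * κ + G x / ε) * U x) - U x) * v x) ∂m := by
    have j1 : Integrable (fun x => 16 * κ * (h x * U x)
        - 2 * (h x * gradPairing m u (fun x => lam * (u x - f x)) x)) m :=
      (ihU.const_mul _).sub (iha.const_mul _)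
    rw [← integral_const_mul, ← integral_const_mul, ← integral_const_mul, ← integral_const_mul,
      ← integral_sub (ihU.const_mul _) (iha.const_mul _), ← integral_add j1 (ihG.const_mul _)]
    refine integral_mono_ae (j1.add (ihG.const_mul _))
      ((hW.integrable_mul (((mff.add mg).sub sU.1).integrable_mul sv.1)).const_mul _) ?_
    filter_upwards [gamma_const_mul_right hH (sob_sub su sf).2.1 su.2.1 lam,
      gamma_sub_right hH su.2.1 sf.2.1 su.2.1, gamma_self su.2.1, gamma_self sf.2.1,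
      abs_gamma_le hH su.2.1 sf.2.1] with x h1 h2 h3 h4 h5
    rw [h1, h2]
    have h6 : 2 * gradPairing m u f x ≤ U x + gradPairing m f f x := by
      rw [hU, h3, h4]
      nlinarith [le_abs_self (gradPairing m u f x),
        sq_nonneg (minWeakGrad m u x - minWeakGrad m f x)]
    have h7 : lam * (Real.exp (V x) *
        ((gradPairing m f f x + 2 / lam * ((8 * κ + G x / ε) * U x) - U x) * v x))
        = h x * (lam * (gradPairing m f f x - U x) + 2 * ((8 * κ + ε⁻¹ * G x) * U x)) := by
      simp only [hh]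
      field_simp
      ring
    rw [h7, ← hU]
    nlinarith [mul_nonneg (mul_nonneg (h0 x) hl.le) (sub_nonneg.2 h6)]
  have i4 := mul_le_mul_of_nonneg_left i3 (inv_pos.2 hε).le
  refine le_trans ?_ e3
  simp only [hP] at e1
  rw [e1, e2] at i1
  linarith

end Crest.Agent.R242
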