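import Crest.Agent.R242.RegLip

/-! Row 242: Lipschitz bound for the weighted resolvent. -/

set_option autoImplicit false
set_option linter.unusedSectionVars false

open MeasureTheory Filter Set Topology
open scoped ENNReal NNReal
open Crest.GeometryTopology.SyntheticRicci

namespace Crest.Agent.R242

variable {X : Type*} [MetricSpace X] [ProperSpace X] [MeasurableSpace X] [BorelSpace X]
  {m : Measure X} [IsLocallyFiniteMeasure m] [m.IsOpenPosMeasure]

theorem wres_lipS {κ lam₀ : ℝ} (hG : Good m κ) (hE : GradEst m κ lam₀) {V : X → ℝ} {LV : ℝ≥0}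
    (hV : LipschitzWith LV V) {B : ℝ} (hB : ∀ x, |V x| ≤ B) :
    ∃ lam₁ : ℝ, 0 < lam₁ ∧ ∀ lam : ℝ, lam₁ ≤ lam → ∀ (f u : X → ℝ) (L : ℝ), LipS m f L →
      IsRes m V lam f u → LipS m u (4 * L) := by
  refine ⟨max lam₀ (36 * (LV : ℝ) ^ 2 + 1), lt_max_of_lt_right (by positivity),
    fun lam hlam f u L hf hu => ?_⟩
  have hH := hG.hilb
  have hl0 : lam₀ ≤ lam := (le_max_left _ _).trans hlam
  have hl1 : 36 * (LV : ℝ) ^ 2 + 1 ≤ lam := (le_max_right _ _).trans hlam
  have hl : 0 < lam := lt_of_lt_of_le (by positivity) hl1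
  obtain ⟨hVs, hVL⟩ := sl_of_lipschitz (m := m) hV
  have hL0 : ∀ᵐ x ∂m, 0 ≤ L := by
    filter_upwards [hf.2, sl_D_nonneg hf.1.2.1] with x h1 h2 using h2.trans h1
  have hΓ : ∀ {g : X → ℝ}, IsSobolev m g →
      MemLp (fun x => lam⁻¹ * gradPairing m V g x) 2 m ∧
        ∀ᵐ x ∂m, |lam⁻¹ * gradPairing m V g x| ≤ lam⁻¹ * (LV * minWeakGrad m g x) := fun hg =>
    ⟨(gamma_memLp hH hVs hVL hg).const_mul _, by
      filter_upwards [abs_gamma_le hH hVs hg.2.1, hVL, sl_D_nonneg hg.2.1] with x h1 h2 h3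
      rw [abs_mul, abs_of_pos (inv_pos.2 hl)]
      exact mul_le_mul_of_nonneg_left (h1.trans (mul_le_mul_of_nonneg_right h2 h3))
        (inv_pos.2 hl).le⟩
  have hu0 : IsRes m 0 lam (fun x => f x + lam⁻¹ * gradPairing m V u x) u :=
    isRes_of_lap (lap_congr ((isRes_wt_iff hH hV hB hf.1.1).1 hu) (ae_eq_refl _)
      (.of_forall fun x => by field_simp; ring))
  have step : ∀ g : {g // LipS m g (4 * L)}, ∃ g' : {g // LipS m g (4 * L)},
      IsRes m 0 lam (fun x => f x + lam⁻¹ * gradPairing m V g.1 x) g'.1 := by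
    rintro ⟨g, hg⟩
    obtain ⟨h1, h2⟩ := hΓ hg.1
    obtain ⟨a, ha⟩ := exists_res hH isWt_zero hl hf.1.1
    obtain ⟨b, hb⟩ := exists_res hH isWt_zero hl h1
    have h3 := res_lipS hG hE hl0 hf ha
    have h4 := reg_lip hG hE hl0 h1 (B := lam⁻¹ * (LV * (4 * L))) (by
      filter_upwards [h2, hg.2] with x c1 c2 using c1.trans (by gcongr)) hb
    refine ⟨⟨_, sob_add ha.1 hb.1, ?_⟩, ha.add hH isWt_zero hf.1.1 h1 hb⟩
    filter_upwards [(sl_add ha.1.2.1 hb.1.2.1).2, h3.2, h4.2, hL0] with x c1 c2 c3 c4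
    have h5 : 6 * (LV : ℝ) ≤ √lam := Real.le_sqrt_of_sq_le (by linarith)
    have h6 : 3 * √lam * (lam⁻¹ * (LV * (4 * L))) = 2 * L * (√lam * (6 * LV) / lam) := by ring
    have h7 : √lam * (6 * LV) / lam ≤ 1 := (div_le_one hl).2
      ((mul_le_mul_of_nonneg_left h5 (Real.sqrt_nonneg _)).trans_eq (Real.mul_self_sqrt hl.le))
    nlinarith
  choose T hT using step
  let g : ℕ → {g // LipS m g (4 * L)} := fun n => T^[n] ⟨fun _ => 0, sob_zero, by
    filter_upwards [(sl_const (m := m) 0).2, hL0] with x c1 c2 using by linarith⟩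
  have hg : ∀ n, g (n + 1) = T (g n) := fun n => Function.iterate_succ_apply' _ _ _
  set E : ℕ → ℝ := fun n => ∫ x, minWeakGrad m (fun y => (g n).1 y - u y) x ^ 2 ∂m with hE'
  have hE0 : ∀ n, 0 ≤ E n := fun n => integral_nonneg fun _ => sq_nonneg _
  have key : ∀ n, ∫ x, ((g (n + 1)).1 x - u x) ^ 2 ∂m ≤ E n ∧ E (n + 1) ≤ 1 / 2 * E n := by
    intro n
    have hs := sob_sub (g n).2.1 hu.1
    obtain ⟨h1, h2⟩ := hΓ hs
    have h3 := ((hT (g n)).sub hH isWt_zero (hf.1.1.add (hΓ (g n).2.1).1)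
      (hf.1.1.add (hΓ hu.1).1) hu0).congr
      (f' := fun x => lam⁻¹ * gradPairing m V (fun y => (g n).1 y - u y) x) (by
        filter_upwards [gamma_sub_right hH (g n).2.1.2.1 hu.1.2.1 hVs] with x c
        rw [c, Pi.add_apply, Pi.add_apply]
        ring) (ae_eq_refl _)
    obtain ⟨h4, h5, -⟩ := h3.energy isWt_zero hl h1
    simp only [Pi.zero_apply, Real.exp_zero, one_mul, ← hg] at h4 h5
    have h6 : ∫ x, (lam⁻¹ * gradPairing m V (fun y => (g n).1 y - u y) x) ^ 2 ∂m ≤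
        (lam⁻¹ * LV) ^ 2 * E n := by
      rw [hE', ← integral_const_mul]
      refine integral_mono_ae h1.integrable_sq (hs.2.2.integrable_sq.const_mul _) ?_
      filter_upwards [h2] with x c
      rw [← mul_pow, mul_assoc, ← sq_abs]
      exact pow_le_pow_left₀ (abs_nonneg _) c 2
    have h7 : lam * (lam⁻¹ * LV) ^ 2 ≤ 1 / 2 := by
      rw [show lam * (lam⁻¹ * LV) ^ 2 = (LV : ℝ) ^ 2 / lam by field_simp, div_le_iff₀ hl]
      nlinarith [sq_nonneg (LV : ℝ)]
    have h8 : (lam⁻¹ * LV) ^ 2 ≤ 1 := by nlinarith [sq_nonneg (LV : ℝ), sq_nonneg (lam⁻¹ * LV)]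
    refine ⟨h4.trans (h6.trans (mul_le_of_le_one_left (hE0 n) h8)),
      h5.trans ((mul_le_mul_of_nonneg_left h6 hl.le).trans ?_)⟩
    rw [← mul_assoc]
    exact mul_le_mul_of_nonneg_right h7 (hE0 n)
  have hlim : Tendsto E atTop (𝓝 0) := by
    refine squeeze_zero hE0 (g := fun n => E 0 * (1 / 2) ^ n) (fun n => ?_) (by
      simpa using (tendsto_pow_atTop_nhds_zero_of_lt_one (r := (1 / 2 : ℝ)) (by norm_num)
        (by norm_num)).const_mul (E 0))
    induction n with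
    | zero => simp
    | succ n ih => rw [pow_succ]; linarith [(key n).2]
  have hc : W12Conv m (fun n => (g n).1) u := ⟨(tendsto_add_atTop_iff_nat 1).1
    (squeeze_zero (fun _ => integral_nonneg fun _ => sq_nonneg _) (fun n => (key n).1) hlim), hlim⟩
  obtain ⟨A, hA⟩ := hc.bounded (fun n => (g n).2.1) hu.1
  exact D_le_of_limit (fun n => (g n).2.1) hu.1.1 hc.1 hA fun n => (g n).2.2

end Crest.Agent.R242
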