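import Crest.Agent.R242.Kuwada
import Crest.Agent.R242.WGrad
import Crest.Agent.R242.WResLip
import Crest.Agent.R242.RealAux

/-! Row 242: the limit of the interior terms in Kuwada's argument. -/

set_option autoImplicit false
set_option linter.unusedSectionVars false

open MeasureTheory Filter Set Topology
open scoped ENNReal NNReal
open Crest.GeometryTopology.SyntheticRicci

namespace Crest.Agent.R242

variable {X : Type*} [MetricSpace X] [ProperSpace X] [MeasurableSpace X] [BorelSpace X]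
  {m : Measure X} [IsLocallyFiniteMeasure m] [m.IsOpenPosMeasure]

theorem StarStep_tend {μ : Measure X} [IsProbabilityMeasure μ] {C : ℝ≥0}
    (hμ : μ ≤ (C : ℝ≥0∞) • m) {u : ℕ → X → ℝ} {f : X → ℝ} (hu : ∀ n, MemLp (u n) 2 m)
    (hf : MemLp f 2 m) (h : L2Conv m u f) :
    Tendsto (fun n => ∫ x, u n x ∂μ) atTop (𝓝 (∫ x, f x ∂μ)) := by
  rw [← tendsto_sub_nhds_zero_iff]
  have h1 : Tendsto (fun n => √(C * ∫ x, (u n x - f x) ^ 2 ∂m)) atTop (𝓝 0) := by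
    have := (h.const_mul (C : ℝ)).sqrt
    rwa [mul_zero, Real.sqrt_zero] at this
  refine squeeze_zero_norm (fun n => ?_) h1
  rw [← integral_sub (abs_integral_le_of_le_smul hμ (hu n)).1
    (abs_integral_le_of_le_smul hμ hf).1]
  exact (abs_integral_le_of_le_smul hμ ((hu n).sub hf)).2

theorem StarStep_theta {κ lam₀ : ℝ} {F G : X → ℝ} (H : Hyp m κ lam₀ F G) (ε : ℝ) :
    AEStronglyMeasurable (fun x => 8 * κ + G x / ε) m ∧
      ∃ B : ℝ, 0 ≤ B ∧ ∀ x, |8 * κ + G x / ε| ≤ B := by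
  have hG := H.Gc
  obtain ⟨B, hB⟩ := H.Gb
  refine ⟨Continuous.aestronglyMeasurable (by fun_prop), |8 * κ| + |B| / |ε|, by positivity,
    fun x => (abs_add_le _ _).trans ?_⟩
  rw [abs_div]
  have := (hB x).trans (le_abs_self B)
  gcongr

/-- The bound on the derivative at one time. -/
theorem StarStep_pt {κ lam₀ : ℝ} {F G : X → ℝ} (H : Hyp m κ lam₀ F G) {ε : ℝ} (hε : 0 < ε)
    {ψ : X → ℝ} {Λ : ℝ≥0} {o' : X} (hψ : CPot ψ Λ o') {P : Measure (UCurve X)} {C : ℝ≥0} {o : X}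
    {R : ℝ} (hP : IsGP m P C o R) {lam : ℝ} (hl : 0 < lam) {u : ℝ → X → ℝ}
    (hu : ∀ s ∈ Icc (0 : ℝ) 1, IsRes m (fun x => F x / ε) lam (hopfLax ψ s) (u s))
    {s : ℝ} (hs : s ∈ Ioo (0 : ℝ) 1) {L : ℝ} (hL : LipS m (u s) L) {b : X → ℝ}
    (hb : IsRes m (fun x => F x / ε) lam
      (fun x => (8 * κ + G x / ε) * gradPairing m (u s) (u s) x) b) {a : ℝ}
    (hd : HasDerivAt (fun s => ∫ x, u s x ∂(marg P s)) a s) :
    lam * (a - (∫ γ, len γ ^ 2 ∂P) / 2) ≤ ∫ x, b x ∂(marg P s) -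
      lam / 2 * (√(∫ x, gradPairing m (u s) (u s) x ∂(marg P s)) - √(∫ γ, len γ ^ 2 ∂P)) ^ 2 := by
  have hH := H.good.hilb
  obtain ⟨LV, B, -, -, hV⟩ := H.wt ε
  have hs' := Ioo_subset_Icc_self hs
  have hf := hψ.hopfLax hs'
  have hfL := hf.lipS (m := m)
  obtain ⟨β, hβ⟩ := exists_res hH hV hl (hfL.gamma_memLp hH).1
  have h1 := kuwada_deriv hH hV hl hψ hP hu hs hβ hd
  have huB := IsRes.abs_le hH hV hl hfL.1.1 (hu s hs') (c := (Λ ^ 2 + 2 * Λ + 1 : ℝ≥0))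
    (Eventually.of_forall fun x => abs_le.2
      ⟨(hf.bd x).1, (hf.bd x).2.trans (NNReal.coe_nonneg _)⟩)
  have h2 := wgrad H hε hl hfL (hu s hs') hL.2 huB hβ hb
  have hμ := hP.bdd s
  have := hμ.1
  have iΓ := (abs_integral_le_of_le_smul hμ.2.1 (hL.gamma_memLp hH).1).1
  have iβ := (abs_integral_le_of_le_smul hμ.2.1 hβ.1.1).1
  have ib := (abs_integral_le_of_le_smul hμ.2.1 hb.1.1).1
  have h3 : ∫ x, gradPairing m (u s) (u s) x ∂(marg P s) ≤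
      ∫ x, β x ∂(marg P s) + 2 / lam * ∫ x, b x ∂(marg P s) := by
    rw [← integral_const_mul, ← integral_add iβ (ib.const_mul _)]
    exact integral_mono_ae iΓ (iβ.add (ib.const_mul _)) (hμ.ac.ae_le h2)
  have hA : 0 ≤ ∫ x, gradPairing m (u s) (u s) x ∂(marg P s) :=
    integral_nonneg_of_ae (hμ.ac.ae_le ((hL.gamma_memLp hH).2.mono fun x hx => hx.1))
  have hW : 0 ≤ ∫ γ, len γ ^ 2 ∂P := integral_nonneg fun γ => sq_nonneg _
  set A := ∫ x, gradPairing m (u s) (u s) x ∂(marg P s)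
  set W := ∫ γ, len γ ^ 2 ∂P
  have h4 : lam * A ≤ lam * ∫ x, β x ∂(marg P s) + 2 * ∫ x, b x ∂(marg P s) := by
    refine (mul_le_mul_of_nonneg_left h3 hl.le).trans (le_of_eq ?_)
    field_simp
  have h5 := mul_le_mul_of_nonneg_left h1 hl.le
  rw [sub_sq, Real.sq_sqrt hA, Real.sq_sqrt hW]
  nlinarith

theorem StarStep_main {κ lam₀ : ℝ} {F G : X → ℝ} (H : Hyp m κ lam₀ F G) {ε : ℝ} (hε : 0 < ε)
    {ψ : X → ℝ} {Λ : ℝ≥0} {o' : X} (hψ : CPot ψ Λ o') {P : Measure (UCurve X)} {C : ℝ≥0} {o : X}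
    {R : ℝ} (hP : IsGP m P C o R) {k : ℝ} (hk : ∀ x, dist x o ≤ R → G x ≤ k) {lam : ℕ → ℝ}
    (hl : ∀ n, 0 < lam n) (hlam : Tendsto lam atTop atTop) {u : ℕ → ℝ → X → ℝ}
    (hu : ∀ n, ∀ s ∈ Icc (0 : ℝ) 1, IsRes m (fun x => F x / ε) (lam n) (hopfLax ψ s) (u n s))
    {L : ℝ} (hL : ∀ n, ∀ s ∈ Icc (0 : ℝ) 1, LipS m (u n s) L)
    (hL' : ∀ s ∈ Icc (0 : ℝ) 1, LipS m (hopfLax ψ s) L) {η : ℝ} (hη : 0 < η) :
    ∀ᶠ n in atTop, lam n * (∫ x, u n 1 x ∂(marg P 1) - ∫ x, u n 0 x ∂(marg P 0) -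
      (∫ γ, len γ ^ 2 ∂P) / 2) ≤ (8 * κ + k / ε) * (∫ γ, len γ ^ 2 ∂P) + η := by
  have hH := H.good.hilb
  obtain ⟨LV, B, -, -, hV⟩ := H.wt ε
  obtain ⟨mθ, Bθ, hBθ0, hBθ⟩ := StarStep_theta H ε
  have hW : 0 ≤ ∫ γ, len γ ^ 2 ∂P := integral_nonneg fun γ => sq_nonneg _
  have hg : ∀ {f : X → ℝ}, LipS m f L →
      MemLp (fun x => (8 * κ + G x / ε) * gradPairing m f f x) 2 m := fun hf =>
    C2_bdd mθ (Eventually.of_forall hBθ) (hf.gamma_memLp hH).1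
  choose b hb using fun (n : ℕ) (s : ℝ) (hs : s ∈ Icc (0 : ℝ) 1) =>
    exists_res hH hV (hl n) (hg (hL n s hs))
  choose K hK using fun n => kuwada_lip hH hV (hl n) hψ hP (hu n) (fun s hs => (hL n s hs).2)
  have hF := fun n => lipschitzOn_ftc (hK n)
  have hpt : ∀ᵐ s ∂(volume.restrict (Icc (0 : ℝ) 1)), ∃ hs : s ∈ Icc (0 : ℝ) 1, ∀ n,
      lam n * (deriv (fun s => ∫ x, u n s x ∂(marg P s)) s - (∫ γ, len γ ^ 2 ∂P) / 2) ≤
        ∫ x, b n s hs x ∂(marg P s) - lam n / 2 *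
          (√(∫ x, gradPairing m (u n s) (u n s) x ∂(marg P s)) - √(∫ γ, len γ ^ 2 ∂P)) ^ 2 := by
    filter_upwards [ae_all_iff.2 fun n => (hF n).1] with s hs
    have hs' := Ioo_subset_Icc_self (hs 0).1
    exact ⟨hs', fun n => StarStep_pt H hε hψ hP (hl n) (hu n) (hs n).1 (hL n s hs') (hb n s hs')
      (hs n).2.hasDerivAt⟩
  have key := integral_le_of_limsup
    (r := fun n s => lam n * (deriv (fun s => ∫ x, u n s x ∂(marg P s)) s -
      (∫ γ, len γ ^ 2 ∂P) / 2)) (C := Bθ * L ^ 2) (c := (8 * κ + k / ε) * (∫ γ, len γ ^ 2 ∂P))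
    (fun n => Integrable.const_mul (f := fun s => deriv (fun s => ∫ x, u n s x ∂(marg P s)) s -
      (∫ γ, len γ ^ 2 ∂P) / 2) ((hF n).2.1.sub (integrableOn_const (by simp))) _)
    (fun n => ?_) ?_ hη
  · filter_upwards [key] with n hn
    rw [integral_const_mul, integral_sub (hF n).2.1 (integrableOn_const (by simp)),
      (hF n).2.2] at hn
    simpa using hn
  · filter_upwards [hpt] with s ⟨hs, h⟩
    have hμ := hP.bdd s
    have := hμ.1
    have h1 : ∀ᵐ x ∂m, |b n s hs x| ≤ Bθ * L ^ 2 := by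
      refine IsRes.abs_le hH hV (hl n) (hg (hL n s hs)) (hb n s hs) ?_
      filter_upwards [((hL n s hs).gamma_memLp hH).2] with x hx
      rw [abs_mul, abs_of_nonneg hx.1]
      exact mul_le_mul (hBθ x) hx.2 hx.1 hBθ0
    have h2 : ∫ x, b n s hs x ∂(marg P s) ≤ Bθ * L ^ 2 := by
      have h3 := norm_integral_le_of_norm_le_const (μ := marg P s) (f := b n s hs)
        (C := Bθ * L ^ 2) (hμ.ac.ae_le h1)
      rw [probReal_univ, mul_one] at h3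
      exact (le_abs_self _).trans h3
    have h4 := mul_nonneg (half_pos (hl n)).le (sq_nonneg
      (√(∫ x, gradPairing m (u n s) (u n s) x ∂(marg P s)) - √(∫ γ, len γ ^ 2 ∂P)))
    linarith [h n]
  · filter_upwards [hpt] with s ⟨hs, h⟩ η hη
    have hμ := hP.bdd s
    have := hμ.1
    have hf := hL' s hs
    have c1 := res_W12Conv hH hV hl hlam hf.1 fun n => hu n s hs
    have c2 := c1.gamma_L2 hH (fun n => hL n s hs) hf
    have c3 := c2.bdd_mul (fun n => ((hL n s hs).gamma_memLp hH).1) (hf.gamma_memLp hH).1 mθ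
      (Eventually.of_forall hBθ)
    have c4 := res_L2Conv hH hV hl hlam (fun n => hg (hL n s hs)) (hg hf) (fun n => hb n s hs) c3
    have t1 := StarStep_tend hμ.2.1 (fun n => ((hL n s hs).gamma_memLp hH).1)
      (hf.gamma_memLp hH).1 c2
    have t2 := StarStep_tend hμ.2.1 (fun n => (hb n s hs).1.1) (hg hf) c4
    have h0 := hμ.ac.ae_le ((hf.gamma_memLp hH).2.mono fun x hx => hx.1)
    have h1 := limsup_penal (k := 8 * κ + k / ε) (Real.sqrt_nonneg _) (integral_nonneg_of_ae h0)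
      t1 t2 ?_ hlam h hη
    · rwa [Real.sq_sqrt hW] at h1
    · rw [← integral_const_mul]
      refine integral_mono_ae (abs_integral_le_of_le_smul hμ.2.1 (hg hf)).1
        ((abs_integral_le_of_le_smul hμ.2.1 (hf.gamma_memLp hH).1).1.const_mul _) ?_
      filter_upwards [h0, hμ.ae_mem] with x hx hx'
      have := hk x hx'
      gcongr

/-- For large parameters the rescaled excess along the plan is bounded by the Hessian bound. -/
theorem star_step {κ lam₀ : ℝ} {F G : X → ℝ} (H : Hyp m κ lam₀ F G) {ε : ℝ} (hε : 0 < ε)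
    {ψ : X → ℝ} {Λ : ℝ≥0} {o' : X} (hψ : CPot ψ Λ o') {P : Measure (UCurve X)} {C : ℝ≥0} {o : X}
    {R : ℝ} (hP : IsGP m P C o R) {k : ℝ} (hk : ∀ x, dist x o ≤ R → G x ≤ k) {lam : ℕ → ℝ}
    (hl : ∀ n, 0 < lam n) (hlam : Tendsto lam atTop atTop) {u : ℕ → ℝ → X → ℝ}
    (hu : ∀ n, ∀ s ∈ Icc (0 : ℝ) 1, IsRes m (fun x => F x / ε) (lam n) (hopfLax ψ s) (u n s))
    {η : ℝ} (hη : 0 < η) :
    ∀ᶠ n in atTop, lam n * (∫ x, u n 1 x ∂(marg P 1) - ∫ x, u n 0 x ∂(marg P 0) -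
      (∫ γ, len γ ^ 2 ∂P) / 2) ≤ (8 * κ + k / ε) * (∫ γ, len γ ^ 2 ∂P) + η := by
  obtain ⟨LV, B, hV, hB, -⟩ := H.wt ε
  obtain ⟨lam₁, -, h1⟩ := wres_lipS H.good H.ge hV hB
  obtain ⟨N, hN⟩ := eventually_atTop.1 (hlam.eventually_ge_atTop lam₁)
  have hf : ∀ s ∈ Icc (0 : ℝ) 1, LipS m (hopfLax ψ s) (Λ ^ 2 + 2 * Λ + 1 : ℝ≥0) :=
    fun s hs => (hψ.hopfLax hs).lipS
  obtain ⟨N', h⟩ := eventually_atTop.1 (StarStep_main H hε hψ hP hk (lam := fun n => lam (n + N))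
    (fun n => hl _) (hlam.comp (tendsto_add_atTop_nat N)) (u := fun n => u (n + N))
    (fun n => hu _) (L := 4 * (Λ ^ 2 + 2 * Λ + 1 : ℝ≥0))
    (fun n s hs => h1 _ (hN _ (Nat.le_add_left _ _)) _ _ _ (hf s hs) (hu _ s hs))
    (fun s hs => (hf s hs).mono (by linarith [NNReal.coe_nonneg (Λ ^ 2 + 2 * Λ + 1)])) hη)
  refine eventually_atTop.2 ⟨N' + N, fun n hn => ?_⟩
  have := h (n - N) (by omega)
  rwa [Nat.sub_add_cancel (by omega)] at this

end Crest.Agent.R242
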