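import Crest.Agent.R242.TestPlan
import Crest.Agent.R242.OneD

/-! Row 242: weak upper gradients along almost every curve. -/

set_option autoImplicit false
set_option linter.unusedSectionVars false

open MeasureTheory Filter Set Topology
open scoped ENNReal NNReal
open Crest.GeometryTopology.SyntheticRicci

namespace Crest.Agent.R242

variable {X : Type*} [MetricSpace X] [ProperSpace X] [MeasurableSpace X] [BorelSpace X]
  {m : Measure X} [IsLocallyFiniteMeasure m] [m.IsOpenPosMeasure]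

theorem isWUGLoc_congr {f f' D D' : X → ℝ} (h : IsWUGLoc m f D) (hf : f =ᵐ[m] f')
    (hD : D =ᵐ[m] D') : IsWUGLoc m f' D' := by
  refine ⟨fun o R => (h.1 o R).ae_eq (ae_restrict_of_ae hD), ?_, fun P hP hB => ?_⟩
  · filter_upwards [h.2.1, hD] with x h1 h2 using h2 ▸ h1
  · refine le_trans (le_of_eq ?_) ((h.2.2 P hP hB).trans (le_of_eq ?_))
    · refine lintegral_congr_ae ?_
      filter_upwards [testPlan_ae_ext hP hf 0, testPlan_ae_ext hP hf 1] with γ h0 h1
      rw [ext_zero] at h0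
      rw [ext_one] at h1
      rw [h0, h1]
    · refine lintegral_congr_ae ?_
      filter_upwards [testPlan_ae_ae_ext hP hD] with γ h0
      refine lintegral_congr_ae ?_
      filter_upwards [h0] with t ht
      rw [ht]

theorem isL2OnBalls_aemeasurable {f : X → ℝ} (hf : IsL2OnBalls m f) :
    AEStronglyMeasurable f m := by
  rcases isEmpty_or_nonempty X with hX | ⟨⟨o⟩⟩
  · rw [Measure.eq_zero_of_isEmpty m]
    exact aestronglyMeasurable_zero_measure f
  · rw [← Measure.restrict_univ (μ := m), ← Metric.iUnion_ball_nat o,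
      aestronglyMeasurable_iUnion_iff]
    exact fun n => (hf o n).1

theorem St_change (a : ℝ → ℝ≥0∞) {s t : ℝ} (hst : s ≤ t) :
    ∫⁻ r in Icc (0 : ℝ) 1, ENNReal.ofReal |t - s| * a (s + (t - s) * r) ≤ ∫⁻ r in Icc s t, a r := by
  rcases hst.eq_or_lt with rfl | hlt
  · simp
  have h := lintegral_image_eq_lintegral_abs_deriv_mul (s := Icc (0 : ℝ) 1)
    (f := fun r => s + (t - s) * r) (f' := fun _ => t - s) measurableSet_Icc
    (fun x _ => by
      have := ((hasDerivAt_id' x).const_mul (t - s)).const_add s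
      rw [mul_one] at this
      exact this.hasDerivWithinAt)
    (fun x _ y _ hxy => mul_left_cancel₀ (sub_pos.2 hlt).ne' (add_left_cancel hxy)) a
  rw [← h]
  refine lintegral_mono_set ?_
  rintro _ ⟨r, hr, rfl⟩
  constructor <;> nlinarith [hr.1, hr.2]

theorem St_meas {D : X → ℝ} (hD : Measurable D) : Measurable fun p : UCurve X × ℝ =>
    ENNReal.ofReal (D (p.1.ext p.2)) * upperSpeed p.1 p.2 :=
  (hD.comp continuous_ext.measurable).ennreal_ofReal.mul measurable_upperSpeed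

theorem St_restr {f D : X → ℝ} (hf : Measurable f) (hD : IsWUGLoc m f D)
    {P : Measure (UCurve X)} (hP : IsTestPlan2 m P) (hB : HasBoundedTracks P) {s t : ℝ}
    (hs : 0 ≤ s) (hst : s ≤ t) (ht : t ≤ 1) :
    ∫⁻ γ, ENNReal.ofReal |f (γ.ext t) - f (γ.ext s)| ∂P ≤
      ∫⁻ γ, (∫⁻ r in Icc s t, ENNReal.ofReal (D (γ.ext r)) * upperSpeed γ r) ∂P := by
  obtain ⟨h1, h2⟩ := testPlan_map_restr hP hB (a := s) (b := t) ⟨hs, hst.trans ht⟩
    ⟨hs.trans hst, ht⟩
  have h := hD.2.2 _ h1 h2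
  simp only [← ext_one, ← ext_zero] at h
  rw [lintegral_map (f := fun γ : UCurve X => ENNReal.ofReal |f (γ.ext 1) - f (γ.ext 0)|)
    ((hf.comp (continuous_ext_left 1).measurable).sub
      (hf.comp (continuous_ext_left 0).measurable)).abs.ennreal_ofReal
    (continuous_restr s t).measurable] at h
  refine le_trans (le_of_eq ?_) (h.trans ((lintegral_map_le _ _).trans (lintegral_mono fun γ => ?_)))
  · refine lintegral_congr fun γ => ?_
    rw [restr_ext s t γ ⟨zero_le_one, le_rfl⟩, restr_ext s t γ ⟨le_rfl, zero_le_one⟩]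
    simp
  · refine le_trans ?_ (St_change _ hst)
    rw [← restrict_Ioo_eq_restrict_Icc]
    refine setLIntegral_mono' measurableSet_Ioo fun r hr => ?_
    rw [restr_ext s t γ (Ioo_subset_Icc_self hr), mul_left_comm]
    exact mul_le_mul_right (upperSpeed_restr_le s t γ hr) _

theorem St_ae {f D : X → ℝ} (hf : Measurable f) (hD : IsWUGLoc m f D)
    {P : Measure (UCurve X)} (hP : IsTestPlan2 m P) (hB : HasBoundedTracks P) {s t : ℝ}
    (hs : 0 ≤ s) (hst : s ≤ t) (ht : t ≤ 1) :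
    ∀ᵐ γ ∂P, ENNReal.ofReal |f (γ.ext t) - f (γ.ext s)| ≤
      ∫⁻ r in Icc s t, ENNReal.ofReal (D (γ.ext r)) * upperSpeed γ r := by
  have := hP.1
  refine ae_le_of_forall_setLIntegral_le_of_sigmaFinite
    ((hf.comp (continuous_ext_left t).measurable).sub
      (hf.comp (continuous_ext_left s).measurable)).abs.ennreal_ofReal fun A hA hAf => ?_
  by_cases h0 : P A = 0
  · rw [setLIntegral_measure_zero _ _ h0]; exact zero_le
  obtain ⟨h1, h2⟩ := testPlan_cond hP hB hA h0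
  have h := St_restr hf hD h1 h2 hs hst ht
  rw [ProbabilityTheory.cond, lintegral_smul_measure, lintegral_smul_measure, smul_eq_mul,
    smul_eq_mul] at h
  exact (ENNReal.mul_le_mul_iff_right (ENNReal.inv_ne_zero.2 hAf.ne) (ENNReal.inv_ne_top.2 h0)).1 h

theorem St_ae_ae {f D : X → ℝ} (hf : Measurable f) (hDm : Measurable D) (hD : IsWUGLoc m f D)
    {P : Measure (UCurve X)} (hP : IsTestPlan2 m P) (hB : HasBoundedTracks P) {s : ℝ} (hs : 0 ≤ s) :
    ∀ᵐ γ ∂P, ∀ᵐ t ∂(volume.restrict (Icc (0 : ℝ) 1)), s ≤ t →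
      ENNReal.ofReal |f (γ.ext t) - f (γ.ext s)| ≤
        ∫⁻ r in Icc s t, ENNReal.ofReal (D (γ.ext r)) * upperSpeed γ r := by
  have := hP.1
  have h1 : Measurable fun p : UCurve X × ℝ =>
      ∫⁻ r in Icc s p.2, ENNReal.ofReal (D (p.1.ext r)) * upperSpeed p.1 r := by
    have h2 : Measurable fun q : (UCurve X × ℝ) × ℝ => {q : (UCurve X × ℝ) × ℝ |
        s ≤ q.2 ∧ q.2 ≤ q.1.2}.indicator
          (fun q => ENNReal.ofReal (D (q.1.1.ext q.2)) * upperSpeed q.1.1 q.2) q :=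
      ((St_meas hDm).comp (measurable_fst.fst.prodMk measurable_snd)).indicator
        ((measurableSet_le measurable_const measurable_snd).inter
          (measurableSet_le measurable_snd measurable_fst.snd))
    convert h2.lintegral_prod_right' (ν := volume) using 2 with p
    rw [← lintegral_indicator measurableSet_Icc]
    rfl
  refine (Measure.ae_ae_comm ?_).2 ?_
  · refine MeasurableSet.imp (measurableSet_le measurable_const measurable_snd)
      (measurableSet_le ?_ h1)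
    exact ((hf.comp continuous_ext.measurable).sub
      (hf.comp ((continuous_ext_left s).measurable.comp measurable_fst))).abs.ennreal_ofReal
  · filter_upwards [ae_restrict_mem measurableSet_Icc] with t ht
    by_cases hst : s ≤ t
    · filter_upwards [St_ae hf hD hP hB hs hst ht.2] with γ h _ using h
    · exact .of_forall fun γ h => absurd h hst

theorem St_eq {a : ℝ → ℝ≥0∞} (hfin : ∫⁻ r in Icc (0 : ℝ) 1, a r < ⊤) {w v : ℝ → ℝ} {t : ℝ}
    (ht : t ∈ Ioc (0 : ℝ) 1) (h1 : ∀ q : ℚ, 0 ≤ q → q ≤ 1 → w q = v q)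
    (h2 : ∀ s : ℝ, 0 ≤ s → s ≤ t → ENNReal.ofReal |w t - w s| ≤ ∫⁻ r in Icc s t, a r)
    (h3 : ∀ q : ℚ, (0 : ℝ) ≤ q → (q : ℝ) ≤ t → ENNReal.ofReal |v t - v q| ≤ ∫⁻ r in Icc (q : ℝ) t, a r) :
    w t = v t := by
  refine eq_of_forall_dist_le fun ε hε => ?_
  obtain ⟨δ, hδ, hh⟩ := exists_pos_setLIntegral_lt_of_measure_lt hfin.ne
    (ε := ENNReal.ofReal (ε / 2)) (by simpa using hε)
  obtain ⟨δ', h0, hδ'⟩ := ENNReal.lt_iff_exists_real_btwn.1 hδ
  have hδ0 : 0 < δ' := by simpa using hδ'.1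
  obtain ⟨q, q1, q2⟩ := exists_rat_btwn (show max 0 (t - δ') < t from max_lt ht.1 (by linarith))
  have q0 : (0 : ℝ) ≤ q := (le_max_left _ _).trans q1.le
  have hsub : Icc (q : ℝ) t ⊆ Icc 0 1 := Icc_subset_Icc q0 ht.2
  have h4 := hh (Icc q t) (by
    refine (Measure.restrict_apply_le _ _).trans_lt (lt_of_le_of_lt ?_ hδ'.2)
    rw [Real.volume_Icc]
    exact ENNReal.ofReal_le_ofReal (by linarith [(le_max_right _ _).trans q1.le]))
  rw [Measure.restrict_restrict_of_subset hsub] at h4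
  have h5 := (ENNReal.ofReal_le_ofReal_iff (half_pos hε).le).1 ((h2 q q0 q2.le).trans h4.le)
  have h6 := (ENNReal.ofReal_le_ofReal_iff (half_pos hε).le).1 ((h3 q q0 q2.le).trans h4.le)
  rw [h1 q (by exact_mod_cast q0) (by exact_mod_cast q2.le.trans ht.2)] at h5
  rw [Real.dist_eq, abs_le]
  constructor <;> linarith [abs_le.1 h5, abs_le.1 h6]

/-- Structure lemma. -/
theorem wug_structure {f D : X → ℝ} (hf : IsL2OnBalls m f) (hD : IsWUGLoc m f D)
    {P : Measure (UCurve X)} (hP : IsTestPlan2 m P) (hB : HasBoundedTracks P) :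
    ∀ᵐ γ ∂P, ∃ w : ℝ → ℝ, AbsolutelyContinuousOnInterval w 0 1 ∧ w 0 = f (γ.toMap 0) ∧
      w 1 = f (γ.toMap 1) ∧ ∀ᵐ t ∂(volume.restrict (Icc (0 : ℝ) 1)), w t = f (γ.ext t) ∧
        ENNReal.ofReal |deriv w t| ≤ ENNReal.ofReal (D (γ.ext t)) * upperSpeed γ t := by
  have := hP.1
  obtain ⟨f₀, hf₀, ef⟩ := (isL2OnBalls_aemeasurable hf).aemeasurable
  obtain ⟨D₀, hD₀, eD⟩ := (isL2OnBalls_aemeasurable hD.1).aemeasurable
  have hW := isWUGLoc_congr hD ef eD
  have h1 : ∀ᵐ γ ∂P, ∀ s t : ℚ, 0 ≤ s → s ≤ t → t ≤ 1 →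
      ENNReal.ofReal |f₀ (γ.ext t) - f₀ (γ.ext s)| ≤
        ∫⁻ r in Icc (s : ℝ) (t : ℝ), ENNReal.ofReal (D₀ (γ.ext r)) * upperSpeed γ r := by
    refine ae_all_iff.2 fun s => ae_all_iff.2 fun t => ?_
    by_cases h : 0 ≤ s ∧ s ≤ t ∧ t ≤ 1
    · filter_upwards [St_ae hf₀ hW hP hB (s := s) (t := t) (by exact_mod_cast h.1)
        (by exact_mod_cast h.2.1) (by exact_mod_cast h.2.2)] with γ hγ _ _ _ using hγ
    · exact .of_forall fun γ a b c => absurd ⟨a, b, c⟩ h
  have h2 : ∀ᵐ γ ∂P, ∫⁻ r in Icc (0 : ℝ) 1, ENNReal.ofReal (D₀ (γ.ext r)) * upperSpeed γ r < ⊤ :=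
    ae_lt_top (St_meas hD₀).lintegral_prod_right' (testPlan_lintegral_lt_top hP hB hW.1).1.ne
  have h3 : ∀ᵐ γ ∂P, ∀ᵐ t ∂(volume.restrict (Icc (0 : ℝ) 1)), ∀ q : ℚ, (0 : ℝ) ≤ q → (q : ℝ) ≤ t →
      ENNReal.ofReal |f₀ (γ.ext t) - f₀ (γ.ext q)| ≤
        ∫⁻ r in Icc (q : ℝ) t, ENNReal.ofReal (D₀ (γ.ext r)) * upperSpeed γ r := by
    simp only [ae_all_iff]
    exact fun q hq => St_ae_ae hf₀ hD₀ hW hP hB hq
  filter_upwards [h1, h2, h3, testPlan_ae_ext hP ef 0, testPlan_ae_ext hP ef 1,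
    testPlan_ae_ae_ext hP (ef.and eD)] with γ g1 g2 g3 g4 g5 g6
  obtain ⟨w, w1, w2, w3, w4⟩ := exists_ac_extension (fun t => f₀ (γ.ext t))
    (fun r => ENNReal.ofReal (D₀ (γ.ext r)) * upperSpeed γ r)
    ((St_meas hD₀).comp measurable_prodMk_left).aemeasurable g2 g1
  refine ⟨w, w1, ?_, ?_, ?_⟩
  · rw [← ext_zero, g4]; simpa using w2 0 le_rfl zero_le_one
  · rw [← ext_one, g5]; simpa using w2 1 zero_le_one le_rfl
  · have g7 : ∀ᵐ t ∂(volume.restrict (Icc (0 : ℝ) 1)), t ∈ Ioc (0 : ℝ) 1 := by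
      rw [← restrict_Ioc_eq_restrict_Icc]
      exact ae_restrict_mem measurableSet_Ioc
    filter_upwards [g3, g6, g7, w4] with t k1 k2 k3 k4
    rw [k2.1, k2.2]
    exact ⟨St_eq (v := fun t => f₀ (γ.ext t)) g2 k3 w2 (fun s a b => w3 s t a b k3.2) k1, k4⟩

/-- Converse criterion. -/
theorem isWUGLoc_of_ac {f D : X → ℝ} (hD : IsL2OnBalls m D) (hD0 : ∀ᵐ x ∂m, 0 ≤ D x)
    (h : ∀ P : Measure (UCurve X), IsTestPlan2 m P → HasBoundedTracks P →
      ∀ᵐ γ ∂P, ∃ w : ℝ → ℝ, AbsolutelyContinuousOnInterval w 0 1 ∧ w 0 = f (γ.toMap 0) ∧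
        w 1 = f (γ.toMap 1) ∧ ∀ᵐ t ∂(volume.restrict (Icc (0 : ℝ) 1)),
          ENNReal.ofReal |deriv w t| ≤ ENNReal.ofReal (D (γ.ext t)) * upperSpeed γ t) :
    IsWUGLoc m f D := by
  refine ⟨hD, hD0, fun P hP hB => lintegral_mono_ae ?_⟩
  filter_upwards [h P hP hB] with γ ⟨w, w1, w2, w3, w4⟩
  rw [← w2, ← w3]
  exact (ofReal_abs_sub_le_lintegral_deriv w1).trans (lintegral_mono_ae w4)

/-- The upper gradient inequality along a geodesic plan, in real form. -/
theorem IsGP.abs_integral_sub_le {P : Measure (UCurve X)} {C : ℝ≥0} {o : X} {R : ℝ}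
    (hP : IsGP m P C o R) {f D : X → ℝ} (hf : IsL2OnBalls m f) (hD : IsWUGLoc m f D) {s t : ℝ}
    (hs : 0 ≤ s) (hst : s ≤ t) (ht : t ≤ 1) :
    |∫ x, f x ∂(marg P t) - ∫ x, f x ∂(marg P s)| ≤
      √((t - s) * ∫ γ, len γ ^ 2 ∂P) * √(∫ r in s..t, ∫ x, D x ^ 2 ∂(marg P r)) := by
  have := hP.1
  obtain ⟨hT, hB⟩ := hP.isTestPlan
  obtain ⟨f₀, hf₀, ef⟩ := (isL2OnBalls_aemeasurable hf).aemeasurable
  obtain ⟨D₀, hD₀, eD⟩ := (isL2OnBalls_aemeasurable hD.1).aemeasurable
  have hW := isWUGLoc_congr hD ef eD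
  have hac : ∀ r, marg P r ≪ m := fun r => Measure.absolutelyContinuous_of_le_smul (hP.2.2.2 r)
  have hsub : Metric.closedBall o R ⊆ Metric.ball o (R + 1) :=
    Metric.closedBall_subset_ball (lt_add_one R)
  have hfin : IsFiniteMeasure (m.restrict (Metric.ball o (R + 1))) :=
    isFiniteMeasure_restrict.2 Metric.isBounded_ball.measure_lt_top.ne
  have if₀ : IntegrableOn f₀ (Metric.closedBall o R) m :=
    IntegrableOn.mono_set (((hf o (R + 1)).ae_eq (ae_restrict_of_ae ef)).integrable one_le_two) hsub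
  have iD : IntegrableOn (fun x => D₀ x ^ 2) (Metric.closedBall o R) m :=
    IntegrableOn.mono_set (hW.1 o (R + 1)).integrable_sq hsub
  have e1 : ∀ r, ∫ x, f x ∂(marg P r) = ∫ γ, f₀ (γ.ext r) ∂P := fun r => by
    rw [integral_congr_ae ((hac r).ae_eq ef), marg,
      integral_map (continuous_ext_left r).aemeasurable hf₀.aestronglyMeasurable]
  have i1 : ∀ r, Integrable (fun γ : UCurve X => f₀ (γ.ext r)) P := fun r =>
    (integrable_map_measure hf₀.aestronglyMeasurable (continuous_ext_left r).aemeasurable).1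
      ((hP.bdd r).integrable if₀)
  have e2 : ∀ r, ∫ x, D x ^ 2 ∂(marg P r) = ∫ x, D₀ x ^ 2 ∂(marg P r) := fun r => by
    refine integral_congr_ae ?_
    filter_upwards [(hac r).ae_eq eD] with x hx
    rw [hx]
  have hc := continuous_integral_marg hP.bdd iD
  have il : Integrable (fun γ : UCurve X => len γ ^ 2) P := by
    refine Integrable.of_bound (continuous_len.pow 2).aestronglyMeasurable ((2 * R) ^ 2) ?_
    filter_upwards [hP.2.2.1] with γ hγ
    rw [Real.norm_of_nonneg (sq_nonneg _)]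
    refine pow_le_pow_left₀ dist_nonneg ((dist_triangle_right _ _ o).trans ?_) 2
    linarith [Metric.mem_closedBall.1 (hγ 0), Metric.mem_closedBall.1 (hγ 1)]
  have hX : 0 ≤ (t - s) * ∫ γ, len γ ^ 2 ∂P :=
    mul_nonneg (sub_nonneg.2 hst) (integral_nonneg fun _ => sq_nonneg _)
  have hY : 0 ≤ ∫ r in s..t, ∫ x, D₀ x ^ 2 ∂(marg P r) :=
    intervalIntegral.integral_nonneg hst fun r _ => integral_nonneg fun _ => sq_nonneg _
  simp only [e1, e2]
  have mF : Measurable fun p : UCurve X × ℝ => ENNReal.ofReal (len p.1) :=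
    (continuous_len.measurable.comp measurable_fst).ennreal_ofReal
  have mG : Measurable fun p : UCurve X × ℝ => ENNReal.ofReal |D₀ (p.1.ext p.2)| :=
    (hD₀.comp continuous_ext.measurable).abs.ennreal_ofReal
  have hH := ENNReal.lintegral_mul_le_Lp_mul_Lq (P.prod (volume.restrict (Icc s t)))
    Real.HolderConjugate.two_two mF.aemeasurable mG.aemeasurable
  have a1 : ∫⁻ p : UCurve X × ℝ, ENNReal.ofReal (len p.1) ^ (2 : ℝ)
      ∂(P.prod (volume.restrict (Icc s t))) = ENNReal.ofReal ((t - s) * ∫ γ, len γ ^ 2 ∂P) := by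
    rw [lintegral_prod _ (mF.pow_const _).aemeasurable]
    simp only [setLIntegral_const, Real.volume_Icc]
    rw [lintegral_mul_const _ (continuous_len.measurable.ennreal_ofReal.pow_const _), mul_comm,
      ENNReal.ofReal_mul (sub_nonneg.2 hst),
      ofReal_integral_eq_lintegral_ofReal il (.of_forall fun _ => sq_nonneg _)]
    congr 1
    refine lintegral_congr fun γ => ?_
    rw [ENNReal.ofReal_rpow_of_nonneg (x := len γ) dist_nonneg two_pos.le, Real.rpow_two]
  have a2 : ∫⁻ p : UCurve X × ℝ, ENNReal.ofReal |D₀ (p.1.ext p.2)| ^ (2 : ℝ)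
      ∂(P.prod (volume.restrict (Icc s t))) =
      ENNReal.ofReal (∫ r in s..t, ∫ x, D₀ x ^ 2 ∂(marg P r)) := by
    rw [lintegral_prod_symm _ (mG.pow_const _).aemeasurable, intervalIntegral.integral_of_le hst,
      ← integral_Icc_eq_integral_Ioc,
      ofReal_integral_eq_lintegral_ofReal (hc.continuousOn.integrableOn_Icc)
        (.of_forall fun r => integral_nonneg fun _ => sq_nonneg _)]
    refine lintegral_congr fun r => ?_
    rw [ofReal_integral_eq_lintegral_ofReal ((hP.bdd r).integrable iD)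
      (.of_forall fun _ => sq_nonneg _), marg,
      lintegral_map (hD₀.pow_const 2).ennreal_ofReal (continuous_ext_left r).measurable]
    refine lintegral_congr fun γ => ?_
    rw [ENNReal.ofReal_rpow_of_nonneg (abs_nonneg _) two_pos.le, Real.rpow_two, sq_abs]
  rw [a1, a2, ENNReal.ofReal_rpow_of_nonneg hX (by norm_num),
    ENNReal.ofReal_rpow_of_nonneg hY (by norm_num), ← Real.sqrt_eq_rpow, ← Real.sqrt_eq_rpow,
    ← ENNReal.ofReal_mul (Real.sqrt_nonneg _),
    lintegral_prod _ (mF.mul mG).aemeasurable] at hH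
  refine (ENNReal.ofReal_le_ofReal_iff (by positivity)).1 (le_trans ?_ hH)
  rw [← integral_sub (i1 t) (i1 s)]
  refine (ENNReal.ofReal_le_ofReal abs_integral_le_integral_abs).trans ?_
  refine (ofReal_integral_eq_lintegral_ofReal ((i1 t).sub (i1 s)).abs
    (.of_forall fun _ => abs_nonneg _)).trans_le ?_
  refine (St_restr hf₀ hW hT hB hs hst ht).trans (lintegral_mono_ae ?_)
  filter_upwards [hP.2.1] with γ hγ
  refine lintegral_mono fun r => ?_
  rw [mul_comm]
  exact mul_le_mul' (geo_upperSpeed_le hγ r) (ENNReal.ofReal_le_ofReal (le_abs_self _))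

end Crest.Agent.R242
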