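import Crest.Agent.R242.Curves
import Crest.Agent.R242.LipApprox

/-! Row 242: operations on test plans. -/

set_option autoImplicit false
set_option linter.unusedSectionVars false

open MeasureTheory Filter Set Topology
open scoped ENNReal NNReal
open Crest.GeometryTopology.SyntheticRicci

namespace Crest.Agent.R242

variable {X : Type*} [MetricSpace X] [ProperSpace X] [MeasurableSpace X] [BorelSpace X]
  {m : Measure X} [IsLocallyFiniteMeasure m] [m.IsOpenPosMeasure]

/-- Almost sure properties pass to the image under a continuous map (inner regularity). -/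
theorem TestPlan_ae_map {P : Measure (UCurve X)} [IsFiniteMeasure P] {f : UCurve X → UCurve X}
    (hf : Continuous f) {p : UCurve X → Prop} (h : ∀ᵐ γ ∂P, p (f γ)) : ∀ᵐ γ ∂(P.map f), p γ := by
  rw [ae_iff] at h ⊢
  obtain ⟨N, hN, hNm, hN0⟩ := exists_measurable_superset_of_null h
  refine le_antisymm (ENNReal.le_of_forall_pos_le_add fun ε hε _ => ?_) zero_le
  obtain ⟨K, hKN, hK, hlt⟩ := hNm.compl.exists_isCompact_sdiff_lt (measure_ne_top P _)
    (ε := ε) (by exact_mod_cast hε.ne')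
  have h1 : {γ | ¬ p γ} ⊆ (f '' K)ᶜ := by
    rintro _ hγ ⟨δ, hδ, rfl⟩
    exact hKN hδ (hN hγ)
  have h2 : f ⁻¹' (f '' K)ᶜ ⊆ N ∪ Nᶜ \ K := by
    intro δ hδ
    by_cases hδN : δ ∈ N
    · exact Or.inl hδN
    · exact Or.inr ⟨hδN, fun hδK => hδ (mem_image_of_mem f hδK)⟩
  refine (measure_mono h1).trans ?_
  rw [Measure.map_apply hf.measurable (hK.image hf).measurableSet.compl]
  refine (measure_mono h2).trans ((measure_union_le _ _).trans ?_)
  rw [hN0]
  gcongr

theorem TestPlan_meas (t : ℝ) : Measurable fun γ : UCurve X => γ.ext t :=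
  (continuous_ext_left t).measurable

theorem TestPlan_mem {a b t : ℝ} (ha : a ∈ Icc (0 : ℝ) 1) (hb : b ∈ Icc (0 : ℝ) 1)
    (ht : t ∈ Icc (0 : ℝ) 1) : a + (b - a) * t ∈ Icc (0 : ℝ) 1 := by
  obtain ⟨a0, a1⟩ := ha
  obtain ⟨b0, b1⟩ := hb
  obtain ⟨t0, t1⟩ := ht
  constructor <;> nlinarith

theorem TestPlan_bdd {P : Measure (UCurve X)} [IsProbabilityMeasure P] {C : ℝ≥0} {o : X} {R : ℝ}
    (h1 : ∀ᵐ γ ∂P, ∀ t : unitInterval, γ.toMap t ∈ Metric.closedBall o R) (t : ℝ)
    (h2 : marg P t ≤ (C : ℝ≥0∞) • m) : Bdd m (marg P t) C o R := by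
  refine ⟨Measure.isProbabilityMeasure_map (TestPlan_meas t).aemeasurable, h2, ?_⟩
  rw [marg, Measure.map_apply (TestPlan_meas t) Metric.isClosed_closedBall.measurableSet.compl]
  refine measure_mono_null (fun γ hγ => ?_) (ae_iff.1 h1)
  exact fun h => hγ (h _)

theorem TestPlan_le_restrict {μ : Measure X} {C : ℝ≥0} {o : X} {R : ℝ} (hμ : Bdd m μ C o R) :
    μ ≤ (C : ℝ≥0∞) • m.restrict (Metric.closedBall o R) := by
  rw [← Measure.restrict_smul, ← Measure.restrict_eq_self_of_ae_mem (μ := μ)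
    (s := Metric.closedBall o R) hμ.2.2]
  exact Measure.restrict_mono le_rfl hμ.2.1

theorem TestPlan_cv {a b : ℝ} (ha : a ∈ Icc (0 : ℝ) 1) (hb : b ∈ Icc (0 : ℝ) 1) (hab : b - a ≠ 0)
    {g : ℝ → ℝ≥0∞} (hg : Measurable g) :
    ∫⁻ t in Icc (0 : ℝ) 1, g (a + (b - a) * t) ≤
      ENNReal.ofReal |(b - a)⁻¹| * ∫⁻ t in Icc (0 : ℝ) 1, g t := by
  have hm : Measurable fun t => (Icc (0 : ℝ) 1).indicator g (a + t) :=
    (hg.indicator measurableSet_Icc).comp (measurable_const_add a)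
  rw [← lintegral_indicator measurableSet_Icc g,
    ← lintegral_add_left_eq_self ((Icc (0 : ℝ) 1).indicator g) a, ← smul_eq_mul,
    ← lintegral_smul_measure, ← Real.map_volume_mul_left hab,
    lintegral_map hm (measurable_const_mul _)]
  refine (setLIntegral_mono' measurableSet_Icc fun t ht => ?_).trans
    (setLIntegral_le_lintegral _ _)
  rw [indicator_of_mem (TestPlan_mem ha hb ht)]

theorem TestPlan_energy {a b : ℝ} (ha : a ∈ Icc (0 : ℝ) 1) (hb : b ∈ Icc (0 : ℝ) 1) :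
    ∃ c : ℝ≥0∞, c ≠ ⊤ ∧ ∀ γ : UCurve X, ∫⁻ t in Icc (0 : ℝ) 1, upperSpeed (restr a b γ) t ^ 2 ≤
      c * ∫⁻ t in Icc (0 : ℝ) 1, upperSpeed γ t ^ 2 := by
  have h1 : ∀ γ : UCurve X, ∫⁻ t in Icc (0 : ℝ) 1, upperSpeed (restr a b γ) t ^ 2 ≤
      ENNReal.ofReal |b - a| ^ 2 * ∫⁻ t in Icc (0 : ℝ) 1, upperSpeed γ (a + (b - a) * t) ^ 2 := by
    intro γ
    rw [← lintegral_const_mul' _ _ (ENNReal.pow_ne_top ENNReal.ofReal_ne_top),
      ← setLIntegral_congr Ioo_ae_eq_Icc, ← setLIntegral_congr Ioo_ae_eq_Icc]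
    refine setLIntegral_mono' measurableSet_Ioo fun t ht => ?_
    rw [← mul_pow]
    exact pow_le_pow_left' (upperSpeed_restr_le a b γ ht) 2
  by_cases hab : b - a = 0
  · refine ⟨0, by simp, fun γ => (h1 γ).trans (le_of_eq ?_)⟩
    simp [hab]
  · refine ⟨ENNReal.ofReal |b - a| ^ 2 * ENNReal.ofReal |(b - a)⁻¹|, by finiteness,
      fun γ => (h1 γ).trans ?_⟩
    rw [mul_assoc]
    gcongr
    exact TestPlan_cv ha hb hab (g := fun t => upperSpeed γ t ^ 2)
      ((measurable_upperSpeed.comp measurable_prodMk_left).pow_const 2)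

theorem TestPlan_tracks {P : Measure (UCurve X)} [IsFiniteMeasure P] {o : X} {R : ℝ}
    (h : ∀ᵐ γ ∂P, ∀ t : unitInterval, γ.toMap t ∈ Metric.closedBall o R) (a b : ℝ) :
    ∀ᵐ γ ∂(P.map (restr a b)), ∀ t : unitInterval, γ.toMap t ∈ Metric.closedBall o R :=
  TestPlan_ae_map (continuous_restr a b) (h.mono fun _ hγ _ => hγ _)

theorem IsGP.isTestPlan {P : Measure (UCurve X)} {C : ℝ≥0} {o : X} {R : ℝ} (hP : IsGP m P C o R) :
    IsTestPlan2 m P ∧ HasBoundedTracks P := by
  obtain ⟨h1, h2, h3, h4⟩ := hP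
  refine ⟨⟨h1, ⟨C, fun t => (timeMarginal_eq_marg P t).trans_le (h4 t)⟩,
    h2.mono fun γ hγ => geo_hasL2Speed hγ, ?_⟩, o, R, h3⟩
  refine lt_of_le_of_lt (lintegral_mono_ae (g := fun _ => ENNReal.ofReal (R + R) ^ 2) ?_) ?_
  · filter_upwards [h2, h3] with γ hγ hb
    have hl : len γ ≤ R + R := (dist_triangle_right _ _ o).trans (add_le_add (hb 0) (hb 1))
    refine (lintegral_mono (g := fun _ => ENNReal.ofReal (R + R) ^ 2) fun t =>
      pow_le_pow_left' ((geo_upperSpeed_le hγ t).trans (ENNReal.ofReal_le_ofReal hl)) 2).trans ?_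
    simp
  · rw [lintegral_const, measure_univ, mul_one]
    finiteness

theorem IsGP.map_restr {P : Measure (UCurve X)} {C : ℝ≥0} {o : X} {R : ℝ} (hP : IsGP m P C o R)
    {a b : ℝ} (ha : a ∈ Icc (0 : ℝ) 1) (hb : b ∈ Icc (0 : ℝ) 1) :
    IsGP m (P.map (restr a b)) C o R ∧
      ∫ γ, len γ ^ 2 ∂(P.map (restr a b)) = (b - a) ^ 2 * ∫ γ, len γ ^ 2 ∂P := by
  obtain ⟨h1, h2, h3, h4⟩ := hP
  have hm := (continuous_restr (X := X) a b).measurable
  refine ⟨⟨Measure.isProbabilityMeasure_map hm.aemeasurable,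
    TestPlan_ae_map (continuous_restr a b) (h2.mono fun γ hγ => (geo_restr hγ ha hb).1),
    TestPlan_tracks h3 a b, fun t => ?_⟩, ?_⟩
  · rw [marg_projIcc, marg_map_restr P a b (projIcc (0 : ℝ) 1 zero_le_one t).2]
    exact h4 _
  · rw [integral_map hm.aemeasurable (f := fun γ => len γ ^ 2)
      (continuous_len.pow 2).aestronglyMeasurable,
      ← integral_const_mul]
    refine integral_congr_ae (h2.mono fun γ hγ => ?_)
    simp only [(geo_restr hγ ha hb).2, mul_pow, sq_abs]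

theorem IsGP.bdd {P : Measure (UCurve X)} {C : ℝ≥0} {o : X} {R : ℝ} (hP : IsGP m P C o R)
    (t : ℝ) : Bdd m (marg P t) C o R := by
  obtain ⟨h1, -, h3, h4⟩ := hP
  exact TestPlan_bdd h3 t (h4 t)

theorem testPlan_map_restr {P : Measure (UCurve X)} (hP : IsTestPlan2 m P)
    (hB : HasBoundedTracks P) {a b : ℝ} (ha : a ∈ Icc (0 : ℝ) 1) (hb : b ∈ Icc (0 : ℝ) 1) :
    IsTestPlan2 m (P.map (restr a b)) ∧ HasBoundedTracks (P.map (restr a b)) := by
  obtain ⟨h1, ⟨C, h2⟩, h3, h4⟩ := hP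
  obtain ⟨o, R, hB⟩ := hB
  have hm := (continuous_restr (X := X) a b).measurable
  refine ⟨⟨Measure.isProbabilityMeasure_map hm.aemeasurable, ⟨C, fun t => ?_⟩,
    TestPlan_ae_map (continuous_restr a b) (h3.mono fun γ hγ => hasL2Speed_restr ha hb hγ), ?_⟩,
    o, R, TestPlan_tracks hB a b⟩
  · rw [timeMarginal_eq_marg, marg_map_restr P a b t.2, marg_projIcc, ← timeMarginal_eq_marg]
    exact h2 _
  · obtain ⟨c, hc, h⟩ := TestPlan_energy (X := X) ha hb
    refine ((lintegral_map_le _ (restr a b)).trans (lintegral_mono h)).trans_lt ?_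
    rw [lintegral_const_mul' _ _ hc]
    exact ENNReal.mul_lt_top hc.lt_top h4

theorem testPlan_cond {P : Measure (UCurve X)} (hP : IsTestPlan2 m P) (hB : HasBoundedTracks P)
    {A : Set (UCurve X)} (hA : MeasurableSet A) (hA0 : P A ≠ 0) :
    IsTestPlan2 m (ProbabilityTheory.cond P A) ∧
      HasBoundedTracks (ProbabilityTheory.cond P A) := by
  obtain ⟨h1, ⟨C, h2⟩, h3, h4⟩ := hP
  obtain ⟨o, R, hB⟩ := hB
  have hc : (P A)⁻¹ ≠ ⊤ := ENNReal.inv_ne_top.2 hA0
  have hle : ProbabilityTheory.cond P A ≤ (P A)⁻¹ • P := fun s => by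
    rw [ProbabilityTheory.cond, Measure.smul_apply, Measure.smul_apply, smul_eq_mul, smul_eq_mul]
    gcongr
    exact Measure.restrict_le_self
  have hac : ProbabilityTheory.cond P A ≪ P := ProbabilityTheory.cond_absolutelyContinuous
  refine ⟨⟨ProbabilityTheory.cond_isProbabilityMeasure hA0,
    ⟨(P A)⁻¹.toNNReal * C, fun t => ?_⟩, hac.ae_le h3, ?_⟩, o, R, hac.ae_le hB⟩
  · have h5 := h2 t
    rw [timeMarginal_eq_marg] at h5 ⊢
    refine (Measure.map_mono hle (TestPlan_meas t)).trans fun s => ?_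
    rw [Measure.map_smul, ENNReal.coe_mul, ENNReal.coe_toNNReal hc, mul_smul, Measure.smul_apply,
      Measure.smul_apply _ (_ • m), smul_eq_mul, smul_eq_mul]
    gcongr
    exact h5
  · refine (lintegral_mono' hle le_rfl).trans_lt ?_
    rw [lintegral_smul_measure, smul_eq_mul]
    exact ENNReal.mul_lt_top hc.lt_top h4

theorem testPlan_bdd {P : Measure (UCurve X)} (hP : IsTestPlan2 m P) (hB : HasBoundedTracks P) :
    ∃ (C : ℝ≥0) (o : X) (R : ℝ), (∀ t : ℝ, Bdd m (marg P t) C o R) ∧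
      ∀ᵐ γ ∂P, ∀ t : ℝ, γ.ext t ∈ Metric.closedBall o R := by
  obtain ⟨h1, ⟨C, h2⟩, -, -⟩ := hP
  obtain ⟨o, R, hB⟩ := hB
  refine ⟨C, o, R, fun t => TestPlan_bdd hB t ?_, hB.mono fun γ hγ t => hγ _⟩
  rw [marg_projIcc, ← timeMarginal_eq_marg]
  exact h2 _

theorem testPlan_ae_ext {P : Measure (UCurve X)} (hP : IsTestPlan2 m P) {p : X → Prop}
    (hp : ∀ᵐ x ∂m, p x) (t : ℝ) : ∀ᵐ γ ∂P, p (γ.ext t) := by
  obtain ⟨-, ⟨C, h2⟩, -, -⟩ := hP
  have h : marg P t ≤ (C : ℝ≥0∞) • m := by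
    rw [marg_projIcc, ← timeMarginal_eq_marg]
    exact h2 _
  exact ae_of_ae_map (TestPlan_meas t).aemeasurable
    ((Measure.absolutelyContinuous_of_le_smul h).ae_le hp)

theorem testPlan_ae_ae_ext {P : Measure (UCurve X)} (hP : IsTestPlan2 m P) {p : X → Prop}
    (hp : ∀ᵐ x ∂m, p x) :
    ∀ᵐ γ ∂P, ∀ᵐ t ∂(volume.restrict (Icc (0 : ℝ) 1)), p (γ.ext t) := by
  have := hP.1
  obtain ⟨N, hN, hNm, hN0⟩ := exists_measurable_superset_of_null (ae_iff.1 hp)
  have h : ∀ᵐ γ ∂P, ∀ᵐ t ∂(volume.restrict (Icc (0 : ℝ) 1)), γ.ext t ∉ N :=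
    (Measure.ae_ae_comm (p := fun (γ : UCurve X) (t : ℝ) => γ.ext t ∉ N)
      (continuous_ext.measurable hNm.compl)).2 (Eventually.of_forall fun t =>
        testPlan_ae_ext hP (p := fun x => x ∉ N) (measure_eq_zero_iff_ae_notMem.1 hN0) t)
  exact h.mono fun γ hγ => hγ.mono fun t ht => by
    by_contra hn
    exact ht (hN hn)

theorem testPlan_lintegral_lt_top {P : Measure (UCurve X)} (hP : IsTestPlan2 m P)
    (hB : HasBoundedTracks P) {D : X → ℝ} (hD : IsL2OnBalls m D) :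
    (∫⁻ γ, (∫⁻ t in Icc (0 : ℝ) 1, ENNReal.ofReal (D (γ.ext t)) * upperSpeed γ t) ∂P) < ⊤ ∧
    (∫⁻ γ, (∫⁻ t in Icc (0 : ℝ) 1, ENNReal.ofReal (D (γ.ext t) ^ 2)) ∂P) < ⊤ := by
  have := hP.1
  obtain ⟨C, o, R, h1, h2⟩ := testPlan_bdd hP hB
  have hsub : Metric.closedBall o R ⊆ Metric.ball o (R + 1) :=
    Metric.closedBall_subset_ball (lt_add_one R)
  have hL : MemLp D 2 (m.restrict (Metric.closedBall o R)) :=
    (hD o (R + 1)).mono_measure (Measure.restrict_mono hsub le_rfl)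
  obtain ⟨D', hD'm, hD'⟩ := hL.1.aemeasurable
  have hfin : ∫⁻ x in Metric.closedBall o R, ENNReal.ofReal (D' x ^ 2) ∂m < ⊤ :=
    ((hL.ae_eq hD').integrable_sq).lintegral_lt_top
  have hmg : Measurable fun x => ENNReal.ofReal (D' x ^ 2) := (hD'm.pow_const 2).ennreal_ofReal
  have key : (∫⁻ γ, (∫⁻ t in Icc (0 : ℝ) 1, ENNReal.ofReal (D (γ.ext t) ^ 2)) ∂P) < ⊤ := by
    have h3 := testPlan_ae_ae_ext hP
      ((ae_restrict_iff' Metric.isClosed_closedBall.measurableSet).1 hD')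
    have h4 : (∫⁻ γ, (∫⁻ t in Icc (0 : ℝ) 1, ENNReal.ofReal (D (γ.ext t) ^ 2)) ∂P) =
        ∫⁻ γ, (∫⁻ t in Icc (0 : ℝ) 1, ENNReal.ofReal (D' (γ.ext t) ^ 2)) ∂P := by
      refine lintegral_congr_ae ?_
      filter_upwards [h2, h3] with γ hγ hγ'
      refine lintegral_congr_ae (hγ'.mono fun t ht => ?_)
      simp only [ht (hγ t)]
    rw [h4, lintegral_lintegral_swap
      (f := fun (γ : UCurve X) (t : ℝ) => ENNReal.ofReal (D' (γ.ext t) ^ 2))
      (hmg.comp continuous_ext.measurable).aemeasurable]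
    refine (lintegral_mono (g := fun _ => (C : ℝ≥0∞) *
      ∫⁻ x in Metric.closedBall o R, ENNReal.ofReal (D' x ^ 2) ∂m) fun t => ?_).trans_lt ?_
    · refine (lintegral_map hmg (TestPlan_meas t)).symm.trans_le
        ((lintegral_mono' (TestPlan_le_restrict (h1 t)) le_rfl).trans_eq ?_)
      rw [lintegral_smul_measure, smul_eq_mul]
    · rw [setLIntegral_const]
      exact ENNReal.mul_lt_top (ENNReal.mul_lt_top ENNReal.coe_lt_top hfin) measure_Icc_lt_top
  refine ⟨?_, key⟩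
  have hs : Measurable fun p : UCurve X × ℝ => upperSpeed p.1 p.2 ^ 2 :=
    measurable_upperSpeed.pow_const 2
  refine lt_of_le_of_lt ?_ (ENNReal.add_lt_top.2 ⟨key, hP.2.2.2⟩)
  rw [← lintegral_add_right _ hs.lintegral_prod_right']
  refine lintegral_mono fun γ => ?_
  dsimp only
  have hs' : Measurable fun t => upperSpeed γ t ^ 2 :=
    (measurable_upperSpeed.comp measurable_prodMk_left).pow_const 2
  rw [← lintegral_add_right _ hs']
  refine lintegral_mono fun t => ?_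
  have h5 : ENNReal.ofReal (D (γ.ext t)) ^ 2 ≤ ENNReal.ofReal (D (γ.ext t) ^ 2) := by
    rcases le_total 0 (D (γ.ext t)) with h | h
    · rw [ENNReal.ofReal_pow h]
    · simp [ENNReal.ofReal_of_nonpos h]
  rcases le_total (ENNReal.ofReal (D (γ.ext t))) (upperSpeed γ t) with h | h
  · refine le_trans ?_ le_add_self
    rw [sq (upperSpeed γ t)]
    gcongr
  · refine le_trans (le_trans ?_ h5) le_self_add
    rw [sq]
    gcongr

theorem TestPlan_integrable {μ : Measure X} {C : ℝ≥0} {o : X} {R : ℝ} (hμ : Bdd m μ C o R)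
    {g : X → ℝ} (hg : IntegrableOn g (Metric.closedBall o R) m) : Integrable g μ :=
  (Integrable.smul_measure hg ENNReal.coe_ne_top).mono_measure (TestPlan_le_restrict hμ)

/-- Weak continuity of the marginals against functions integrable on the ball. -/
theorem continuous_integral_marg {P : Measure (UCurve X)} {C : ℝ≥0} {o : X} {R : ℝ}
    (hP : ∀ t : ℝ, Bdd m (marg P t) C o R) {g : X → ℝ}
    (hg : IntegrableOn g (Metric.closedBall o R) m) :
    Continuous (fun t : ℝ => ∫ x, g x ∂(marg P t)) := by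
  have hP1 : IsProbabilityMeasure P := ⟨by
    have := (hP 0).1.measure_univ
    rwa [marg, Measure.map_apply (TestPlan_meas 0) MeasurableSet.univ] at this⟩
  have hB := Metric.isClosed_closedBall (x := o) (ε := R) |>.measurableSet
  have hf : Integrable ((Metric.closedBall o R).indicator g) m :=
    (integrable_indicator_iff hB).2 hg
  refine continuous_of_uniform_approx_of_continuous fun u hu => ?_
  obtain ⟨ε, hε, hu⟩ := Metric.mem_uniformity_dist.1 hu
  obtain ⟨h, L, hL, hc, -, hη⟩ := exists_lip_approx_L1 hf (η := ε / (C + 1)) (by positivity)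
  have hh := hL.continuous
  obtain ⟨M, hM⟩ := hh.bounded_above_of_compact_support hc
  refine ⟨fun t => ∫ x, h x ∂(marg P t), ?_, fun t => hu ?_⟩
  · have : (fun t => ∫ x, h x ∂(marg P t)) = fun t => ∫ γ, h (γ.ext t) ∂P := funext fun t =>
      integral_map (TestPlan_meas t).aemeasurable hh.aestronglyMeasurable
    rw [this]
    exact continuous_of_dominated (bound := fun _ => M)
      (fun t => (hh.comp (continuous_ext_left t)).aestronglyMeasurable)
      (fun t => Eventually.of_forall fun γ => hM _) (integrable_const M)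
      (Eventually.of_forall fun γ => hh.comp (continuous_ext.comp (Continuous.prodMk_right γ)))
  · have hi : Integrable (fun x => (Metric.closedBall o R).indicator g x - h x) m :=
      hf.sub (hh.integrable_of_hasCompactSupport hc)
    have h1 : ∫ x, g x ∂(marg P t) = ∫ x, (Metric.closedBall o R).indicator g x ∂(marg P t) := by
      refine integral_congr_ae ?_
      filter_upwards [show ∀ᵐ x ∂(marg P t), x ∈ Metric.closedBall o R from (hP t).2.2] with x hx
      rw [indicator_of_mem hx]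
    rw [Real.dist_eq, h1, ← integral_sub (TestPlan_integrable (hP t) hf.integrableOn)
      (TestPlan_integrable (hP t) (hh.integrable_of_hasCompactSupport hc).integrableOn)]
    refine (abs_integral_le_integral_abs.trans (integral_mono_measure (hP t).2.1
      (Eventually.of_forall fun x => abs_nonneg _)
      (hi.abs.smul_measure ENNReal.coe_ne_top))).trans_lt ?_
    rw [integral_smul_measure, ENNReal.coe_toReal, smul_eq_mul]
    refine (mul_le_mul_of_nonneg_left hη C.coe_nonneg).trans_lt ?_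
    rw [← mul_div_assoc, div_lt_iff₀ (by positivity)]
    nlinarith

theorem Bdd.integrable {μ : Measure X} {C : ℝ≥0} {o : X} {R : ℝ} (hμ : Bdd m μ C o R) {g : X → ℝ}
    (hg : IntegrableOn g (Metric.closedBall o R) m) : Integrable g μ := by
  exact TestPlan_integrable hμ hg

end Crest.Agent.R242
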