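import Crest.Agent.R242.BochnerW

/-! Row 242: products and locality of test functions. -/

set_option autoImplicit false
set_option linter.unusedSectionVars false

open MeasureTheory Filter Set Topology
open scoped ENNReal NNReal
open Crest.GeometryTopology.SyntheticRicci

namespace Crest.Agent.R242

variable {X : Type*} [MetricSpace X] [ProperSpace X] [MeasurableSpace X] [BorelSpace X]
  {m : Measure X} [IsLocallyFiniteMeasure m] [m.IsOpenPosMeasure]

theorem lap_locality (hH : IsInfHilbertian m) {u w L L' : X → ℝ} (h : IsWeakLaplacian m u L)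
    (h' : IsWeakLaplacian m w L') {U : Set X} (hU : IsOpen U) (he : ∀ x ∈ U, u x = w x) :
    ∀ᵐ x ∂m, x ∈ U → L x = L' x := by
  have hd : MemLp (fun x => L x - L' x) 2 m := h.2.1.sub h'.2.1
  have h1 := ae_eq_zero_of_lip_tests (m := m) (f := fun x => L x - L' x)
    (hd.locallyIntegrable (by norm_num)) hU fun g K hK hc hs _ => by
      have hg := (lipS_of_lipschitz (m := m) hK hc).1
      have e : ∫ x, gradPairing m u g x ∂m = ∫ x, gradPairing m w g x ∂m := by
        refine integral_congr_ae ?_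
        filter_upwards [gamma_locality hH h.1.2.1 h'.1.2.1 hg.2.1,
          gamma_eq_zero_on_level hH hg.2.1 h.1.2.1 0,
          gamma_eq_zero_on_level hH hg.2.1 h'.1.2.1 0] with x h1 h2 h3
        by_cases hx : x ∈ U
        · exact h1 (he x hx)
        · have : g x = 0 := image_eq_zero_of_notMem_tsupport fun h4 => hx (hs h4)
          rw [(h2 this).2, (h3 this).2]
      rw [h.2.2 g hg, h'.2.2 g hg, neg_inj] at e
      have e2 : (fun x => g x * (L x - L' x)) = fun x => L x * g x - L' x * g x := by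
        funext x; ring
      have i1 : Integrable (fun x => L x * g x) m := h.2.1.integrable_mul hg.1
      have i2 : Integrable (fun x => L' x * g x) m := h'.2.1.integrable_mul hg.1
      rw [e2, integral_sub i1 i2, e, sub_self]
  filter_upwards [h1] with x hx hxU
  exact sub_eq_zero.1 (hx hxU)

theorem lap_mul (hH : IsInfHilbertian m) {f g Lf Lg : X → ℝ} (hf : IsWeakLaplacian m f Lf)
    (hg : IsWeakLaplacian m g Lg) {B L : ℝ} (hfB : ∀ᵐ x ∂m, |f x| ≤ B) (hgB : ∀ᵐ x ∂m, |g x| ≤ B)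
    (hfL : ∀ᵐ x ∂m, minWeakGrad m f x ≤ L) (hgL : ∀ᵐ x ∂m, minWeakGrad m g x ≤ L) :
    IsWeakLaplacian m (fun x => f x * g x)
      (fun x => f x * Lg x + g x * Lf x + 2 * gradPairing m f g x) := by
  have hfg : IsSobolev m fun x => f x * g x := sob_mul_of_bdd hf.1.2.1 hfB hfL hg.1
  have m1 : MemLp (fun x => f x * Lg x) 2 m := C2_bdd hf.1.1.1 hfB hg.2.1
  have m2 : MemLp (fun x => g x * Lf x) 2 m := C2_bdd hg.1.1.1 hgB hf.2.1
  have m3 : MemLp (gradPairing m f g) 2 m := gamma_memLp hH hf.1.2.1 hfL hg.1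
  have m4 : MemLp (gradPairing m g f) 2 m := gamma_memLp hH hg.1.2.1 hgL hf.1
  refine ⟨hfg, (m1.add m2).add (m3.const_mul 2), fun v hv => ?_⟩
  have e1 : ∫ x, gradPairing m (fun x => f x * g x) v x ∂m =
      ∫ x, (f x * gradPairing m g v x + g x * gradPairing m f v x) ∂m := by
    refine integral_congr_ae ?_
    filter_upwards [gamma_comm hfg.2.1 hv.2.1,
      (gamma_mul_right_of_bdd hH hf.1.2.1 hfB hfL hg.1.2.1 hv.2.1).2,
      gamma_comm hg.1.2.1 hv.2.1, gamma_comm hf.1.2.1 hv.2.1] with x h1 h2 h3 h4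
    rw [h1, h2, h3, h4]
  have i1 : Integrable (fun x => f x * gradPairing m g v x) m :=
    hf.1.1.integrable_mul (gamma_memLp hH hg.1.2.1 hgL hv)
  have i2 : Integrable (fun x => g x * gradPairing m f v x) m :=
    hg.1.1.integrable_mul (gamma_memLp hH hf.1.2.1 hfL hv)
  have i3 : Integrable (fun x => (f x * Lg x + gradPairing m f g x) * v x) m :=
    (m1.add m3).integrable_mul hv.1
  have i4 : Integrable (fun x => (g x * Lf x + gradPairing m g f x) * v x) m :=
    (m2.add m4).integrable_mul hv.1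
  rw [e1, integral_add i1 i2, lap_ibp hH hg hgL hf.1 hfB hv, lap_ibp hH hf hfL hg.1 hgB hv,
    ← neg_add, ← integral_add i3 i4, neg_inj]
  refine integral_congr_ae ?_
  filter_upwards [gamma_comm hf.1.2.1 hg.1.2.1] with x hx
  rw [← hx]; ring

theorem gamma_sob_of_lap {κ lam₀ : ℝ} (hG : Good m κ) (hE : GradEst m κ lam₀)
    {f g Lf Lg : X → ℝ} (hf : IsWeakLaplacian m f Lf) (hg : IsWeakLaplacian m g Lg) {L : ℝ}
    (hfL : ∀ᵐ x ∂m, minWeakGrad m f x ≤ L) (hgL : ∀ᵐ x ∂m, minWeakGrad m g x ≤ L) :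
    IsSobolev m (gradPairing m f g) := by
  have h1 := lap_add hG.hilb hf hg
  have h2 := lap_sub hG.hilb hf hg
  have b1 : ∀ᵐ x ∂m, minWeakGrad m (fun y => f y + g y) x ≤ L + L := by
    filter_upwards [(sl_add hf.1.2.1 hg.1.2.1).2, hfL, hgL] with x a b c
    linarith
  have b2 : ∀ᵐ x ∂m, minWeakGrad m (fun y => f y - g y) x ≤ L + L := by
    filter_upwards [(sl_sub hf.1.2.1 hg.1.2.1).2, hfL, hgL] with x a b c
    linarith
  refine sob_congr (sob_const_mul (sob_sub (bochner_weak hG hE h1 b1).1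
    (bochner_weak hG hE h2 b2).1) (1 / 4)) ?_
  filter_upwards [gamma_self h1.1.2.1, gamma_self h2.1.2.1] with x a b
  rw [a, b, gradPairing]; ring

theorem isTestFn_of_lap {g Lg : X → ℝ} {B : ℝ} {K : ℝ≥0} (hB : ∀ x, |g x| ≤ B)
    (hK : LipschitzWith K g) (hg : IsWeakLaplacian m g Lg) (hLg : IsSobolev m Lg) :
    IsTestFn m g :=
  ⟨⟨B, hB⟩, ⟨K, hK⟩, ⟨Lg, hg⟩, sob_congr hLg (lap_weakLaplacian hg).2.symm⟩

theorem testFn_mul {κ lam₀ : ℝ} (hG : Good m κ) (hE : GradEst m κ lam₀) {f g : X → ℝ}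
    (hf : IsTestFn m f) (hg : IsTestFn m g) : IsTestFn m (fun x => f x * g x) := by
  obtain ⟨⟨B₁, hB₁⟩, ⟨K₁, hK₁⟩, ⟨L₁, hL₁⟩, hs₁⟩ := hf
  obtain ⟨⟨B₂, hB₂⟩, ⟨K₂, hK₂⟩, ⟨L₂, hL₂⟩, hs₂⟩ := hg
  have l₁ := (lap_weakLaplacian hL₁).1
  have l₂ := (lap_weakLaplacian hL₂).1
  have hfB : ∀ x, |f x| ≤ max |B₁| |B₂| := fun x =>
    (hB₁ x).trans ((le_abs_self _).trans (le_max_left _ _))
  have hgB : ∀ x, |g x| ≤ max |B₁| |B₂| := fun x =>
    (hB₂ x).trans ((le_abs_self _).trans (le_max_right _ _))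
  have hB0 : 0 ≤ max |B₁| |B₂| := (abs_nonneg _).trans (le_max_left _ _)
  have hfL : ∀ᵐ x ∂m, minWeakGrad m f x ≤ max (K₁ : ℝ) K₂ :=
    (sl_of_lipschitz hK₁).2.mono fun x hx => hx.trans (le_max_left _ _)
  have hgL : ∀ᵐ x ∂m, minWeakGrad m g x ≤ max (K₁ : ℝ) K₂ :=
    (sl_of_lipschitz hK₂).2.mono fun x hx => hx.trans (le_max_right _ _)
  have hlip : LipschitzWith (⟨max |B₁| |B₂|, hB0⟩ * (K₁ + K₂)) fun x => f x * g x := by
    refine LipschitzWith.of_dist_le_mul fun x y => ?_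
    have a := hK₁.dist_le_mul x y
    have b := hK₂.dist_le_mul x y
    rw [Real.dist_eq] at a b ⊢
    have e : f x * g x - f y * g y = f x * (g x - g y) + g y * (f x - f y) := by ring
    rw [e]
    refine (abs_add_le _ _).trans ?_
    rw [abs_mul, abs_mul]
    have c := mul_le_mul (hfB x) b (abs_nonneg _) hB0
    have d := mul_le_mul (hgB y) a (abs_nonneg _) hB0
    show _ ≤ max |B₁| |B₂| * ((K₁ : ℝ) + K₂) * dist x y
    nlinarith
  refine isTestFn_of_lap (B := max |B₁| |B₂| * max |B₁| |B₂|) (fun x => ?_) hlip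
    (lap_mul hG.hilb l₁ l₂ (.of_forall hfB) (.of_forall hgB) hfL hgL) ?_
  · rw [abs_mul]
    exact mul_le_mul (hfB x) (hgB x) (abs_nonneg _) hB0
  · exact sob_add (sob_add (sob_mul_of_bdd l₁.1.2.1 (.of_forall hfB) hfL hs₂)
      (sob_mul_of_bdd l₂.1.2.1 (.of_forall hgB) hgL hs₁))
      (sob_const_mul (gamma_sob_of_lap hG hE l₁ l₂ hfL hgL) 2)

end Crest.Agent.R242
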